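import Vale.Agent.P116.K.Cb
import Vale.Agent.P116.K.Tf
import Vale.Agent.P116.K.Clu

/-! P116 K/Ax26 (helper26): a barrier function gives an auxiliary function. -/

open MeasureTheory Set Metric Filter Topology Complex
open scoped ENNReal

noncomputable section

namespace Vale.Agent.P116.K

open Vale.Agent.P128 Par

variable {P : Par}

theorem sum_Ax26 {E : Set ℂ} (hE : IsCompact E) (ν : Measure ℂ) [IsFiniteMeasure ν]
    {lam : Cp E → ℝ} (hl : Summable fun c => lam c ^ 2) :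
    Summable fun c : Cp E => (lam c + (ν c.1).toReal) ^ 2 := by
  have h1 : Summable fun c : Cp E => (ν c.1).toReal := by
    refine summable_of_sum_le (c := (ν univ).toReal) (fun c => ENNReal.toReal_nonneg) fun s => ?_
    rw [← ENNReal.toReal_sum fun c _ => measure_ne_top ν _, ← measure_biUnion_finset
      (fun c _ c' _ h => disjoint_left.2 fun z h1 h2 => h (Cp.ext_mem h1 h2))
      fun c _ => (c.cpt hE).isClosed.measurableSet]
    exact ENNReal.toReal_mono (measure_ne_top _ _) (measure_mono (subset_univ _))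
  refine Summable.of_nonneg_of_le (fun c => sq_nonneg _) (fun c => ?_)
    ((hl.mul_left 2).add (h1.mul_left (2 * (ν univ).toReal)))
  have h2 : (ν c.1).toReal ≤ (ν univ).toReal :=
    ENNReal.toReal_mono (measure_ne_top _ _) (measure_mono (subset_univ _))
  have h3 : 0 ≤ (ν c.1).toReal := ENNReal.toReal_nonneg
  nlinarith [sq_nonneg (lam c - (ν c.1).toReal), mul_le_mul_of_nonneg_right h2 h3]

theorem wt_Ax26 {E : Set ℂ} (hE : Dom E) {ρ : ℂ → ℝ} (h : Wt E ρ) {L : ℝ} (hL : 0 ≤ L) :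
    Wt E fun z => ρ z + L := by
  have hc : ContinuousOn (fun z => ρ z + L) Eᶜ := h.cont.add continuousOn_const
  have hm : MeasurableSet (Q \ E) := (isOpen_Q.sdiff hE.cpt.isClosed).measurableSet
  refine ⟨hc, fun z => add_nonneg (h.nn z) hL, ?_⟩
  have h1 : IntegrableOn (fun _ : ℂ => 2 * L ^ 2) (Q \ E) :=
    integrableOn_const (ne_top_of_le_ne_top (by rw [vol_Q]; exact ENNReal.one_ne_top)
      (measure_mono sdiff_subset))
  refine ((h.l2.const_mul 2).add h1).mono'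
    (((hc.mono fun z hz => hz.2).pow 2).aestronglyMeasurable hm) (Eventually.of_forall fun z => ?_)
  rw [Real.norm_of_nonneg (sq_nonneg _), Pi.add_apply]
  nlinarith [sq_nonneg (ρ z - L)]

theorem hi_Ax26 {f : ℂ → ℝ≥0∞} {u : ℂ → ℝ} {w : TF P.E} {p : ℂ} {β : ℝ} (hc : Cv P u w p)
    (hf : ∀ z, f z ≤ ENNReal.ofReal β) (hu : ∀ z, u z ≤ (f z).toReal) :
    ENNReal.ofReal (w.hi p) ≤ P.hiE f p := by
  refine le_iInf fun l => ?_
  have h1 : (⨆ (x : ℂ) (_ : x ∈ P.cl l p \ P.E), f x) ≠ ∞ :=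
    ne_top_of_le_ne_top ENNReal.ofReal_ne_top (iSup₂_le fun x _ => hf x)
  rw [← ENNReal.ofReal_toReal h1]
  exact ENNReal.ofReal_le_ofReal (hc.h1 _ l fun x hx => (hu x).trans
    (ENNReal.toReal_mono h1 (le_iSup₂_of_le (f := fun x (_ : x ∈ P.cl l p \ P.E) => f x) x hx
      le_rfl)))

theorem lo_Ax26 {f : ℂ → ℝ≥0∞} {u : ℂ → ℝ} {w : TF P.E} {p : ℂ} {β : ℝ} (hp : p ∈ P.E)
    (hc : Cv P u w p) (hf : ∀ z, f z ≤ ENNReal.ofReal β) {K : ℕ}
    (hu : ∀ z ∈ P.cl K p, u z = (f z).toReal) : P.loE f p ≤ ENNReal.ofReal (w.lo p) := by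
  refine iSup_le fun l => ?_
  have h0 : ∀ z, f z ≠ ∞ := fun z => ne_top_of_le_ne_top ENNReal.ofReal_ne_top (hf z)
  have h2 : ∀ y ∈ P.cl l p \ P.E, (⨅ (x : ℂ) (_ : x ∈ P.cl l p \ P.E), f x) ≤ f y := fun y hy =>
    iInf₂_le (f := fun x (_ : x ∈ P.cl l p \ P.E) => f x) y hy
  obtain ⟨y, hy⟩ := P.cl_ne l hp
  rw [← ENNReal.ofReal_toReal (ne_top_of_le_ne_top (h0 y) (h2 y hy))]
  refine ENNReal.ofReal_le_ofReal (hc.l1 _ (max l K) fun x hx => ?_)
  rw [hu x (P.cl_anti (le_max_right _ _) p hx.1)]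
  exact ENNReal.toReal_mono (h0 x) (h2 x ⟨P.cl_anti (le_max_left _ _) p hx.1, hx.2⟩)

theorem ball_Ax26 {K : ℕ} {p z : ℂ} (hz : z ∈ P.cl (K + 1) p) :
    ball z (P.δ / (K + 1) - P.δ / (K + 2)) ⊆ P.cl K p := by
  obtain ⟨q, hq, h1⟩ := mem_thickening_iff.1 (P.cl_sub _ _ hz)
  rw [← P.cl_eq (P.cl_anti (Nat.le_succ K) p hz)]
  rcases (ball z (P.δ / (K + 1) - P.δ / (K + 2))).eq_empty_or_nonempty with h | h
  · rw [h]
    exact empty_subset _
  refine (convex_ball _ _).isPreconnected.subset_connectedComponentIn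
    (mem_ball_self (nonempty_ball.1 h)) fun y hy => mem_thickening_iff.2 ⟨q, hq, ?_⟩
  have h2 := dist_triangle y z q
  have h3 : ((K + 1 : ℕ) : ℝ) + 1 = K + 2 := by push_cast; ring
  rw [h3] at h1
  rw [mem_ball] at hy
  linarith

/-- The cut-off barrier. -/
theorem cut_Ax26 (d : P.Dat) {f : ℂ → ℝ≥0∞} (hf : Bar d f) : ∃ (u : ℂ → ℝ) (K : ℕ) (L : ℝ),
    0 ≤ L ∧ (∀ z, 0 ≤ u z ∧ u z ≤ (f z).toReal) ∧ Maj P.E univ u (fun z => d.ρ z + L) ∧
      (∀ p ∈ P.E, p ∈ d.Z → ∀ z ∈ P.cl K p, z ∈ d.Z ∧ u z = 0) ∧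
        ∀ p ∈ P.E, p ∉ d.Z → ∀ z ∈ P.cl K p, u z = (f z).toReal := by
  obtain ⟨K, hK⟩ := d.tube.deep
  obtain ⟨N, hN⟩ : ∃ N : Set ℂ, N = ⋃ p ∈ P.E \ d.Z, P.cl K p := ⟨_, rfl⟩
  obtain ⟨γ, hγ⟩ : ∃ γ : ℝ, γ = P.δ / (K + 1) - P.δ / (K + 2) := ⟨_, rfl⟩
  have γ0 : 0 < γ := by
    rw [hγ, sub_pos]
    exact div_lt_div_of_pos_left P.δ0 (by positivity) (by linarith)
  have L0 : 0 ≤ d.β / γ := div_nonneg d.β0 γ0.le
  have hO : IsOpen ((interior P.R \ d.Z) \ P.E) :=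
    (isOpen_interior.sdiff d.tube.cpt.isClosed).sdiff P.dom.cpt.isClosed
  have hNO : N ⊆ interior P.R \ d.Z := by
    rw [hN]
    refine iUnion₂_subset fun p hp z hz => ⟨P.clos_nb_R K (subset_closure (P.cl_sub _ _ hz)), ?_⟩
    exact disjoint_left.1 ((hK K le_rfl p hp.1).2 hp.2) (subset_closure hz)
  have hne : Nᶜ.Nonempty := by
    refine ⟨0, fun h => ?_⟩
    have h1 : P.δ ≤ (0 : ℂ).re := (interior_subset (hNO h).1).1.1
    exact absurd h1 (not_le.2 P.δ0)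
  have u0 : ∀ z, 0 ≤ min (f z).toReal (d.β / γ * infDist z Nᶜ) := fun z =>
    le_min ENNReal.toReal_nonneg (mul_nonneg L0 infDist_nonneg)
  have u1 : ∀ z, z ∉ N → min (f z).toReal (d.β / γ * infDist z Nᶜ) = 0 := fun z hz => by
    rw [infDist_zero_of_mem (show z ∈ Nᶜ from hz), mul_zero]
    exact min_eq_right ENNReal.toReal_nonneg
  refine ⟨fun z => min (f z).toReal (d.β / γ * infDist z Nᶜ), K + 1, d.β / γ, L0,
    fun z => ⟨u0 z, min_le_left _ _⟩, maj_of_loc fun x hx K' hK' => ?_, fun p hp hZ z hz => ?_,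
    fun p hp hZ z hz => min_eq_left ?_⟩
  · refine mem_nhdsWithin_of_mem_nhds ?_
    have r0 := d.nn x
    by_cases hxN : x ∈ N
    · have h1 : ∀ᶠ y in 𝓝 x, d.ρ y < K' - d.β / γ :=
        (d.cont.continuousAt (P.dom.cpt.isClosed.isOpen_compl.mem_nhds hx.2)).eventually_lt
          continuousAt_const (by linarith)
      obtain ⟨r, hr, hb⟩ := Metric.mem_nhds_iff.1 (inter_mem h1 (hO.mem_nhds ⟨hNO hxN, hx.2⟩))
      filter_upwards [ball_mem_nhds x hr] with y hy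
      have h2 := hf.maj (ball x r) (convex_ball _ _)
        (fun z hz => ⟨⟨interior_subset (hb hz).2.1.1, (hb hz).2.1.2⟩, (hb hz).2.2⟩) _
        (fun z hz => (hb hz).1.le) y hy x (mem_ball_self hr)
      have h3 : |infDist y Nᶜ - infDist x Nᶜ| ≤ dist y x := by
        have h4 := (lipschitz_infDist_pt Nᶜ).dist_le_mul y x
        rwa [NNReal.coe_one, one_mul, Real.dist_eq] at h4
      refine (abs_min_sub_min_le_max _ _ _ _).trans (max_le (h2.trans ?_) ?_)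
      · exact mul_le_mul_of_nonneg_right (by linarith) dist_nonneg
      · rw [← mul_sub, abs_mul, abs_of_nonneg L0]
        exact mul_le_mul (by linarith) h3 (abs_nonneg _) (by linarith)
    · refine Eventually.of_forall fun y => ?_
      rw [u1 x hxN, sub_zero, abs_of_nonneg (u0 y)]
      exact (min_le_right _ _).trans (mul_le_mul (by linarith)
        (infDist_le_dist_of_mem (show x ∈ Nᶜ from hxN)) infDist_nonneg (by linarith))
  · have h1 := (hK (K + 1) (Nat.le_succ K) p hp).1 hZ (subset_closure hz)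
    exact ⟨h1, u1 z fun h => (hNO h).2 h1⟩
  · have h1 : γ ≤ infDist z Nᶜ := by
      refine (le_infDist hne).2 fun y hy => not_lt.1 fun h => hy ?_
      rw [hN]
      refine mem_biUnion (show p ∈ P.E \ d.Z from ⟨hp, hZ⟩) (ball_Ax26 hz ?_)
      rw [← hγ, mem_ball, dist_comm]
      exact h
    refine (ENNReal.toReal_le_of_le_ofReal d.β0 (hf.le z)).trans ?_
    have h2 := mul_le_mul_of_nonneg_left h1 L0
    rwa [div_mul_cancel₀ _ γ0.ne'] at h2

theorem bar_aux26 {A : List (TF P.E)} (hA : Fam A) (d : P.Dat) {f : ℂ → ℝ≥0∞} (hf : Bar d f)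
    (hb : ∀ i, Aux A (d.b i)) (hw : Wt P.E d.ρ) : ∃ (b : TF P.E) (N : ℕ), Aux A b ∧
      (∀ z ∈ (d.O ∩ P.nb N) \ P.E, b.hi z = (f z).toReal) ∧
        ∀ c : Cp P.E, b.osc c ≤ d.lam c + (d.ν c.1).toReal := by
  obtain ⟨u, K, L, L0, u0, hm, uZ, uf⟩ := cut_Ax26 d hf
  have := d.fin
  have hW := wt_Ax26 P.dom hw L0
  have uβ : ∀ z, u z ≤ d.β := fun z =>
    (u0 z).2.trans (ENNReal.toReal_le_of_le_ofReal d.β0 (hf.le z))
  have hl := hm.locLip P.dom.cpt.isClosed isOpen_univ (hW.cont.mono fun z hz => hz.2)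
  obtain ⟨w, w1, w2⟩ := exists_tf P (u := u) (M := d.β)
    (fun z _ => abs_le.2 ⟨by linarith [(u0 z).1, d.β0], uβ z⟩)
    (hl.continuousOn.mono fun z hz => ⟨trivial, hz.2⟩) (hl.mono fun z hz => ⟨trivial, hz.2⟩)
  have lo0 : ∀ p ∈ P.E, 0 ≤ w.lo p := fun p hp => (w2 p hp).l1 0 0 fun x _ => (u0 x).1
  have hiE : ∀ p ∈ P.E, ENNReal.ofReal (w.hi p) ≤ P.hiE f p := fun p hp =>
    hi_Ax26 (w2 p hp) hf.le fun z => (u0 z).2
  have loE : ∀ p ∈ P.E, p ∉ d.Z → P.loE f p ≤ ENNReal.ofReal (w.lo p) := fun p hp hZ =>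
    lo_Ax26 hp (w2 p hp) hf.le (uf p hp hZ)
  have hiZ : ∀ p ∈ P.E, p ∈ d.Z → w.hi p ≤ 0 := fun p hp hZ =>
    (w2 p hp).h1 0 K fun x hx => (uZ p hp hZ x hx.1).2.le
  have hosc : ∀ c : Cp P.E, w.osc c ≤ d.lam c + (d.ν c.1).toReal := fun c => by
    have h1 := lo0 _ c.pt_mem
    have h2 := d.l0 c
    have h3 : 0 ≤ (d.ν c.1).toReal := ENNReal.toReal_nonneg
    unfold TF.osc
    by_cases hZ : c.pt ∈ d.Z
    · linarith [hiZ _ c.pt_mem hZ]
    · have h4 := (hiE _ c.pt_mem).trans ((hf.osc c hZ).trans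
        (add_le_add (add_le_add (loE _ c.pt_mem hZ) le_rfl) le_rfl))
      rw [← ENNReal.ofReal_toReal (measure_ne_top d.ν c.1), ← ENNReal.ofReal_add h1 h2,
        ← ENNReal.ofReal_add (add_nonneg h1 h2) h3,
        ENNReal.ofReal_le_ofReal_iff (by linarith)] at h4
      linarith
  have hM : Maj P.E Q w.hi fun z => d.ρ z + L := fun B h1 h2 K' h3 x hx y hy => by
    rw [w1 x (h2 hx).2, w1 y (h2 hy).2]
    exact hm B h1 (fun z hz => ⟨trivial, (h2 hz).2⟩) K' h3 x hx y hy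
  refine ⟨w, K, ⟨(fn_of_maj P.dom hW hM hosc (sum_Ax26 P.dom.cpt d.ν d.l2)).1,
    ⟨d.β, fun z _ => ?_⟩, ⟨_, hW, hM⟩, fun a ha => ?_⟩, fun z hz => ?_, hosc⟩
  · by_cases hz : z ∈ P.E
    · exact ⟨by linarith [lo0 z hz, d.β0], (w2 z hz).h1 _ 0 fun x _ => uβ x⟩
    · rw [w.eq z hz, w1 z hz]
      exact ⟨by linarith [(u0 z).1, d.β0], uβ z⟩
  · have h1 := bar_cmp d hf (w := w) (hA.1 a ha) hw.l2 (fun i => (hb i).fn)
      (fun i => (hb i).cmp a ha) ENNReal.one_ne_top fun p hp q hq => by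
        rw [one_mul, ENNReal.ofReal_sub _ (lo0 q hq.1)]
        exact tsub_le_tsub (hiE p hp.1) (loE q hq.1 hq.2)
    have h3 : volume (im ⁻¹' {0}) = 0 := (Measure.quasiMeasurePreserving_snd.comp
      volume_preserving_equiv_real_prod.quasiMeasurePreserving).preimage_null (by simp)
    refine measure_mono_null ?_ (measure_union_null h3 h1)
    rintro _ ⟨z, hz, rfl⟩
    by_cases hZ : z ∈ d.Z
    · exact Or.inl (le_antisymm (hiZ z hz.1 hZ) ((lo0 z hz.1).trans (w.le z)))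
    · exact Or.inr ⟨z, ⟨⟨hz.1, hZ⟩, hz.2⟩, rfl⟩
  · obtain ⟨p, hp, h1⟩ := P.exists_cl hz.1.2
    rw [w1 z hz.2]
    exact uf p hp (fun hZ => hz.1.1.2 (uZ p hp hZ z h1).1) z h1

end Vale.Agent.P116.K
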