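import Vale.Agent.P116.K.Ax26
import Vale.Agent.P116.K.Bar
import Vale.Agent.P116.K.Chain
import Vale.Agent.P116.K.Ker

/-! P116 K/Ax26B (helper26): the bound for the charged values. -/

open MeasureTheory Set Metric Filter Topology Complex
open scoped ENNReal

noncomputable section

namespace Vale.Agent.P116.K

open Vale.Agent.P128 Par

variable {P : Par} {A : List (TF P.E)} {b : ℕ → TF P.E} {g : ℂ → ℝ} {lam : Cp P.E → ℝ}

theorem one_Ax26B (hA : Fam A) (hb : ∀ i, Aux A (b i)) (ht : P.Tv g lam) (ν : Measure ℂ)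
    [hν : IsFiniteMeasure ν] {Z : Set ℂ} (hZ : P.Tube Z) {β : ℝ} (β0 : 0 ≤ β)
    (hβ : ENNReal.ofReal β ≤ ⨅ k, ⨆ n, P.val b (P.ms g) lam ν Z n k) :
    ∃ (a : TF P.E) (N : ℕ), Aux A a ∧ ∀ n, N ≤ n → ∀ i : P.It, i.1 = Z → P.Crs n i →
      β ≤ (i.2.2.map (Stp.len (P.ms g))).sum +
        (i.2.2.map (Stp.tel fun c => lam c + (ν c.1).toReal)).sum +
          (i.2.2.map (Stp.hop a)).sum := by
  have hw := P.ms_wt ht.g2 ht.g0
  let d : P.Dat := ⟨b, P.ms g, lam, ν, Z, β, fun i => (hb i).bd, hw.cont, hw.nn, ht.l0, ht.l2, hν,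
    hZ, β0⟩
  obtain ⟨f, hf⟩ := exists_bar d hβ
  obtain ⟨a, N, h1, h2, h3⟩ := bar_aux26 hA d hf hb hw
  refine ⟨a, N, h1, ?_⟩
  rintro n hn i rfl ⟨hx, y, hy, hc⟩
  have h4 := chn_var hc hw.cont hf.maj h1.bd
    (fun z hz => h2 z ⟨⟨hz.1.1, P.nb_anti hn hz.1.2⟩, hz.2⟩) fun c _ => h3 c
  have h5 : f y = ENNReal.ofReal β := hf.top y hc.tgt.1.1 hy
  have h6 : f i.2.1 = 0 := hf.bot _ hc.1.1 hx
  rw [h5, h6, ENNReal.toReal_ofReal β0, ENNReal.toReal_zero, sub_zero, abs_of_nonneg β0] at h4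
  exact h4

theorem real_Ax26B (hA : Fam A) {θ : Set ℂ →₀ ℝ} (hθ : P.Sys θ) {c : ℝ} (h : P.Bs A θ c)
    (hb : ∀ i, Aux A (b i)) (ht : P.Tv g lam) (ν : Measure ℂ) [hν : IsFiniteMeasure ν]
    {β : Set ℂ → ℝ} (β0 : ∀ Z, 0 ≤ β Z) (hβ : ∀ Z ∈ θ.support,
      ENNReal.ofReal (β Z) ≤ ⨅ k, ⨆ n, P.val b (P.ms g) lam ν Z n k) :
    ∑ Z ∈ θ.support, θ Z * β Z ≤ c * P.nv g fun c' => lam c' + (ν c'.1).toReal := by
  classical
  choose a N h1 h2 using fun Z : θ.support =>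
    one_Ax26B hA hb ht ν (hθ.tube Z.1 Z.2) (β0 Z.1) (hβ Z.1 Z.2)
  obtain ⟨b', hb'⟩ : ∃ b' : ℕ → TF P.E, ∀ j, b' j =
    if hj : j < θ.support.card then a (θ.support.equivFin.symm ⟨j, hj⟩) else b 0 :=
    ⟨_, fun _ => rfl⟩
  have ha : ∀ j, Aux A (b' j) := fun j => by
    rw [hb']
    split_ifs
    · exact h1 _
    · exact hb 0
  have he : ∀ Z : θ.support, b' (θ.support.equivFin Z) = a Z := fun Z => by
    rw [hb', dif_pos (θ.support.equivFin Z).2, Fin.eta, Equiv.symm_apply_apply]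
  have ht' : P.Tv g fun c' => lam c' + (ν c'.1).toReal := ⟨ht.g2, ht.g0,
    fun c' => add_nonneg (ht.l0 c') ENNReal.toReal_nonneg, sum_Ax26 P.dom.cpt ν ht.l2⟩
  have hw := P.ms_wt ht.g2 ht.g0
  refine le_of_forall_pos_le_add fun η hη => ?_
  obtain ⟨π, p1, p2⟩ := h b' ha (θ.support.card + Finset.univ.sup N) g _ ht' η hη
  refine le_trans ?_ p2
  have e1 : ∑ Z ∈ θ.support, θ Z * β Z =
      P.ex π fun i => (fun Z => if Z ∈ θ.support then β Z else 0) i.1 := by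
    refine Eq.trans ?_ (p1.ex_fst fun Z => if Z ∈ θ.support then β Z else 0).symm
    exact Finset.sum_congr rfl fun Z hZ => by simp only [if_pos hZ]
  rw [e1]
  refine p1.ex_mono fun i hi => ?_
  have hc := p1.crs i hi
  beta_reduce
  split_ifs with hZ
  · refine (h2 ⟨i.1, hZ⟩ _ ((Finset.le_sup (Finset.mem_univ _)).trans (Nat.le_add_left _ _)) i rfl
      hc).trans (add_le_add le_rfl ?_)
    obtain ⟨-, y, -, hc⟩ := hc
    rw [← he]
    exact (P.hopn_mono le_rfl hc.2.2 fun j => (ha j).bd).2.2 _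
      (lt_of_lt_of_le (θ.support.equivFin ⟨i.1, hZ⟩).2 (Nat.le_add_right _ _))
  · obtain ⟨-, y, -, hc⟩ := hc
    exact cost_nn ⟨b', P.ms g, _, ν, ∅, 0, fun i => (ha i).bd, hw.cont, hw.nn, ht'.l0, ht'.l2, hν,
      Tube.empty, le_rfl⟩ hc.2.2

theorem bs_charge26 (hA : Fam A) {θ : Set ℂ →₀ ℝ} (hθ : P.Sys θ) {c : ℝ} (h : P.Bs A θ c)
    (hb : ∀ i, Aux A (b i)) (ht : P.Tv g lam) (ν : Measure ℂ) [hν : IsFiniteMeasure ν] :
    θ.sum (fun Z a => ENNReal.ofReal a * ⨅ k, ⨆ n, P.val b (P.ms g) lam ν Z n k) ≤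
      ENNReal.ofReal (c * P.nv g fun c' => lam c' + (ν c'.1).toReal) := by
  classical
  by_cases hV : ∀ Z ∈ θ.support, (⨅ k, ⨆ n, P.val b (P.ms g) lam ν Z n k) ≠ ∞
  · refine le_trans (le_of_eq ?_) (ENNReal.ofReal_le_ofReal (real_Ax26B hA hθ h hb ht ν
      (β := fun Z => (⨅ k, ⨆ n, P.val b (P.ms g) lam ν Z n k).toReal)
      (fun Z => ENNReal.toReal_nonneg) fun Z _ => ENNReal.ofReal_toReal_le))
    rw [ENNReal.ofReal_sum_of_nonneg fun Z _ => mul_nonneg (hθ.nn Z) ENNReal.toReal_nonneg]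
    refine Finset.sum_congr rfl fun Z hZ => ?_
    rw [ENNReal.ofReal_mul (hθ.nn Z), ENNReal.ofReal_toReal (hV Z hZ)]
  · exfalso
    push Not at hV
    obtain ⟨Z₀, h0, h1⟩ := hV
    have h2 : 0 < θ Z₀ := lt_of_le_of_ne (hθ.nn Z₀) (Finsupp.mem_support_iff.1 h0).symm
    obtain ⟨M, hM⟩ : ∃ M, M = c * P.nv g fun c' => lam c' + (ν c'.1).toReal := ⟨_, rfl⟩
    have h3 := real_Ax26B hA hθ h hb ht ν (β := fun Z => if Z = Z₀ then (|M| + 1) / θ Z₀ else 0)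
      (fun Z => by
        split_ifs
        · positivity
        · exact le_rfl) fun Z _ => by
      split_ifs with h4
      · rw [h4, h1]
        exact le_top
      · simp
    rw [← hM, Finset.sum_eq_single Z₀ (fun Z _ h4 => by rw [if_neg h4, mul_zero])
      (fun h4 => absurd h0 h4), if_pos rfl, mul_div_cancel₀ _ h2.ne'] at h3
    linarith [le_abs_self M]

end Vale.Agent.P116.K
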