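import Vale.Agent.P116.K.CbG
import Vale.Agent.P116.K.Clu

/-! P116 K/Cb (TASK, owner helper41). The barrier function is compatible with the members. Helper names end with `_Cb`.
Fix `ε`. Choose a finset `F` of components with `a.osc c ≤ ε` and `∑' c ∉ F, ofReal (a.osc c * lam c) ≤ ε` off `F` (`Summable.tendsto_cofinite_zero`, `ENNReal.tendsto_tsum_compl_atTop_zero`, `2 x y ≤ x² + y²`). `E' m = (E \ Z) \ ⋃ c ∈ F, cl m c.pt` is compact (`Tube.deep`: `E \ Z` is `E` minus an open set, or closed by `Tube.deep` and `mem_cl`), increasing in `m`,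
`E \ E' m` is compact too (`fr_cl_disj`, `Tube.cpt`), so `Clo E (E' m) r₀` and `cthickening r₀ (E' m) ⊆ interior R \ Z` for all small `r₀` (`Disjoint.exists_cthickenings`, `IsCompact.exists_cthickening_subset_open`, `clos_nb_R`). As `r₀ → 0` the integral over `thickening r₀ E \ E` tends to `0` (`ρa * ρ` is integrable on `Q \ E`).
So `volume (pr '' (X ∩ E' m)) ≤ κ * C ε` for all `m` (`pr z ∈ box z`), and `X ⊆ ⋃ m, E' m ∪ ⋃ c ∈ F, c.1` (`iInter_cl`); the image of `c.1` is a point (`TF.at_pt`). `Monotone.measure_iUnion`; let `ε → 0`. -/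

open MeasureTheory Set Metric Filter Topology Complex
open scoped ENNReal

noncomputable section

namespace Vale.Agent.P116.K

open Vale.Agent.P128

variable {P : Par} {E E' U O J : Set ℂ} {a w : TF E} {t r r₀ : ℝ} {n : ℕ} {x y z : ℂ}

theorem off_Cb {Z : Set ℂ} (h : P.Tube Z) : IsCompact (P.E \ Z) := by
  obtain ⟨K, hK⟩ := h.deep
  have e : P.E \ Z = P.E \ ⋃ p ∈ P.E ∩ Z, P.cl K p := by
    ext z
    refine and_congr_right fun hz => not_congr ⟨fun hZ => ?_, fun hV => ?_⟩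
    · exact mem_iUnion₂.2 ⟨z, ⟨hz, hZ⟩, P.mem_cl K hz⟩
    · obtain ⟨p, hp, hz'⟩ := mem_iUnion₂.1 hV
      exact (hK K le_rfl p hp.1).1 hp.2 (subset_closure hz')
  rw [e]
  exact P.dom.cpt.diff (isOpen_biUnion fun p _ => P.cl_open K p)

/-- The part of `E` outside the tube and the clusters of `F`. -/
def prt_Cb (P : Par) (Z : Set ℂ) (F : Finset (Cp P.E)) (m : ℕ) : Set ℂ :=
  (P.E \ Z) \ ⋃ c ∈ F, P.cl m c.pt

theorem rest_Cb {Z : Set ℂ} (h : P.Tube Z) (F : Finset (Cp P.E)) (m : ℕ) :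
    IsClosed (P.E \ prt_Cb P Z F m) := by
  have e : P.E \ prt_Cb P Z F m = P.E ∩ (Z ∪ ⋃ c ∈ F, closure (P.cl m c.pt)) := by
    ext z
    refine and_congr_right fun hz => ⟨fun h1 => ?_, fun h1 h2 => ?_⟩
    · by_cases hZ : z ∈ Z
      · exact Or.inl hZ
      · have h2 : z ∈ ⋃ c ∈ F, P.cl m c.pt := by
          by_contra h3
          exact h1 ⟨⟨hz, hZ⟩, h3⟩
        obtain ⟨c, hc, h3⟩ := mem_iUnion₂.1 h2
        exact Or.inr (mem_iUnion₂.2 ⟨c, hc, subset_closure h3⟩)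
    · rcases h1 with h1 | h1
      · exact h2.1.2 h1
      · obtain ⟨c, hc, h3⟩ := mem_iUnion₂.1 h1
        rw [closure_eq_self_union_frontier] at h3
        rcases h3 with h3 | h3
        · exact h2.2 (mem_iUnion₂.2 ⟨c, hc, h3⟩)
        · exact disjoint_left.1 (P.fr_cl_disj m c.pt) h3 hz
  rw [e]
  exact P.dom.cpt.isClosed.inter (h.cpt.isClosed.union
    (F.finite_toSet.isClosed_biUnion fun _ _ => isClosed_closure))

theorem clo_Cb {Z : Set ℂ} (h : P.Tube Z) (F : Finset (Cp P.E)) (m : ℕ) :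
    ∀ᶠ r in 𝓝[>] (0 : ℝ), Clo P.E (prt_Cb P Z F m) r ∧
      cthickening r (prt_Cb P Z F m) ⊆ interior P.R \ Z := by
  have hc : IsCompact (prt_Cb P Z F m) :=
    (off_Cb h).diff (isOpen_biUnion fun c _ => P.cl_open m c.pt)
  obtain ⟨δ, hδ, hs⟩ := hc.exists_cthickening_subset_open
    (((isOpen_interior (s := P.R)).sdiff h.cpt.isClosed).inter
      (isOpen_Q.inter (rest_Cb h F m).isOpen_compl))
    fun z hz => ⟨⟨P.clos_nb_R 0 (subset_closure (P.sub_nb 0 hz.1.1)), hz.1.2⟩,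
      P.dom.sub hz.1.1, fun h1 => h1.2 hz⟩
  filter_upwards [Ioc_mem_nhdsGT hδ] with r hr
  have h1 := (cthickening_mono hr.2 _).trans hs
  exact ⟨⟨hr.1, hc, fun z hz => hz.1.1, disjoint_left.2 fun z hz => (h1 hz).2.2,
    fun z hz => (h1 hz).2.1⟩, fun z hz => (h1 hz).1⟩

theorem mul_Cb (x y : ℝ) : x * y ≤ x ^ 2 + y ^ 2 := by
  nlinarith [sq_nonneg (x - y), sq_nonneg x, sq_nonneg y]

theorem int_Cb (hE : Dom E) {ρ ρ' : ℂ → ℝ} (h : IntegrableOn (fun z => ρ z ^ 2) (Q \ E))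
    (h' : IntegrableOn (fun z => ρ' z ^ 2) (Q \ E)) {ε : ℝ≥0∞} (hε : 0 < ε) :
    ∀ᶠ r in 𝓝[>] (0 : ℝ),
      ∫⁻ z in thickening r E ∩ (Q \ E), ENNReal.ofReal (ρ z * ρ' z) ≤ ε := by
  have h1 : ∫⁻ z in Q \ E, ENNReal.ofReal (ρ z * ρ' z) < ∞ :=
    (lintegral_mono fun z => ENNReal.ofReal_le_ofReal (mul_Cb _ _)).trans_lt
      (Integrable.add h h').lintegral_lt_top
  have h2 : ∀ S, MeasurableSet S → ((volume.restrict (Q \ E)).withDensity
      fun z => ENNReal.ofReal (ρ z * ρ' z)) S =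
        ∫⁻ z in S ∩ (Q \ E), ENNReal.ofReal (ρ z * ρ' z) := fun S hS => by
    rw [withDensity_apply _ hS, Measure.restrict_restrict hS]
  have h3 := tendsto_measure_thickening_of_isClosed (μ := (volume.restrict (Q \ E)).withDensity
    fun z => ENNReal.ofReal (ρ z * ρ' z)) (s := E) ⟨1, one_pos, by
      rw [h2 _ isOpen_thickening.measurableSet]
      exact ((lintegral_mono_set inter_subset_right).trans_lt h1).ne⟩ hE.cpt.isClosed
  rw [h2 _ hE.cpt.measurableSet, inter_diff_self, Measure.restrict_empty,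
    lintegral_zero_measure] at h3
  filter_upwards [h3.eventually (gt_mem_nhds hε)] with r hr
  rw [h2 _ isOpen_thickening.measurableSet] at hr
  exact hr.le

theorem fin_Cb (ha : a.Fn) {l : Cp E → ℝ} (h0 : ∀ c, 0 ≤ l c) (h2 : Summable fun c => l c ^ 2)
    {e : ℝ} (he : 0 < e) : ∃ F : Finset (Cp E), (∀ c, c ∉ F → a.osc c ≤ e) ∧
      ∑' c : {c : Cp E // c ∉ F}, ENNReal.ofReal (a.osc c.1 * l c.1) ≤ ENNReal.ofReal e := by
  have h1 : Summable fun c => a.osc c * l c :=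
    Summable.of_nonneg_of_le (fun c => mul_nonneg (a.osc_nonneg c) (h0 c))
      (fun c => mul_Cb _ _) (ha.2.add h2)
  have h3 := (ENNReal.tendsto_tsum_compl_atTop_zero h1.tsum_ofReal_lt_top.ne).eventually
    (gt_mem_nhds (ENNReal.ofReal_pos.2 he))
  have h4 : {c | ¬ a.osc c ^ 2 < e ^ 2}.Finite :=
    ha.2.tendsto_cofinite_zero.eventually (gt_mem_nhds (pow_pos he 2))
  obtain ⟨F, h5, h6⟩ := (h3.and (eventually_ge_atTop h4.toFinset)).exists
  refine ⟨F, fun c hc => ?_, h5.le⟩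
  by_contra h7
  refine hc (h6 (h4.mem_toFinset.2 fun h8 => h7 ?_))
  exact (abs_le_of_sq_le_sq' h8.le he.le).2

theorem cov_Cb (a w : TF P.E) (Z : Set ℂ) (F : Finset (Cp P.E)) {X : Set ℂ} (hX : X ⊆ P.E \ Z) :
    TF.pr a w '' X ⊆ (⋃ m, a.img w (prt_Cb P Z F m)) ∪ (fun c : Cp P.E => TF.pr a w c.pt) '' F := by
  rintro _ ⟨z, hz, rfl⟩
  by_cases h : ∃ c ∈ F, z ∈ c.1
  · obtain ⟨c, hc, h1⟩ := h
    refine Or.inr ⟨c, hc, ?_⟩
    simp only [TF.pr, (a.at_pt h1).2, (w.at_pt h1).2]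
  · have h1 : ∀ c ∈ F, ∀ᶠ m in atTop, z ∉ P.cl m c.pt := by
      intro c hc
      have h2 : z ∉ ⋂ n, P.cl n c.pt := by
        rw [P.iInter_cl c.pt_mem, ← c.eq]
        exact fun h3 => h ⟨c, hc, h3⟩
      obtain ⟨k, hk⟩ := not_forall.1 (mt mem_iInter.2 h2)
      filter_upwards [eventually_ge_atTop k] with m hm h3
      exact hk (P.cl_anti hm _ h3)
    obtain ⟨m, hm⟩ := ((eventually_all_finset F).2 h1).exists
    refine Or.inl (mem_iUnion.2 ⟨m, mem_iUnion₂.2 ⟨z, ⟨hX hz, fun h2 => ?_⟩,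
      ⟨a.le z, le_rfl⟩, w.le z, le_rfl⟩⟩)
    obtain ⟨c, hc, h3⟩ := mem_iUnion₂.1 h2
    exact hm c hc h3

theorem bar_cmp (d : P.Dat) {f : ℂ → ℝ≥0∞} (hf : Par.Bar d f) {a w : TF P.E} (ha : Mem a)
    (hρ : IntegrableOn (fun z => d.ρ z ^ 2) (Q \ P.E)) (hb : ∀ i, (d.b i).Fn)
    (h : ∀ i, a.Cmp (d.b i)) {κ : ℝ≥0∞} (hκ : κ ≠ ⊤) (hw : ∀ p ∈ P.E \ d.Z, ∀ q ∈ P.E \ d.Z,
      ENNReal.ofReal (w.hi p - w.lo q) ≤ κ * (P.hiE f p - P.loE f q)) :
    volume (TF.pr a w '' (P.E \ d.Z ∩ {z | a.lo z = a.hi z ∧ w.lo z = w.hi z})) = 0 := by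
  obtain ⟨ρa, hG, hM⟩ := ha.maj
  have := d.fin
  have key : ∀ e : ℝ, 0 < e →
      volume (TF.pr a w '' (P.E \ d.Z ∩ {z | a.lo z = a.hi z ∧ w.lo z = w.hi z})) ≤
        κ * (16 + 3 + 3 * d.ν univ) * ENNReal.ofReal e := by
    intro e he
    obtain ⟨F, hF1, hF2⟩ := fin_Cb ha.fn d.l0 d.l2 he
    have h1 : ∀ m, volume (a.img w (prt_Cb P d.Z F m)) ≤
        κ * (16 + 3 + 3 * d.ν univ) * ENNReal.ofReal e := by
      intro m
      obtain ⟨r, ⟨hC, hW⟩, hI⟩ := ((clo_Cb d.tube F m).and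
        (int_Cb P.dom hG.l2 hρ (ENNReal.ofReal_pos.2 he))).exists
      have h2 := bar_area d hf ha.fn ha.mono hG.cont hG.nn hM hb h hC
        (isOpen_interior.sdiff d.tube.cpt.isClosed) hW (diff_subset_diff_left interior_subset)
        hκ hw (θ := e) fun z hz => by
          have h3 := a.at_pt (Cp.mem_mk z hz.1.1)
          rw [h3.1, h3.2]
          refine hF1 _ fun h4 => hz.2 (mem_iUnion₂.2 ⟨_, h4, ?_⟩)
          rw [P.cl_pt m hz.1.1]
          exact P.mem_cl m hz.1.1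
      have h3 : ∫⁻ z in thickening r (prt_Cb P d.Z F m) \ P.E, ENNReal.ofReal (ρa z * d.ρ z) ≤
          ENNReal.ofReal e := by
        refine (lintegral_mono_set fun z hz => ?_).trans hI
        exact ⟨thickening_subset_of_subset r hC.sub hz.1,
          hC.inQ (thickening_subset_cthickening _ _ hz.1), hz.2⟩
      have h4 : ∑' c : {c : Cp P.E // c.pt ∈ prt_Cb P d.Z F m},
          ENNReal.ofReal (a.osc c.1 * d.lam c.1) ≤ ENNReal.ofReal e := by
        refine le_trans (ENNReal.tsum_mono_subtype (fun c => ENNReal.ofReal (a.osc c * d.lam c))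
          (s := {c | c.pt ∈ prt_Cb P d.Z F m}) (t := {c | c ∉ F}) fun c hc h5 => ?_) hF2
        exact hc.2 (mem_iUnion₂.2 ⟨c, h5, P.mem_cl m c.pt_mem⟩)
      refine h2.trans (le_of_le_of_eq (b := κ * (16 * ENNReal.ofReal e + 3 * ENNReal.ofReal e +
        3 * (ENNReal.ofReal e * d.ν univ))) (by gcongr) (by ring))
    have h2 : Monotone fun m => a.img w (prt_Cb P d.Z F m) := fun m m' hm =>
      biUnion_subset_biUnion_left (diff_subset_diff_right
        (iUnion₂_mono fun c _ => P.cl_anti hm c.pt))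
    refine (measure_mono (cov_Cb a w d.Z F inter_subset_left)).trans
      ((measure_union_le _ _).trans ?_)
    rw [(F.finite_toSet.image _).measure_zero, add_zero, h2.measure_iUnion]
    exact iSup_le h1
  have hC : κ * (16 + 3 + 3 * d.ν univ) ≠ ⊤ :=
    ENNReal.mul_ne_top hκ (ENNReal.add_ne_top.2 ⟨by simp,
      ENNReal.mul_ne_top (by simp) (measure_ne_top _ _)⟩)
  have h0 : Tendsto (fun e : ℝ => ENNReal.ofReal e) (𝓝[>] 0) (𝓝 0) := by
    have h1 := ENNReal.tendsto_ofReal (tendsto_nhdsWithin_of_tendsto_nhds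
      (s := Ioi (0 : ℝ)) (tendsto_id (x := 𝓝 (0 : ℝ))))
    rwa [ENNReal.ofReal_zero] at h1
  have h1 := ENNReal.Tendsto.const_mul h0 (Or.inr hC)
  rw [mul_zero] at h1
  exact le_antisymm (ge_of_tendsto h1 (eventually_nhdsWithin_of_forall key)) bot_le

end Vale.Agent.P116.K
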