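import Vale.Agent.P116.K.CluC

/-! P116 K/Clu: clusters. -/

open MeasureTheory Set Metric Filter Topology Complex
open scoped ENNReal

noncomputable section

namespace Vale.Agent.P116.K

open Vale.Agent.P128

namespace Par
variable (P : Par)

variable {P}
theorem meet_CluD {m : ℕ} {p q z : ℂ} (h1 : z ∈ P.cl m p) (h2 : z ∈ closure (P.cl m q)) :
    P.cl m p = P.cl m q := by
  obtain ⟨w, hw1, hw2⟩ := mem_closure_iff.1 h2 _ (P.cl_open m p) h1
  rw [← P.cl_eq hw1, P.cl_eq hw2]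

theorem Tube.cpt {Z : Set ℂ} (h : P.Tube Z) : IsCompact Z := by
  obtain ⟨S, -, rfl⟩ := h
  exact S.isCompact_biUnion fun q _ =>
    (P.clos_nb_cpt q.1).of_isClosed_subset isClosed_closure (closure_mono (P.cl_sub _ _))
theorem Tube.sub {Z : Set ℂ} (h : P.Tube Z) : Z ⊆ closure (P.nb 0) := by
  obtain ⟨S, -, rfl⟩ := h
  exact iUnion₂_subset fun q _ =>
    closure_mono ((P.cl_sub q.1 q.2).trans (P.nb_anti (Nat.zero_le _)))
/-- Deep clusters are inside or outside a tube. -/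
theorem Tube.deep {Z : Set ℂ} (h : P.Tube Z) : ∃ K, ∀ n, K ≤ n → ∀ p ∈ P.E,
    (p ∈ Z → closure (P.cl n p) ⊆ Z) ∧ (p ∉ Z → Disjoint (closure (P.cl n p)) Z) := by
  obtain ⟨S, -, rfl⟩ := h
  refine ⟨S.sup Prod.fst + 1, fun n hn p hp => ⟨fun h1 => ?_, fun h1 => ?_⟩⟩
  · obtain ⟨q, hq, h2⟩ := mem_iUnion₂.1 h1
    have h3 : q.1 < n := lt_of_le_of_lt (Finset.le_sup (f := Prod.fst) hq) hn
    have h4 := meet_CluD (P.mem_cl q.1 hp) h2
    intro z hz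
    exact mem_iUnion₂.2 ⟨q, hq, subset_closure (h4 ▸ P.clos_cl h3 hp hz)⟩
  · refine disjoint_left.2 fun z hz hz' => h1 ?_
    obtain ⟨q, hq, h2⟩ := mem_iUnion₂.1 hz'
    have h3 : q.1 < n := lt_of_le_of_lt (Finset.le_sup (f := Prod.fst) hq) hn
    have h4 := meet_CluD (P.clos_cl h3 hp hz) h2
    exact mem_iUnion₂.2 ⟨q, hq, subset_closure (h4 ▸ P.mem_cl q.1 hp)⟩
theorem Tube.empty : P.Tube ∅ := by
  exact ⟨∅, fun q hq => absurd hq (Finset.notMem_empty q), by simp⟩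
theorem Tube.union {Z Z' : Set ℂ} (h : P.Tube Z) (h' : P.Tube Z') : P.Tube (Z ∪ Z') := by
  classical
  obtain ⟨S, hS, rfl⟩ := h
  obtain ⟨S', hS', rfl⟩ := h'
  refine ⟨S ∪ S', fun q hq => ?_, (Finset.set_biUnion_union _ _ _).symm⟩
  rcases Finset.mem_union.1 hq with h1 | h1
  · exact hS q h1
  · exact hS' q h1
theorem tch_anti (ν : Measure ℂ) {k k' : ℕ} (h : k ≤ k') {T T' : Set ℂ} (hT : T' ⊆ T) :
    P.tch ν k' T' ≤ P.tch ν k T := by
  refine measure_mono ?_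
  rintro p ⟨hp, z, hz1, hz2⟩
  exact ⟨hp, z, P.cl_anti h p hz1, hT hz2⟩
theorem tch_union (ν : Measure ℂ) (k : ℕ) (T T' : Set ℂ) :
    P.tch ν k (T ∪ T') ≤ P.tch ν k T + P.tch ν k T' := by
  refine le_trans (measure_mono ?_) (measure_union_le _ _)
  rintro p ⟨hp, z, hz1, hz2 | hz2⟩
  · exact Or.inl ⟨hp, z, hz1, hz2⟩
  · exact Or.inr ⟨hp, z, hz1, hz2⟩
theorem tch_cl (ν : Measure ℂ) {k k' : ℕ} (h : k ≤ k') {p : ℂ} :
    P.tch ν k' (P.cl k p) = ν (P.E ∩ P.cl k p) := by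
  refine congrArg ν (Subset.antisymm ?_ ?_)
  · rintro q ⟨hq, z, hz1, hz2⟩
    have h4 := meet_CluD (P.cl_anti h q hz1) (subset_closure hz2)
    exact ⟨hq, h4 ▸ P.mem_cl k hq⟩
  · rintro q ⟨hq, hq'⟩
    exact ⟨hq, q, P.mem_cl k' hq, hq'⟩
theorem tch_tendsto (ν : Measure ℂ) [IsFiniteMeasure ν] {p : ℂ} (hp : p ∈ P.E) :
    Tendsto (fun k => ν (P.E ∩ P.cl k p)) atTop (𝓝 (ν (connectedComponentIn P.E p))) := by
  have h1 := tendsto_measure_iInter_atTop (μ := ν) (s := fun k : ℕ => P.E ∩ P.cl k p)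
    (fun k => (P.dom.cpt.measurableSet.inter (P.cl_open k p).measurableSet).nullMeasurableSet)
    (fun k k' h => inter_subset_inter_right _ (P.cl_anti h p)) ⟨0, measure_ne_top _ _⟩
  rw [← inter_iInter, P.iInter_cl hp,
    inter_eq_right.2 (connectedComponentIn_subset _ _)] at h1
  exact h1

end Par

end Vale.Agent.P116.K
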