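import Vale.Agent.P116.S.Lip
import Vale.Agent.P116.S.Rect

/-! P116 K/Fit (TASK, owner helper20). Helper names end with `_Fit`.
`κ` from `exists_inner` (take `κ / 2`, `N` the open inner square), `δ₀ = λ κ` with `λ` small. `τ₁ x = x - λ max 0 (κ - x) + λ max 0 (x - (1 - κ))`, `τ₂ y = y + λ max 0 (κ - y) - λ max 0 (y - (1 - κ))`, `τ z = ⟨τ₁ z.re, τ₂ z.im⟩`;
`(1 - λ) |x - x'| ≤ |τ_i x - τ_i x'| ≤ (1 + λ) |x - x'|`, so `τ` is Lipschitz with `1 + λ` and antilipschitz with `(1 - λ)⁻¹`; points outside the inner square stay outside. `volume (τ ⁻¹' A) ≤ (1 - λ)⁻² volume A` (`AntilipschitzWith.le_hausdorffMeasure_image`,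
`μH[2]` is a multiple of `volume`), so `Measure.map τ volume ≤ c • volume`, `lintegral_map`, null sets pull back to null sets. Chain rule almost everywhere (`ae_diff`, `norm_fderiv_le_of_lipschitz`), `‖gr u z‖ = ‖fderiv ℝ u z‖` (`fderiv_eq_inner`). -/

open MeasureTheory Set Metric Filter Topology Complex
open scoped ENNReal ComplexConjugate

set_option linter.unusedVariables false

noncomputable section

namespace Vale.Agent.P116

open Vale.Agent.P128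

variable {E : Set ℂ}

/-- The wide strip. -/
def Qs : Set ℂ := Ioo (-1) 2 ×ℂ Ioo 0 1

theorem map_Fit {τ : ℂ → ℂ} {B : NNReal} (hc : Continuous τ) (hB : AntilipschitzWith B τ) :
    Measure.map τ volume ≤ ((B ^ 2 : NNReal) : ℝ≥0∞) • (volume : Measure ℂ) := by
  refine Measure.le_iff.2 fun S hS => ?_
  have h1 := Measure.isAddLeftInvariant_eq_smul (volume : Measure ℂ)
    (Measure.hausdorffMeasure (Module.finrank ℝ ℂ))
  have h2 := hB.hausdorffMeasure_preimage_le (d := Module.finrank ℝ ℂ) (Nat.cast_nonneg _) S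
  rw [ENNReal.rpow_natCast] at h2
  conv_rhs at h2 => enter [1]; rw [Complex.finrank_real_complex]
  rw [Measure.map_apply hc.measurable hS, Measure.smul_apply, smul_eq_mul, h1]
  simp only [Measure.coe_nnreal_smul_apply]
  rw [mul_left_comm, ENNReal.coe_pow]
  exact mul_le_mul_right h2 _

theorem gr_Fit {τ : ℂ → ℂ} {A : NNReal} (hA : LipschitzWith A τ) {v : ℂ → ℝ} {z : ℂ}
    (h1 : DifferentiableAt ℝ τ z) (h2 : DifferentiableAt ℝ v (τ z)) :
    ‖gr (v ∘ τ) z‖ ^ 2 ≤ A ^ 2 * ‖gr v (τ z)‖ ^ 2 := by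
  have h3 := EARN.fderiv_eq_inner (v ∘ τ) z (gr (v ∘ τ) z)
  rw [real_inner_self_eq_norm_sq, fderiv_comp z h2 h1, ContinuousLinearMap.comp_apply,
    EARN.fderiv_eq_inner] at h3
  have h4 := real_inner_le_norm (gr v (τ z)) (fderiv ℝ τ z (gr (v ∘ τ) z))
  have h5 := mul_le_mul_of_nonneg_left (((fderiv ℝ τ z).le_opNorm (gr (v ∘ τ) z)).trans
    (mul_le_mul_of_nonneg_right (norm_fderiv_le_of_lipschitz ℝ hA) (norm_nonneg _)))
    (norm_nonneg (gr v (τ z)))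
  nlinarith [sq_nonneg (‖gr (v ∘ τ) z‖ - A * ‖gr v (τ z)‖)]

theorem comp_Fit {τ : ℂ → ℂ} {A B : NNReal} (hA : LipschitzWith A τ) (hB : AntilipschitzWith B τ)
    {U V : Set ℂ} (hU : IsOpen U) (hV : IsOpen V) (hm : MapsTo τ U V) {v : ℂ → ℝ}
    (hv : LocallyLipschitzOn V v) (hi : IntegrableOn (fun z => ‖gr v z‖ ^ 2) V) :
    LocallyLipschitzOn U (v ∘ τ) ∧ IntegrableOn (fun z => ‖gr (v ∘ τ) z‖ ^ 2) U ∧
      ∫ z in U, ‖gr (v ∘ τ) z‖ ^ 2 ≤ A ^ 2 * B ^ 2 * ∫ z in V, ‖gr v z‖ ^ 2 := by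
  have hc := hA.continuous
  have h1 := map_Fit hc hB
  have h2 : (Measure.map τ volume).restrict V ≤ ((B ^ 2 : NNReal) : ℝ≥0∞) • volume.restrict V := by
    rw [← Measure.restrict_smul]
    exact Measure.restrict_mono subset_rfl h1
  have mf : Measurable fun z => ‖gr v z‖ ^ 2 := (EARN.measurable_gr v).1.norm.pow_const 2
  have i0 := hi.smul_measure (c := ((B ^ 2 : NNReal) : ℝ≥0∞)) ENNReal.coe_ne_top
  have i1 := i0.mono_measure h2
  have e1 := integral_mono_measure h2 (ae_of_all _ fun z => sq_nonneg ‖gr v z‖) i0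
  rw [setIntegral_map hV.measurableSet mf.aestronglyMeasurable hc.aemeasurable,
    integral_smul_measure, ENNReal.coe_toReal, smul_eq_mul, NNReal.coe_pow] at e1
  rw [Measure.restrict_map hc.measurable hV.measurableSet,
    integrable_map_measure mf.aestronglyMeasurable hc.aemeasurable] at i1
  have i2 : IntegrableOn (fun z => ‖gr v (τ z)‖ ^ 2) U := IntegrableOn.mono_set i1 hm
  have h3 : ∀ᵐ z, τ z ∈ V → DifferentiableAt ℝ v (τ z) :=
    ae_of_ae_map hc.aemeasurable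
      ((Measure.absolutelyContinuous_of_le_smul h1).ae_le (ae_diff hV hv))
  have h4 : ∀ᵐ z ∂volume.restrict U, ‖gr (v ∘ τ) z‖ ^ 2 ≤ A ^ 2 * ‖gr v (τ z)‖ ^ 2 := by
    filter_upwards [ae_restrict_mem hU.measurableSet, ae_restrict_of_ae h3,
      ae_restrict_of_ae hA.ae_differentiableAt] with z z1 z2 z3
    exact gr_Fit hA z3 (z2 (hm z1))
  have i3 : IntegrableOn (fun z => ‖gr (v ∘ τ) z‖ ^ 2) U :=
    (i2.const_mul _).mono' ((EARN.measurable_gr _).1.norm.pow_const 2).aestronglyMeasurable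
      (h4.mono fun z hz => by rwa [Real.norm_of_nonneg (sq_nonneg _)])
  refine ⟨fun z hz => ?_, i3, (integral_mono_ae i3 (i2.const_mul _) h4).trans ?_⟩
  · obtain ⟨K, t, ht, hK⟩ := hv (hm hz)
    exact ⟨_, τ ⁻¹' t, hc.continuousWithinAt.tendsto_nhdsWithin hm ht,
      hK.comp hA.lipschitzOnWith (mapsTo_preimage _ _)⟩
  · rw [integral_const_mul, mul_assoc]
    refine mul_le_mul_of_nonneg_left (le_trans ?_ e1) (sq_nonneg _)
    exact setIntegral_mono_set i1 (ae_of_all _ fun z => sq_nonneg _) (LE.le.eventuallyLE hm)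

/-- The profile of the correction. -/
def g_Fit (κ x : ℝ) : ℝ := max 0 (κ - x) - max 0 (x - (1 - κ))

theorem lip_Fit (κ x y : ℝ) : |g_Fit κ x - g_Fit κ y| ≤ 2 * |x - y| := by
  have h1 := abs_max_sub_max_le_max 0 (κ - x) 0 (κ - y)
  have h2 := abs_max_sub_max_le_max 0 (x - (1 - κ)) 0 (y - (1 - κ))
  rw [sub_self, abs_zero] at h1 h2
  rw [max_eq_right (abs_nonneg (κ - x - (κ - y)))] at h1
  rw [max_eq_right (abs_nonneg (x - (1 - κ) - (y - (1 - κ))))] at h2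
  rw [sub_sub_sub_cancel_left, abs_sub_comm y x] at h1
  rw [sub_sub_sub_cancel_right] at h2
  have h3 := abs_le.1 h1
  have h4 := abs_le.1 h2
  rw [g_Fit, g_Fit, abs_le]
  constructor <;> linarith [h3.1, h3.2, h4.1, h4.2]

theorem case_Fit {κ : ℝ} (h : κ ≤ 1 / 4) (x : ℝ) : (x ≤ κ ∧ g_Fit κ x = κ - x) ∨
    (1 - κ ≤ x ∧ g_Fit κ x = 1 - κ - x) ∨ (κ < x ∧ x < 1 - κ ∧ g_Fit κ x = 0) := by
  rw [g_Fit]
  rcases le_or_gt x κ with h1 | h1
  · exact Or.inl ⟨h1, by rw [max_eq_right (by linarith), max_eq_left (by linarith), sub_zero]⟩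
  rcases le_or_gt (1 - κ) x with h2 | h2
  · exact Or.inr (Or.inl ⟨h2, by rw [max_eq_left (by linarith), max_eq_right (by linarith)]; ring⟩)
  · exact Or.inr (Or.inr ⟨h1, h2, by
      rw [max_eq_left (by linarith), max_eq_left (by linarith), sub_zero]⟩)

theorem exists_fit (hE : Dom E) {θ : ℝ} (hθ : 0 < θ) : ∃ (τ : ℂ → ℂ) (δ₀ : ℝ) (N : Set ℂ),
    0 < δ₀ ∧ δ₀ < 1 / 2 ∧ Continuous τ ∧ IsOpen N ∧ E ⊆ N ∧ (∀ z ∈ N, τ z = z) ∧
      MapsTo τ (Qc \ E) (Qs \ E) ∧ (∀ z : ℂ, z.re = 0 → (τ z).re = -δ₀) ∧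
      (∀ z : ℂ, z.re = 1 → (τ z).re = 1 + δ₀) ∧
      ∀ v : ℂ → ℝ, LocallyLipschitzOn (Qs \ E) v → IntegrableOn (fun z => ‖gr v z‖ ^ 2) (Qs \ E) →
        LocallyLipschitzOn (Q \ E) (v ∘ τ) ∧ IntegrableOn (fun z => ‖gr (v ∘ τ) z‖ ^ 2) (Q \ E) ∧
          ∫ z in Q \ E, ‖gr (v ∘ τ) z‖ ^ 2 ≤ (1 + θ) * ∫ z in Qs \ E, ‖gr v z‖ ^ 2 := by
  obtain ⟨δ, hδ, hs⟩ := exists_inner hE.cpt hE.sub
  obtain ⟨κ, k0, k1, k2⟩ : ∃ κ : ℝ, 0 < κ ∧ κ < δ ∧ κ ≤ 1 / 4 :=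
    ⟨min (δ / 2) (1 / 4), by positivity, (min_le_left _ _).trans_lt (by linarith), min_le_right _ _⟩
  obtain ⟨l, l0, l1, l2⟩ : ∃ l : ℝ, 0 < l ∧ l ≤ θ / 64 ∧ l ≤ 1 / 16 :=
    ⟨min (θ / 64) (1 / 16), by positivity, min_le_left _ _, min_le_right _ _⟩
  obtain ⟨τ, t1, t2⟩ : ∃ τ : ℂ → ℂ, (∀ z, (τ z).re = z.re - l * g_Fit κ z.re) ∧
      ∀ z, (τ z).im = z.im + l * g_Fit κ z.im :=
    ⟨fun z => ⟨z.re - l * g_Fit κ z.re, z.im + l * g_Fit κ z.im⟩, fun _ => rfl, fun _ => rfl⟩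
  have h1 : ∀ z z', ‖(τ z - τ z') - (z - z')‖ ≤ 4 * l * ‖z - z'‖ := fun z z' => by
    refine (norm_le_abs_re_add_abs_im _).trans ?_
    have e1 : (τ z - τ z' - (z - z')).re = -(l * (g_Fit κ z.re - g_Fit κ z'.re)) := by
      simp only [sub_re, t1]; ring
    have e2 : (τ z - τ z' - (z - z')).im = l * (g_Fit κ z.im - g_Fit κ z'.im) := by
      simp only [sub_im, t2]; ring
    have e3 := (lip_Fit κ z.re z'.re).trans
      (mul_le_mul_of_nonneg_left (abs_re_le_norm (z - z')) zero_le_two)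
    have e4 := (lip_Fit κ z.im z'.im).trans
      (mul_le_mul_of_nonneg_left (abs_im_le_norm (z - z')) zero_le_two)
    rw [e1, e2, abs_neg, abs_mul, abs_mul, abs_of_pos l0]
    nlinarith
  have hA : LipschitzWith (NNReal.mk (1 + 4 * l) (by positivity)) τ := .of_dist_le_mul fun z z' => by
    have := norm_sub_norm_le (τ z - τ z') (z - z')
    rw [dist_eq_norm, dist_eq_norm, NNReal.coe_mk]
    linarith [h1 z z']
  have l3 : 0 < 1 - 4 * l := by linarith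
  have hB : AntilipschitzWith (NNReal.mk (1 - 4 * l)⁻¹ (by positivity)) τ := .of_le_mul_dist fun z z' => by
    have := norm_sub_norm_le (z - z') (τ z - τ z')
    rw [norm_sub_rev (z - z')] at this
    rw [dist_eq_norm, dist_eq_norm, NNReal.coe_mk, le_inv_mul_iff₀ l3]
    linarith [h1 z z']
  have hN : E ⊆ Ioo κ (1 - κ) ×ℂ Ioo κ (1 - κ) := fun z hz => by
    obtain ⟨⟨x1, x2⟩, x3, x4⟩ := mem_reProdIm.1 (hs hz)
    exact mem_reProdIm.2 ⟨⟨by linarith, by linarith⟩, by linarith, by linarith⟩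
  have h2 : ∀ z ∈ Ioo κ (1 - κ) ×ℂ Ioo κ (1 - κ), τ z = z := fun z hz => by
    obtain ⟨⟨x1, x2⟩, x3, x4⟩ := mem_reProdIm.1 hz
    refine Complex.ext ?_ ?_
    · rcases case_Fit k2 z.re with h | h | h
      · linarith [h.1]
      · linarith [h.1]
      · rw [t1, h.2.2, mul_zero, sub_zero]
    · rcases case_Fit k2 z.im with h | h | h
      · linarith [h.1]
      · linarith [h.1]
      · rw [t2, h.2.2, mul_zero, add_zero]
  have h3 : MapsTo τ (Qc \ E) (Qs \ E) := fun z hz => by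
    obtain ⟨⟨x1, x2⟩, x3, x4⟩ := mem_reProdIm.1 hz.1
    refine ⟨mem_reProdIm.2 ⟨?_, ?_⟩, fun hE' => ?_⟩
    · rw [t1]
      rcases case_Fit k2 z.re with ⟨h, e⟩ | ⟨h, e⟩ | ⟨h, h', e⟩ <;> rw [e] <;>
        constructor <;> nlinarith
    · rw [t2]
      rcases case_Fit k2 z.im with ⟨h, e⟩ | ⟨h, e⟩ | ⟨h, h', e⟩ <;> rw [e] <;>
        constructor <;> nlinarith
    · obtain ⟨⟨y1, y2⟩, y3, y4⟩ := mem_reProdIm.1 (hN hE')
      rw [t1] at y1 y2
      rw [t2] at y3 y4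
      refine hz.2 (h2 z (mem_reProdIm.2 ⟨?_, ?_⟩) ▸ hE')
      · rcases case_Fit k2 z.re with ⟨h, e⟩ | ⟨h, e⟩ | ⟨h, h', e⟩ <;> rw [e] at y1 y2 <;>
          constructor <;> nlinarith
      · rcases case_Fit k2 z.im with ⟨h, e⟩ | ⟨h, e⟩ | ⟨h, h', e⟩ <;> rw [e] at y3 y4 <;>
          constructor <;> nlinarith
  refine ⟨τ, l * κ, _, by positivity, by nlinarith, hA.continuous,
    isOpen_Ioo.reProdIm isOpen_Ioo, hN, h2, h3, fun z hz => ?_, fun z hz => ?_, fun v hv hi => ?_⟩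
  · rcases case_Fit k2 z.re with ⟨h, e⟩ | ⟨h, e⟩ | ⟨h, h', e⟩
    · rw [t1, e, hz]; ring
    · linarith
    · linarith
  · rcases case_Fit k2 z.re with ⟨h, e⟩ | ⟨h, e⟩ | ⟨h, h', e⟩
    · linarith
    · rw [t1, e, hz]; ring
    · linarith
  · obtain ⟨a1, a2, a3⟩ := comp_Fit hA hB hE.op
      ((isOpen_Ioo.reProdIm isOpen_Ioo).sdiff hE.cpt.isClosed)
      (h3.mono_left (sdiff_subset_sdiff_left Q_sub)) hv hi
    refine ⟨a1, a2, a3.trans (mul_le_mul_of_nonneg_right ?_ (integral_nonneg fun _ => sq_nonneg _))⟩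
    rw [NNReal.coe_mk, NNReal.coe_mk, inv_pow, mul_inv_le_iff₀ (by positivity)]
    have h4 : 9 / 16 ≤ (1 - 4 * l) ^ 2 := by nlinarith
    nlinarith

end Vale.Agent.P116
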