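import Vale.Agent.P116.K.MonoA

/-! P116 K/Mono (helper26): monotonisation. Helper names end with `_mn`. -/

open MeasureTheory Set Metric Filter Topology Complex
open scoped ENNReal ComplexConjugate NNReal

noncomputable section

namespace Vale.Agent.P116

open Vale.Agent.P128

variable {E : Set ℂ}

/-- `b` is obtained from `a` by flattening. -/
structure St (a b : TF E) : Prop where
  bd : ∀ z, z ∉ Q → b.hi z = a.hi z
  lip : ∀ (B : Set ℂ) (K : ℝ≥0), Convex ℝ B → B ⊆ Q \ E → LipschitzOnWith K a.hi B →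
    LipschitzOnWith K b.hi B
  grd : ∀ᵐ z, z ∈ Q \ E → ‖gr b.hi z‖ ≤ ‖gr a.hi z‖
  osc : ∀ z, b.hi z - b.lo z ≤ a.hi z - a.lo z
  lob : ∀ m, (∀ z ∈ Qc, m ≤ a.lo z) → ∀ z ∈ Qc, m ≤ b.lo z
  upb : ∀ m, (∀ z ∈ Qc, a.hi z ≤ m) → ∀ z ∈ Qc, b.hi z ≤ m
  val : ∃ T : Set ℝ, T.Countable ∧ ∀ z ∈ Q, a.lo z = a.hi z → b.hi z ∈ T ∨ b.hi z = a.hi z

variable {a b d : TF E}

theorem St.eq (h : St a b) {z : ℂ} (hz : a.lo z = a.hi z) : b.lo z = b.hi z :=
  le_antisymm (b.le z) (by linarith [h.osc z])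

theorem St.trans (h : St a b) (h' : St b d) : St a d where
  bd z hz := (h'.bd z hz).trans (h.bd z hz)
  lip B K h1 h2 h3 := h'.lip B K h1 h2 (h.lip B K h1 h2 h3)
  grd := by filter_upwards [h.grd, h'.grd] with z h1 h2 hz using (h2 hz).trans (h1 hz)
  osc z := (h'.osc z).trans (h.osc z)
  lob m hm := h'.lob m (h.lob m hm)
  upb m hm := h'.upb m (h.upb m hm)
  val := by
    obtain ⟨T, h1, h2⟩ := h.val
    obtain ⟨T', h3, h4⟩ := h'.val
    refine ⟨T ∪ T', h1.union h3, fun z hz e => ?_⟩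
    rcases h4 z hz (h.eq e) with k | k
    · exact Or.inl (Or.inr k)
    · rw [k]
      exact (h2 z hz e).imp_left Or.inl

theorem gr_neg_mn (hE : Dom E) (a : TF E) {z : ℂ} (hz : z ∈ Q \ E) :
    ‖gr a.neg.hi z‖ = ‖gr a.hi z‖ := by
  have e : a.neg.hi =ᶠ[𝓝 z] -a.hi :=
    (hE.op.eventually_mem hz).mono fun x hx => congrArg Neg.neg (a.eq x hx.2)
  have e2 : gr a.neg.hi z = -gr a.hi z := by
    unfold gr
    rw [e.fderiv_eq, fderiv_neg]
    simp only [ContinuousLinearMap.neg_apply, ofReal_neg]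
    ring
  rw [e2, norm_neg]

theorem lip_neg_mn {B : Set ℂ} {K : ℝ≥0} (hB : B ⊆ Q \ E) (h : LipschitzOnWith K a.hi B) :
    LipschitzOnWith K a.neg.hi B := fun x hx y hy => by
  show edist (-a.lo x) (-a.lo y) ≤ _
  rw [a.eq x (hB hx).2, a.eq y (hB hy).2, edist_neg_neg]
  exact h hx hy

theorem St.neg (hE : Dom E) (h : St a.neg b) : St a b.neg where
  bd z hz := by
    have h1 : z ∉ E := fun k => hz (hE.sub k)
    show -b.lo z = a.hi z
    rw [b.eq z h1, h.bd z hz, ← a.eq z h1]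
    exact neg_neg _
  lip B K h1 h2 h3 := lip_neg_mn h2 (h.lip B K h1 h2 (lip_neg_mn h2 h3))
  grd := by
    filter_upwards [h.grd] with z h1 hz
    rw [gr_neg_mn hE b hz, ← gr_neg_mn hE a hz]
    exact h1 hz
  osc z := by
    have h1 : b.hi z - b.lo z ≤ -a.lo z - -a.hi z := h.osc z
    show -b.lo z - -b.hi z ≤ _
    linarith
  lob m hm z hz := le_neg.1 (h.upb (-m) (fun x hx => neg_le_neg (hm x hx)) z hz)
  upb m hm z hz := neg_le.1 (h.lob (-m) (fun x hx => neg_le_neg (hm x hx)) z hz)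
  val := by
    obtain ⟨T, h1, h2⟩ := h.val
    refine ⟨Neg.neg '' T, h1.image _, fun z hz e => ?_⟩
    have e' : a.neg.lo z = a.neg.hi z := congrArg Neg.neg e.symm
    have e1 : b.neg.hi z = -b.hi z := congrArg Neg.neg (h.eq e')
    rcases h2 z hz e' with k | k
    · exact Or.inl ⟨_, k, e1.symm⟩
    · exact Or.inr (by rw [e1, k, ← e]; exact neg_neg _)

theorem st_dn (hE : Dom E) (a : TF E) : St a (a.dn hE) where
  bd z hz := uu_out hz
  lip B K h1 _ h3 := uu_lip h1 h3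
  grd := by
    filter_upwards [ae_diff hE.op a.lip, ae_diff hE.op (a.dn hE).lip] with z h1 h2 hz
    rcases (uu_le a z).eq_or_lt with k | k
    · have h3 : IsLocalMin (fun x => a.hi x - uu a x) z :=
        Eventually.of_forall fun x => (sub_eq_zero.2 k.symm).le.trans (sub_nonneg.2 (uu_le a x))
      have h4 := h3.hasFDerivAt_eq_zero ((h1 hz).hasFDerivAt.sub (h2 hz).hasFDerivAt)
      unfold gr
      rw [sub_eq_zero.1 h4]
    · have h3 : (a.dn hE).hi =ᶠ[𝓝 z] fun _ => uu a z := uu_loc hz.1 (k.trans_eq (a.eq z hz.2).symm)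
      unfold gr
      rw [h3.fderiv_eq, fderiv_fun_const]
      simp
  osc z := by
    show uu a z - min (a.lo z) (uu a z) ≤ _
    rcases le_total (a.lo z) (uu a z) with k | k
    · rw [min_eq_left k]
      linarith [uu_le a z]
    · rw [min_eq_right k]
      linarith [a.le z]
  lob m hm z hz := le_min (hm z hz) (le_csInf (ne_mn a z) fun t ht =>
    (le_min ((hm z hz).trans (a.le z)) le_rfl).trans (low_mn hm ht))
  upb m hm z hz := (uu_le a z).trans (hm z hz)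
  val := by
    obtain ⟨D, h1, h2⟩ := TopologicalSpace.exists_countable_dense ℂ
    refine ⟨uu a '' D, h1.image _, fun z hz e => ?_⟩
    rcases (uu_le a z).eq_or_lt with k | k
    · exact Or.inr k
    · obtain ⟨x, h3, h4⟩ := h2.inter_nhds_nonempty (uu_loc hz (k.trans_eq e.symm))
      exact Or.inl ⟨x, h3, h4⟩

theorem keep_mn {W : Set ℂ} {t : ℝ} (hc : closure W ⊆ Q)
    (h1 : ∀ z ∈ closure W, t ≤ a.lo z) (h2 : ∀ z ∈ frontier W, t ≤ uu a z) {z : ℂ} (hz : z ∈ W) :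
    t ≤ uu a z := by
  refine le_csInf (ne_mn a z) fun s hs => not_lt.1 fun k => ?_
  rcases hs with h | ⟨V, h3, h4, h5, h6⟩
  · exact absurd (h.trans k) (not_lt.2 ((h1 z (subset_closure hz)).trans (a.le z)))
  obtain ⟨x, hx⟩ := fr_mn (W := V ∩ W) ((closure_mono inter_subset_right).trans hc) ⟨h5, hz⟩
  have h7 : ∀ x ∈ closure W, x ∉ frontier V := fun x h7 h8 =>
    absurd ((h6 x h8).trans k) (not_lt.2 ((h1 x h7).trans (a.le x)))
  rcases frontier_inter_subset V W hx with h | h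
  · exact h7 x h.2 h.1
  · have h8 := h.1
    rw [closure_eq_self_union_frontier] at h8
    rcases h8 with h8 | h8
    · exact absurd ((uu_le_of (Or.inr ⟨V, h3, h4, h8, h6⟩)).trans_lt k) (not_lt.2 (h2 x h.2))
    · exact h7 x (frontier_subset_closure h.2) h8

theorem exists_mono (hE : Dom E) (a : TF E) : ∃ b : TF E, b.Mono ∧ St a b := by
  refine ⟨((a.neg.dn hE).neg.dn hE), fun W hW hc t => ⟨fun h z hz => uu_max hW hc h hz,
    fun h z hz => ?_⟩, ((st_dn hE a.neg).neg hE).trans (st_dn hE _)⟩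
  have h1 : ∀ z ∈ frontier W, t ≤ (a.neg.dn hE).neg.lo z := fun z hz =>
    (h z hz).trans (min_le_left _ _)
  have h2 : ∀ z ∈ W, t ≤ (a.neg.dn hE).neg.lo z := fun z hz =>
    le_neg.1 (uu_max hW hc (fun y hy => le_neg.1 (h1 y hy)) hz)
  refine le_min (h2 z hz) (keep_mn hc (fun x hx => ?_)
    (fun x hx => (h x hx).trans (min_le_right _ _)) hz)
  rw [closure_eq_self_union_frontier] at hx
  exact hx.elim (h2 x) (h1 x)

theorem St.osc_le (h : St a b) (c : Cp E) : b.osc c ≤ a.osc c := h.osc _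

theorem St.H (h : St a b) (ha : a.H) : b.H := fun z hz =>
  ⟨fun e => (h.bd z fun k => k.1.1.ne' e).trans ((ha z hz).1 e),
    fun e => (h.bd z fun k => k.1.2.ne e).trans ((ha z hz).2 e)⟩

theorem St.V (h : St a b) (ha : a.V) : b.V := fun z hz =>
  ⟨fun e => (h.bd z fun k => k.2.1.ne' e).trans ((ha z hz).1 e),
    fun e => (h.bd z fun k => k.2.2.ne e).trans ((ha z hz).2 e)⟩

theorem St.mem (h : St a b) (ha : ∀ z ∈ Qc, 0 ≤ a.lo z ∧ a.hi z ≤ 1) :
    ∀ z ∈ Qc, 0 ≤ b.lo z ∧ b.hi z ≤ 1 := fun z hz =>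
  ⟨h.lob 0 (fun x hx => (ha x hx).1) z hz, h.upb 1 (fun x hx => (ha x hx).2) z hz⟩

theorem St.grd' (hE : Dom E) (h : St a b) :
    ∀ᵐ z ∂(volume.restrict (Q \ E)), ‖gr b.hi z‖ ^ 2 ≤ ‖gr a.hi z‖ ^ 2 :=
  (ae_restrict_iff' hE.op.measurableSet).2
    (h.grd.mono fun _ hz k => pow_le_pow_left₀ (norm_nonneg _) (hz k) 2)

theorem St.fn (hE : Dom E) (h : St a b) (ha : a.Fn) : b.Fn :=
  ⟨ha.1.mono' ((EARN.measurable_gr b.hi).1.norm.pow_const 2).aestronglyMeasurable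
      ((h.grd' hE).mono fun _ hz => (Real.norm_of_nonneg (sq_nonneg _)).trans_le hz),
    ha.2.of_nonneg_of_le (fun _ => sq_nonneg _)
      fun c => pow_le_pow_left₀ (b.osc_nonneg c) (h.osc_le c) 2⟩

theorem St.en_le (hE : Dom E) (h : St a b) (ha : a.Fn) : b.en ≤ a.en :=
  add_le_add (integral_mono_ae (h.fn hE ha).1 ha.1 (h.grd' hE))
    ((h.fn hE ha).2.tsum_le_tsum (fun c => pow_le_pow_left₀ (b.osc_nonneg c) (h.osc_le c) 2) ha.2)

theorem St.val' (hE : Dom E) (h : St a b) (ha : a.Fn) : ∃ T : Set ℝ, T.Countable ∧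
    ∀ z ∈ E, b.hi z ∈ T ∨ (a.lo z = a.hi z ∧ b.hi z = a.hi z) := by
  obtain ⟨T, h1, h2⟩ := h.val
  refine ⟨T ∪ (fun c : Cp E => b.hi c.pt) '' {c | 0 < a.osc c}, h1.union (ha.countable.image _),
    fun z hz => ?_⟩
  rcases (a.le z).eq_or_lt with k | k
  · exact (h2 z (hE.sub hz) k).imp Or.inl fun e => ⟨k, e⟩
  · have h3 := a.at_pt (Cp.mem_mk z hz)
    refine Or.inl (Or.inr ⟨Cp.mk z hz, ?_, (b.at_pt (Cp.mem_mk z hz)).2.symm⟩)
    show 0 < a.hi _ - a.lo _
    rw [← h3.1, ← h3.2]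
    exact sub_pos.2 k

theorem St.cmp_left (hE : Dom E) (h : St a b) (ha : a.Fn) (hc : a.Cmp d) : b.Cmp d := by
  obtain ⟨T, h1, h2⟩ := h.val' hE ha
  have h3 : volume (re ⁻¹' T) = 0 := (Measure.quasiMeasurePreserving_fst.comp
    volume_preserving_equiv_real_prod.quasiMeasurePreserving).preimage_null (h1.measure_zero _)
  refine measure_mono_null ?_ (measure_union_null h3 hc)
  rintro _ ⟨z, hz, rfl⟩
  rcases h2 z hz.1 with k | k
  · exact Or.inl k
  · exact Or.inr ⟨z, ⟨hz.1, k.1, hz.2.2⟩, Complex.ext k.2.symm rfl⟩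

theorem St.cmp_right (hE : Dom E) (h : St a b) (ha : a.Fn) (hc : d.Cmp a) : d.Cmp b := by
  obtain ⟨T, h1, h2⟩ := h.val' hE ha
  have h3 : volume (im ⁻¹' T) = 0 := (Measure.quasiMeasurePreserving_snd.comp
    volume_preserving_equiv_real_prod.quasiMeasurePreserving).preimage_null (h1.measure_zero _)
  refine measure_mono_null ?_ (measure_union_null h3 hc)
  rintro _ ⟨z, hz, rfl⟩
  rcases h2 z hz.1 with k | k
  · exact Or.inl k
  · exact Or.inr ⟨z, ⟨hz.1, hz.2.1, k.1⟩, Complex.ext rfl k.2.symm⟩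

end Vale.Agent.P116
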