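import Vale.Agent.P116.K.Defs
import Vale.Agent.P116.K.Mono

/-! P116 K/Tf: test functions from functions off E; energy from weights. -/

open MeasureTheory Set Metric Filter Topology Complex
open scoped ENNReal

noncomputable section

namespace Vale.Agent.P116.K

open Vale.Agent.P128


/-- Upper and lower cluster values. -/
structure Cv (P : Par) (u : ℂ → ℝ) (w : TF P.E) (p : ℂ) : Prop where
  h1 : ∀ t l, (∀ x ∈ P.cl l p \ P.E, u x ≤ t) → w.hi p ≤ t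
  h2 : ∀ t, w.hi p < t → ∃ l, ∀ x ∈ P.cl l p \ P.E, u x ≤ t
  l1 : ∀ t l, (∀ x ∈ P.cl l p \ P.E, t ≤ u x) → t ≤ w.lo p
  l2 : ∀ t, t < w.lo p → ∃ l, ∀ x ∈ P.cl l p \ P.E, t ≤ u x

theorem sub_nb_TfA (P : Par) (l : ℕ) : P.E ⊆ P.nb l :=
  self_subset_thickening (div_pos P.δ0 (by positivity)) _

theorem nb_sub_TfA (P : Par) (l : ℕ) : P.nb l ⊆ Q := by
  intro w hw
  by_contra hQ
  obtain ⟨z, hz, h⟩ := mem_thickening_iff.1 hw
  have h1 := P.far z hz w hQ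
  have h2 : P.δ / (l + 1) ≤ P.δ / P.ε := by
    have h3 : (0 : ℝ) ≤ l := Nat.cast_nonneg l
    exact div_le_div_of_nonneg_left P.δ0.le P.ε0 (by linarith [P.ε1])
  rw [dist_comm] at h
  linarith

theorem cl_open_TfA (P : Par) (l : ℕ) (p : ℂ) : IsOpen (P.cl l p) :=
  isOpen_thickening.connectedComponentIn

theorem cl_mem_TfA (P : Par) (l : ℕ) {p : ℂ} (hp : p ∈ P.E) : p ∈ P.cl l p :=
  mem_connectedComponentIn (sub_nb_TfA P l hp)

theorem cl_anti_TfA (P : Par) {l l' : ℕ} (h : l ≤ l') (p : ℂ) : P.cl l' p ⊆ P.cl l p := by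
  refine connectedComponentIn_mono _ (thickening_mono ?_ _)
  have h1 : (l : ℝ) ≤ l' := Nat.cast_le.2 h
  exact div_le_div_of_nonneg_left P.δ0.le (by positivity) (by linarith)

theorem cl_sub_TfA (P : Par) (l : ℕ) (p : ℂ) : P.cl l p \ P.E ⊆ Qc \ P.E :=
  diff_subset_diff_left ((connectedComponentIn_subset _ _).trans ((nb_sub_TfA P l).trans Q_sub))

theorem cl_ne_TfA (P : Par) (l : ℕ) {p : ℂ} (hp : p ∈ P.E) : (P.cl l p \ P.E).Nonempty := by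
  by_contra h
  have h1 : P.cl l p ⊆ P.E := fun x hx => by
    by_contra hx'
    exact h ⟨x, hx, hx'⟩
  have h2 : closure (P.cl l p) ⊆ P.cl l p :=
    isPreconnected_connectedComponentIn.closure.subset_connectedComponentIn
      (subset_closure (cl_mem_TfA P l hp))
      ((closure_minimal h1 P.dom.cpt.isClosed).trans (sub_nb_TfA P l))
  have h3 : IsClopen (P.cl l p) := ⟨closure_subset_iff_isClosed.1 h2, cl_open_TfA P l p⟩
  have h4 : P.cl l p = univ := h3.eq_univ ⟨p, cl_mem_TfA P l hp⟩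
  have h5 : (0 : ℂ) ∈ Q := P.dom.sub (h1 (h4 ▸ mem_univ _))
  exact lt_irrefl _ h5.1.1

open Classical in
/-- The upper extension. -/
def up_TfA (P : Par) (u : ℂ → ℝ) (p : ℂ) : ℝ :=
  if p ∈ P.E then ⨅ l : ℕ, sSup (u '' (P.cl l p \ P.E)) else u p

theorem up_off_TfA (P : Par) (u : ℂ → ℝ) {p : ℂ} (hp : p ∉ P.E) : up_TfA P u p = u p := if_neg hp

theorem up_le_TfA (P : Par) {u : ℂ → ℝ} {M : ℝ} (hM : ∀ z ∈ Qc \ P.E, |u z| ≤ M) {p : ℂ}
    (hp : p ∈ P.E) (t : ℝ) (l : ℕ) (h : ∀ x ∈ P.cl l p \ P.E, u x ≤ t) : up_TfA P u p ≤ t := by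
  rw [up_TfA, if_pos hp]
  refine (ciInf_le ⟨-M, ?_⟩ l).trans (csSup_le ((cl_ne_TfA P l hp).image u) ?_)
  · rintro _ ⟨k, rfl⟩
    obtain ⟨x, hx⟩ := cl_ne_TfA P k hp
    refine (abs_le.1 (hM x (cl_sub_TfA P k p hx))).1.trans (le_csSup ⟨M, ?_⟩ ⟨x, hx, rfl⟩)
    rintro _ ⟨y, hy, rfl⟩
    exact (abs_le.1 (hM y (cl_sub_TfA P k p hy))).2
  · rintro _ ⟨x, hx, rfl⟩
    exact h x hx

theorem up_lt_TfA (P : Par) {u : ℂ → ℝ} {M : ℝ} (hM : ∀ z ∈ Qc \ P.E, |u z| ≤ M) {p : ℂ}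
    (hp : p ∈ P.E) (t : ℝ) (h : up_TfA P u p < t) : ∃ l, ∀ x ∈ P.cl l p \ P.E, u x ≤ t := by
  rw [up_TfA, if_pos hp] at h
  obtain ⟨l, hl⟩ := exists_lt_of_ciInf_lt h
  refine ⟨l, fun x hx => (le_csSup ⟨M, ?_⟩ (mem_image_of_mem u hx)).trans hl.le⟩
  rintro _ ⟨y, hy, rfl⟩
  exact (abs_le.1 (hM y (cl_sub_TfA P l p hy))).2

theorem up_usc_TfA (P : Par) {u : ℂ → ℝ} {M : ℝ} (hM : ∀ z ∈ Qc \ P.E, |u z| ≤ M)
    (hc : ContinuousOn u (Qc \ P.E)) : UpperSemicontinuousOn (up_TfA P u) Qc := by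
  intro z hz t ht
  by_cases hE : z ∈ P.E
  · obtain ⟨s, hs, hst⟩ := exists_between ht
    obtain ⟨l, hl⟩ := up_lt_TfA P hM hE s hs
    filter_upwards [mem_nhdsWithin_of_mem_nhds ((cl_open_TfA P l z).mem_nhds (cl_mem_TfA P l hE))]
      with y hy
    by_cases hy' : y ∈ P.E
    · have e : P.cl l z = P.cl l y := connectedComponentIn_eq hy
      exact (up_le_TfA P hM hy' s l (e ▸ hl)).trans_lt hst
    · rw [up_off_TfA P u hy']
      exact (hl y ⟨hy, hy'⟩).trans_lt hst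
  · rw [up_off_TfA P u hE] at ht
    have h1 : P.Eᶜ ∈ 𝓝 z := P.dom.cpt.isClosed.isOpen_compl.mem_nhds hE
    have h2 := (hc z ⟨hz, hE⟩).eventually (gt_mem_nhds ht)
    rw [diff_eq, nhdsWithin_inter_of_mem' (mem_nhdsWithin_of_mem_nhds h1)] at h2
    filter_upwards [h2, mem_nhdsWithin_of_mem_nhds h1] with y hy hy'
    rwa [up_off_TfA P u hy']

theorem up_cst_TfA (P : Par) (u : ℂ → ℝ) {z z' : ℂ} (hz : z ∈ P.E)
    (h : z' ∈ connectedComponentIn P.E z) : up_TfA P u z' = up_TfA P u z := by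
  have e : ∀ l, P.cl l z = P.cl l z' := fun l =>
    connectedComponentIn_eq (connectedComponentIn_mono _ (sub_nb_TfA P l) h)
  rw [up_TfA, up_TfA, if_pos hz, if_pos (connectedComponentIn_subset _ _ h)]
  simp only [e]

theorem exists_tf (P : Par) {u : ℂ → ℝ} {M : ℝ} (hM : ∀ z ∈ Qc \ P.E, |u z| ≤ M)
    (hc : ContinuousOn u (Qc \ P.E)) (hl : LocallyLipschitzOn (Q \ P.E) u) :
    ∃ w : TF P.E, (∀ z, z ∉ P.E → w.hi z = u z) ∧ ∀ p ∈ P.E, Cv P u w p := by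
  have hM' : ∀ z ∈ Qc \ P.E, |(fun z => -u z) z| ≤ M := fun z hz => by
    rw [abs_neg]
    exact hM z hz
  refine ⟨⟨fun z => -up_TfA P (fun z => -u z) z, up_TfA P u, fun z => ?_, fun z hz => ?_,
    (up_usc_TfA P hM' hc.neg).neg, up_usc_TfA P hM hc, fun z hz z' hz' => ?_, fun z hz => ?_⟩,
    fun z hz => up_off_TfA P u hz, fun p hp => ⟨up_le_TfA P hM hp, up_lt_TfA P hM hp,
      fun t l h => ?_, fun t h => ?_⟩⟩
  · by_cases hE : z ∈ P.E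
    · by_contra hlt
      obtain ⟨s, hs, hs'⟩ := exists_between (not_le.1 hlt)
      obtain ⟨t, ht, ht'⟩ := exists_between hs'
      obtain ⟨l, hl⟩ := up_lt_TfA P hM hE s hs
      obtain ⟨l', hl'⟩ := up_lt_TfA P hM' hE (-t) (by linarith)
      obtain ⟨x, hx⟩ := cl_ne_TfA P (max l l') hE
      have h1 := hl x ⟨cl_anti_TfA P (le_max_left _ _) z hx.1, hx.2⟩
      have h2 : -u x ≤ -t := hl' x ⟨cl_anti_TfA P (le_max_right _ _) z hx.1, hx.2⟩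
      linarith
    · rw [up_off_TfA P _ hE, up_off_TfA P _ hE, neg_neg]
  · rw [up_off_TfA P _ hz, up_off_TfA P _ hz, neg_neg]
  · rw [up_cst_TfA P _ hz hz', up_cst_TfA P _ hz hz']
    exact ⟨rfl, rfl⟩
  · obtain ⟨K, t, ht, h⟩ := hl hz
    refine ⟨K, t ∩ (Q \ P.E), inter_mem ht self_mem_nhdsWithin, fun x hx y hy => ?_⟩
    rw [up_off_TfA P u hx.2.2, up_off_TfA P u hy.2.2]
    exact h hx.1 hy.1
  · exact le_neg.2 (up_le_TfA P hM' hp (-t) l fun x hx => neg_le_neg (h x hx))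
  · obtain ⟨l, hl⟩ := up_lt_TfA P hM' hp (-t) (lt_neg.1 h)
    exact ⟨l, fun x hx => neg_le_neg_iff.1 (hl x hx)⟩

end Vale.Agent.P116.K
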