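import Vale.Agent.P116.K.Bar
import Vale.Agent.P116.K.Cb
import Vale.Agent.P116.K.Ker
import Vale.Agent.P116.K.Tf
import Vale.Agent.P116.K.TfA
import Vale.Agent.P116.K.Fit
import Vale.Agent.P116.K.CluD

/-! P116 K/B25 (helper25): the stretch of the square onto the box. -/

open MeasureTheory Set Metric Filter Topology Complex
open scoped ENNReal

noncomputable section

namespace Vale.Agent.P116.K

open Vale.Agent.P128

/-- The stretch. -/
structure Sr_B25 (P : Par) (σ : ℂ → ℂ) : Prop where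
  lip : ∀ z z', dist (σ z) (σ z') ≤ (1 + 8 * P.ε) * dist z z'
  anti : ∀ z z', (1 - 8 * P.ε) * dist z z' ≤ dist (σ z) (σ z')
  id : ∀ z, infDist z P.E < 2 * P.δ → σ z = z
  map : MapsTo σ Qc P.R
  bot : ∀ z, z.im = 0 → (σ z).im = -P.δ
  top : ∀ z, z.im = 1 → (σ z).im = 1 + P.δ

variable {P : Par} {σ : ℂ → ℂ}

theorem far_B25 (P : Par) {z : ℂ} (hz : z ∈ P.E) : (P.δ / P.ε ≤ z.re ∧ z.re ≤ 1 - P.δ / P.ε) ∧
    P.δ / P.ε ≤ z.im ∧ z.im ≤ 1 - P.δ / P.ε := by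
  have hq : z.re ∈ Ioo (0 : ℝ) 1 ∧ z.im ∈ Ioo (0 : ℝ) 1 := P.dom.sub hz
  have h1 := P.far z hz ⟨0, z.im⟩ fun h => lt_irrefl (0 : ℝ) h.1.1
  have h2 := P.far z hz ⟨1, z.im⟩ fun h => lt_irrefl (1 : ℝ) h.1.2
  have h3 := P.far z hz ⟨z.re, 0⟩ fun h => lt_irrefl (0 : ℝ) h.2.1
  have h4 := P.far z hz ⟨z.re, 1⟩ fun h => lt_irrefl (1 : ℝ) h.2.2
  rw [dist_of_im_eq (by rfl), Real.dist_eq] at h1 h2
  rw [dist_of_re_eq (by rfl), Real.dist_eq] at h3 h4
  simp only [sub_zero] at h1 h2 h3 h4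
  rw [abs_of_pos hq.1.1] at h1
  rw [abs_of_neg (sub_neg.2 hq.1.2)] at h2
  rw [abs_of_pos hq.2.1] at h3
  rw [abs_of_neg (sub_neg.2 hq.2.2)] at h4
  exact ⟨⟨by linarith, by linarith⟩, by linarith, by linarith⟩

theorem exists_B25 (P : Par) : ∃ σ, Sr_B25 P σ := by
  have e0 := P.ε0
  have e1 := P.ε1
  have d0 := P.δ0
  obtain ⟨κ, k1⟩ : ∃ κ : ℝ, P.δ / P.ε = 2 * κ := ⟨P.δ / P.ε / 2, by ring⟩
  have k3 : P.δ = 2 * P.ε * κ := by
    rw [div_eq_iff e0.ne'] at k1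
    linarith
  have k0 : 0 < κ := by
    have := div_pos d0 e0
    linarith
  have k4 : 50 * P.δ ≤ κ := by nlinarith
  obtain ⟨p, hp⟩ := P.ne
  have k2 : κ ≤ 1 / 4 := by
    obtain ⟨⟨a1, a2⟩, -⟩ := far_B25 P hp
    linarith
  obtain ⟨τ, t1, t2⟩ : ∃ τ : ℂ → ℂ, (∀ z, (τ z).re = z.re + 2 * P.ε * g_Fit κ z.re) ∧
      ∀ z, (τ z).im = z.im - 2 * P.ε * g_Fit κ z.im :=
    ⟨fun z => ⟨z.re + 2 * P.ε * g_Fit κ z.re, z.im - 2 * P.ε * g_Fit κ z.im⟩, fun _ => rfl,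
      fun _ => rfl⟩
  have h1 : ∀ z z', ‖(τ z - τ z') - (z - z')‖ ≤ 8 * P.ε * ‖z - z'‖ := fun z z' => by
    refine (norm_le_abs_re_add_abs_im _).trans ?_
    have e1 : (τ z - τ z' - (z - z')).re = 2 * P.ε * (g_Fit κ z.re - g_Fit κ z'.re) := by
      simp only [sub_re, t1]; ring
    have e2 : (τ z - τ z' - (z - z')).im = -(2 * P.ε * (g_Fit κ z.im - g_Fit κ z'.im)) := by
      simp only [sub_im, t2]; ring
    have e3 := (lip_Fit κ z.re z'.re).trans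
      (mul_le_mul_of_nonneg_left (abs_re_le_norm (z - z')) zero_le_two)
    have e4 := (lip_Fit κ z.im z'.im).trans
      (mul_le_mul_of_nonneg_left (abs_im_le_norm (z - z')) zero_le_two)
    rw [e1, e2, abs_neg, abs_mul, abs_mul (2 * P.ε), abs_of_pos (mul_pos two_pos e0)]
    nlinarith
  refine ⟨τ, fun z z' => ?_, fun z z' => ?_, fun z hz => ?_, fun z hz => ?_, fun z hz => ?_,
    fun z hz => ?_⟩
  · have := norm_sub_norm_le (τ z - τ z') (z - z')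
    rw [dist_eq_norm, dist_eq_norm]
    linarith [h1 z z']
  · have := norm_sub_norm_le (z - z') (τ z - τ z')
    rw [norm_sub_rev (z - z')] at this
    rw [dist_eq_norm, dist_eq_norm]
    linarith [h1 z z']
  · obtain ⟨y, hy, hd⟩ := (infDist_lt_iff P.ne).1 hz
    obtain ⟨⟨a1, a2⟩, a3, a4⟩ := far_B25 P hy
    rw [dist_eq_norm] at hd
    have b1 := abs_lt.1 ((abs_re_le_norm (z - y)).trans_lt hd)
    have b2 := abs_lt.1 ((abs_im_le_norm (z - y)).trans_lt hd)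
    rw [sub_re] at b1
    rw [sub_im] at b2
    refine Complex.ext ?_ ?_
    · rcases case_Fit k2 z.re with h | h | h
      · linarith [h.1, b1.1]
      · linarith [h.1, b1.2]
      · rw [t1, h.2.2, mul_zero, add_zero]
    · rcases case_Fit k2 z.im with h | h | h
      · linarith [h.1, b2.1]
      · linarith [h.1, b2.2]
      · rw [t2, h.2.2, mul_zero, sub_zero]
  · obtain ⟨⟨x1, x2⟩, x3, x4⟩ := mem_reProdIm.1 hz
    refine mem_reProdIm.2 ⟨?_, ?_⟩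
    · rw [t1]
      rcases case_Fit k2 z.re with ⟨h, e⟩ | ⟨h, e⟩ | ⟨h, h', e⟩ <;> rw [e] <;>
        constructor <;> nlinarith
    · rw [t2]
      rcases case_Fit k2 z.im with ⟨h, e⟩ | ⟨h, e⟩ | ⟨h, h', e⟩ <;> rw [e] <;>
        constructor <;> nlinarith
  · rw [t2, hz]
    rcases case_Fit k2 0 with ⟨h, e⟩ | ⟨h, e⟩ | ⟨h, h', e⟩
    · rw [e, k3]; ring
    · linarith
    · linarith
  · rw [t2, hz]
    rcases case_Fit k2 1 with ⟨h, e⟩ | ⟨h, e⟩ | ⟨h, h', e⟩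
    · linarith
    · rw [e, k3]; ring
    · linarith

theorem Sr_B25.cont (h : Sr_B25 P σ) : Continuous σ :=
  (LipschitzWith.of_dist_le_mul (K := ⟨1 + 8 * P.ε, by have := P.ε0; positivity⟩) h.lip).continuous

theorem Sr_B25.off (h : Sr_B25 P σ) {z : ℂ} (hz : z ∉ P.E) : σ z ∉ P.E := fun h1 => by
  have h2 := h.id (σ z) (by rw [infDist_zero_of_mem h1]; exact mul_pos two_pos P.δ0)
  have h3 := h.anti (σ z) z
  rw [h2, dist_self] at h3
  have h4 : 0 < 1 - 8 * P.ε := by linarith [P.ε1]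
  have h5 : dist (σ z) z = 0 := le_antisymm (by
    by_contra h6
    exact absurd h3 (not_le.2 (mul_pos h4 (not_le.1 h6)))) dist_nonneg
  exact hz (dist_eq_zero.1 h5 ▸ h1)

theorem cvx_B25 (P : Par) : Convex ℝ P.R :=
  ((convex_Icc _ _).linear_preimage reLm).inter ((convex_Icc _ _).linear_preimage imLm)

theorem Sr_B25.loc (h : Sr_B25 P σ) {u ρ : ℂ → ℝ} (hc : ContinuousOn ρ P.Eᶜ) (h0 : ∀ z, 0 ≤ ρ z)
    (hm : Maj P.E P.R u ρ) {x : ℂ} (hx : x ∈ Qc \ P.E) {K : ℝ} (hK : ρ (σ x) < K) :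
    ∀ᶠ y in 𝓝[Qc] x, |u (σ y) - u (σ x)| ≤ K * (1 + 8 * P.ε) * dist y x := by
  obtain ⟨r, hr, hb⟩ := Metric.isOpen_iff.1 P.dom.cpt.isClosed.isOpen_compl (σ x) (h.off hx.2)
  have hz : σ x ∈ P.R ∩ ball (σ x) r := ⟨h.map hx.1, mem_ball_self hr⟩
  obtain ⟨T, hT, h1⟩ := loc_TfB (hc.mono fun _ k => k.2) hm ((cvx_B25 P).inter (convex_ball _ r))
    (fun z hz => ⟨hz.1, hb hz.2⟩) hz hK
  have h2 : Tendsto σ (𝓝[Qc] x) (𝓝[P.R ∩ ball (σ x) r] (σ x)) := by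
    refine tendsto_nhdsWithin_iff.2 ⟨h.cont.continuousWithinAt, ?_⟩
    filter_upwards [self_mem_nhdsWithin, (h.cont.continuousWithinAt (s := Qc) (x := x)).eventually
      (ball_mem_nhds (σ x) hr)] with y y1 y2 using ⟨h.map y1, y2⟩
  filter_upwards [h2 hT] with y hy
  refine (h1 _ hy _ (mem_of_mem_nhdsWithin hz hT)).trans ?_
  rw [mul_assoc]
  exact mul_le_mul_of_nonneg_left (h.lip y x) ((h0 _).trans hK.le)

theorem Sr_B25.l2 (h : Sr_B25 P σ) {ρ : ℂ → ℝ} (hρ : MemLp ρ 2 volume) :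
    Integrable (fun z => ρ (σ z) ^ 2) ∧
      ∫ z, ρ (σ z) ^ 2 ≤ (1 - 8 * P.ε)⁻¹ ^ 2 * ∫ z, ρ z ^ 2 := by
  have h4 : 0 < 1 - 8 * P.ε := by linarith [P.ε1]
  have hB : AntilipschitzWith (NNReal.mk (1 - 8 * P.ε)⁻¹ (by positivity)) σ :=
    .of_le_mul_dist fun z z' => by
      rw [NNReal.coe_mk, le_inv_mul_iff₀ h4]
      exact h.anti z z'
  have h1 := map_Fit h.cont hB
  have i0 := hρ.integrable_sq.smul_measure
    (c := ((NNReal.mk (1 - 8 * P.ε)⁻¹ (by positivity) ^ 2 : NNReal) : ℝ≥0∞)) ENNReal.coe_ne_top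
  have i1 := i0.mono_measure h1
  have e1 := integral_mono_measure h1 (ae_of_all _ fun z => sq_nonneg (ρ z)) i0
  rw [integral_map h.cont.aemeasurable i1.1, integral_smul_measure, ENNReal.coe_toReal,
    smul_eq_mul, NNReal.coe_pow] at e1
  exact ⟨(integrable_map_measure i1.1 h.cont.aemeasurable).1 i1, e1⟩

theorem Sr_B25.gw (h : Sr_B25 P σ) {ρ : ℂ → ℝ} (hρ : Gw P.E ρ) (h2 : MemLp ρ 2 volume) {a : ℝ}
    (ha : 0 ≤ a) : Gw P.E fun z => a * ρ (σ z) := by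
  have hc : ContinuousOn (fun z => ρ (σ z)) P.Eᶜ :=
    hρ.cont.comp h.cont.continuousOn fun z hz => h.off hz
  refine ⟨⟨continuousOn_const.mul hc, fun z => mul_nonneg ha (hρ.nn _), ?_⟩, ?_⟩
  · simp only [mul_pow]
    exact ((h.l2 h2).1.const_mul _).integrableOn
  obtain ⟨g, g2, g0, hg⟩ := hρ.sup
  have d0 := P.δ0
  obtain ⟨r, hr⟩ := isCompact_Qc.isBounded.subset_closedBall 0
  obtain ⟨p, hp⟩ := P.ne
  have hK : IsCompact (closedBall (0 : ℂ) (2 * r) ∩ {y | P.δ / 2 ≤ infDist y P.E}) :=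
    (isCompact_closedBall _ _).inter_right (isClosed_le continuous_const (continuous_infDist_pt _))
  obtain ⟨M, hM⟩ := hK.bddAbove_image (hc.mono fun y hy k => by
    have h3 : P.δ / 2 ≤ infDist y P.E := hy.2
    rw [infDist_zero_of_mem k] at h3
    linarith)
  have hQ : volume Qc ≠ ∞ := isCompact_Qc.measure_lt_top.ne
  refine ⟨fun x => a * (g x + Qc.indicator (fun _ => max M 0) x), (g2.add (memLp_indicator_const 2
    isCompact_Qc.measurableSet _ (Or.inr hQ))).const_mul a, fun x => mul_nonneg ha (add_nonneg (g0 x)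
      (indicator_nonneg (fun _ _ => le_max_right _ _) x)), fun x hx y hy => ?_⟩
  refine mul_le_mul_of_nonneg_left ?_ ha
  rw [indicator_of_mem (Q_sub hx.1)]
  have h3 := infDist_le_infDist_add_dist (x := y) (y := x) (s := P.E)
  have h4 := infDist_le_infDist_add_dist (x := x) (y := y) (s := P.E)
  have h5 : dist y x < infDist x P.E / 8 := hy
  rcases lt_or_ge (infDist x P.E) P.δ with k | k
  · rw [h.id y (by linarith)]
    exact (hg x hx y hy).trans (le_add_of_nonneg_right (le_max_right _ _))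
  · refine le_add_of_nonneg_of_le (g0 x) (le_max_of_le_left (hM ⟨y, ⟨?_, ?_⟩, rfl⟩))
    · have h6 := infDist_le_dist_of_mem (x := x) hp
      have h7 := dist_triangle_right x p 0
      have h8 : dist x 0 ≤ r := hr (Q_sub hx.1)
      have h9 : dist p 0 ≤ r := hr (Q_sub (P.dom.sub hp))
      have h10 := dist_triangle y x 0
      have h11 : 0 ≤ r := dist_nonneg.trans h8
      show dist y 0 ≤ 2 * r
      linarith
    · show P.δ / 2 ≤ infDist y P.E
      rw [dist_comm] at h4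
      linarith

end Vale.Agent.P116.K
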