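import Vale.Agent.P116.K.B25
import Vale.Agent.P116.K.Mono

/-! P116 K/B25b (helper25): the base bound. -/

open MeasureTheory Set Metric Filter Topology Complex
open scoped ENNReal

noncomputable section

namespace Vale.Agent.P116.K

open Vale.Agent.P128

variable {P : Par} {σ : ℂ → ℂ}

theorem hi_B25 (h : Sr_B25 P σ) {f : ℂ → ℝ≥0∞} {β : ℝ} (hβ : 0 < β)
    (hf : ∀ z, f z ≤ ENNReal.ofReal β) {w : TF P.E} {p : ℂ} (hp : p ∈ P.E)
    (hw : Cv P (fun z => (f (σ z)).toReal / β) w p) :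
    P.hiE f p ≠ ∞ ∧ P.loE f p ≠ ∞ ∧ w.hi p ≤ (P.hiE f p).toReal / β ∧
      (P.loE f p).toReal / β ≤ w.lo p := by
  have hid : ∀ l, ∀ x ∈ P.cl l p \ P.E, σ x = x := fun l x hx => h.id x (by
    have h1 := (mem_thickening_iff_infDist_lt P.ne).1 (P.nb_anti (Nat.zero_le l) (P.cl_sub l p hx.1))
    have h2 := P.δ0
    simp only [Nat.cast_zero, zero_add, div_one] at h1
    linarith)
  have fin : ∀ z, f z ≠ ∞ := fun z => ne_top_of_le_ne_top ENNReal.ofReal_ne_top (hf z)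
  have h1 : P.hiE f p ≠ ∞ := ne_top_of_le_ne_top ENNReal.ofReal_ne_top
    (iInf_le_of_le 0 (iSup₂_le fun x _ => hf x))
  have h2 : P.loE f p ≠ ∞ := ne_top_of_le_ne_top ENNReal.ofReal_ne_top (iSup_le fun l => by
    obtain ⟨x, hx⟩ := P.cl_ne l hp
    exact iInf₂_le_of_le x hx (hf x))
  refine ⟨h1, h2, ?_, ?_⟩
  · rw [le_div_iff₀ hβ]
    refine le_of_forall_gt_imp_ge_of_dense fun t ht => ?_
    obtain ⟨l, hl⟩ := iInf_lt_iff.1 ((ENNReal.lt_ofReal_iff_toReal_lt h1).2 ht)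
    rw [← le_div_iff₀ hβ]
    refine hw.h1 _ l fun x hx => div_le_div_of_nonneg_right ?_ hβ.le
    rw [hid l x hx]
    exact ((ENNReal.lt_ofReal_iff_toReal_lt (fin x)).1 ((le_iSup₂ (f := fun x _ => f x) x hx).trans_lt
      hl)).le
  · rw [div_le_iff₀ hβ]
    refine le_of_forall_lt_imp_le_of_dense fun t ht => ?_
    rw [← div_le_iff₀ hβ]
    rcases lt_or_ge t 0 with k | k
    · exact hw.l1 _ 0 fun x _ => div_le_div_of_nonneg_right (k.le.trans ENNReal.toReal_nonneg) hβ.le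
    obtain ⟨l, hl⟩ := lt_iSup_iff.1 ((ENNReal.ofReal_lt_iff_lt_toReal k h2).2 ht)
    refine hw.l1 _ l fun x hx => div_le_div_of_nonneg_right ?_ hβ.le
    rw [hid l x hx]
    exact ((ENNReal.ofReal_lt_iff_lt_toReal k (fin x)).1 (hl.trans_le
      (iInf₂_le (f := fun x _ => f x) x hx))).le

theorem num_B25 {ε : ℝ} (h0 : 0 < ε) (h1 : ε ≤ 1 / 100) :
    (1 + 8 * ε) * (1 - 8 * ε)⁻¹ * ((1 + ε) / (1 - ε)) ≤ 1 + 20 * ε := by
  have h2 : 0 < 1 - 8 * ε := by linarith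
  have h3 : 0 < 1 - ε := by linarith
  rw [← div_eq_mul_inv, div_mul_div_comm, div_le_iff₀ (mul_pos h2 h3)]
  nlinarith [mul_pos h0 h0, mul_pos (mul_pos h0 h0) h0, mul_le_mul_of_nonneg_left h1 h0.le]

theorem mem_B25 (d : P.Dat) (hZ : d.Z = ∅) (hν : d.ν = 0) (hβ : 0 < d.β) {f : ℂ → ℝ≥0∞}
    (hf : Par.Bar d f) (hρ : Gw P.E d.ρ) (h2 : MemLp d.ρ 2 volume) {A : List (TF P.E)} (hA : Fam A)
    (hb : ∀ i, Aux A (d.b i)) : ∃ w : TF P.E, w.V ∧ Fam (w :: A) ∧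
      w.en ≤ ((1 + 8 * P.ε) / d.β) ^ 2 * ((1 - 8 * P.ε)⁻¹ ^ 2 * ∫ z, d.ρ z ^ 2) +
        (∑' c, d.lam c ^ 2) / d.β ^ 2 := by
  obtain ⟨σ, h⟩ := exists_B25 P
  have hO : d.O = P.R := by rw [Par.Dat.O, hZ, diff_empty]
  have hL : 0 < 1 + 8 * P.ε := by linarith [P.ε0]
  have ha : 0 < (1 + 8 * P.ε) / d.β := div_pos hL hβ
  have hg := h.gw hρ h2 ha.le
  have hm := hf.maj
  rw [hO] at hm
  have v0 : ∀ z, 0 ≤ (f (σ z)).toReal / d.β := fun z => div_nonneg ENNReal.toReal_nonneg hβ.le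
  have v1 : ∀ z, (f (σ z)).toReal / d.β ≤ 1 := fun z =>
    (div_le_one hβ).2 (ENNReal.toReal_le_of_le_ofReal hβ.le (hf.le _))
  have hl : ∀ x ∈ Qc \ P.E, ∀ K, (1 + 8 * P.ε) / d.β * d.ρ (σ x) < K → ∀ᶠ y in 𝓝[Qc] x,
      |(f (σ y)).toReal / d.β - (f (σ x)).toReal / d.β| ≤ K * dist y x := fun x hx K hK => by
    filter_upwards [h.loc d.cont d.nn hm hx (K := K / ((1 + 8 * P.ε) / d.β))
      ((lt_div_iff₀' ha).2 hK)] with y hy
    rw [← sub_div, abs_div, abs_of_pos hβ, div_le_iff₀ hβ]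
    refine hy.trans_eq ?_
    field_simp
  have hM : Maj P.E Q (fun z => (f (σ z)).toReal / d.β) fun z => (1 + 8 * P.ε) / d.β * d.ρ (σ z) :=
    maj_of_loc fun x hx K hK => (hl x ⟨Q_sub hx.1, hx.2⟩ K hK).filter_mono
      (nhdsWithin_mono _ fun _ k => Q_sub k.1)
  have hc : ContinuousOn (fun z => (f (σ z)).toReal / d.β) (Qc \ P.E) := fun x hx => by
    refine ContinuousWithinAt.mono (t := Qc) ?_ diff_subset
    refine tendsto_iff_dist_tendsto_zero.2 (squeeze_zero' (Eventually.of_forall fun _ => dist_nonneg)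
      (hl x hx _ (lt_add_one _)) ?_)
    have h3 : Continuous fun y : ℂ => ((1 + 8 * P.ε) / d.β * d.ρ (σ x) + 1) * dist y x := by
      fun_prop
    simpa using h3.continuousWithinAt (s := Qc) (x := x) |>.tendsto
  obtain ⟨w, w1, w2⟩ := exists_tf P (M := 1) (fun z _ => abs_le.2 ⟨by linarith [v0 z], v1 z⟩) hc
    (hM.locLip P.dom.cpt.isClosed isOpen_Q (hg.cont.mono fun _ k => k.2))
  have hM' : Maj P.E Q w.hi fun z => (1 + 8 * P.ε) / d.β * d.ρ (σ z) := fun B b1 b2 K hK x hx y hy => by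
    rw [w1 x (b2 hx).2, w1 y (b2 hy).2]
    exact hM B b1 b2 K hK x hx y hy
  have hp := fun p (k : p ∈ P.E) => hi_B25 h hβ hf.le k (w2 p k)
  have ho : ∀ c, w.osc c ≤ d.lam c / d.β := fun c => by
    obtain ⟨k1, k2, k3, k4⟩ := hp _ c.pt_mem
    have h3 := hf.osc c (by rw [hZ]; exact notMem_empty _)
    rw [hν, Measure.coe_zero, Pi.zero_apply, add_zero] at h3
    have h4 := ENNReal.toReal_mono (ENNReal.add_ne_top.2 ⟨k2, ENNReal.ofReal_ne_top⟩) h3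
    rw [ENNReal.toReal_add k2 ENNReal.ofReal_ne_top, ENNReal.toReal_ofReal (d.l0 c)] at h4
    have h5 := div_le_div_of_nonneg_right h4 hβ.le
    rw [add_div] at h5
    rw [TF.osc]
    linarith
  obtain ⟨f1, f2⟩ := fn_of_maj P.dom hg.toWt hM' ho (by
    simp only [div_pow]
    exact d.l2.div_const _)
  have hcm : ∀ a ∈ A, a.Cmp w := fun a k => by
    have h3 := bar_cmp d hf (w := w) (hA.1 a k) hρ.l2 (fun i => (hb i).fn)
      (fun i => (hb i).cmp a k) (κ := ENNReal.ofReal d.β⁻¹) ENNReal.ofReal_ne_top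
      fun p hp' q hq => by
        obtain ⟨k1, -, k3, -⟩ := hp p hp'.1
        obtain ⟨-, k2, -, k4⟩ := hp q hq.1
        rw [← ENNReal.ofReal_toReal k1, ← ENNReal.ofReal_toReal k2,
          ← ENNReal.ofReal_sub _ ENNReal.toReal_nonneg, ← ENNReal.ofReal_mul (inv_pos.2 hβ).le]
        refine ENNReal.ofReal_le_ofReal ?_
        rw [inv_mul_eq_div, sub_div]
        linarith
    rw [hZ, diff_empty] at h3
    exact h3
  have hv : w.V := fun z hz => by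
    refine ⟨fun e => ?_, fun e => ?_⟩
    · rw [w1 z fun k => (P.dom.sub k).2.1.ne' e, hf.bot _ (hO ▸ h.map hz) (h.bot z e)]
      simp
    · rw [w1 z fun k => (P.dom.sub k).2.2.ne e, hf.top _ (hO ▸ h.map hz) (h.top z e),
        ENNReal.toReal_ofReal hβ.le, div_self hβ.ne']
  have hme : ∀ z ∈ Qc, 0 ≤ w.lo z ∧ w.hi z ≤ 1 := fun z _ => by
    by_cases k : z ∈ P.E
    · exact ⟨(w2 z k).l1 0 0 fun x _ => v0 x, (w2 z k).h1 1 0 fun x _ => v1 x⟩
    · rw [w.eq z k, w1 z k]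
      exact ⟨v0 z, v1 z⟩
  obtain ⟨s, s1, s2⟩ := exists_mono P.dom w
  have hs : Mem s := ⟨s2.fn P.dom f1, s2.mem hme, s1, _, hg, St.maj s2 hg.nn hM'⟩
  have hcs : ∀ a ∈ A, a.Cmp s := fun a k => s2.cmp_right P.dom f1 (hcm a k)
  refine ⟨s, s2.V hv, ⟨fun a k => ?_, fun a k b k' => ?_⟩, (s2.en_le P.dom f1).trans (f2.trans ?_)⟩
  · rcases List.mem_cons.1 k with rfl | k
    exacts [hs, hA.1 a k]
  · rcases List.mem_cons.1 k with rfl | k1 <;> rcases List.mem_cons.1 k' with rfl | k2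
    exacts [cmp_self _, cmp_symm (hcs b k2), hcs a k1, hA.2 a k1 b k2]
  · simp only [mul_pow, div_pow (d.lam _), tsum_div_const, integral_const_mul]
    refine add_le_add (mul_le_mul_of_nonneg_left ((setIntegral_le_integral (h.l2 h2).1
      (ae_of_all _ fun z => sq_nonneg _)).trans (h.l2 h2).2) (sq_nonneg _)) le_rfl

theorem Par.base25 (P : Par) {A : List (TF P.E)} (hA : Fam A) {c : ℝ} (hc : 0 < c)
    (h : ∀ w : TF P.E, w.V → Fam (w :: A) → 1 ≤ c ^ 2 * w.en) :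
    P.Bs A (Finsupp.single ∅ 1) (c * (1 + 20 * P.ε)) := by
  intro b hb n g lam hT η hη
  by_contra! hn
  have e0 := P.ε0
  have e1 := P.ε1
  have hN : 0 ≤ c * (1 + 20 * P.ε) * P.nv g lam := by
    have := Real.sqrt_nonneg ((∫ x, g x ^ 2) + ∑' c, lam c ^ 2)
    rw [Par.nv]
    positivity
  let d : P.Dat := ⟨b, P.ms g, lam, 0, ∅, c * (1 + 20 * P.ε) * P.nv g lam + η, fun i => (hb i).bd,
    P.ms_cont hT.g2, P.ms_nn hT.g0, hT.l0, hT.l2, inferInstance, Par.Tube.empty, by linarith⟩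
  have hβ : 0 < d.β := add_pos_of_nonneg_of_pos hN hη
  obtain ⟨f, hf⟩ := Par.exists_bar d (le_iInf fun k => le_iSup_of_le n (le_iInf₂ fun y hy =>
    le_iInf₂ fun x hx => le_iInf₂ fun l hl => le_add_right (ENNReal.ofReal_le_ofReal (by
      have h1 := hn (Finsupp.single (∅, x, l) 1) ⟨fun i => ?_, fun i hi => ?_, ?_⟩
      · rw [Par.ex, Finsupp.sum_single_index (zero_mul _), one_mul] at h1
        exact h1.le
      · classical
        rw [Finsupp.single_apply]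
        split_ifs
        exacts [zero_le_one, le_rfl]
      · rw [Finset.mem_singleton.1 (Finsupp.support_single_subset hi)]
        exact ⟨hx, y, hy, hl⟩
      · exact Finsupp.mapDomain_single))))
  obtain ⟨l1, l2⟩ := P.ms_l2 hT.g2
  obtain ⟨w, w1, w2, w3⟩ := mem_B25 d rfl rfl hβ hf (P.ms_gw hT.g2 hT.g0) l1 hA hb
  have h1 := h w w1 w2
  have g0 : 0 ≤ ∫ x, g x ^ 2 := integral_nonneg fun _ => sq_nonneg _
  have s0 : 0 ≤ ∑' c, lam c ^ 2 := tsum_nonneg fun _ => sq_nonneg _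
  have h8 : 0 < 1 - 8 * P.ε := by linarith
  have h9 : 0 < 1 - P.ε := by linarith
  have h2 := pow_le_pow_left₀ (by positivity) (num_B25 e0 e1) 2
  have h3 : w.en ≤ (1 + 20 * P.ε) ^ 2 * ((∫ x, g x ^ 2) + ∑' c, lam c ^ 2) / d.β ^ 2 := by
    refine w3.trans ?_
    have h4 : ((1 + 8 * P.ε) / d.β) ^ 2 * ((1 - 8 * P.ε)⁻¹ ^ 2 * ∫ z, d.ρ z ^ 2) ≤
        (1 + 20 * P.ε) ^ 2 * (∫ x, g x ^ 2) / d.β ^ 2 := by
      refine (mul_le_mul_of_nonneg_left (mul_le_mul_of_nonneg_left l2 (sq_nonneg _))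
        (sq_nonneg _)).trans ?_
      rw [le_div_iff₀ (pow_pos hβ 2)]
      refine le_of_eq_of_le ?_ (mul_le_mul_of_nonneg_right h2 g0)
      field_simp
    have h5 : (∑' c, d.lam c ^ 2) / d.β ^ 2 ≤ (1 + 20 * P.ε) ^ 2 * (∑' c, lam c ^ 2) / d.β ^ 2 :=
      div_le_div_of_nonneg_right (le_mul_of_one_le_left s0 (one_le_pow₀ (by linarith)))
        (sq_nonneg _)
    exact (add_le_add h4 h5).trans_eq (by ring)
  have h4 := h1.trans (mul_le_mul_of_nonneg_left h3 (sq_nonneg c))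
  rw [← mul_div_assoc, one_le_div (pow_pos hβ 2), ← Real.sq_sqrt (add_nonneg g0 s0), ← mul_pow,
    ← mul_pow, ← mul_assoc] at h4
  exact absurd h4 (not_le.2 (pow_lt_pow_left₀ (lt_add_of_pos_right _ hη) hN two_ne_zero))

end Vale.Agent.P116.K
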