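import Vale.Agent.P116.K.BarW

/-! P116 K/BarS: one step of the barrier construction. In a cluster U = cl (j+1) q with larger cluster cl j q replace f by min f g. -/

open MeasureTheory Set Metric Filter Topology Complex
open scoped ENNReal

noncomputable section

namespace Vale.Agent.P116.K

open Vale.Agent.P128

namespace Par
variable (P : Par)

variable {P}
/-- Clusters from level `j` on are inside or outside the tube. -/
def Dat.Deep (d : P.Dat) (j : ℕ) : Prop := ∀ n, j ≤ n → ∀ p ∈ P.E,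
  (p ∈ d.Z → closure (P.cl n p) ⊆ d.Z) ∧ (p ∉ d.Z → Disjoint (closure (P.cl n p)) d.Z)

/-- The slack. -/
def Dat.slk (d : P.Dat) (j : ℕ) (ε : ℝ) (q : ℂ) : ℝ≥0∞ := P.tch d.ν j (P.cl j q) +
  (⨆ (c : Cp P.E) (_ : c.1 ⊆ P.cl j q), ENNReal.ofReal (d.lam c)) + ENNReal.ofReal ε

/-- The competitor in the cluster of `q`. -/
def Dat.gg (d : P.Dat) (f : ℂ → ℝ≥0∞) (j n : ℕ) (ε : ℝ) (q y : ℂ) : ℝ≥0∞ :=
  (⨅ (p : ℂ) (_ : p ∈ P.E ∩ P.cl (j + 1) q) (x : ℂ) (_ : x ∈ P.cl n p \ P.E),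
    P.loE f p + P.D d.b d.ρ d.lam n (P.cl j q) x y) + d.slk j ε q

open Classical in
/-- The new function. -/
def Dat.stp (d : P.Dat) (f : ℂ → ℝ≥0∞) (j n : ℕ) (ε : ℝ) (y : ℂ) : ℝ≥0∞ :=
  if y ∈ P.nb (j + 1) \ d.Z then min (f y) (d.gg f j n ε y y) else f y

/-- The collar property. -/
def Dat.Col (d : P.Dat) (f : ℂ → ℝ≥0∞) (j n : ℕ) (ε : ℝ) : Prop :=
  ∀ q ∈ P.E \ d.Z, ∀ z ∈ closure (P.cl (j + 1) q) \ P.nb (j + 2), f z ≤ d.gg f j n ε q z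

theorem gg_sub (d : P.Dat) (f : ℂ → ℝ≥0∞) (j n : ℕ) (ε : ℝ) (q x y : ℂ) :
    d.gg f j n ε q y ≤ d.gg f j n ε q x + P.D d.b d.ρ d.lam n (P.cl j q) x y := by
  unfold Dat.gg
  rw [add_right_comm]
  refine add_le_add ?_ le_rfl
  simp only [ENNReal.iInf_add]
  refine iInf_mono fun p => iInf_mono fun _ => iInf_mono fun x' => iInf_mono fun _ => ?_
  rw [add_assoc]
  exact add_le_add le_rfl (D_tri d n _ x' x y)
theorem stp_le (d : P.Dat) (f : ℂ → ℝ≥0∞) (j n : ℕ) (ε : ℝ) (y : ℂ) : d.stp f j n ε y ≤ f y := by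
  unfold Dat.stp
  split_ifs
  · exact min_le_left _ _
  · exact le_rfl
theorem stp_in (d : P.Dat) (f : ℂ → ℝ≥0∞) {j : ℕ} (n : ℕ) (ε : ℝ) (hd : d.Deep j) {q y : ℂ}
    (hq : q ∈ P.E \ d.Z) (hy : y ∈ P.cl (j + 1) q) :
    d.stp f j n ε y = min (f y) (d.gg f j n ε q y) := by
  have hZ : y ∉ d.Z := fun h =>
    Set.disjoint_left.1 ((hd (j + 1) (Nat.le_succ j) q hq.1).2 hq.2) (subset_closure hy) h
  have e1 : P.cl (j + 1) y = P.cl (j + 1) q := P.cl_eq hy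
  have e2 : P.cl j y = P.cl j q := P.cl_eq (P.cl_anti (Nat.le_succ j) q hy)
  unfold Dat.stp
  rw [if_pos ⟨P.cl_sub _ _ hy, hZ⟩]
  unfold Dat.gg Dat.slk
  rw [e1, e2]
/-- If `stp` differs from `f` at `y`, then `y` lies in a cluster off the tube. -/
theorem stp_out (d : P.Dat) {f : ℂ → ℝ≥0∞} {j n : ℕ} {ε : ℝ} (hd : d.Deep j)
    (hc : d.Col f j n ε) (y : ℂ) : d.stp f j n ε y = f y ∨
      ∃ q ∈ P.E \ d.Z, y ∈ P.cl (j + 1) q ∧ y ∈ P.nb (j + 2) := by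
  by_cases hy : y ∈ P.nb (j + 1) \ d.Z
  · obtain ⟨p, hp, hyp⟩ := P.exists_cl hy.1
    have hZ : p ∉ d.Z := fun h =>
      hy.2 ((hd (j + 1) (Nat.le_succ j) p hp).1 h (subset_closure hyp))
    by_cases h2 : y ∈ P.nb (j + 2)
    · exact Or.inr ⟨p, ⟨hp, hZ⟩, hyp, h2⟩
    · left
      rw [stp_in d f n ε hd ⟨hp, hZ⟩ hyp]
      exact min_eq_left (hc p ⟨hp, hZ⟩ y ⟨subset_closure hyp, h2⟩)
  · left
    unfold Dat.stp
    rw [if_neg hy]
theorem cl_sub_O (d : P.Dat) {j : ℕ} (hd : d.Deep j) {n : ℕ} (hn : j ≤ n) {q : ℂ}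
    (hq : q ∈ P.E \ d.Z) : closure (P.cl n q) ⊆ interior d.O := by
  have ho : IsOpen (interior P.R \ d.Z) := isOpen_interior.sdiff d.tube.cpt.isClosed
  have hs : interior P.R \ d.Z ⊆ d.O := fun z hz => ⟨interior_subset hz.1, hz.2⟩
  refine Subset.trans (fun z hz => ?_) (interior_maximal hs ho)
  exact ⟨P.clos_nb_R n (closure_mono (P.cl_sub n q) hz),
    Set.disjoint_left.1 ((hd n hn q hq.1).2 hq.2) hz⟩
theorem loE_min (f g : ℂ → ℝ≥0∞) (p : ℂ) :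
    P.loE (fun x => min (f x) (g x)) p = min (P.loE f p) (P.loE g p) := by
  have hm : ∀ u : ℂ → ℝ≥0∞, Monotone fun l : ℕ => ⨅ (x : ℂ) (_ : x ∈ P.cl l p \ P.E), u x :=
    fun u l m h => le_iInf₂ fun x hx => iInf₂_le x ⟨P.cl_anti h p hx.1, hx.2⟩
  unfold loE
  have e := iSup_inf_of_monotone (hm f) (hm g)
  refine Eq.trans (iSup_congr fun l => ?_) e
  refine le_antisymm (le_inf (iInf₂_mono fun x _ => min_le_left _ _)
    (iInf₂_mono fun x _ => min_le_right _ _)) (le_iInf₂ fun x hx => ?_)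
  exact min_le_min (iInf₂_le x hx) (iInf₂_le x hx)
theorem le_BarA {f g : ℂ → ℝ≥0∞} {p : ℂ} {l : ℕ} (h : ∀ x ∈ P.cl l p \ P.E, f x ≤ g x) :
    P.loE f p ≤ P.loE g p ∧ P.hiE f p ≤ P.hiE g p := by
  constructor
  · refine iSup_le fun m => le_iSup_of_le (max m l) (le_iInf₂ fun x hx => ?_)
    exact (iInf₂_le x ⟨P.cl_anti (le_max_left _ _) p hx.1, hx.2⟩).trans
      (h x ⟨P.cl_anti (le_max_right _ _) p hx.1, hx.2⟩)
  · refine le_iInf fun m => iInf_le_of_le (max m l) (iSup₂_le fun x hx => ?_)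
    exact (h x ⟨P.cl_anti (le_max_right _ _) p hx.1, hx.2⟩).trans
      (le_iSup₂_of_le (f := fun (x : ℂ) (_ : x ∈ P.cl m p \ P.E) => g x) x
        ⟨P.cl_anti (le_max_left _ _) p hx.1, hx.2⟩ le_rfl)
theorem loE_congr {f g : ℂ → ℝ≥0∞} {p : ℂ} {l : ℕ} (h : ∀ x ∈ P.cl l p \ P.E, f x = g x) :
    P.loE f p = P.loE g p ∧ P.hiE f p = P.hiE g p := by
  exact ⟨le_antisymm (le_BarA fun x hx => (h x hx).le).1 (le_BarA fun x hx => (h x hx).ge).1,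
    le_antisymm (le_BarA fun x hx => (h x hx).le).2 (le_BarA fun x hx => (h x hx).ge).2⟩
theorem stp_low (d : P.Dat) (f : ℂ → ℝ≥0∞) {j : ℕ} (n : ℕ) (ε : ℝ) (hd : d.Deep j) {q : ℂ}
    (hq : q ∈ P.E \ d.Z) {t : ℝ≥0∞} (ht : ∀ x ∈ P.cl (j + 1) q \ P.E, t ≤ f x) :
    ∀ x ∈ P.cl (j + 1) q \ P.E, t ≤ d.stp f j n ε x := by
  intro x hx
  rw [stp_in d f n ε hd hq hx.1]
  refine le_min (ht x hx) ?_
  unfold Dat.gg
  refine le_trans (le_iInf₂ fun p hp => le_iInf₂ fun x' _ => le_trans ?_ le_self_add) le_self_add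
  refine le_iSup_of_le (j + 1) (le_iInf₂ fun z hz => ht z ⟨?_, hz.2⟩)
  rw [← P.cl_eq hp.2]
  exact hz.1

end Par

end Vale.Agent.P116.K
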