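import Vale.Agent.P116.K.BarCmp

/-! P116 K/BarAux: the barrier as an auxiliary function. Cut off: with K from Tube.deep, u z = chi z * (f z).toReal for z off Z and 0 on Z, chi z = clamp to [0,1] of an affine function of infDist z E, 1 on nb (K+2), 0 off nb (K+1). exists_tf, Cv is local (only deep clusters matter, use cl_anti and cl_ne), weight rho + L, fn_of_maj with lam + nu. -/

open MeasureTheory Set Metric Filter Topology Complex
open scoped ENNReal

noncomputable section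

namespace Vale.Agent.P116.K

open Vale.Agent.P128

theorem Cv.congr {P : Par} {u v : ℂ → ℝ} {w : TF P.E} {p : ℂ} (hp : p ∈ P.E) {l : ℕ}
    (h : ∀ x ∈ P.cl l p \ P.E, u x = v x) (hu : Cv P u w p) : Cv P v w p := by
  sorry

theorem bar_osc {P : Par} (d : P.Dat) {f : ℂ → ℝ≥0∞} (hf : Par.Bar d f) {w : TF P.E} {c : Cp P.E}
    (hc : c.pt ∉ d.Z) (hw : Cv P (fun z => (f z).toReal) w c.pt) :
    w.osc c ≤ d.lam c + (d.ν c.1).toReal := by
  sorry

theorem atoms_sq {E : Set ℂ} (hE : IsCompact E) (ν : Measure ℂ) [IsFiniteMeasure ν] :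
    Summable fun c : Cp E => (ν c.1).toReal ^ 2 := by
  sorry

theorem bar_aux {P : Par} (d : P.Dat) {f : ℂ → ℝ≥0∞} (hf : Par.Bar d f) (hρ : Wt P.E d.ρ)
    {A : List (TF P.E)} (hA : Fam A) (hb : ∀ i, Aux A (d.b i)) : ∃ (w : TF P.E) (K : ℕ),
      Aux A w ∧ (∀ z ∈ (d.O ∩ P.nb K) \ P.E, w.hi z = (f z).toReal) ∧
      ∀ c : Cp P.E, c.1 ⊆ d.O → w.osc c ≤ d.lam c + (d.ν c.1).toReal := by
  sorry

end Vale.Agent.P116.K
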