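import Vale.Agent.P116.K.BarA

/-! P116 K/BarS: one step of the barrier construction. In a cluster U = cl (j+1) q with larger cluster cl j q replace f by min f g. -/

open MeasureTheory Set Metric Filter Topology Complex
open scoped ENNReal

noncomputable section

namespace Vale.Agent.P116.K

open Vale.Agent.P128

namespace Par
variable {P : Par}

theorem cpt_BarB {X : Type} [TopologicalSpace X] {S : Set X} (hS : IsCompact S)
    {Φ : ℕ → X → Prop} (hm : ∀ n m x, n ≤ m → Φ n x → Φ m x)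
    (h : ∀ x ∈ S, ∃ n, ∀ᶠ y in 𝓝 x, Φ n y) : ∃ n, ∀ x ∈ S, Φ n x := by
  refine hS.induction_on (p := fun T => ∃ n, ∀ x ∈ T, Φ n x) ⟨0, fun _ h => h.elim⟩
    (fun s t hst ⟨n, hn⟩ => ⟨n, fun x hx => hn x (hst hx)⟩) ?_ fun x hx => ?_
  · rintro s t ⟨n, hn⟩ ⟨m, hm'⟩
    exact ⟨max n m, fun x hx => hx.elim (fun k => hm _ _ _ (le_max_left _ _) (hn x k))
      fun k => hm _ _ _ (le_max_right _ _) (hm' x k)⟩
  · obtain ⟨n, hn⟩ := h x hx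
    exact ⟨_, mem_nhdsWithin_of_mem_nhds hn, n, fun y hy => hy⟩

theorem sup_BarB {a b : ℕ → ℝ≥0∞} {s t η : ℝ≥0∞} (hs : s ≠ ∞) (hη : η ≠ 0)
    (h : s ≤ (⨆ l, a l) + t + ⨆ m, b m) : ∃ l m, s ≤ a l + t + b m + η := by
  have h1 : s < (⨆ l, a l) + t + (⨆ m, b m) + η :=
    (ENNReal.lt_add_right hs hη).trans_le (add_le_add h le_rfl)
  rw [ENNReal.iSup_add, ENNReal.iSup_add, ENNReal.iSup_add, lt_iSup_iff] at h1
  obtain ⟨l, h1⟩ := h1
  rw [ENNReal.add_iSup, ENNReal.iSup_add, lt_iSup_iff] at h1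
  obtain ⟨m, h1⟩ := h1
  exact ⟨l, m, h1.le⟩

theorem near_BarB (d : P.Dat) {K : ℕ} {f : ℂ → ℝ≥0∞} (h : Inv d K f) {U : Set ℂ} (hU : IsOpen U)
    (hO : U ⊆ d.O) {z₀ : ℂ} (hz : z₀ ∈ U \ P.E) {η : ℝ} (hη : 0 < η) (m : ℕ) :
    ∀ᶠ z in 𝓝 z₀, f z ≤ f z₀ + ENNReal.ofReal η ∧
      P.D d.b d.ρ d.lam m U z z₀ ≤ ENNReal.ofReal η := by
  have hE := P.dom.cpt.isClosed
  have h1 : ∀ᶠ z in 𝓝 z₀, d.ρ z < d.ρ z₀ + 1 :=
    (d.cont.continuousAt (hE.isOpen_compl.mem_nhds hz.2)).eventually (gt_mem_nhds (lt_add_one _))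
  obtain ⟨r, hr, h2⟩ := Metric.eventually_nhds_iff_ball.1
    (h1.and ((hU.sdiff hE).mem_nhds hz : ∀ᶠ z in 𝓝 z₀, z ∈ U \ P.E))
  have h3 : 0 < d.ρ z₀ + 1 := by linarith [d.nn z₀]
  filter_upwards [ball_mem_nhds z₀ hr, ball_mem_nhds z₀ (div_pos hη h3)] with z k1 k2
  have k3 : (d.ρ z₀ + 1) * dist z z₀ ≤ η := by
    have := (lt_div_iff₀ h3).1 (mem_ball.1 k2)
    linarith
  have k4 : segment ℝ z z₀ ⊆ ball z₀ r := (convex_ball z₀ r).segment_subset k1 (mem_ball_self hr)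
  refine ⟨?_, (D_seg d m (fun y hy => (h2 y (k4 hy)).2) fun y hy => (h2 y (k4 hy)).1.le).trans
    (ENNReal.ofReal_le_ofReal k3)⟩
  have k5 := h.maj (ball z₀ r) (convex_ball z₀ r)
    (fun y hy => ⟨hO (h2 y hy).2.1, (h2 y hy).2.2⟩) _ (fun y hy => (h2 y hy).1.le) z k1 z₀
    (mem_ball_self hr)
  have k6 : ∀ y, f y ≠ ∞ := fun y => ne_top_of_le_ne_top ENNReal.ofReal_ne_top (h.le y)
  rw [← ENNReal.ofReal_toReal (k6 z), ← ENNReal.ofReal_toReal (k6 z₀),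
    ← ENNReal.ofReal_add ENNReal.toReal_nonneg hη.le]
  refine ENNReal.ofReal_le_ofReal ?_
  linarith [(abs_le.1 k5).2]

theorem loc_BarB (d : P.Dat) {K j : ℕ} {f : ℂ → ℝ≥0∞} (h : Inv d K f) (hK : K ≤ j)
    (hd : d.Deep j) {ε : ℝ} (hε : 0 < ε) {p₀ z₀ : ℂ} (hp : p₀ ∈ P.E \ d.Z)
    (hz : z₀ ∈ P.cl j p₀ \ P.E) : ∃ n, ∀ᶠ z in 𝓝 z₀, ∀ p ∈ P.cl n p₀, ∀ x ∈ P.cl n p₀ \ P.E,
      f z ≤ P.loE f p + P.D d.b d.ρ d.lam n (P.cl j p₀) x z + d.slk j ε p₀ := by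
  have hη : 0 < ε / 4 := by linarith
  obtain ⟨l, m, h1⟩ := sup_BarB (ne_top_of_le_ne_top ENNReal.ofReal_ne_top (h.le z₀))
    (ENNReal.ofReal_pos.2 hη).ne' (h.flat j hK p₀ hp z₀ hz)
  obtain ⟨l', h2⟩ := D_tel d m j hp.1 hη
  refine ⟨max m (max l l'), ?_⟩
  filter_upwards [near_BarB d h (P.cl_open j p₀)
    ((subset_closure.trans (cl_sub_O d hd le_rfl hp)).trans interior_subset) hz hη m]
    with z hz' p k1 x k2
  have e1 : l ≤ max m (max l l') := (le_max_left _ _).trans (le_max_right _ _)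
  have e2 : l' ≤ max m (max l l') := (le_max_right _ _).trans (le_max_right _ _)
  have a1 : (⨅ (x : ℂ) (_ : x ∈ P.cl l p₀ \ P.E), f x) ≤ P.loE f p := by
    rw [← P.cl_eq (P.cl_anti e1 p₀ k1)]
    exact le_iSup (fun l => ⨅ (x : ℂ) (_ : x ∈ P.cl l p \ P.E), f x) l
  have a2 : ENNReal.ofReal (d.lam (Cp.mk p₀ hp.1)) ≤
      ⨆ (c : Cp P.E) (_ : c.1 ⊆ P.cl j p₀), ENNReal.ofReal (d.lam c) :=
    le_iSup₂_of_le (Cp.mk p₀ hp.1) (P.cmp_sub_cl j hp.1) le_rfl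
  have a3 : P.hiE (fun x => P.D d.b d.ρ d.lam m (P.cl j p₀) x z₀) p₀ ≤
      ENNReal.ofReal (d.lam (Cp.mk p₀ hp.1)) + ENNReal.ofReal (ε / 4) +
        (P.D d.b d.ρ d.lam (max m (max l l')) (P.cl j p₀) x z + ENNReal.ofReal (ε / 4)) := by
    refine (iInf_le _ l').trans (iSup₂_le fun y hy => (D_tri d m _ y x z₀).trans (add_le_add ?_ ?_))
    · exact (h2 y hy x ⟨P.cl_anti e2 p₀ k2.1, k2.2⟩).trans ENNReal.ofReal_add_le
    · exact (D_tri d m _ x z z₀).trans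
        (add_le_add (D_mono d (le_max_left _ _) Subset.rfl x z) hz'.2)
  have a4 : ENNReal.ofReal ε = ENNReal.ofReal (ε / 4) + ENNReal.ofReal (ε / 4) +
      ENNReal.ofReal (ε / 4) + ENNReal.ofReal (ε / 4) := by
    rw [← ENNReal.ofReal_add hη.le hη.le, ← ENNReal.ofReal_add (by linarith) hη.le,
      ← ENNReal.ofReal_add (by linarith) hη.le]
    congr 1
    ring
  refine hz'.1.trans ((add_le_add (h1.trans (add_le_add (add_le_add (add_le_add a1 le_rfl)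
    (a3.trans (add_le_add (add_le_add a2 le_rfl) le_rfl))) le_rfl)) le_rfl).trans (le_of_eq ?_))
  rw [Dat.slk, a4]
  ring

/-- Compactness of `(E ∩ U) × collar`: use `Inv.flat` at level `j`, `D_tel`, lower semicontinuity
of `loE f`, `Inv.maj` and `D_seg` near the collar point, monotonicity in `n`, `exists_reps`. -/
theorem exists_col (d : P.Dat) {K j : ℕ} {f : ℂ → ℝ≥0∞} (h : Inv d K f) (hK : K ≤ j)
    (hd : d.Deep j) {ε : ℝ} (hε : 0 < ε) : ∃ n, j + 2 < n ∧ d.Col f j n ε := by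
  obtain ⟨n, hn⟩ := cpt_BarB (P.dom.cpt.prod ((P.clos_nb_cpt (j + 1)).diff (P.nb_open (j + 2))))
    (Φ := fun n s => s.1 ∉ d.Z → s.2 ∈ closure (P.cl (j + 1) s.1) → ∀ x ∈ P.cl n s.1 \ P.E,
      f s.2 ≤ P.loE f s.1 + P.D d.b d.ρ d.lam n (P.cl j s.1) x s.2 + d.slk j ε s.1)
    (fun n m s hnm k k1 k2 x hx => (k k1 k2 x ⟨P.cl_anti hnm _ hx.1, hx.2⟩).trans
      (add_le_add (add_le_add le_rfl (D_mono d hnm Subset.rfl _ _)) le_rfl)) (by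
    rintro ⟨p₀, z₀⟩ ⟨hp, hz⟩
    have b1 : ∀ n, P.cl n p₀ ∈ 𝓝 p₀ := fun n => (P.cl_open n p₀).mem_nhds (P.mem_cl n hp)
    by_cases c1 : p₀ ∈ d.Z
    · refine ⟨0, ?_⟩
      filter_upwards [prod_mem_nhds (b1 j) (univ_mem (f := 𝓝 z₀))] with s hs k
      exact (k ((hd j le_rfl p₀ hp).1 c1 (subset_closure hs.1))).elim
    by_cases c2 : z₀ ∈ closure (P.cl (j + 1) p₀)
    · obtain ⟨n, hn⟩ := loc_BarB d h hK hd hε ⟨hp, c1⟩
        ⟨P.clos_cl (Nat.lt_succ_self j) hp c2, fun k => hz.2 (P.sub_nb _ k)⟩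
      refine ⟨n, ?_⟩
      filter_upwards [prod_mem_nhds (inter_mem (b1 j) (b1 n)) hn] with s hs _ _ x hx
      have e := P.cl_eq hs.1.1
      rw [P.cl_eq hs.1.2] at hx
      have k := hs.2 s.1 hs.1.2 x hx
      rw [Dat.slk] at k ⊢
      rw [e]
      exact k
    · refine ⟨0, ?_⟩
      filter_upwards [prod_mem_nhds (b1 (j + 1)) (isClosed_closure.isOpen_compl.mem_nhds c2)]
        with s hs _ k
      rw [P.cl_eq hs.1] at k
      exact (hs.2 k).elim)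
  refine ⟨max n (j + 3), lt_of_lt_of_le (Nat.lt_succ_self _) (le_max_right _ _),
    fun q hq z hz => ?_⟩
  rw [Dat.gg]
  simp only [ENNReal.iInf_add]
  refine le_iInf₂ fun p hp => le_iInf₂ fun x hx => ?_
  have e := P.cl_eq hp.2
  have e' := P.cl_eq (P.cl_anti (Nat.le_succ j) q hp.2)
  have k := hn (p, z) ⟨hp.1, closure_mono (P.cl_sub _ q) hz.1, hz.2⟩
    (fun k => Set.disjoint_left.1 ((hd (j + 1) (Nat.le_succ j) q hq.1).2 hq.2)
      (subset_closure hp.2) k) (e ▸ hz.1) x ⟨P.cl_anti (le_max_left _ _) p hx.1, hx.2⟩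
  rw [Dat.slk] at k ⊢
  rw [← e']
  exact k.trans (add_le_add (add_le_add le_rfl (D_mono d (le_max_left _ _) Subset.rfl _ _)) le_rfl)

end Par

end Vale.Agent.P116.K
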