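import Vale.Agent.P116.K.BarB

/-! P116 K/BarS: one step of the barrier construction. In a cluster U = cl (j+1) q with larger cluster cl j q replace f by min f g. -/

open MeasureTheory Set Metric Filter Topology Complex
open scoped ENNReal

noncomputable section

namespace Vale.Agent.P116.K

open Vale.Agent.P128

namespace Par
variable {P : Par}

theorem real_BarC {a b : ℝ≥0∞} {c : ℝ} (hb : b ≠ ∞) (hc : 0 ≤ c)
    (h : a ≤ b + ENNReal.ofReal c) : a.toReal - b.toReal ≤ c := by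
  have h1 := ENNReal.toReal_mono (ENNReal.add_ne_top.2 ⟨hb, ENNReal.ofReal_ne_top⟩) h
  rw [ENNReal.toReal_add hb ENNReal.ofReal_ne_top, ENNReal.toReal_ofReal hc] at h1
  linarith

theorem enn_BarC {a b : ℝ≥0∞} {c : ℝ} (ha : a ≠ ∞) (hb : b ≠ ∞)
    (h : a.toReal - b.toReal ≤ c) : a ≤ b + ENNReal.ofReal c := by
  rw [← ENNReal.ofReal_toReal ha, ← ENNReal.ofReal_toReal hb]
  exact (ENNReal.ofReal_le_ofReal (by linarith)).trans ENNReal.ofReal_add_le

theorem box_BarC (d : P.Dat) {x : ℂ} (hx : x ∈ d.O \ P.E) {L : ℝ} (hL : d.ρ x < L) {V : Set ℂ}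
    (hV : V ∈ 𝓝 x) : ∃ S ∈ 𝓝[d.O \ P.E] x, Convex ℝ S ∧ S ⊆ d.O \ P.E ∧ S ⊆ V ∧
      ∀ z ∈ S, d.ρ z ≤ L := by
  have h1 : P.Eᶜ ∈ 𝓝 x := P.dom.cpt.isClosed.isOpen_compl.mem_nhds hx.2
  have h2 : d.Zᶜ ∈ 𝓝 x := d.tube.cpt.isClosed.isOpen_compl.mem_nhds hx.1.2
  have h3 : {z | d.ρ z < L} ∈ 𝓝 x := (d.cont.continuousAt h1).eventually (gt_mem_nhds hL)
  obtain ⟨r, hr, hb⟩ := Metric.mem_nhds_iff.1 (inter_mem (inter_mem h1 h2) (inter_mem h3 hV))
  refine ⟨ball x r ∩ P.R, inter_mem (mem_nhdsWithin_of_mem_nhds (ball_mem_nhds x hr))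
    (mem_of_superset self_mem_nhdsWithin fun z hz => hz.1.1), (convex_ball x r).inter ?_,
    fun z hz => ⟨⟨hz.2, (hb hz.1).1.2⟩, (hb hz.1).1.1⟩, fun z hz => (hb hz.1).2.2,
    fun z hz => le_of_lt (hb hz.1).2.1⟩
  exact ((convex_Icc _ _).is_linear_preimage reLm.isLinear).inter
    ((convex_Icc _ _).is_linear_preimage imLm.isLinear)

theorem stp_maj (d : P.Dat) {K j n : ℕ} {f : ℂ → ℝ≥0∞} (h : Inv d K f) (hd : d.Deep j) {ε : ℝ}
    (hc : d.Col f j n ε) : Maj P.E d.O (fun z => (d.stp f j n ε z).toReal) d.ρ := by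
  have hf : ∀ z, f z ≠ ∞ := fun z => ne_top_of_le_ne_top ENNReal.ofReal_ne_top (h.le z)
  have hs : ∀ z, d.stp f j n ε z ≠ ∞ := fun z => ne_top_of_le_ne_top (hf z) (stp_le d f j n ε z)
  refine maj_of_loc fun x hx L hL => ?_
  have hL0 : 0 ≤ L := (d.nn x).trans hL.le
  by_cases hxn : x ∈ closure (P.nb (j + 2))
  · obtain ⟨q, hq, hxq⟩ := P.exists_cl (P.clos_nb (Nat.lt_succ_self (j + 1)) hxn)
    have hqZ : q ∉ d.Z := fun hz =>
      hx.1.2 ((hd (j + 1) (Nat.le_succ j) q hq).1 hz (subset_closure hxq))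
    obtain ⟨S, s1, s2, s3, s4, s5⟩ := box_BarC d hx hL ((P.cl_open (j + 1) q).mem_nhds hxq)
    have key : ∀ y ∈ S, ∀ z ∈ S,
        (d.stp f j n ε z).toReal - (d.stp f j n ε y).toReal ≤ L * dist z y := by
      intro y hy z hz
      refine real_BarC (hs y) (by positivity) ?_
      rw [stp_in d f n ε hd ⟨hq, hqZ⟩ (s4 hy), stp_in d f n ε hd ⟨hq, hqZ⟩ (s4 hz), min_add]
      refine min_le_min (enn_BarC (hf z) (hf y)
        ((le_abs_self _).trans (h.maj S s2 s3 L s5 z hz y hy))) ?_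
      refine (gg_sub d f j n ε q y z).trans (add_le_add le_rfl ?_)
      have h1 : segment ℝ y z ⊆ S := s2.segment_subset hy hz
      rw [dist_comm]
      exact D_seg d n (fun w hw => ⟨P.cl_anti (Nat.le_succ j) q (s4 (h1 hw)), (s3 (h1 hw)).2⟩)
        fun w hw => s5 w (h1 hw)
    have hxS : x ∈ S := mem_of_mem_nhdsWithin hx s1
    filter_upwards [s1] with y hy
    refine abs_sub_le_iff.2 ⟨key x hxS y hy, ?_⟩
    rw [dist_comm]
    exact key y hy x hxS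
  · obtain ⟨S, s1, s2, s3, s4, s5⟩ := box_BarC d hx hL (isClosed_closure.isOpen_compl.mem_nhds hxn)
    have key : ∀ y ∈ S, d.stp f j n ε y = f y := fun y hy =>
      (stp_out d hd hc y).resolve_right fun ⟨_, _, _, h1⟩ => s4 hy (subset_closure h1)
    have hxS : x ∈ S := mem_of_mem_nhdsWithin hx s1
    filter_upwards [s1] with y hy
    rw [key y hy, key x hxS]
    exact h.maj S s2 s3 L s5 y hy x hxS

end Par

end Vale.Agent.P116.K
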