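import Vale.Agent.P116.K.Ax26
import Vale.Agent.P116.K.Bar

/-! P116 K/BarCmp: compatibility of the barrier, from `bar_cmp` in K/Cb. -/

open MeasureTheory Set Metric Filter Topology Complex
open scoped ENNReal

noncomputable section

namespace Vale.Agent.P116.K

open Vale.Agent.P128

theorem bar_cmp2 {P : Par} (d : P.Dat) {f : ℂ → ℝ≥0∞} (hf : Par.Bar d f) (hρ : Wt P.E d.ρ)
    {a : TF P.E} (ha : Mem a) (hb : ∀ i, (d.b i).Fn ∧ a.Cmp (d.b i)) {w : TF P.E}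
    (h0 : ∀ p ∈ P.E ∩ d.Z, w.hi p = 0)
    (hw : ∀ p ∈ P.E \ d.Z, Cv P (fun z => (f z).toReal) w p) : a.Cmp w := by
  have h1 := bar_cmp d hf (w := w) ha hρ.l2 (fun i => (hb i).1) (fun i => (hb i).2)
    ENNReal.one_ne_top fun p hp q hq => by
      rw [one_mul, ENNReal.ofReal_sub _ ((hw q hq).l1 0 0 fun x _ => ENNReal.toReal_nonneg)]
      exact tsub_le_tsub (hi_Ax26 (hw p hp) hf.le fun _ => le_rfl)
        (lo_Ax26 hq.1 (hw q hq) hf.le (K := 0) fun _ _ => rfl)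
  have h3 : volume (im ⁻¹' {0}) = 0 := (Measure.quasiMeasurePreserving_snd.comp
    volume_preserving_equiv_real_prod.quasiMeasurePreserving).preimage_null (by simp)
  refine measure_mono_null ?_ (measure_union_null h3 h1)
  rintro _ ⟨z, hz, rfl⟩
  by_cases hZ : z ∈ d.Z
  · exact Or.inl (h0 z ⟨hz.1, hZ⟩)
  · exact Or.inr ⟨z, ⟨⟨hz.1, hZ⟩, hz.2⟩, rfl⟩

end Vale.Agent.P116.K
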