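import Vale.Agent.P116.K.BarC

/-! P116 K/BarS: one step of the barrier construction. In a cluster U = cl (j+1) q with larger cluster cl j q replace f by min f g. -/

open MeasureTheory Set Metric Filter Topology Complex
open scoped ENNReal

noncomputable section

namespace Vale.Agent.P116.K

open Vale.Agent.P128

namespace Par
variable {P : Par}

theorem D_le_BarD (d : P.Dat) {n m : ℕ} (hn : n ≤ m) {O O' : Set ℂ} {x y : ℂ}
    {l : List (Stp P.E)} (h : P.Chn m O x y l) (hs : K.trc x l ⊆ O') :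
    P.D d.b d.ρ d.lam n O' x y ≤ ENNReal.ofReal (cost d.b d.ρ d.lam m l) :=
  (D_mono d hn subset_rfl x y).trans (iInf₂_le l (h.restrict hs))

theorem exit_BarD (d : P.Dat) {n k : ℕ} (hk : k < n) {O : Set ℂ} {x y p : ℂ}
    {l : List (Stp P.E)} (h : P.Chn n O x y l) (hx : x ∈ P.cl k p)
    (hl : ¬ K.trc x l ⊆ P.cl k p) :
    ∃ z ∈ frontier (P.cl k p), ∃ l₁ l₂, P.Chn n O x z l₁ ∧ P.Chn n O z y l₂ ∧
      K.trc x l₁ ⊆ {z} ∪ P.cl k p ∧
      cost d.b d.ρ d.lam n l₁ + cost d.b d.ρ d.lam n l₂ = cost d.b d.ρ d.lam n l := by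
  by_cases hy : y ∈ P.cl k p
  · obtain h' | ⟨z, hz, l₁, l₂, h1, h2, -, -, -, hc⟩ := last_ChainD d hk hy l x h
    · exact (hl h').elim
    rw [(P.cl_open k p).frontier_eq] at hz
    obtain ⟨w, hw, l₃, l₄, h3, h4, h5, -, -, hc'⟩ := h1.first d hk hx hz.2
    refine ⟨w, hw, l₃, l₄ ++ l₂, h3, h4.append h2, h5, ?_⟩
    rw [cost_append, ← hc, ← hc', add_assoc]
  · obtain ⟨w, hw, l₃, l₄, h3, h4, h5, -, -, hc'⟩ := h.first d hk hx hy
    exact ⟨w, hw, l₃, l₄, h3, h4, h5, hc'⟩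

theorem frz_BarD (d : P.Dat) {K : ℕ} {f : ℂ → ℝ≥0∞} (h : Inv d K f) {O : Set ℂ} (hO : IsOpen O)
    (hs : O ⊆ d.O) (k : ℕ) {y : ℂ} (hy : y ∈ O \ P.E) {C : Set ℂ} (hC : IsCompact C)
    (hCO : C ⊆ interior d.O) (hCE : Disjoint C P.E) {t : ℝ≥0∞}
    (ht : ∀ m, ∃ z ∈ C, f z + P.D d.b d.ρ d.lam m O z y ≤ t) : f y ≤ t + P.tch d.ν k O := by
  choose z hz ht using ht
  obtain ⟨w, hw, φ, hφ, hT⟩ := hC.tendsto_subseq hz
  have hwE : w ∈ P.Eᶜ := fun h' => disjoint_left.1 hCE hw h'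
  have hE : P.Eᶜ ∈ 𝓝 w := P.dom.cpt.isClosed.isOpen_compl.mem_nhds hwE
  have h1 : ∀ᶠ v in 𝓝 w, d.ρ v < d.ρ w + 1 :=
    (d.cont.continuousAt hE).eventually_lt continuousAt_const (lt_add_one _)
  have h2 : ∀ᶠ v in 𝓝 w, v ∈ d.O := mem_interior_iff_mem_nhds.1 (hCO hw)
  obtain ⟨r, hr, hb⟩ := nhds_basis_closedBall.eventually_iff.1 (h1.and (h2.and hE))
  obtain ⟨n₀, hn₀⟩ := P.exists_nb (V := (closedBall w r)ᶜ) isClosed_closedBall.isOpen_compl
    fun v hv hv' => (hb hv').2.2 hv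
  have hB : ball w r ⊆ d.O \ P.E := fun v hv => (hb (ball_subset_closedBall hv)).2
  have h0 : P.tch d.ν (max k n₀) (ball w r) = 0 := by
    refine measure_mono_null (fun p hp => ?_) (measure_empty (μ := d.ν))
    obtain ⟨-, v, hv, hv'⟩ := hp
    exact hn₀ (subset_closure (P.nb_anti (le_max_right _ _) (P.cl_sub _ _ hv)))
      (ball_subset_closedBall hv')
  have hwB : w ∈ ball w r := mem_ball_self hr
  have hseg : ∀ {O' : Set ℂ}, ball w r ⊆ O' → ∀ m, ∀ u ∈ ball w r, ∀ v ∈ ball w r,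
      P.D d.b d.ρ d.lam m O' u v ≤ ENNReal.ofReal ((d.ρ w + 1) * dist u v) := by
    intro O' hO' m u hu v hv
    have := (convex_ball w r).segment_subset hu hv
    exact D_seg d m (fun a ha => ⟨hO' (this ha), (hB (this ha)).2⟩)
      fun a ha => (hb (ball_subset_closedBall (this ha))).1.le
  have h3 := h.sub (O ∪ ball w r) (hO.union isOpen_ball)
    (union_subset hs fun v hv => (hB hv).1) (max k n₀) w ⟨Or.inr hwB, hwE⟩ y ⟨Or.inl hy.1, hy.2⟩
  refine h3.trans (add_le_add ?_ ?_)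
  · rw [Dat.Di, ENNReal.add_iSup]
    refine iSup_le fun m => ?_
    have h4 : Tendsto (fun i => ENNReal.ofReal ((d.ρ w + 1) * dist (z (φ i)) w)) atTop (𝓝 0) := by
      have := ENNReal.tendsto_ofReal
        ((tendsto_iff_dist_tendsto_zero.1 hT).const_mul (d.ρ w + 1))
      simpa using this
    have h5 := (h4.add h4).const_add t
    rw [add_zero, add_zero] at h5
    refine ge_of_tendsto h5 ?_
    filter_upwards [hT.eventually (ball_mem_nhds w hr), eventually_ge_atTop m] with i hi hm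
    have hi : z (φ i) ∈ ball w r := hi
    have h6 := h.sub (ball w r) isOpen_ball (fun v hv => (hB hv).1) (max k n₀) _
      ⟨hi, (hB hi).2⟩ w ⟨hwB, hwE⟩
    rw [h0, add_zero] at h6
    have h7 : d.Di (ball w r) (z (φ i)) w ≤ ENNReal.ofReal ((d.ρ w + 1) * dist (z (φ i)) w) :=
      iSup_le fun m' => hseg subset_rfl m' _ hi _ hwB
    have h8 := hseg (O' := O ∪ ball w r) subset_union_right m _ hwB _ hi
    rw [dist_comm] at h8
    have h9 := (D_tri d m (O ∪ ball w r) w (z (φ i)) y).trans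
      (add_le_add h8 (D_mono d (hm.trans (hφ.id_le i)) subset_union_left _ _))
    refine (add_le_add (h6.trans (add_le_add le_rfl h7)) h9).trans ?_
    refine le_trans (le_of_eq ?_) (add_le_add (ht (φ i)) le_rfl)
    ring
  · refine (tch_union _ _ _ _).trans ?_
    rw [h0, add_zero]
    exact tch_anti _ (le_max_left _ _) subset_rfl

/-- If `stp x = g x`, take almost optimal chains of level `m → ∞` in `O`; those leaving `U` have a
first exit `z m` on the frontier (`Chn.first`), `f (z m) ≤ g (z m)`; freeze `z m → z`, add a small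
disc at `z` to `O` (no charge at deep levels, `tch_anti`) and use `Inv.sub` from `z`. -/
theorem stp_sub (d : P.Dat) {K j n : ℕ} {f : ℂ → ℝ≥0∞} (h : Inv d K f) (hd : d.Deep j) {ε : ℝ}
    (hc : d.Col f j n ε) {O : Set ℂ} (hO : IsOpen O) (hs : O ⊆ d.O) (k : ℕ) {x y : ℂ}
    (hx : x ∈ O \ P.E) (hy : y ∈ O \ P.E) :
    d.stp f j n ε y ≤ d.stp f j n ε x + d.Di O x y + P.tch d.ν k O := by
  by_cases hxf : d.stp f j n ε x = f x
  · rw [hxf]
    exact (stp_le d f j n ε y).trans (h.sub O hO hs k x hx y hy)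
  obtain ⟨q, hq, hxq, -⟩ := (stp_out d hd hc x).resolve_left hxf
  have hg : d.stp f j n ε x = d.gg f j n ε q x := by
    rw [stp_in d f n ε hd hq hxq] at hxf ⊢
    exact (min_choice _ _).resolve_left hxf
  rw [hg]
  refine ENNReal.le_of_forall_pos_le_add fun η hη hfin => ?_
  have hD : d.Di O x y ≠ ∞ := fun e => by simp [e] at hfin
  have hch : ∀ m, ∃ l, P.Chn m O x y l ∧
      ENNReal.ofReal (cost d.b d.ρ d.lam m l) < d.Di O x y + η := fun m => by
    have h1 : P.D d.b d.ρ d.lam m O x y < d.Di O x y + η :=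
      (le_iSup (fun m => P.D d.b d.ρ d.lam m O x y) m).trans_lt
        (ENNReal.lt_add_right hD (by exact_mod_cast hη.ne'))
    simpa only [Par.D, iInf_lt_iff, exists_prop] using h1
  choose l hl hlc using hch
  have hU : closure (P.cl (j + 1) q) ⊆ P.cl j q := P.clos_cl (Nat.lt_succ_self j) hq.1
  by_cases H : ∃ m, n ≤ m ∧ trc x (l m) ⊆ P.cl (j + 1) q
  · obtain ⟨m, hm, H⟩ := H
    rw [stp_in d f n ε hd hq (H (hl m).tgt.2)]
    refine (min_le_right _ _).trans ((gg_sub d f j n ε q x y).trans ?_)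
    have h1 := (D_le_BarD d hm (hl m) (H.trans (subset_closure.trans hU))).trans (hlc m).le
    refine (add_le_add le_rfl h1).trans ?_
    rw [← add_assoc]
    exact add_le_add le_self_add le_rfl
  refine (stp_le d f j n ε y).trans ?_
  have hfc := frontier_subset_closure (s := P.cl (j + 1) q)
  refine (frz_BarD d h hO hs k hy (C := frontier (P.cl (j + 1) q))
    ((P.clos_nb_cpt _).of_isClosed_subset isClosed_frontier
      (hfc.trans (closure_mono (P.cl_sub _ _))))
    (hfc.trans (cl_sub_O d hd (Nat.le_succ j) hq)) (P.fr_cl_disj _ _)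
    (t := d.gg f j n ε q x + (d.Di O x y + η)) fun m => ?_).trans (le_of_eq (by ring))
  set M := max m (max n (j + 2)) with hM
  have hn : n ≤ M := (le_max_left _ _).trans (le_max_right _ _)
  have hj : j + 2 ≤ M := (le_max_right _ _).trans (le_max_right _ _)
  obtain ⟨z, hz, l₁, l₂, h1, h2, h3, h4⟩ := exit_BarD d hj (hl M) hxq fun h' => H ⟨M, hn, h'⟩
  refine ⟨z, hz, ?_⟩
  have hz' : z ∉ P.nb (j + 2) := fun h' => by
    obtain ⟨p, -, hp⟩ := P.exists_cl (P.nb_anti (Nat.le_succ (j + 1)) h')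
    rw [meet_CluD hp (hfc hz)] at hp
    rw [(P.cl_open _ _).frontier_eq] at hz
    exact hz.2 hp
  have h5 := (hc q hq z ⟨hfc hz, hz'⟩).trans ((gg_sub d f j n ε q x z).trans (add_le_add le_rfl
    (D_le_BarD d hn h1 (h3.trans (union_subset (singleton_subset_iff.2 (hU (hfc hz)))
      (subset_closure.trans hU))))))
  have h6 := D_le_BarD d (le_max_left m _) h2 h2.trc.1
  refine (add_le_add h5 h6).trans ?_
  rw [add_assoc, ← ENNReal.ofReal_add (cost_nn d h1.2.2) (cost_nn d h2.2.2), h4]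
  exact add_le_add le_rfl (hlc M).le

end Par

end Vale.Agent.P116.K
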