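import Vale.Agent.P116.K.BarD

/-! P116 K/BarS: one step of the barrier construction. In a cluster U = cl (j+1) q with larger cluster cl j q replace f by min f g. -/

open MeasureTheory Set Metric Filter Topology Complex
open scoped ENNReal

noncomputable section

namespace Vale.Agent.P116.K

open Vale.Agent.P128

namespace Par
variable {P : Par}

theorem add_BarE {u v : ℂ → ℝ≥0∞} {a : ℝ≥0∞} (p : ℂ) (h : ∀ x, a ≤ u x + v x) :
    a ≤ P.loE u p + P.hiE v p := by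
  rw [hiE, ENNReal.add_iInf]
  refine le_iInf fun l => le_trans ?_ (add_le_add_left
    (le_iSup (fun l => ⨅ (x : ℂ) (_ : x ∈ P.cl l p \ P.E), u x) l) _)
  simp only [ENNReal.iInf_add]
  exact le_iInf₂ fun x hx => (h x).trans (add_le_add_right
    (le_iSup₂ (f := fun (x : ℂ) (_ : x ∈ P.cl l p \ P.E) => v x) x hx) _)

theorem lo_BarE (d : P.Dat) {j : ℕ} (n : ℕ) (f : ℂ → ℝ≥0∞) (hd : d.Deep j) (ε : ℝ) {p : ℂ}
    (hp : p ∈ P.E \ d.Z) :
    P.loE (d.stp f j n ε) p = min (P.loE f p) (P.loE (d.gg f j n ε p) p) :=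
  (loE_congr fun _ hx => stp_in d f n ε hd hp hx.1).1.trans (loE_min _ _ p)

theorem self_BarE (d : P.Dat) (n : ℕ) {O : Set ℂ} {y : ℂ} (hy : y ∈ O \ P.E) :
    P.D d.b d.ρ d.lam n O y y = 0 :=
  le_antisymm ((iInf₂_le [] ⟨hy, rfl, by simp⟩).trans (by simp [cost, hopn])) zero_le

theorem stp_flat (d : P.Dat) {K j n : ℕ} {f : ℂ → ℝ≥0∞} (h : Inv d K f) (hK : K ≤ j)
    (hd : d.Deep j) (ε : ℝ) {k : ℕ} (hk : j + 1 ≤ k) {p y : ℂ} (hp : p ∈ P.E \ d.Z)
    (hy : y ∈ P.cl k p \ P.E) : d.stp f j n ε y ≤ P.loE (d.stp f j n ε) p +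
      P.tch d.ν k (P.cl k p) + ⨆ m, P.hiE (fun x => P.D d.b d.ρ d.lam m (P.cl k p) x y) p := by
  rw [lo_BarE d n f hd ε hp, stp_in d f n ε hd hp (P.cl_anti hk p hy.1)]
  rcases le_total (P.loE f p) (P.loE (d.gg f j n ε p) p) with e | e
  · rw [min_eq_left e]
    exact (min_le_left _ _).trans (h.flat k (by omega) p hp y hy)
  · rw [min_eq_right e]
    refine (min_le_right _ _).trans ((add_BarE (P := P)
      (v := fun x => P.D d.b d.ρ d.lam n (P.cl k p) x y) p fun x => (gg_sub d f j n ε p x y).trans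
        (add_le_add_right (D_mono d le_rfl (P.cl_anti (by omega) p) x y) _)).trans ?_)
    exact add_le_add le_self_add
      (le_iSup (fun m => P.hiE (fun x => P.D d.b d.ρ d.lam m (P.cl k p) x y) p) n)

theorem stp_osc (d : P.Dat) {j n : ℕ} (f : ℂ → ℝ≥0∞) (hd : d.Deep j) (ε : ℝ) {p : ℂ}
    (hp : p ∈ P.E \ d.Z) :
    P.hiE (d.stp f j n ε) p ≤ P.loE (d.stp f j n ε) p + d.slk j ε p := by
  have key : ∀ (l : ℕ) (a : ℝ≥0∞), (∀ y ∈ P.cl l p \ P.E, y ∈ P.cl j p → d.gg f j n ε p y ≤ a) →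
      P.hiE (d.stp f j n ε) p ≤ a := fun l a h =>
    iInf_le_of_le (max l (j + 1)) (iSup₂_le fun y hy => by
      have h1 := P.cl_anti (le_max_right l (j + 1)) p hy.1
      rw [stp_in d f n ε hd hp h1]
      exact (min_le_right _ _).trans (h y ⟨P.cl_anti (le_max_left _ _) p hy.1, hy.2⟩
        (P.cl_anti j.le_succ p h1)))
  rw [lo_BarE d n f hd ε hp]
  rcases le_total (P.loE f p) (P.loE (d.gg f j n ε p) p) with e | e
  · rw [min_eq_left e]
    refine key n _ fun y hy hy' => add_le_add_left ?_ _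
    refine (iInf₂_le_of_le p ⟨hp.1, P.mem_cl _ hp.1⟩ (iInf₂_le y hy)).trans ?_
    rw [self_BarE d n ⟨hy', hy.2⟩, add_zero]
  · rw [min_eq_right e]
    refine ENNReal.le_of_forall_pos_le_add fun η hη _ => ?_
    obtain ⟨l, hl⟩ := D_tel d n j hp.1 (η := η) hη
    refine key l _ fun y hy _ => ?_
    have h1 : d.gg f j n ε p y ≤ (⨅ (x : ℂ) (_ : x ∈ P.cl l p \ P.E), d.gg f j n ε p x) +
        ENNReal.ofReal (d.lam (Cp.mk p hp.1) + η) := by
      simp only [ENNReal.iInf_add]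
      exact le_iInf₂ fun x hx => (gg_sub d f j n ε p x y).trans (add_le_add_right (hl x hx y hy) _)
    rw [add_assoc]
    refine h1.trans (add_le_add
      (le_iSup (fun l => ⨅ (x : ℂ) (_ : x ∈ P.cl l p \ P.E), d.gg f j n ε p x) l)
      (ENNReal.ofReal_add_le.trans (add_le_add ?_ ENNReal.ofReal_coe_nnreal.le)))
    exact ((le_iSup₂ (f := fun (c : Cp P.E) (_ : c.1 ⊆ P.cl j p) => ENNReal.ofReal (d.lam c))
      (Cp.mk p hp.1) (P.cmp_sub_cl j hp.1)).trans le_add_self).trans le_self_add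

end Par

end Vale.Agent.P116.K
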