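import Vale.Agent.P116.K.BarE

/-! P116 K/BarS: one step of the barrier construction. In a cluster U = cl (j+1) q with larger cluster cl j q replace f by min f g. -/

open MeasureTheory Set Metric Filter Topology Complex
open scoped ENNReal

noncomputable section

namespace Vale.Agent.P116.K

open Vale.Agent.P128

namespace Par
variable {P : Par}

theorem cpt_BarF (d : P.Dat) {j : ℕ} (hd : d.Deep j) : IsCompact (P.E \ d.Z) := by
  have e : P.E \ d.Z = P.E \ ⋃ p ∈ P.E ∩ d.Z, P.cl j p := by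
    ext z
    constructor
    · rintro ⟨h1, h2⟩
      refine ⟨h1, fun h => h2 ?_⟩
      obtain ⟨p, hp, hz⟩ := mem_iUnion₂.1 h
      exact (hd j le_rfl p hp.1).1 hp.2 (subset_closure hz)
    · rintro ⟨h1, h2⟩
      exact ⟨h1, fun h => h2 (mem_iUnion₂.2 ⟨z, ⟨h1, h⟩, P.mem_cl j h1⟩)⟩
  rw [e]
  exact P.dom.cpt.diff (isOpen_biUnion fun p _ => P.cl_open j p)

theorem hi_BarF {f : ℂ → ℝ≥0∞} {B e : ℝ≥0∞} (hB : B ≠ ∞) (he : e ≠ 0) (hf : ∀ z, f z ≤ B)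
    (p : ℂ) : ∃ l, ∀ y ∈ P.cl l p \ P.E, f y ≤ P.hiE f p + e := by
  have h1 : P.hiE f p ≠ ∞ :=
    ne_top_of_le_ne_top hB ((iInf_le _ 0).trans (iSup₂_le fun x _ => hf x))
  obtain ⟨l, hl⟩ := iInf_lt_iff.1 (ENNReal.lt_add_right h1 he)
  exact ⟨l, fun y hy => (le_iSup₂ (f := fun x (_ : x ∈ P.cl l p \ P.E) => f x) y hy).trans hl.le⟩

theorem lo_BarF {f : ℂ → ℝ≥0∞} {B e : ℝ≥0∞} (hB : B ≠ ∞) (he : e ≠ 0) (hf : ∀ z, f z ≤ B)
    {p : ℂ} (hp : p ∈ P.E) : ∃ l, ∀ x ∈ P.cl l p \ P.E, P.loE f p ≤ f x + e := by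
  have h1 : P.loE f p ≠ ∞ := by
    refine ne_top_of_le_ne_top hB (iSup_le fun l => ?_)
    obtain ⟨x, hx⟩ := P.cl_ne l hp
    exact (iInf₂_le x hx).trans (hf x)
  by_contra hc
  refine (ENNReal.lt_add_right h1 he).not_ge ?_
  have h2 : P.loE f p + e = ⨆ l : ℕ, ((⨅ (x : ℂ) (_ : x ∈ P.cl l p \ P.E), f x) + e) :=
    ENNReal.iSup_add _
  rw [h2]
  refine iSup_le fun l => ?_
  by_contra h3
  exact hc ⟨l, fun x hx => (not_le.1 h3).le.trans (add_le_add (iInf₂_le x hx) le_rfl)⟩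

/-- From pointwise to uniform oscillation, by compactness of `E \ Z`. -/
theorem osc_level (d : P.Dat) {j : ℕ} (hd : d.Deep j) {f : ℂ → ℝ≥0∞} {ε : ℝ}
    (hf : ∀ z, f z ≤ ENNReal.ofReal d.β)
    (hε : 0 < ε) (h : ∀ p ∈ P.E \ d.Z, P.hiE f p ≤ P.loE f p + d.slk j ε p) : ∃ j', j < j' ∧
      ∀ p ∈ P.E \ d.Z, ∀ x ∈ P.cl j' p \ P.E, ∀ y ∈ P.cl j' p \ P.E,
        f y ≤ f x + d.slk j (2 * ε) p := by
  have he : ENNReal.ofReal (ε / 2) ≠ 0 := (ENNReal.ofReal_pos.2 (half_pos hε)).ne'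
  have key : ∀ p ∈ P.E \ d.Z, ∃ l, j ≤ l ∧ ∀ x ∈ P.cl l p \ P.E, ∀ y ∈ P.cl l p \ P.E,
      f y ≤ f x + d.slk j (2 * ε) p := by
    intro p hp
    obtain ⟨l₁, h1⟩ := hi_BarF (P := P) ENNReal.ofReal_ne_top he hf p
    obtain ⟨l₂, h2⟩ := lo_BarF ENNReal.ofReal_ne_top he hf hp.1
    refine ⟨j + l₁ + l₂, by omega, fun x hx y hy => ?_⟩
    have h3 := h1 y ⟨P.cl_anti (by omega) p hy.1, hy.2⟩
    have h4 := h2 x ⟨P.cl_anti (by omega) p hx.1, hx.2⟩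
    have h5 : d.slk j (2 * ε) p =
        ENNReal.ofReal (ε / 2) + d.slk j ε p + ENNReal.ofReal (ε / 2) := by
      have e : 2 * ε = ε / 2 + ε + ε / 2 := by ring
      unfold Dat.slk
      rw [e, ENNReal.ofReal_add (by positivity) (by positivity),
        ENNReal.ofReal_add (by positivity) hε.le]
      ring
    refine h3.trans ((add_le_add ((h p hp).trans (add_le_add h4 le_rfl)) le_rfl).trans_eq ?_)
    rw [h5]
    ring
  choose! l hl using key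
  obtain ⟨t, ht, cov⟩ := (cpt_BarF d hd).elim_nhds_subcover (fun p => P.cl (l p) p)
    fun p hp => (P.cl_open _ _).mem_nhds (P.mem_cl _ hp.1)
  refine ⟨j + 1 + t.sup l, by omega, fun p hp x hx y hy => ?_⟩
  obtain ⟨q, hq, hpq⟩ := mem_iUnion₂.1 (cov hp)
  have h1 : l q ≤ t.sup l := Finset.le_sup hq
  have h2 : P.cl (j + 1 + t.sup l) p ⊆ P.cl (l q) q := by
    rw [← P.cl_eq hpq]
    exact P.cl_anti (by omega) p
  have h3 : d.slk j (2 * ε) p = d.slk j (2 * ε) q := by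
    unfold Dat.slk
    rw [P.cl_eq (P.cl_anti (hl q (ht q hq)).1 q hpq)]
  rw [h3]
  exact (hl q (ht q hq)).2 x ⟨h2 hx.1, hx.2⟩ y ⟨h2 hy.1, hy.2⟩

/-- The slack tends to the mass plus the price. -/
theorem slk_lim (d : P.Dat) (c : Cp P.E) {η : ℝ} (hη : 0 < η) : ∃ j₀, ∀ j, j₀ ≤ j → ∀ ε ≤ η,
    d.slk j ε c.pt ≤ ENNReal.ofReal (d.lam c) + d.ν c.1 + ENNReal.ofReal (3 * η) := by
  have := d.fin
  have he : ENNReal.ofReal η ≠ 0 := (ENNReal.ofReal_pos.2 hη).ne'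
  have h1 : ∀ᶠ j in atTop, d.ν (P.E ∩ P.cl j c.pt) < d.ν c.1 + ENNReal.ofReal η := by
    refine (P.tch_tendsto d.ν c.pt_mem).eventually (gt_mem_nhds ?_)
    rw [← c.eq]
    exact ENNReal.lt_add_right (measure_ne_top _ _) he
  have h2 : {c' : Cp P.E | ¬ d.lam c' ^ 2 < η ^ 2}.Finite :=
    d.l2.tendsto_cofinite_zero.eventually (gt_mem_nhds (pow_pos hη 2))
  have h3 : ∀ᶠ j in atTop, ∀ c' ∈ {c' : Cp P.E | ¬ d.lam c' ^ 2 < η ^ 2},
      c'.1 ⊆ P.cl j c.pt → c' = c := by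
    refine (eventually_all_finite h2).2 fun c' _ => ?_
    by_cases e : c' = c
    · exact Eventually.of_forall fun _ _ => e
    · have h4 : c'.pt ∉ ⋂ n, P.cl n c.pt := by
        rw [P.iInter_cl c.pt_mem, ← c.eq]
        exact fun h => e (Cp.ext_mem c'.pt_in h)
      obtain ⟨n, hn⟩ := not_forall.1 fun h => h4 (mem_iInter.2 h)
      filter_upwards [eventually_ge_atTop n] with j hj hs
      exact absurd (P.cl_anti hj _ (hs c'.pt_in)) hn
  obtain ⟨j₀, H⟩ := eventually_atTop.1 (h1.and h3)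
  refine ⟨j₀, fun j hj ε hε => ?_⟩
  obtain ⟨h4, h5⟩ := H j hj
  have h6 : (⨆ (c' : Cp P.E) (_ : c'.1 ⊆ P.cl j c.pt), ENNReal.ofReal (d.lam c')) ≤
      ENNReal.ofReal (d.lam c) + ENNReal.ofReal η := by
    refine iSup₂_le fun c' hc' => ?_
    by_cases e : d.lam c' ^ 2 < η ^ 2
    · exact (ENNReal.ofReal_le_ofReal (lt_of_pow_lt_pow_left₀ 2 hη.le e).le).trans le_add_self
    · rw [h5 c' e hc']
      exact le_self_add
  unfold Dat.slk
  rw [P.tch_cl d.ν le_rfl]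
  refine (add_le_add (add_le_add h4.le h6) (ENNReal.ofReal_le_ofReal hε)).trans_eq ?_
  have e : 3 * η = η + η + η := by ring
  rw [e, ENNReal.ofReal_add (by positivity) hη.le, ENNReal.ofReal_add hη.le hη.le]
  ring

end Par

end Vale.Agent.P116.K
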