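import Vale.Agent.P116.K.BarF

/-! P116 K/BarS: one step of the barrier construction. In a cluster U = cl (j+1) q with larger cluster cl j q replace f by min f g. -/

open MeasureTheory Set Metric Filter Topology Complex
open scoped ENNReal

noncomputable section

namespace Vale.Agent.P116.K

open Vale.Agent.P128

namespace Par
variable {P : Par}

/-- One step, all together (`stp` with `ε / 2`; `stp_out`, `stp_low` for the lower bounds). -/
theorem bar_step (d : P.Dat) {j : ℕ} {f : ℂ → ℝ≥0∞} (h : Inv d j f) (hd : d.Deep j) {ε : ℝ}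
    (hε : 0 < ε) : ∃ (j' : ℕ) (f' : ℂ → ℝ≥0∞), j < j' ∧ Inv d j' f' ∧ (∀ z, f' z ≤ f z) ∧
      (∀ z, z ∉ P.nb 0 → f' z = f z) ∧
      (∀ i, i ≤ j + 1 → ∀ p t, (∀ x ∈ P.cl i p \ P.E, t ≤ f x) →
        ∀ x ∈ P.cl i p \ P.E, t ≤ f' x) ∧
      ∀ p ∈ P.E \ d.Z, ∀ x ∈ P.cl j' p \ P.E, ∀ y ∈ P.cl j' p \ P.E,
        f' y ≤ f' x + d.slk j ε p := by
  obtain ⟨n, -, hc⟩ := exists_col d h le_rfl hd (half_pos hε)
  have hf : ∀ z, d.stp f j n (ε / 2) z ≤ ENNReal.ofReal d.β := fun z =>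
    (stp_le d f j n _ z).trans (h.le z)
  obtain ⟨j', hj, ho⟩ := osc_level d hd hf (half_pos hε) fun p hp => stp_osc d f hd _ hp
  rw [mul_div_cancel₀ ε two_ne_zero] at ho
  refine ⟨j', d.stp f j n (ε / 2), hj, ⟨hf, stp_maj d h hd hc,
    fun O hO hs k x hx y hy => stp_sub d h hd hc hO hs k hx hy,
    fun k hk p hp y hy => stp_flat d h le_rfl hd _ (by omega) hp hy⟩, stp_le d f j n _,
    fun z hz => ?_, fun i hi p t ht x hx => ?_, ho⟩
  · rcases stp_out d hd hc z with e | ⟨q, -, -, h2⟩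
    · exact e
    · exact absurd (P.nb_anti (Nat.zero_le _) h2) hz
  · rcases stp_out d hd hc x with e | ⟨q, hq, h1, -⟩
    · exact e ▸ ht x hx
    · have h3 : P.cl (j + 1) q ⊆ P.cl i p := by
        rw [← P.cl_eq h1, ← P.cl_eq hx.1]
        exact P.cl_anti hi x
      exact stp_low d f n _ hd hq (fun y hy => ht y ⟨h3 hy.1, hy.2⟩) x ⟨h1, hx.2⟩

theorem seq_BarG (d : P.Dat) : ∃ (j : ℕ → ℕ) (f : ℕ → ℂ → ℝ≥0∞), f 0 = d.f0 ∧
    (∀ m, Inv d (j m) (f m)) ∧ ∀ m, j m < j (m + 1) ∧ (∀ z, f (m + 1) z ≤ f m z) ∧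
      (∀ z, z ∉ P.nb 0 → f (m + 1) z = f m z) ∧
      (∀ i, i ≤ j m + 1 → ∀ p t, (∀ x ∈ P.cl i p \ P.E, t ≤ f m x) →
        ∀ x ∈ P.cl i p \ P.E, t ≤ f (m + 1) x) ∧
      ∀ p ∈ P.E \ d.Z, ∀ x ∈ P.cl (j (m + 1)) p \ P.E, ∀ y ∈ P.cl (j (m + 1)) p \ P.E,
        f (m + 1) y ≤ f (m + 1) x + d.slk (j m) (1 / ((m : ℝ) + 1)) p := by
  obtain ⟨K, hK⟩ := f0_flat d
  obtain ⟨K', hK'⟩ := d.tube.deep
  have h0 : Inv d (max K K') d.f0 ∧ d.Deep (max K K') :=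
    ⟨⟨fun z => min_le_right _ _, f0_maj d, fun O _ hs k x _ y _ => f0_sub d hs k x y,
      fun k hk => hK k (le_of_max_le_left hk)⟩, fun n hn => hK' n (le_of_max_le_right hn)⟩
  have st : ∀ (m : ℕ) (a : {q : ℕ × (ℂ → ℝ≥0∞) // Inv d q.1 q.2 ∧ d.Deep q.1}),
      ∃ a' : {q : ℕ × (ℂ → ℝ≥0∞) // Inv d q.1 q.2 ∧ d.Deep q.1}, a.1.1 < a'.1.1 ∧
      (∀ z, a'.1.2 z ≤ a.1.2 z) ∧ (∀ z, z ∉ P.nb 0 → a'.1.2 z = a.1.2 z) ∧
      (∀ i, i ≤ a.1.1 + 1 → ∀ p t, (∀ x ∈ P.cl i p \ P.E, t ≤ a.1.2 x) →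
        ∀ x ∈ P.cl i p \ P.E, t ≤ a'.1.2 x) ∧
      ∀ p ∈ P.E \ d.Z, ∀ x ∈ P.cl a'.1.1 p \ P.E, ∀ y ∈ P.cl a'.1.1 p \ P.E,
        a'.1.2 y ≤ a'.1.2 x + d.slk a.1.1 (1 / ((m : ℝ) + 1)) p := by
    intro m a
    obtain ⟨j', f', h1, h2, h3⟩ := bar_step d a.2.1 a.2.2 (Nat.one_div_pos_of_nat (n := m))
    exact ⟨⟨(j', f'), h2, fun n hn => a.2.2 n (h1.le.trans hn)⟩, h1, h3⟩
  choose F hF using st
  let s : ℕ → {q : ℕ × (ℂ → ℝ≥0∞) // Inv d q.1 q.2 ∧ d.Deep q.1} := fun m =>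
    Nat.rec ⟨(max K K', d.f0), h0⟩ F m
  exact ⟨fun m => (s m).1.1, fun m => (s m).1.2, rfl, fun m => (s m).2.1, fun m => hF m (s m)⟩

/-- Iterate `bar_step` from `f0` and take the infimum; lower bounds on clusters persist. -/
theorem exists_bar (d : P.Dat)
    (hβ : ENNReal.ofReal d.β ≤ ⨅ k, ⨆ n, P.val d.b d.ρ d.lam d.ν d.Z n k) : ∃ f, Bar d f := by
  obtain ⟨j, f, f0, hI, hs⟩ := seq_BarG d
  have hj : StrictMono j := strictMono_nat_of_lt_succ fun m => (hs m).1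
  have ha : ∀ z, Antitone fun m => f m z := fun z =>
    antitone_nat_of_succ_le fun m => (hs m).2.1 z
  have hle : ∀ z, ⨅ m, f m z ≤ ENNReal.ofReal d.β := fun z => iInf_le_of_le 0 ((hI 0).le z)
  have ht : ∀ z, Tendsto (fun m => (f m z).toReal) atTop (𝓝 (⨅ m, f m z).toReal) := fun z =>
    (ENNReal.tendsto_toReal (ne_top_of_le_ne_top ENNReal.ofReal_ne_top (hle z))).comp
      (tendsto_atTop_iInf (ha z))
  refine ⟨fun z => ⨅ m, f m z, hle, fun B hB hs' K hK x hx y hy => ?_,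
    fun O hO hs' k x hx y hy => ?_, fun z hz h => ?_, fun z hz h => ?_, fun c hc => ?_⟩
  · exact le_of_tendsto' ((ht x).sub (ht y)).abs fun m => (hI m).maj B hB hs' K hK x hx y hy
  · rw [ENNReal.iInf_add, ENNReal.iInf_add]
    exact le_iInf fun m => iInf_le_of_le m ((hI m).sub O hO hs' k x hx y hy)
  · refine le_antisymm (iInf_le_of_le 0 ?_) bot_le
    rw [f0, f0_bot d hz h]
  · have h1 : z ∉ P.nb 0 := fun h2 => by
      have h3 := (P.clos_nb_sub 0 (subset_closure h2)).2.2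
      have := P.δ0
      linarith
    have h2 : ∀ m, f m z = ENNReal.ofReal d.β := fun m => by
      induction m with
      | zero => rw [f0, f0_top d hβ h]
      | succ m ih => rw [(hs m).2.2.1 z h1, ih]
    simp only [h2, iInf_const]
  · refine ENNReal.le_of_forall_pos_le_add fun η hη _ => ?_
    have hη' : (0 : ℝ) < η / 3 := by positivity
    obtain ⟨j₀, h0⟩ := slk_lim d c hη'
    obtain ⟨N, hN⟩ := exists_nat_one_div_lt hη'
    set m := max N j₀ with hm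
    have h1 : 1 / ((m : ℝ) + 1) ≤ η / 3 :=
      (Nat.one_div_le_one_div (le_max_left N j₀)).trans hN.le
    have h2 := h0 (j m) ((le_max_right N j₀).trans (hj.id_le m)) _ h1
    rw [mul_div_cancel₀ _ three_ne_zero, ENNReal.ofReal_coe_nnreal] at h2
    set t := ⨅ (x : ℂ) (_ : x ∈ P.cl (j (m + 1)) c.pt \ P.E), f (m + 1) x with htd
    have h3 : ∀ m', m + 1 ≤ m' → ∀ x ∈ P.cl (j (m + 1)) c.pt \ P.E, t ≤ f m' x := by
      intro m' hm'
      induction m', hm' using Nat.le_induction with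
      | base => exact fun x hx => iInf₂_le x hx
      | succ m' hm' ih => exact (hs m').2.2.2.1 _ ((hj.monotone hm').trans (Nat.le_succ _)) _ _ ih
    have h4 : t ≤ P.loE (fun z => ⨅ m, f m z) c.pt :=
      le_iSup_of_le (j (m + 1)) (le_iInf₂ fun x hx => le_iInf fun m' =>
        (h3 _ (le_max_left (m + 1) m') x hx).trans (ha x (le_max_right (m + 1) m')))
    have h5 : P.hiE (fun z => ⨅ m, f m z) c.pt ≤ t + d.slk (j m) (1 / ((m : ℝ) + 1)) c.pt := by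
      refine iInf_le_of_le (j (m + 1)) (iSup₂_le fun y hy => iInf_le_of_le (m + 1) ?_)
      rw [htd]
      simp only [ENNReal.iInf_add]
      exact le_iInf₂ fun x hx => (hs m).2.2.2.2 _ ⟨c.pt_mem, hc⟩ x hx y hy
    refine h5.trans ((add_le_add h4 h2).trans_eq ?_)
    simp only [add_assoc]

end Par

end Vale.Agent.P116.K
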