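import Vale.Agent.P116.K.Chain

/-! P116 K/BarW: the charged distance satisfies the invariants. -/

open MeasureTheory Set Metric Filter Topology Complex
open scoped ENNReal

noncomputable section

namespace Vale.Agent.P116.K

open Vale.Agent.P128

namespace Par
variable {P : Par}

/-- The initial function of the barrier construction. -/
def Dat.f0 (d : P.Dat) (y : ℂ) : ℝ≥0∞ :=
  min (⨅ k, ⨆ n, P.W d.b d.ρ d.lam d.ν d.Z n k y) (ENNReal.ofReal d.β)

theorem W_mono (d : P.Dat) {n m k k' : ℕ} (hn : n ≤ m) (hk : k' ≤ k) (y : ℂ) :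
    P.W d.b d.ρ d.lam d.ν d.Z n k y ≤ P.W d.b d.ρ d.lam d.ν d.Z m k' y := by
  refine le_iInf fun x => le_iInf fun hx => le_iInf fun l => le_iInf fun hl => ?_
  refine iInf_le_of_le x (iInf_le_of_le hx (iInf_le_of_le l
    (iInf_le_of_le (hl.mono hn subset_rfl) ?_)))
  refine add_le_add (ENNReal.ofReal_le_ofReal ?_) (P.tch_anti d.ν hk subset_rfl)
  exact add_le_add le_rfl (hopn_mono hn hl.2.2 d.bd).2.1

theorem W_sub (d : P.Dat) (n k : ℕ) {O : Set ℂ} (hO : O ⊆ d.O) (x y : ℂ) :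
    P.W d.b d.ρ d.lam d.ν d.Z n k y ≤ P.W d.b d.ρ d.lam d.ν d.Z n k x +
      P.D d.b d.ρ d.lam n O x y + P.tch d.ν k O := by
  rw [W, W, D]
  simp only [ENNReal.iInf_add, ENNReal.add_iInf, le_iInf_iff]
  intro l' hl' x0 hx l hl
  refine iInf_le_of_le x0 (iInf_le_of_le hx (iInf_le_of_le (l ++ l')
    (iInf_le_of_le (hl.append (hl'.mono le_rfl hO)) ?_)))
  have h1 := (P.tch_anti d.ν (le_refl k) (trc_append x0 x l l')).trans
    ((P.tch_union d.ν k _ _).trans (add_le_add le_rfl (P.tch_anti d.ν (le_refl k) hl'.trc.1)))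
  rw [cost_append]
  refine (add_le_add ENNReal.ofReal_add_le h1).trans (le_of_eq ?_)
  ring

theorem f0_sub (d : P.Dat) {O : Set ℂ} (hO : O ⊆ d.O) (k : ℕ) (x y : ℂ) :
    d.f0 y ≤ d.f0 x + d.Di O x y + P.tch d.ν k O := by
  rw [Dat.f0, Dat.f0, add_assoc, ← min_add_add_right]
  refine min_le_min ?_ le_self_add
  rw [ENNReal.iInf_add]
  refine le_iInf fun j => iInf_le_of_le (max j k) (iSup_le fun n => ?_)
  refine (W_sub d n _ hO x y).trans ?_
  rw [add_assoc]
  exact add_le_add (le_iSup_of_le n (W_mono d le_rfl (le_max_left _ _) x))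
    (add_le_add (le_iSup (fun n => P.D d.b d.ρ d.lam n O x y) n)
      (P.tch_anti d.ν (le_max_right _ _) subset_rfl))

theorem tch_BarV (ν : Measure ℂ) {k : ℕ} {T : Set ℂ} (h : closure (P.nb k) ⊆ Tᶜ) :
    P.tch ν k T = 0 := by
  rw [tch, eq_empty_of_forall_notMem (s := {p | p ∈ P.E ∧ (P.cl k p ∩ T).Nonempty}), measure_empty]
  rintro p ⟨-, z, h1, h2⟩
  exact h (subset_closure (P.cl_sub k p h1)) h2

theorem f0_maj (d : P.Dat) : Maj P.E d.O (fun z => (d.f0 z).toReal) d.ρ := by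
  refine maj_of_seg d (fun z => ne_top_of_le_ne_top ENNReal.ofReal_ne_top (min_le_right _ _))
    fun x y K h hK => ?_
  have hc : IsCompact (segment ℝ x y) := by
    rw [segment_eq_image]
    exact isCompact_Icc.image (by fun_prop)
  obtain ⟨k, hk⟩ := P.exists_nb hc.isClosed.isOpen_compl fun z hz hs => (h hs).2 hz
  have h1 := f0_sub d (fun z hz => (h hz).1) k x y
  rw [tch_BarV d.ν hk, add_zero] at h1
  exact h1.trans (add_le_add le_rfl
    (iSup_le fun n => D_seg d n (fun z hz => ⟨hz, (h hz).2⟩) hK))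

theorem f0_bot (d : P.Dat) {z : ℂ} (hz : z ∈ d.O) (h : z.im = -P.δ) : d.f0 z = 0 := by
  have h1 : ∀ k, closure (P.nb k) ⊆ ({z} : Set ℂ)ᶜ := fun k w hw e => by
    have h2 := (mem_reProdIm.1 (P.clos_nb_sub k hw)).2.1
    rw [mem_singleton_iff.1 e, h] at h2
    linarith [P.δ0]
  have h2 : z ∉ P.E := fun hE => h1 0 (subset_closure (P.sub_nb 0 hE)) rfl
  refine le_antisymm ((min_le_left _ _).trans (iInf_le_of_le 0 (iSup_le fun n => ?_))) zero_le
  refine iInf_le_of_le z (iInf_le_of_le h (iInf_le_of_le []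
    (iInf_le_of_le ⟨⟨hz, h2⟩, rfl, fun s hs => absurd hs List.not_mem_nil⟩ ?_)))
  have h3 : trc z ([] : List (Stp P.E)) = {z} := by simp [trc]
  rw [h3, tch_BarV d.ν (h1 0)]
  simp [cost, hopn]

theorem f0_top (d : P.Dat)
    (hβ : ENNReal.ofReal d.β ≤ ⨅ k, ⨆ n, P.val d.b d.ρ d.lam d.ν d.Z n k) {z : ℂ}
    (h : z.im = 1 + P.δ) : d.f0 z = ENNReal.ofReal d.β := by
  exact min_eq_right (hβ.trans (iInf_mono fun k => iSup_mono fun n => iInf₂_le z h))

end Par

end Vale.Agent.P116.K
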