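import Vale.Agent.P116.K.BarV

/-! P116 K/BarW: the charged distance satisfies the invariants. -/

open MeasureTheory Set Metric Filter Topology Complex
open scoped ENNReal

noncomputable section

namespace Vale.Agent.P116.K

open Vale.Agent.P128

namespace Par
variable {P : Par}

theorem frz_BarW {C : Set ℂ} (hC : IsCompact C) {A : ℕ → ℂ → ℝ≥0∞}
    (hm : ∀ z n m, n ≤ m → A n z ≤ A m z)
    (he : ∀ z₀ ∈ C, ∀ η : ℝ≥0∞, 0 < η → ∀ᶠ z in 𝓝 z₀, ∀ n, A n z₀ ≤ A n z + (η + η)) {t : ℝ≥0∞}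
    (h : ∀ n, ∃ z ∈ C, A n z ≤ t) : ∃ z ∈ C, ∀ n, A n z ≤ t := by
  choose z hz h using h
  obtain ⟨a, ha, φ, hφ, h1⟩ := hC.tendsto_subseq hz
  refine ⟨a, ha, fun n => ENNReal.le_of_forall_pos_le_add fun η hη _ => ?_⟩
  obtain ⟨j, h2, h3⟩ := ((h1.eventually (he a ha ((η : ℝ≥0∞) / 2)
    (ENNReal.half_pos (ENNReal.coe_pos.2 hη).ne'))).and (eventually_ge_atTop n)).exists
  have h4 := h2 n
  rw [ENNReal.add_halves] at h4
  exact h4.trans (add_le_add ((hm _ _ _ (h3.trans (hφ.id_le j))).trans (h (φ j))) le_rfl)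

theorem near_BarW (d : P.Dat) {V : Set ℂ} (hV : IsOpen V) (hE : V ⊆ P.Eᶜ) {z₀ : ℂ} (hz : z₀ ∈ V)
    {η : ℝ≥0∞} (hη : 0 < η) : ∀ᶠ z in 𝓝 z₀, d.Di V z z₀ ≤ η ∧ d.Di V z₀ z ≤ η := by
  have h1 : ContinuousAt d.ρ z₀ :=
    d.cont.continuousAt (P.dom.cpt.isClosed.isOpen_compl.mem_nhds (hE hz))
  obtain ⟨r, hr, h2⟩ := Metric.eventually_nhds_iff_ball.1
    ((h1.eventually (ge_mem_nhds (lt_add_one (d.ρ z₀)))).and (hV.mem_nhds hz))
  have h3 : Tendsto (fun z => ENNReal.ofReal ((d.ρ z₀ + 1) * dist z z₀)) (𝓝 z₀) (𝓝 0) := by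
    have h4 : Continuous fun z => ENNReal.ofReal ((d.ρ z₀ + 1) * dist z z₀) :=
      ENNReal.continuous_ofReal.comp (by fun_prop)
    have h5 := h4.tendsto z₀
    rwa [dist_self, mul_zero, ENNReal.ofReal_zero] at h5
  filter_upwards [h3.eventually (ge_mem_nhds hη), ball_mem_nhds z₀ hr] with z h4 h5
  have s1 := (convex_ball z₀ r).segment_subset h5 (mem_ball_self hr)
  have s2 := (convex_ball z₀ r).segment_subset (mem_ball_self hr) h5
  refine ⟨iSup_le fun n => (D_seg d n (fun w hw => ⟨(h2 w (s1 hw)).2, hE (h2 w (s1 hw)).2⟩)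
    fun w hw => (h2 w (s1 hw)).1).trans h4, iSup_le fun n => (D_seg d n
      (fun w hw => ⟨(h2 w (s2 hw)).2, hE (h2 w (s2 hw)).2⟩) fun w hw => (h2 w (s2 hw)).1).trans ?_⟩
  rwa [dist_comm]

theorem col_BarW (d : P.Dat) {k : ℕ} {p z₀ : ℂ} (hp : p ∈ P.E)
    (hz : z₀ ∈ frontier (P.cl (k + 1) p)) {η : ℝ≥0∞} (hη : 0 < η) : ∃ V, V ⊆ P.cl k p ∧
      (∀ κ, k + 2 ≤ κ → P.tch d.ν κ V = 0) ∧
        ∀ᶠ z in 𝓝 z₀, d.Di V z z₀ ≤ η ∧ d.Di V z₀ z ≤ η := by
  refine ⟨P.cl k p \ closure (P.nb (k + 2)), sdiff_subset, fun κ hκ => ?_,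
    near_BarW d ((P.cl_open k p).sdiff isClosed_closure)
      (fun w hw hw' => hw.2 (subset_closure (P.sub_nb _ hw')))
      ⟨P.clos_cl (Nat.lt_succ_self k) hp (frontier_subset_closure hz), fun h => ?_⟩ hη⟩
  · refine measure_mono_null (t := ∅) ?_ measure_empty
    rintro q ⟨-, w, h1, h2⟩
    exact h2.2 (subset_closure (P.nb_anti hκ (P.cl_sub κ q h1)))
  · have h1 := (mem_thickening_iff_infDist_lt P.ne).1 (P.clos_nb (Nat.lt_succ_self (k + 1)) h)
    exact h1.ne (P.fr_cl hz)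

theorem cpt_BarW (k : ℕ) (p : ℂ) : IsCompact (frontier (P.cl k p)) :=
  (P.clos_nb_cpt k).of_isClosed_subset isClosed_frontier
    (frontier_subset_closure.trans (closure_mono (P.cl_sub k p)))

theorem one_BarW (d : P.Dat) {k κ : ℕ} {p x : ℂ} (hp : p ∈ P.E) (hO : P.cl k p ⊆ d.O)
    (hx : x ∈ P.cl (k + 1) p) {t : ℝ≥0∞} (h : ∀ n, P.W d.b d.ρ d.lam d.ν d.Z n κ x < t) :
    ∃ z ∈ frontier (P.cl (k + 1) p), d.f0 z + d.Di (P.cl k p) z x ≤ t := by
  obtain ⟨z, hz, h1⟩ := frz_BarW (cpt_BarW (k + 1) p) (A := fun n z =>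
    P.W d.b d.ρ d.lam d.ν d.Z n (κ + k + 2) z + P.D d.b d.ρ d.lam n (P.cl k p) z x) (t := t)
    (fun z n m hn => add_le_add (W_mono d hn le_rfl z) (D_mono d hn subset_rfl z x))
    (fun z₀ hz η hη => by
      obtain ⟨V, v1, v2, v3⟩ := col_BarW d hp hz hη
      refine v3.mono fun z hz n => ?_
      have a1 := W_sub d n (κ + k + 2) (v1.trans hO) z z₀
      rw [v2 _ (by omega), add_zero] at a1
      have a2 := (le_iSup (fun n => P.D d.b d.ρ d.lam n V z z₀) n).trans hz.1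
      have a3 := (D_mono d le_rfl v1 z₀ z).trans
        ((le_iSup (fun n => P.D d.b d.ρ d.lam n V z₀ z) n).trans hz.2)
      refine (add_le_add (a1.trans (add_le_add le_rfl a2))
        ((D_tri d n _ z₀ z x).trans (add_le_add a3 le_rfl))).trans (le_of_eq ?_)
      ring)
    fun n => by
      have h1 := h (n + k + 2)
      simp only [Par.W, iInf_lt_iff] at h1
      obtain ⟨x₀, h0, l, hl, h1⟩ := h1
      have h2 : x₀ ∉ P.cl (k + 1) p := fun h2 => by
        have h3 := (P.clos_nb_Q _ (subset_closure (P.cl_sub _ _ h2))).2.1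
        have h4 := P.δ0
        linarith
      obtain ⟨z, hz, l₁, l₂, c1, c2, t1, t2, -, e⟩ := hl.last d (by omega) h2 hx
      have c3 := c2.restrict (t1.trans ((union_subset (singleton_subset_iff.2
        (frontier_subset_closure hz)) subset_closure).trans (P.clos_cl (Nat.lt_succ_self k) hp)))
      have a1 : P.W d.b d.ρ d.lam d.ν d.Z (n + k + 2) κ z ≤
          ENNReal.ofReal (cost d.b d.ρ d.lam (n + k + 2) l₁) + P.tch d.ν κ (trc x₀ l₁) :=
        iInf₂_le_of_le x₀ h0 (iInf₂_le l₁ c1)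
      have a2 : P.D d.b d.ρ d.lam (n + k + 2) (P.cl k p) z x ≤
          ENNReal.ofReal (cost d.b d.ρ d.lam (n + k + 2) l₂) := iInf₂_le l₂ c3
      refine ⟨z, hz, (add_le_add ((W_mono d (by omega) (by omega) z).trans
        (a1.trans (add_le_add le_rfl (tch_anti d.ν le_rfl t2))))
        ((D_mono d (by omega) subset_rfl z x).trans a2)).trans (le_of_eq_of_le ?_ h1.le)⟩
      rw [← e, ENNReal.ofReal_add (cost_nn d c1.2.2) (cost_nn d c2.2.2), add_right_comm]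
  refine ⟨z, hz, (add_le_add ((min_le_left _ _).trans (iInf_le _ (κ + k + 2))) le_rfl).trans
    (ENNReal.iSup_add_iSup_le fun i j => le_trans (add_le_add
      (W_mono d (le_max_left i j) le_rfl z) (D_mono d (le_max_right i j) subset_rfl z x))
      (h1 (max i j)))⟩

theorem two_BarW (d : P.Dat) {k : ℕ} {p : ℂ} (hp : p ∈ P.E) (hO : P.cl k p ⊆ d.O) {t : ℝ≥0∞}
    (h : P.loE d.f0 p < t) (ht : t ≤ ENNReal.ofReal d.β) : ∃ z, ∀ l,
      d.f0 z + ⨅ (x : ℂ) (_ : x ∈ P.cl l p \ P.E), d.Di (P.cl k p) z x ≤ t := by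
  obtain ⟨z, -, h1⟩ := frz_BarW (cpt_BarW (k + 1) p) (A := fun l z =>
    d.f0 z + ⨅ (x : ℂ) (_ : x ∈ P.cl l p \ P.E), d.Di (P.cl k p) z x) (t := t)
    (fun z n m hn => add_le_add le_rfl
      (le_iInf₂ fun x hx => iInf₂_le x ⟨P.cl_anti hn p hx.1, hx.2⟩))
    (fun z₀ hz η hη => by
      obtain ⟨V, v1, v2, v3⟩ := col_BarW d hp hz hη
      refine v3.mono fun z hz l => ?_
      have a1 := f0_sub d (v1.trans hO) (k + 2) z z₀
      rw [v2 _ le_rfl, add_zero] at a1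
      have a2 : d.Di (P.cl k p) z₀ z ≤ η :=
        (iSup_mono fun n => D_mono d le_rfl v1 z₀ z).trans hz.2
      have a3 : ⨅ (x : ℂ) (_ : x ∈ P.cl l p \ P.E), d.Di (P.cl k p) z₀ x ≤
          η + ⨅ (x : ℂ) (_ : x ∈ P.cl l p \ P.E), d.Di (P.cl k p) z x := by
        simp only [ENNReal.add_iInf]
        exact iInf₂_mono fun x _ => (Di_tri d _ z₀ z x).trans (add_le_add a2 le_rfl)
      refine (add_le_add (a1.trans (add_le_add le_rfl hz.1)) a3).trans (le_of_eq ?_)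
      ring)
    fun l => by
      have h1 := (le_iSup (fun l => ⨅ (x : ℂ) (_ : x ∈ P.cl l p \ P.E), d.f0 x)
        (l + k + 1)).trans_lt h
      simp only [iInf_lt_iff] at h1
      obtain ⟨x, hx, h1⟩ := h1
      obtain ⟨κ, h2⟩ := iInf_lt_iff.1 ((min_lt_iff.1 h1).resolve_right (not_lt.2 ht))
      obtain ⟨z, hz, h3⟩ := one_BarW d hp hO (P.cl_anti (by omega) p hx.1)
        fun n => (le_iSup (fun n => P.W d.b d.ρ d.lam d.ν d.Z n κ x) n).trans_lt h2
      exact ⟨z, hz, (add_le_add le_rfl (iInf₂_le x ⟨P.cl_anti (by omega) p hx.1, hx.2⟩)).trans h3⟩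
  exact ⟨z, h1⟩

/-- Freezing. Let `t` exceed `loE f0 p`, `t ≤ β`. For each `l` pick `x l` in `cl l p` with
`W (x l) < t`; for each `n` a chain to `x l`, its last entrance `z` into `cl (k+1) p` (`Chn.last`);
freeze `n → ∞` (compact frontier, monotone in `n`, short segments carry no charge at deep levels),
so `f0 (z l) + Di (cl k p) (z l) (x l) ≤ t`; freeze `l → ∞`; then `f0_sub` from the limit point and
`D n z y ≤ D n z (x l) + D n (x l) y` with `l` large for each `n`. `K` from `Tube.deep`. -/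
theorem f0_flat (d : P.Dat) : ∃ K, ∀ k, K ≤ k → ∀ p ∈ P.E \ d.Z, ∀ y ∈ P.cl k p \ P.E,
    d.f0 y ≤ P.loE d.f0 p + P.tch d.ν k (P.cl k p) +
      ⨆ m, P.hiE (fun x => P.D d.b d.ρ d.lam m (P.cl k p) x y) p := by
  obtain ⟨K, hK⟩ := d.tube.deep
  refine ⟨K, fun k hk p hp y hy => ENNReal.le_of_forall_pos_le_add fun η hη hf => ?_⟩
  have hO : P.cl k p ⊆ d.O := fun w hw =>
    ⟨interior_subset (P.clos_nb_R k (subset_closure (P.cl_sub k p hw))),
      disjoint_left.1 ((hK k hk p hp.1).2 hp.2) (subset_closure hw)⟩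
  have h1 : P.loE d.f0 p < P.loE d.f0 p + η :=
    ENNReal.lt_add_right ((le_self_add.trans le_self_add).trans_lt hf).ne
      (ENNReal.coe_pos.2 hη).ne'
  have h2 : ∀ H, P.loE d.f0 p + P.tch d.ν k (P.cl k p) + H + η =
      P.loE d.f0 p + η + H + P.tch d.ν k (P.cl k p) := fun H => by ring
  rw [h2]
  rcases le_total (P.loE d.f0 p + η) (ENNReal.ofReal d.β) with ht | ht
  · obtain ⟨z, hz⟩ := two_BarW d hp.1 hO h1 ht
    refine (f0_sub d hO k z y).trans (add_le_add ?_ le_rfl)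
    rw [Dat.Di, ENNReal.add_iSup]
    refine iSup_le fun n => le_trans ?_ (add_le_add le_rfl
      (le_iSup (fun m => P.hiE (fun x => P.D d.b d.ρ d.lam m (P.cl k p) x y) p) n))
    rw [hiE, ENNReal.add_iInf]
    refine le_iInf fun l => le_trans ?_ (add_le_add (hz l) le_rfl)
    rw [add_assoc]
    refine add_le_add le_rfl ?_
    simp only [ENNReal.iInf_add]
    refine le_iInf₂ fun x hx => (D_tri d n _ z x y).trans (add_le_add
      (le_iSup (fun n => P.D d.b d.ρ d.lam n (P.cl k p) z x) n) ?_)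
    exact le_iSup₂ (f := fun x (_ : x ∈ P.cl l p \ P.E) => P.D d.b d.ρ d.lam n (P.cl k p) x y) x hx
  · exact (min_le_right _ _).trans (ht.trans (le_self_add.trans le_self_add))

end Par

end Vale.Agent.P116.K
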