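import Vale.Agent.P116.K.Tf

/-! P116 K/Base: clamped linear functions max 0 (1 - (1 - re z) / d) that vanish near E (d the distance of E to the complement of Q); weight 1 / d; a.Cmp since the image lies in a line; Mono by moving horizontally to the frontier. -/

open MeasureTheory Set Metric Filter Topology Complex
open scoped ENNReal

noncomputable section

namespace Vale.Agent.P116.K

open Vale.Agent.P128

theorem ray_Base {W : Set ℂ} (hW : IsOpen W) {z v : ℂ} (hz : z ∈ W) (hv : z + (1 : ℝ) • v ∉ W) :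
    ∃ t ∈ Icc (0 : ℝ) 1, z + t • v ∈ frontier W := by
  by_contra h
  have hc : Continuous fun t : ℝ => z + t • v := by fun_prop
  have h1 : (fun t : ℝ => z + t • v) '' Icc 0 1 ⊆ W :=
    (isPreconnected_Icc.image _ hc.continuousOn).subset_left_of_subset_union hW
      isClosed_closure.isOpen_compl (disjoint_compl_right_iff_subset.2 subset_closure) (by
        rintro _ ⟨t, ht, rfl⟩
        by_cases h2 : z + t • v ∈ W
        · exact Or.inl h2
        · exact Or.inr fun h3 => h ⟨t, ht, by rw [hW.frontier_eq]; exact ⟨h3, h2⟩⟩)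
      ⟨z, ⟨0, by simp, by simp⟩, hz⟩
  exact hv (h1 ⟨1, by simp, rfl⟩)

theorem line_Base : volume {w : ℂ | w.im = 0} = 0 := by
  refine measure_mono_null (t := (LinearMap.ker Complex.imLm : Submodule ℝ ℂ)) (fun w hw => hw)
    (Measure.addHaar_submodule _ _ fun h => ?_)
  have h1 : I ∈ (LinearMap.ker Complex.imLm : Submodule ℝ ℂ) := h ▸ Submodule.mem_top
  simp at h1

theorem gen_Base {E : Set ℂ} (hE : Dom E) (l : ℂ → ℝ) (e : ℂ)
    (hl : ∀ x y, |l x - l y| ≤ dist x y) (he : ∀ z (t : ℝ), l (z + t • e) = l z + t)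
    (hQ : ∀ z ∈ Q, 0 < l z ∧ l z < 1) (hc : ∀ z ∈ Qc, l z ≤ 1) :
    ∃ s : TF E, Mem s ∧ (∀ z, (l z = 0 → s.hi z = 0) ∧ (l z = 1 → s.hi z = 1)) ∧
      ∀ a : TF E, a.Cmp s := by
  have cl : Continuous l := (LipschitzWith.of_dist_le_mul (K := 1) fun x y => by
    simpa [Real.dist_eq] using hl x y).continuous
  obtain ⟨K, hK, hKE⟩ : ∃ K : ℝ, 1 ≤ K ∧ ∀ z ∈ E, 1 ≤ K * (1 - l z) := by
    obtain ⟨M, hM⟩ := hE.cpt.exists_bound_of_continuousOn (f := fun z => (1 - l z)⁻¹)
      ((continuous_const.sub cl).continuousOn.inv₀ fun z hz =>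
        (sub_pos.2 (hQ z (hE.sub hz)).2).ne')
    refine ⟨max M 1, le_max_right _ _, fun z hz => ?_⟩
    have h1 : 0 < 1 - l z := by linarith [(hQ z (hE.sub hz)).2]
    have h2 : (1 - l z)⁻¹ ≤ max M 1 := ((le_abs_self _).trans (hM z hz)).trans (le_max_left _ _)
    rwa [inv_le_iff_one_le_mul₀ h1] at h2
  obtain ⟨u, hu⟩ : ∃ u : ℂ → ℝ, u = fun z => max (1 - K * (1 - l z)) 0 := ⟨_, rfl⟩
  have u0 : ∀ z ∈ E, u z = 0 := fun z hz => by
    rw [hu]
    exact max_eq_right (by linarith [hKE z hz])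
  have ul : ∀ x y, |u x - u y| ≤ K * dist x y := fun x y => by
    rw [hu]
    refine (abs_max_sub_max_le_abs _ _ _).trans ?_
    rw [show 1 - K * (1 - l x) - (1 - K * (1 - l y)) = K * (l x - l y) by ring, abs_mul,
      abs_of_nonneg (by linarith : 0 ≤ K)]
    exact mul_le_mul_of_nonneg_left (hl x y) (by linarith)
  have um : ∀ x y, l x ≤ l y → u x ≤ u y := fun x y h => by
    rw [hu]
    exact max_le_max (by nlinarith) le_rfl
  have uL : LipschitzWith ⟨K, by linarith⟩ u :=
    LipschitzWith.of_dist_le_mul fun x y => ul x y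
  let s : TF E := ⟨u, u, fun _ => le_rfl, fun _ _ => rfl,
    uL.continuous.continuousOn.lowerSemicontinuousOn,
    uL.continuous.continuousOn.upperSemicontinuousOn, fun z hz z' hz' => by
      rw [u0 z hz, u0 z' (connectedComponentIn_subset _ _ hz')]
      exact ⟨rfl, rfl⟩, uL.locallyLipschitz.locallyLipschitzOn⟩
  have hb : Q ⊆ closedBall 0 2 := fun z hz => by
    have h1 := norm_le_abs_re_add_abs_im z
    rw [abs_of_pos hz.1.1, abs_of_pos hz.2.1] at h1
    rw [mem_closedBall_zero_iff]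
    linarith [hz.1.2, hz.2.2]
  have hv : volume (closedBall (0 : ℂ) 2) ≠ ∞ := measure_closedBall_lt_top.ne
  have hw : Wt E fun _ => K := ⟨continuousOn_const, fun _ => by linarith,
    integrableOn_const (ne_top_of_le_ne_top hv (measure_mono (sdiff_subset.trans hb)))⟩
  have hm : Maj E Q s.hi fun _ => K := fun B _ _ K' h x hx y _ =>
    (ul x y).trans (mul_le_mul_of_nonneg_right (h x hx) dist_nonneg)
  refine ⟨s, ⟨(fn_of_maj hE hw hm (l := fun _ => 0) (fun c => (sub_self _).le) (by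
      simp)).1, fun z hz => ?_, fun W hW hWQ t => ⟨fun h z hz => ?_,
      fun h z hz => ?_⟩, fun _ => K, ⟨hw, (closedBall (0 : ℂ) 2).indicator fun _ => K,
      memLp_indicator_const 2 measurableSet_closedBall K (Or.inr hv),
      fun x => indicator_nonneg (fun _ _ => by linarith) x, fun x hx y _ => ?_⟩, hm⟩,
    fun z => ⟨fun h => ?_, fun h => ?_⟩, fun a => measure_mono_null ?_ line_Base⟩
  · show 0 ≤ u z ∧ u z ≤ 1
    rw [hu]
    exact ⟨le_max_right _ _, max_le (by nlinarith [hc z hz]) zero_le_one⟩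
  · obtain ⟨r, hr, h1⟩ := ray_Base hW hz (v := e) fun h1 => by
      have h2 := (hQ _ (hWQ (subset_closure h1))).2
      rw [he] at h2
      linarith [(hQ _ (hWQ (subset_closure hz))).1]
    exact (um _ _ (by rw [he]; linarith [hr.1])).trans (h _ h1)
  · obtain ⟨r, hr, h1⟩ := ray_Base hW hz (v := -e) fun h1 => by
      have h2 := (hQ _ (hWQ (subset_closure h1))).1
      rw [smul_neg, ← neg_smul, he] at h2
      linarith [(hQ _ (hWQ (subset_closure hz))).2]
    exact (h _ h1).trans (um _ _ (by rw [smul_neg, ← neg_smul, he]; linarith [hr.1]))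
  · rw [indicator_of_mem (hb hx.1)]
  · show u z = 0
    rw [hu]
    exact max_eq_right (by rw [h]; linarith)
  · show u z = 1
    rw [hu]
    simp [h]
  · rintro _ ⟨z, hz, rfl⟩
    exact u0 z hz.1

theorem exists_s0 {E : Set ℂ} (hE : Dom E) : ∃ s : TF E, Mem s ∧ s.H ∧ ∀ a : TF E, a.Cmp s := by
  obtain ⟨s, h1, h2, h3⟩ := gen_Base hE Complex.re 1
    (fun x y => by rw [dist_eq_norm, ← sub_re]; exact abs_re_le_norm _) (fun z t => by simp)
    (fun z hz => hz.1) fun z hz => hz.1.2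
  exact ⟨s, h1, fun z _ => h2 z, h3⟩

theorem exists_w0 {E : Set ℂ} (hE : Dom E) : ∃ w : TF E, Mem w ∧ w.V ∧ ∀ a : TF E, a.Cmp w := by
  obtain ⟨s, h1, h2, h3⟩ := gen_Base hE Complex.im I
    (fun x y => by rw [dist_eq_norm, ← sub_im]; exact abs_im_le_norm _) (fun z t => by simp)
    (fun z hz => hz.2) fun z hz => hz.2.2
  exact ⟨s, h1, fun z _ => h2 z, h3⟩

end Vale.Agent.P116.K
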