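import Vale.Agent.P116.K.Bs64B
import Vale.Agent.P116.K.Bar
import Vale.Agent.P116.K.Cb
import Vale.Agent.P116.K.Ker

/-! P116 K/Bs64 (block of helper64): the bound for the trivial tube system. -/

open MeasureTheory Set Metric Filter Topology Complex
open scoped ENNReal

noncomputable section

namespace Vale.Agent.P116.K

open Vale.Agent.P128

variable {P : Par} {τ : ℂ → ℂ} {N : Set ℂ}

theorem fin_Bs64 {f : ℂ → ℝ≥0∞} {β : ℝ} (hf : ∀ z, f z ≤ ENNReal.ofReal β) {p : ℂ} (hp : p ∈ P.E) :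
    P.hiE f p ≠ ∞ ∧ P.loE f p ≠ ∞ := by
  refine ⟨ne_top_of_le_ne_top ENNReal.ofReal_ne_top (iInf_le_of_le 0 (iSup₂_le fun x _ => hf x)),
    ne_top_of_le_ne_top ENNReal.ofReal_ne_top (iSup_le fun l => ?_ : _ ≤ ENNReal.ofReal β)⟩
  obtain ⟨x, hx⟩ := P.cl_ne l hp
  exact (iInf₂_le x hx).trans (hf x)

theorem val_Bs64 (h : Str P τ N) {f : ℂ → ℝ≥0∞} {β : ℝ} (hβ : 0 < β)
    (hf : ∀ z, f z ≤ ENNReal.ofReal β) {w : TF P.E} {p : ℂ} (hp : p ∈ P.E)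
    (hv : Cv P (fun z => (f (τ z)).toReal / β) w p) :
    w.hi p ≤ (P.hiE f p).toReal / β ∧ (P.loE f p).toReal / β ≤ w.lo p := by
  obtain ⟨m, hm⟩ := P.exists_nb h.op h.sub
  have h1 : ∀ l, ∀ x ∈ P.cl (max l m) p \ P.E, τ x = x ∧ x ∈ P.cl l p \ P.E := fun l x hx =>
    ⟨h.eq x (hm (subset_closure (P.cl_sub m p (P.cl_anti (le_max_right l m) p hx.1)))),
      P.cl_anti (le_max_left l m) p hx.1, hx.2⟩
  have h2 : ∀ x, f x ≠ ∞ := fun x => ne_top_of_le_ne_top ENNReal.ofReal_ne_top (hf x)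
  constructor
  · refine le_of_forall_gt_imp_ge_of_dense fun t ht => ?_
    rw [div_lt_iff₀ hβ] at ht
    obtain ⟨l, hl⟩ := iInf_lt_iff.1
      ((ENNReal.lt_ofReal_iff_toReal_lt (fin_Bs64 hf hp).1).2 ht : P.hiE f p < _)
    refine hv.h1 t (max l m) fun x hx => ?_
    have h3 : f x < ENNReal.ofReal (t * β) := (le_iSup₂_of_le x (h1 l x hx).2 le_rfl).trans_lt hl
    show (f (τ x)).toReal / β ≤ t
    rw [(h1 l x hx).1, div_le_iff₀ hβ]
    exact (ENNReal.toReal_lt_of_lt_ofReal h3).le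
  · refine le_of_forall_lt_imp_le_of_dense fun t ht => ?_
    rcases le_total t 0 with t0 | t0
    · exact hv.l1 t 0 fun x _ => t0.trans (div_nonneg ENNReal.toReal_nonneg hβ.le)
    rw [lt_div_iff₀ hβ] at ht
    obtain ⟨l, hl⟩ := lt_iSup_iff.1 ((ENNReal.ofReal_lt_iff_lt_toReal (mul_nonneg t0 hβ.le)
      (fin_Bs64 hf hp).2).2 ht : _ < P.loE f p)
    refine hv.l1 t (max l m) fun x hx => ?_
    have h3 : ENNReal.ofReal (t * β) < f x := hl.trans_le (iInf₂_le x (h1 l x hx).2)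
    show t ≤ (f (τ x)).toReal / β
    rw [(h1 l x hx).1, le_div_iff₀ hβ]
    exact (ENNReal.ofReal_le_iff_le_toReal (h2 x)).1 h3.le

theorem mem_Bs64 {A : List (TF P.E)} (hA : Fam A) (d : P.Dat) (hb : ∀ i, Aux A (d.b i))
    (hZ : d.Z = ∅) (hν : d.ν = 0) (hβ : 0 < d.β) (hg : Gw P.E d.ρ) (h2 : MemLp d.ρ 2 volume)
    {f : ℂ → ℝ≥0∞} (hf : Par.Bar d f) : ∃ w : TF P.E, w.V ∧ Fam (w :: A) ∧ w.en ≤
      (((1 + 2 * P.ε) * (1 - 2 * P.ε)⁻¹) ^ 2 * (∫ z, d.ρ z ^ 2) + ∑' c, d.lam c ^ 2) / d.β ^ 2 := by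
  obtain ⟨τ, N, hs⟩ := exists_str P
  have hO : d.O = P.R := by rw [Par.Dat.O, hZ, sdiff_empty]
  have hC : 0 ≤ (1 + 2 * P.ε) / d.β := div_nonneg (by linarith [P.ε0]) hβ.le
  have gw := hs.gw hg h2 hC
  obtain ⟨u1, u2⟩ := hs.maj d.cont d.nn (hO ▸ hf.maj) hβ
  have u0 : ∀ z, 0 ≤ (f (τ z)).toReal / d.β ∧ (f (τ z)).toReal / d.β ≤ 1 := fun z =>
    ⟨div_nonneg ENNReal.toReal_nonneg hβ.le,
      (div_le_one hβ).2 (ENNReal.toReal_le_of_le_ofReal hβ.le (hf.le _))⟩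
  obtain ⟨w, w1, w2⟩ := exists_tf P (M := 1) (fun z _ => abs_le.2 ⟨by linarith [(u0 z).1], (u0 z).2⟩)
    u1 (u2.locLip P.dom.cpt.isClosed isOpen_Q (gw.cont.mono fun z hz => hz.2))
  have w3 : Maj P.E Q w.hi fun z => (1 + 2 * P.ε) / d.β * d.ρ (τ z) := fun B b1 b2 K hK x hx y hy => by
    rw [w1 x (b2 hx).2, w1 y (b2 hy).2]
    exact u2 B b1 b2 K hK x hx y hy
  have w4 := fun p hp => val_Bs64 hs hβ hf.le hp (w2 p hp)
  have w5 : ∀ c, w.osc c ≤ d.lam c / d.β := fun c => by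
    have h3 := hf.osc c (by rw [hZ]; exact notMem_empty _)
    rw [hν, Measure.coe_zero, Pi.zero_apply, add_zero] at h3
    have h4 := ENNReal.toReal_mono (ENNReal.add_ne_top.2
      ⟨(fin_Bs64 hf.le c.pt_mem).2, ENNReal.ofReal_ne_top⟩) h3
    rw [ENNReal.toReal_add (fin_Bs64 hf.le c.pt_mem).2 ENNReal.ofReal_ne_top,
      ENNReal.toReal_ofReal (d.l0 c)] at h4
    have h5 := div_le_div_of_nonneg_right h4 hβ.le
    rw [add_div] at h5
    have h6 := w4 c.pt c.pt_mem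
    rw [TF.osc]
    linarith [h6.1, h6.2]
  have w6 : Summable fun c => (d.lam c / d.β) ^ 2 := by
    simp only [div_pow]
    exact d.l2.div_const _
  obtain ⟨w7, w8⟩ := fn_of_maj P.dom gw.toWt w3 w5 w6
  have w9 : ∀ a ∈ A, a.Cmp w := fun a ha => by
    refine measure_mono_null (image_mono fun z hz => ?_) (bar_cmp d hf (hA.1 a ha) hg.l2
      (fun i => (hb i).fn) (fun i => (hb i).cmp a ha) (w := w) (κ := ENNReal.ofReal d.β⁻¹)
      ENNReal.ofReal_ne_top fun p hp q hq => ?_)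
    · exact ⟨⟨hz.1, by rw [hZ]; exact notMem_empty _⟩, hz.2⟩
    · have h3 : w.hi p - w.lo q ≤ d.β⁻¹ * ((P.hiE f p).toReal - (P.loE f q).toReal) := by
        rw [mul_comm, ← div_eq_mul_inv, sub_div]
        linarith [(w4 p hp.1).1, (w4 q hq.1).2]
      refine (ENNReal.ofReal_le_ofReal h3).trans (le_of_eq ?_)
      rw [ENNReal.ofReal_mul (inv_nonneg.2 hβ.le), ENNReal.ofReal_sub _ ENNReal.toReal_nonneg,
        ENNReal.ofReal_toReal (fin_Bs64 hf.le hp.1).1, ENNReal.ofReal_toReal (fin_Bs64 hf.le hq.1).2]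
  have wm : ∀ z ∈ Qc, 0 ≤ w.lo z ∧ w.hi z ≤ 1 := fun z _ => by
    by_cases hz : z ∈ P.E
    · exact ⟨(w2 z hz).l1 0 0 fun x _ => (u0 x).1, (w2 z hz).h1 1 0 fun x _ => (u0 x).2⟩
    · rw [w.eq z hz, w1 z hz]
      exact u0 z
  have wv : w.V := fun z hz => by
    have h3 : τ z ∈ d.O := hO ▸ hs.map hz
    constructor
    · intro e
      rw [w1 z fun k => (mem_reProdIm.1 (P.dom.sub k)).2.1.ne' e, hf.bot _ h3 (hs.bot z e)]
      simp
    · intro e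
      rw [w1 z fun k => (mem_reProdIm.1 (P.dom.sub k)).2.2.ne e, hf.top _ h3 (hs.top z e),
        ENNReal.toReal_ofReal hβ.le, div_self hβ.ne']
  obtain ⟨v, v1, v2⟩ := exists_mono P.dom w
  have v3 : Mem v := ⟨v2.fn P.dom w7, v2.mem wm, v1, _, gw, St.maj v2 gw.nn w3⟩
  have v4 : ∀ a ∈ A, a.Cmp v := fun a ha => v2.cmp_right P.dom w7 (w9 a ha)
  refine ⟨v, v2.V wv, ⟨fun a ha => ?_, fun a ha a' ha' => ?_⟩, (v2.en_le P.dom w7).trans (w8.trans ?_)⟩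
  · rcases List.mem_cons.1 ha with rfl | ha
    · exact v3
    · exact hA.1 a ha
  · rcases List.mem_cons.1 ha with k | k <;> rcases List.mem_cons.1 ha' with k' | k'
    · rw [k, k']
      exact cmp_self _
    · rw [k]
      exact cmp_symm (v4 a' k')
    · rw [k']
      exact v4 a k
    · exact hA.2 a k a' k'
  · obtain ⟨i1, i2⟩ := hs.l2 h2
    have i3 : ∫ z in Q \ P.E, d.ρ (τ z) ^ 2 ≤ ∫ z, d.ρ (τ z) ^ 2 :=
      setIntegral_le_integral i1 (ae_of_all _ fun z => sq_nonneg _)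
    simp only [mul_pow, div_pow]
    rw [integral_const_mul, tsum_div_const, add_div]
    refine add_le_add_left ?_ _
    rw [mul_assoc, mul_div_right_comm]
    exact mul_le_mul_of_nonneg_left (i3.trans i2) (by positivity)

theorem num_Bs64 {ε : ℝ} (h0 : 0 < ε) (h1 : ε ≤ 1 / 100) :
    ((1 + 2 * ε) * (1 - 2 * ε)⁻¹) ^ 2 * ((1 + ε) / (1 - ε)) ^ 2 ≤ (1 + 10 * ε) ^ 2 := by
  have h2 : 0 < 1 - 2 * ε := by linarith
  have h3 : 0 < 1 - ε := by linarith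
  rw [← mul_pow]
  refine pow_le_pow_left₀ (by positivity) ?_ 2
  rw [← div_eq_mul_inv, div_mul_div_comm, div_le_iff₀ (mul_pos h2 h3)]
  nlinarith [mul_pos h0 h0, mul_pos h0 (mul_pos h0 h0)]

theorem Par.base64 (P : Par) {A : List (TF P.E)} (hA : Fam A) {c : ℝ} (hc : 0 < c)
    (h : ∀ w : TF P.E, w.V → Fam (w :: A) → 1 ≤ c ^ 2 * w.en) :
    P.Bs A (Finsupp.single ∅ 1) (c * (1 + 10 * P.ε)) := by
  intro b hb n g lam hT η hη
  by_contra hno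
  have e0 := P.ε0
  have n0 : 0 ≤ P.nv g lam := Real.sqrt_nonneg _
  have h0 : 0 ≤ c * (1 + 10 * P.ε) * P.nv g lam := by positivity
  have hβ : 0 < c * (1 + 10 * P.ε) * P.nv g lam + η := by linarith
  let d : P.Dat := ⟨b, P.ms g, lam, 0, ∅, c * (1 + 10 * P.ε) * P.nv g lam + η, fun i => (hb i).bd,
    P.ms_cont hT.g2, P.ms_nn hT.g0, hT.l0, hT.l2, inferInstance, Par.Tube.empty, hβ.le⟩
  obtain ⟨f, hf⟩ := Par.exists_bar d (le_iInf fun k => le_iSup_of_le n (le_iInf₂ fun y hy =>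
    le_iInf₂ fun x hx => le_iInf₂ fun l hl => le_add_right (ENNReal.ofReal_le_ofReal (by
      by_contra h1
      refine hno ⟨Finsupp.single (∅, x, l) 1, ⟨fun i => ?_, fun i hi => ?_, ?_⟩, ?_⟩
      · exact Finsupp.single_nonneg.2 zero_le_one i
      · rw [Finset.mem_singleton.1 (Finsupp.support_single_subset hi)]
        exact ⟨hx, y, hy, hl⟩
      · exact Finsupp.mapDomain_single
      · rw [Par.ex, Finsupp.sum_single_index (zero_mul _), one_mul]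
        exact (not_le.1 h1).le))))
  obtain ⟨m1, m2⟩ := P.ms_l2 hT.g2
  obtain ⟨w, w1, w2, w3⟩ := mem_Bs64 hA d hb rfl rfl hβ (P.ms_gw hT.g2 hT.g0) m1 hf
  have g0 : 0 ≤ ∫ x, g x ^ 2 := integral_nonneg fun _ => sq_nonneg _
  have l0 : 0 ≤ ∑' c, lam c ^ 2 := tsum_nonneg fun _ => sq_nonneg _
  have e1 : P.nv g lam ^ 2 = (∫ x, g x ^ 2) + ∑' c, lam c ^ 2 := Real.sq_sqrt (add_nonneg g0 l0)
  have h1 : ((1 + 2 * P.ε) * (1 - 2 * P.ε)⁻¹) ^ 2 * (∫ z, P.ms g z ^ 2) + ∑' c, lam c ^ 2 ≤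
      (1 + 10 * P.ε) ^ 2 * P.nv g lam ^ 2 := by
    have h2 := mul_le_mul_of_nonneg_left m2 (sq_nonneg ((1 + 2 * P.ε) * (1 - 2 * P.ε)⁻¹))
    have h3 := mul_le_mul_of_nonneg_right (num_Bs64 e0 P.ε1) g0
    have h4 : 1 ≤ (1 + 10 * P.ε) ^ 2 := one_le_pow₀ (by linarith)
    have h5 := mul_le_mul_of_nonneg_right h4 l0
    rw [e1, mul_add]
    linarith [mul_assoc (((1 + 2 * P.ε) * (1 - 2 * P.ε)⁻¹) ^ 2) (((1 + P.ε) / (1 - P.ε)) ^ 2)
      (∫ x, g x ^ 2)]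
  have h2 := (h w w1 w2).trans (mul_le_mul_of_nonneg_left
    (w3.trans (div_le_div_of_nonneg_right h1 (sq_nonneg _))) (sq_nonneg c))
  rw [← mul_div_assoc, one_le_div (pow_pos hβ 2), ← mul_pow, ← mul_pow, ← mul_assoc] at h2
  have h3 := pow_lt_pow_left₀ (lt_add_of_pos_right _ hη) h0 two_ne_zero
  exact absurd h2 (not_le.2 h3)

end Vale.Agent.P116.K
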