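import Vale.Agent.P116.K.Clu
import Vale.Agent.P116.K.Fit

/-! P116 K/Bs64A (block of helper64): the stretch of the square onto the box. -/

open MeasureTheory Set Metric Filter Topology Complex
open scoped ENNReal

noncomputable section

namespace Vale.Agent.P116.K

open Vale.Agent.P128

/-- A map of the square onto the box which is the identity near `E`. -/
structure Str (P : Par) (τ : ℂ → ℂ) (N : Set ℂ) : Prop where
  lip : ∀ z z', dist (τ z) (τ z') ≤ (1 + 2 * P.ε) * dist z z'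
  anti : ∀ z z', (1 - 2 * P.ε) * dist z z' ≤ dist (τ z) (τ z')
  op : IsOpen N
  sub : P.E ⊆ N
  eq : ∀ z ∈ N, τ z = z
  off : ∀ z, τ z ∈ P.E → z ∈ P.E
  map : MapsTo τ Qc P.R
  bot : ∀ z, z.im = 0 → (τ z).im = -P.δ
  top : ∀ z, z.im = 1 → (τ z).im = 1 + P.δ

theorem lip_Bs64A {κ : ℝ} (h : κ ≤ 1 / 4) (x y : ℝ) :
    (g_Fit κ x - g_Fit κ y) ^ 2 ≤ (x - y) ^ 2 := by
  refine sq_le_sq.2 (abs_le.2 ?_)
  have h1 := le_abs_self (x - y)
  have h2 := neg_abs_le (x - y)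
  rcases case_Fit h x with ⟨a, e⟩ | ⟨a, e⟩ | ⟨a, a', e⟩ <;>
    rcases case_Fit h y with ⟨b, e'⟩ | ⟨b, e'⟩ | ⟨b, b', e'⟩ <;> rw [e, e'] <;>
      constructor <;> linarith

theorem exists_str (P : Par) : ∃ τ N, Str P τ N := by
  have e0 := P.ε0
  have e1 := P.ε1
  have d0 := P.δ0
  obtain ⟨κ, hκ⟩ : ∃ κ : ℝ, κ = P.δ / P.ε / 2 := ⟨_, rfl⟩
  obtain ⟨l, hl⟩ : ∃ l : ℝ, l = 2 * P.ε := ⟨_, rfl⟩
  have k0 : 0 < κ := by rw [hκ]; positivity
  have l0 : 0 < l := by rw [hl]; positivity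
  have l1 : l ≤ 1 / 50 := by rw [hl]; linarith
  have lk : l * κ = P.δ := by rw [hκ, hl]; field_simp
  have hE : ∀ z ∈ P.E, (2 * κ ≤ z.re ∧ z.re ≤ 1 - 2 * κ) ∧ 2 * κ ≤ z.im ∧ z.im ≤ 1 - 2 * κ := by
    intro z hz
    obtain ⟨⟨x1, x2⟩, x3, x4⟩ := mem_reProdIm.1 (P.dom.sub hz)
    have e : 2 * κ = P.δ / P.ε := by rw [hκ]; ring
    have a1 := P.far z hz ⟨0, z.im⟩ fun h => lt_irrefl _ (mem_reProdIm.1 h).1.1
    have a2 := P.far z hz ⟨1, z.im⟩ fun h => lt_irrefl _ (mem_reProdIm.1 h).1.2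
    have a3 := P.far z hz ⟨z.re, 0⟩ fun h => lt_irrefl _ (mem_reProdIm.1 h).2.1
    have a4 := P.far z hz ⟨z.re, 1⟩ fun h => lt_irrefl _ (mem_reProdIm.1 h).2.2
    rw [Complex.dist_of_im_eq (by rfl), Real.dist_eq] at a1 a2
    rw [Complex.dist_of_re_eq (by rfl), Real.dist_eq] at a3 a4
    simp only [sub_zero] at a1 a2 a3 a4
    rw [abs_of_pos x1] at a1
    rw [abs_of_pos x3] at a3
    rw [abs_of_neg (by linarith : z.re - 1 < 0)] at a2
    rw [abs_of_neg (by linarith : z.im - 1 < 0)] at a4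
    exact ⟨⟨by linarith, by linarith⟩, by linarith, by linarith⟩
  have k2 : κ ≤ 1 / 4 := by
    obtain ⟨z, hz⟩ := P.ne
    linarith [(hE z hz).1.1, (hE z hz).1.2]
  obtain ⟨τ, t1, t2⟩ : ∃ τ : ℂ → ℂ, (∀ z, (τ z).re = z.re + l * g_Fit κ z.re) ∧
      ∀ z, (τ z).im = z.im - l * g_Fit κ z.im :=
    ⟨fun z => ⟨z.re + l * g_Fit κ z.re, z.im - l * g_Fit κ z.im⟩, fun _ => rfl, fun _ => rfl⟩
  have h1 : ∀ z z', ‖(τ z - τ z') - (z - z')‖ ≤ l * ‖z - z'‖ := fun z z' => by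
    have e1 : (τ z - τ z' - (z - z')).re = l * (g_Fit κ z.re - g_Fit κ z'.re) := by
      simp only [sub_re, t1]; ring
    have e2 : (τ z - τ z' - (z - z')).im = -(l * (g_Fit κ z.im - g_Fit κ z'.im)) := by
      simp only [sub_im, t2]; ring
    have e3 := mul_le_mul_of_nonneg_left (lip_Bs64A k2 z.re z'.re) (sq_nonneg l)
    have e4 := mul_le_mul_of_nonneg_left (lip_Bs64A k2 z.im z'.im) (sq_nonneg l)
    refine le_of_sq_le_sq ?_ (by positivity)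
    rw [mul_pow, Complex.sq_norm, Complex.sq_norm, normSq_apply, normSq_apply, e1, e2, sub_re, sub_im]
    nlinarith
  have hN : P.E ⊆ Ioo κ (1 - κ) ×ℂ Ioo κ (1 - κ) := fun z hz => by
    obtain ⟨⟨x1, x2⟩, x3, x4⟩ := hE z hz
    exact mem_reProdIm.2 ⟨⟨by linarith, by linarith⟩, by linarith, by linarith⟩
  have h2 : ∀ z ∈ Ioo κ (1 - κ) ×ℂ Ioo κ (1 - κ), τ z = z := fun z hz => by
    obtain ⟨⟨x1, x2⟩, x3, x4⟩ := mem_reProdIm.1 hz
    refine Complex.ext ?_ ?_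
    · rcases case_Fit k2 z.re with h | h | h
      · linarith [h.1]
      · linarith [h.1]
      · rw [t1, h.2.2, mul_zero, add_zero]
    · rcases case_Fit k2 z.im with h | h | h
      · linarith [h.1]
      · linarith [h.1]
      · rw [t2, h.2.2, mul_zero, sub_zero]
  refine ⟨τ, _, fun z z' => ?_, fun z z' => ?_, isOpen_Ioo.reProdIm isOpen_Ioo, hN, h2,
    fun z hE' => ?_, fun z hz => ?_, fun z hz => ?_, fun z hz => ?_⟩
  · have := norm_sub_norm_le (τ z - τ z') (z - z')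
    rw [dist_eq_norm, dist_eq_norm]
    have h3 := h1 z z'
    rw [hl] at h3
    linarith
  · have := norm_sub_norm_le (z - z') (τ z - τ z')
    rw [norm_sub_rev (z - z')] at this
    rw [dist_eq_norm, dist_eq_norm]
    have h3 := h1 z z'
    rw [hl] at h3
    linarith
  · obtain ⟨⟨y1, y2⟩, y3, y4⟩ := mem_reProdIm.1 (hN hE')
    rw [t1] at y1 y2
    rw [t2] at y3 y4
    refine h2 z (mem_reProdIm.2 ⟨?_, ?_⟩) ▸ hE'
    · rcases case_Fit k2 z.re with ⟨h, e⟩ | ⟨h, e⟩ | ⟨h, h', e⟩ <;> rw [e] at y1 y2 <;>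
        constructor <;> nlinarith
    · rcases case_Fit k2 z.im with ⟨h, e⟩ | ⟨h, e⟩ | ⟨h, h', e⟩ <;> rw [e] at y3 y4 <;>
        constructor <;> nlinarith
  · obtain ⟨⟨x1, x2⟩, x3, x4⟩ := mem_reProdIm.1 hz
    refine mem_reProdIm.2 ⟨?_, ?_⟩
    · rw [t1, ← lk]
      rcases case_Fit k2 z.re with ⟨h, e⟩ | ⟨h, e⟩ | ⟨h, h', e⟩ <;> rw [e] <;>
        constructor <;> nlinarith
    · rw [t2, ← lk]
      rcases case_Fit k2 z.im with ⟨h, e⟩ | ⟨h, e⟩ | ⟨h, h', e⟩ <;> rw [e] <;>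
        constructor <;> nlinarith
  · rcases case_Fit k2 z.im with ⟨h, e⟩ | ⟨h, e⟩ | ⟨h, h', e⟩
    · rw [t2, e, hz, ← lk]; ring
    · linarith
    · linarith
  · rcases case_Fit k2 z.im with ⟨h, e⟩ | ⟨h, e⟩ | ⟨h, h', e⟩
    · linarith
    · rw [t2, e, hz, ← lk]; ring
    · linarith

theorem Str.cont {P : Par} {τ : ℂ → ℂ} {N : Set ℂ} (h : Str P τ N) : Continuous τ :=
  (LipschitzWith.of_dist_le' h.lip).continuous

end Vale.Agent.P116.K
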