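import Vale.Agent.P116.K.Bs64A
import Vale.Agent.P116.K.Tf

/-! P116 K/Bs64B (block of helper64): weights and majorants under the stretch. -/

open MeasureTheory Set Metric Filter Topology Complex
open scoped ENNReal

noncomputable section

namespace Vale.Agent.P116.K

open Vale.Agent.P128

variable {P : Par} {τ : ℂ → ℂ} {N : Set ℂ}

theorem Str.l2 (h : Str P τ N) {ρ : ℂ → ℝ} (h2 : MemLp ρ 2 volume) :
    Integrable (fun z => ρ (τ z) ^ 2) ∧
      ∫ z, ρ (τ z) ^ 2 ≤ ((1 - 2 * P.ε)⁻¹) ^ 2 * ∫ z, ρ z ^ 2 := by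
  have l3 : 0 < 1 - 2 * P.ε := by linarith [P.ε1]
  have hB : AntilipschitzWith (NNReal.mk (1 - 2 * P.ε)⁻¹ (by positivity)) τ :=
    .of_le_mul_dist fun z z' => by
      rw [NNReal.coe_mk, le_inv_mul_iff₀ l3]
      exact h.anti z z'
  have h1 := map_Fit h.cont hB
  have hi : Integrable (fun z => ρ z ^ 2) := h2.integrable_sq
  have i0 := hi.smul_measure
    (c := (((NNReal.mk (1 - 2 * P.ε)⁻¹ (by positivity)) ^ 2 : NNReal) : ℝ≥0∞)) ENNReal.coe_ne_top
  have i1 := i0.mono_measure h1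
  have e1 := integral_mono_measure h1 (ae_of_all _ fun z => sq_nonneg (ρ z)) i0
  rw [integral_map h.cont.aemeasurable i1.aestronglyMeasurable, integral_smul_measure,
    ENNReal.coe_toReal, smul_eq_mul, NNReal.coe_pow, NNReal.coe_mk] at e1
  exact ⟨(integrable_map_measure i1.aestronglyMeasurable h.cont.aemeasurable).1 i1, e1⟩

theorem Str.gw (h : Str P τ N) {ρ : ℂ → ℝ} (hg : Gw P.E ρ) (h2 : MemLp ρ 2 volume) {C : ℝ}
    (hC : 0 ≤ C) : Gw P.E fun z => C * ρ (τ z) := by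
  have hc : ContinuousOn (fun z => C * ρ (τ z)) P.Eᶜ :=
    continuousOn_const.mul (hg.cont.comp h.cont.continuousOn fun z hz k => hz (h.off z k))
  refine ⟨⟨hc, fun z => mul_nonneg hC (hg.nn _), ?_⟩, ?_⟩
  · simp only [mul_pow]
    exact ((h.l2 h2).1.const_mul _).integrableOn
  obtain ⟨g, g2, g0, g1⟩ := hg.sup
  obtain ⟨r, r0, hr⟩ := P.dom.cpt.exists_thickening_subset_open h.op h.sub
  have hS : IsCompact (closedBall (0 : ℂ) 10 ∩ {y | r / 4 ≤ infDist y P.E}) :=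
    (isCompact_closedBall _ _).inter_right (isClosed_le continuous_const (continuous_infDist_pt _))
  obtain ⟨M, hM⟩ := hS.exists_bound_of_continuousOn (hc.mono fun y hy k => by
    have h3 : r / 4 ≤ infDist y P.E := hy.2
    rw [infDist_zero_of_mem k] at h3
    linarith)
  have hQ : ∀ x ∈ Q, ‖x‖ ≤ 2 := fun x hx => by
    obtain ⟨⟨x1, x2⟩, x3, x4⟩ := mem_reProdIm.1 hx
    refine (norm_le_abs_re_add_abs_im x).trans ?_
    rw [abs_of_pos x1, abs_of_pos x3]
    linarith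
  refine ⟨fun x => C * g x + Qc.indicator (fun _ => |M|) x, (g2.const_mul C).add
    (memLp_indicator_const 2 isCompact_Qc.measurableSet _ (Or.inr isCompact_Qc.measure_lt_top.ne)),
    fun x => add_nonneg (mul_nonneg hC (g0 x)) (indicator_nonneg (fun _ _ => abs_nonneg M) x),
    fun x hx y hy => ?_⟩
  have h3 := infDist_le_infDist_add_dist (s := P.E) (x := x) (y := y)
  have h4 := infDist_le_infDist_add_dist (s := P.E) (x := y) (y := x)
  have h5 : dist y x < infDist x P.E / 8 := hy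
  rw [dist_comm x y] at h3
  show C * ρ (τ y) ≤ C * g x + Qc.indicator (fun _ => |M|) x
  rw [indicator_of_mem (Q_sub hx.1)]
  by_cases h6 : infDist x P.E < r / 2
  · have h7 : y ∈ N := hr ((mem_thickening_iff_infDist_lt P.ne).2 (by linarith))
    rw [h.eq y h7]
    exact (mul_le_mul_of_nonneg_left (g1 x hx y hy) hC).trans (le_add_of_nonneg_right (abs_nonneg M))
  · obtain ⟨p, hp⟩ := P.ne
    have h8 : infDist x P.E ≤ 4 := (infDist_le_dist_of_mem hp).trans (by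
      rw [dist_eq_norm]
      linarith [norm_sub_le x p, hQ x hx.1, hQ p (P.dom.sub hp)])
    have h9 : y ∈ closedBall (0 : ℂ) 10 ∩ {y | r / 4 ≤ infDist y P.E} := by
      refine ⟨mem_closedBall_zero_iff.2 ?_, ?_⟩
      · have := norm_sub_norm_le y x
        rw [← dist_eq_norm] at this
        linarith [hQ x hx.1]
      · show r / 4 ≤ infDist y P.E
        linarith
    have := (le_abs_self _).trans ((hM y h9).trans (le_abs_self M))
    linarith [mul_nonneg hC (g0 x)]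

theorem Str.loc (h : Str P τ N) {v ρ : ℂ → ℝ} (hc : ContinuousOn ρ P.Eᶜ)
    (hm : Maj P.E P.R v ρ) {x : ℂ} (hx : x ∈ Qc \ P.E) {K : ℝ} (hK : ρ (τ x) < K) (h0 : 0 ≤ K) :
    ∀ᶠ y in 𝓝[Qc] x, |v (τ y) - v (τ x)| ≤ (1 + 2 * P.ε) * K * dist y x := by
  have hE : IsOpen P.Eᶜ := P.dom.cpt.isClosed.isOpen_compl
  have h1 : τ x ∈ P.Eᶜ := fun k => hx.2 (h.off x k)
  have h2 : ∀ᶠ z in 𝓝 (τ x), z ∈ P.Eᶜ ∧ ρ z < K :=
    Filter.Eventually.and (hE.mem_nhds h1)
      ((hc.continuousAt (hE.mem_nhds h1)).eventually (gt_mem_nhds hK))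
  obtain ⟨s, s0, hs⟩ := Metric.eventually_nhds_iff_ball.1 h2
  have h3 : ∀ᶠ y in 𝓝 x, τ y ∈ ball (τ x) s := h.cont.continuousAt.eventually (ball_mem_nhds _ s0)
  filter_upwards [self_mem_nhdsWithin, h3.filter_mono nhdsWithin_le_nhds] with y y1 y2
  have h4 := hm (P.R ∩ ball (τ x) s) ((cvx_Icc _ _ _ _).inter (convex_ball _ _))
    (fun z hz => ⟨hz.1, (hs z hz.2).1⟩) K (fun z hz => (hs z hz.2).2.le) (τ y) ⟨h.map y1, y2⟩
    (τ x) ⟨h.map hx.1, mem_ball_self s0⟩
  refine h4.trans ?_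
  rw [mul_comm (1 + 2 * P.ε), mul_assoc]
  exact mul_le_mul_of_nonneg_left (h.lip y x) h0

theorem Str.maj (h : Str P τ N) {v ρ : ℂ → ℝ} (hc : ContinuousOn ρ P.Eᶜ) (h0 : ∀ z, 0 ≤ ρ z)
    (hm : Maj P.E P.R v ρ) {β : ℝ} (hβ : 0 < β) :
    ContinuousOn (fun z => v (τ z) / β) (Qc \ P.E) ∧
      Maj P.E Q (fun z => v (τ z) / β) fun z => (1 + 2 * P.ε) / β * ρ (τ z) := by
  have hA : 0 < 1 + 2 * P.ε := by linarith [P.ε0]
  constructor
  · refine ContinuousOn.div_const (fun x hx => ?_) β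
    have h1 := h.loc hc hm hx (lt_add_one (ρ (τ x))) (by linarith [h0 (τ x)])
    have h2 : Tendsto (fun y => (1 + 2 * P.ε) * (ρ (τ x) + 1) * dist y x) (𝓝[Qc \ P.E] x) (𝓝 0) := by
      have h3 : Continuous fun y => (1 + 2 * P.ε) * (ρ (τ x) + 1) * dist y x := by fun_prop
      exact (h3.tendsto' x 0 (by simp)).mono_left nhdsWithin_le_nhds
    rw [ContinuousWithinAt, tendsto_iff_norm_sub_tendsto_zero]
    exact squeeze_zero' (Eventually.of_forall fun _ => norm_nonneg _)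
      (h1.filter_mono (nhdsWithin_mono _ sdiff_subset)) h2
  · refine maj_of_loc fun x hx K hK => ?_
    have h1 : ρ (τ x) < K * β / (1 + 2 * P.ε) := by
      rw [lt_div_iff₀ hA]
      rw [div_mul_eq_mul_div, div_lt_iff₀ hβ] at hK
      linarith
    filter_upwards [(h.loc hc hm ⟨Q_sub hx.1, hx.2⟩ h1 ((h0 _).trans h1.le)).filter_mono
      (nhdsWithin_mono _ (sdiff_subset.trans Q_sub))] with y hy
    rw [← sub_div, abs_div, abs_of_pos hβ, div_le_iff₀ hβ]
    refine hy.trans (le_of_eq ?_)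
    field_simp

end Vale.Agent.P116.K
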