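import Vale.Agent.P116.K.LevC

/-! P116 K/LevD (owner helper41). Finitely many level continua; area from ranges. Helper names end with `_LevD`. -/

open MeasureTheory Set Metric Filter Topology Complex
open scoped ENNReal ComplexConjugate

noncomputable section

namespace Vale.Agent.P116

open Vale.Agent.P128

variable {E U S J : Set ℂ} {a b w : TF E} {t y : ℝ} {z z₀ p q : ℂ}

/-- The components of the level set in `closure U` that meet `E`. -/
def TF.cps (a : TF E) (U : Set ℂ) (t : ℝ) : Set (Set ℂ) :=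
  {J | ∃ z ∈ a.lev (closure U) t ∩ E, J = connectedComponentIn (a.lev (closure U) t) z}

theorem cps_sep (hU : IsOpen U) (hf : Disjoint (frontier U) E) {J J' : Set ℂ}
    (hJ : J ∈ a.cps U t) (hJ' : J' ∈ a.cps U t) (hne : J ≠ J') :
    ∀ z ∈ J, ∀ z' ∈ J', z ≠ z' ∧ z' ∉ connectedComponentIn E z := by
  obtain ⟨x, -, rfl⟩ := hJ
  obtain ⟨x', -, rfl⟩ := hJ'
  intro z hz z' hz'
  have key : z' ∉ connectedComponentIn (a.lev (closure U) t) x := fun h =>
    hne ((connectedComponentIn_eq h).trans (connectedComponentIn_eq hz').symm)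
  exact ⟨fun h => key (h ▸ hz), fun h => key (lev_sat hU hf hz h)⟩

/-- The distance to `E`. -/
def dst_LevD (E : Set ℂ) : TF E where
  lo z := infDist z E
  hi z := infDist z E
  le _ := le_rfl
  eq _ _ := rfl
  lsc := (continuous_infDist_pt E).lowerSemicontinuous.lowerSemicontinuousOn _
  usc := (continuous_infDist_pt E).upperSemicontinuous.upperSemicontinuousOn _
  cst z hz z' hz' := by
    rw [infDist_zero_of_mem hz, infDist_zero_of_mem (connectedComponentIn_subset E z hz')]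
    exact ⟨rfl, rfl⟩
  lip := (lipschitz_infDist_pt E).locallyLipschitz.locallyLipschitzOn

theorem osc_LevD (c : Cp E) : (dst_LevD E).osc c = 0 := sub_self _

theorem fn_LevD (E : Set ℂ) : (dst_LevD E).Fn := by
  refine ⟨?_, by simp only [osc_LevD]; simpa using summable_zero⟩
  have hv : volume (Q \ E) ≠ ∞ :=
    ne_top_of_le_ne_top (by rw [vol_Q]; exact ENNReal.one_ne_top) (measure_mono sdiff_subset)
  refine Measure.integrableOn_of_bounded hv
    ((EARN.measurable_gr _).1.norm.pow_const 2).aestronglyMeasurable (M := 2 ^ 2)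
    (Eventually.of_forall fun z => ?_)
  have h1 : ‖fderiv ℝ (fun z : ℂ => infDist z E) z‖ ≤ 1 :=
    norm_fderiv_le_of_lipschitz ℝ (lipschitz_infDist_pt E)
  have h2 : ∀ v : ℂ, ‖v‖ = 1 → |fderiv ℝ (fun z : ℂ => infDist z E) z v| ≤ 1 := fun v hv => by
    have := (fderiv ℝ (fun z : ℂ => infDist z E) z).le_opNorm v
    rw [hv, mul_one, Real.norm_eq_abs] at this
    exact this.trans h1
  have h3 : ‖gr (dst_LevD E).hi z‖ ≤ 2 := by
    refine (norm_add_le _ _).trans ?_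
    rw [norm_mul, norm_I, one_mul, norm_real, norm_real, Real.norm_eq_abs, Real.norm_eq_abs]
    have := h2 1 norm_one
    have := h2 I norm_I
    change |fderiv ℝ (fun z : ℂ => infDist z E) z 1| + |fderiv ℝ (fun z : ℂ => infDist z E) z I| ≤ 2
    linarith
  rw [Real.norm_eq_abs, abs_of_nonneg (by positivity)]
  exact pow_le_pow_left₀ (norm_nonneg _) h3 2

theorem cmp_LevD (a : TF E) : a.Cmp (dst_LevD E) := by
  refine measure_mono_null (t := (univ : Set ℝ) ×ℂ {0}) ?_ ?_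
  · rintro _ ⟨z, hz, rfl⟩
    exact ⟨mem_univ _, infDist_zero_of_mem hz.1⟩
  · rw [vol_Rect MeasurableSet.univ (measurableSet_singleton 0)]
    simp

theorem cl_LevD (hc : closure U ⊆ Q) : IsCompact (closure U) :=
  isCompact_Qc.of_isClosed_subset isClosed_closure (hc.trans Q_sub)

theorem lev_fin (hE : Dom E) (ha : a.Fn) (hm : a.Mono) (hU : IsOpen U) (hc : closure U ⊆ Q)
    (hf : Disjoint (frontier U) E) : ∀ᵐ t, (a.cps U t).Finite := by
  have hK := cl_LevD hc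
  obtain ⟨N, hN, hI, hS⟩ := lev_sum hE ha (fn_LevD E) (cmp_LevD a) hK.measurableSet hc
  have hfin : ∫⁻ t, N t ≠ ∞ := by
    refine ne_top_of_le_ne_top ?_ hI
    simp only [osc_LevD, mul_zero, ENNReal.ofReal_zero, tsum_zero, add_zero]
    have h1 := (jac_int hE ha (fn_LevD E)).2.1
    refine ne_top_of_le_ne_top ?_ (lintegral_mono_set (sdiff_subset_sdiff_left hc))
    have h2 := h1.2
    rw [hasFiniteIntegral_iff_ofReal (Eventually.of_forall fun z => abs_nonneg _)] at h2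
    exact h2.ne
  obtain ⟨δ, hδ, hd⟩ : ∃ δ : ℝ, 0 < δ ∧ ∀ p ∈ frontier U, E.Nonempty → δ ≤ infDist p E := by
    rcases (frontier U).eq_empty_or_nonempty with h0 | h0
    · exact ⟨1, one_pos, by simp [h0]⟩
    rcases E.eq_empty_or_nonempty with h1 | h1
    · exact ⟨1, one_pos, by simp [h1]⟩
    obtain ⟨p, hp, hmin⟩ := (hK.of_isClosed_subset isClosed_frontier
      frontier_subset_closure).exists_isMinOn h0 (continuous_infDist_pt E).continuousOn
    exact ⟨infDist p E, (hE.cpt.isClosed.notMem_iff_infDist_pos h1).1 (disjoint_left.1 hf hp),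
      fun q hq _ => hmin hq⟩
  filter_upwards [ae_lt_top hN hfin] with t ht
  by_contra hinf
  obtain ⟨k, hk⟩ := ENNReal.exists_nat_mul_gt (a := ENNReal.ofReal δ)
    (by simpa using hδ) ht.ne
  obtain ⟨I, hIs, hcard⟩ := Set.Infinite.exists_subset_card_eq hinf k
  have hex : ∀ J : Set ℂ, ∃ p q : ℂ, J ∈ a.cps U t →
      p ∈ J ∧ p ∈ frontier U ∧ q ∈ J ∧ q ∈ E := by
    intro J
    by_cases hJ : J ∈ a.cps U t
    · obtain ⟨z, hz, rfl⟩ := hJ
      obtain ⟨p, hp⟩ := lev_reach hm hU hc hz.1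
      exact ⟨p, z, fun _ => ⟨hp.1, hp.2, mem_connectedComponentIn hz.1, hz.2⟩⟩
    · exact ⟨0, 0, fun h => absurd h hJ⟩
  choose p q hpq using hex
  have h1 := hS t (Set ℂ) I id p q (fun J hJ => by
    have h2 := hpq J (hIs hJ)
    obtain ⟨z, -, hz⟩ := hIs hJ
    refine ⟨?_, ?_, h2.1, h2.2.2.1⟩
    · rw [id, hz]; exact isPreconnected_connectedComponentIn
    · rw [id, hz]; exact connectedComponentIn_subset _ _)
    (fun J hJ J' hJ' hne => cps_sep hU hf (hIs hJ) (hIs hJ') hne)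
  have h3 : (k : ℝ≥0∞) * ENNReal.ofReal δ ≤ N t := by
    refine le_trans ?_ h1
    rw [← hcard, ← nsmul_eq_mul, ← Finset.sum_const]
    refine Finset.sum_le_sum fun J hJ => ENNReal.ofReal_le_ofReal ?_
    have h2 := hpq J (hIs hJ)
    change δ ≤ infDist (p J) E - infDist (q J) E
    rw [infDist_zero_of_mem h2.2.2.2, sub_zero]
    exact hd _ h2.2.1 ⟨_, h2.2.2.2⟩
  exact absurd hk (not_lt.2 h3)

theorem ohi_LevD (a : TF E) {f : ℂ → ℝ} (hf : Continuous f) :
    IsOpen {x : ℂ × ℂ | x.1 ∈ Q ∧ a.hi x.1 < f x.2} := by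
  have e : {x : ℂ × ℂ | x.1 ∈ Q ∧ a.hi x.1 < f x.2} =
      ⋃ r : ℝ, {z | z ∈ Q ∧ a.hi z < r} ×ˢ {y | r < f y} := by
    ext x
    simp only [mem_setOf_eq, mem_iUnion, mem_prod]
    constructor
    · rintro ⟨h1, h2⟩
      obtain ⟨r, h3, h4⟩ := exists_between h2
      exact ⟨r, ⟨h1, h3⟩, h4⟩
    · rintro ⟨r, ⟨h1, h3⟩, h4⟩
      exact ⟨h1, h3.trans h4⟩
  rw [e]
  exact isOpen_iUnion fun r => (a.open_hi r).prod (isOpen_lt continuous_const hf)

theorem olo_LevD (a : TF E) {f : ℂ → ℝ} (hf : Continuous f) :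
    IsOpen {x : ℂ × ℂ | x.1 ∈ Q ∧ f x.2 < a.lo x.1} := by
  have e : {x : ℂ × ℂ | x.1 ∈ Q ∧ f x.2 < a.lo x.1} =
      ⋃ r : ℝ, {z | z ∈ Q ∧ r < a.lo z} ×ˢ {y | f y < r} := by
    ext x
    simp only [mem_setOf_eq, mem_iUnion, mem_prod]
    constructor
    · rintro ⟨h1, h2⟩
      obtain ⟨r, h3, h4⟩ := exists_between h2
      exact ⟨r, ⟨h1, h4⟩, h3⟩
    · rintro ⟨r, ⟨h1, h3⟩, h4⟩
      exact ⟨h1, h4.trans h3⟩
  rw [e]
  exact isOpen_iUnion fun r => (a.open_lo r).prod (isOpen_lt hf continuous_const)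

theorem img_closed (a w : TF E) (hS : IsCompact S) (hQ : S ⊆ Q) : IsClosed (a.img w S) := by
  haveI : CompactSpace S := isCompact_iff_compactSpace.1 hS
  have hc : Continuous fun x : S × ℂ => ((x.1 : ℂ), x.2) := by fun_prop
  have ho := ((((ohi_LevD a continuous_re).union (olo_LevD a continuous_re)).union
    (ohi_LevD w continuous_im)).union (olo_LevD w continuous_im)).preimage hc
  have h1 := isClosedMap_snd_of_compactSpace _ ho.isClosed_compl
  have e : a.img w S = Prod.snd '' ((fun x : S × ℂ => ((x.1 : ℂ), x.2)) ⁻¹'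
      ({x : ℂ × ℂ | x.1 ∈ Q ∧ a.hi x.1 < x.2.re} ∪ {x : ℂ × ℂ | x.1 ∈ Q ∧ x.2.re < a.lo x.1} ∪
        {x : ℂ × ℂ | x.1 ∈ Q ∧ w.hi x.1 < x.2.im} ∪
          {x : ℂ × ℂ | x.1 ∈ Q ∧ x.2.im < w.lo x.1}))ᶜ := by
    ext y
    simp only [TF.img, TF.box, mem_iUnion, mem_image, mem_compl_iff, mem_preimage, mem_union,
      mem_setOf_eq, mem_reProdIm, mem_Icc, not_or, not_and, not_lt]
    constructor
    · rintro ⟨z, hz, ⟨h1, h2⟩, h3, h4⟩
      exact ⟨(⟨z, hz⟩, y), ⟨⟨⟨fun _ => h2, fun _ => h1⟩, fun _ => h4⟩, fun _ => h3⟩, rfl⟩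
    · rintro ⟨⟨z, y'⟩, ⟨⟨⟨h2, h1⟩, h4⟩, h3⟩, rfl⟩
      have hz := hQ z.2
      exact ⟨z, z.2, ⟨h1 hz, h2 hz⟩, h3 hz, h4 hz⟩
  rw [e]
  exact h1

theorem slice_LevD {S : Set ℂ} (hS : MeasurableSet S) :
    volume S = ∫⁻ t : ℝ, volume {s : ℝ | (⟨t, s⟩ : ℂ) ∈ S} := by
  have h1 := Complex.volume_preserving_equiv_real_prod.symm
  rw [← h1.measure_preimage hS.nullMeasurableSet, Measure.volume_eq_prod,
    Measure.prod_apply (h1.measurable hS)]
  rfl

theorem lev_area (hE : Dom E) (ha : a.Fn) (hm : a.Mono) (hU : IsOpen U) (hc : closure U ⊆ Q)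
    (hf : Disjoint (frontier U) E) {N : ℝ → ℝ≥0∞}
    (h : ∀ᵐ t, ∀ (I : Finset (Set ℂ)) (p q : Set ℂ → ℂ),
      (∀ J ∈ I, J ∈ a.cps U t ∧ p J ∈ J ∩ E ∧ q J ∈ J ∩ E) →
        ∑ J ∈ I, ENNReal.ofReal (w.hi (p J) - w.lo (q J)) ≤ N t) :
    volume (a.img w (E ∩ U)) ≤ ∫⁻ t, N t := by
  have hK := cl_LevD hc
  have hK' : IsCompact (E ∩ closure U) := hE.cpt.inter_right isClosed_closure
  have hQ : E ∩ closure U ⊆ Q := inter_subset_right.trans hc
  have h0 : a.img w (E ∩ U) ⊆ a.img w (E ∩ closure U) :=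
    biUnion_subset_biUnion_left (inter_subset_inter_right _ subset_closure)
  refine (measure_mono h0).trans ?_
  rw [slice_LevD (img_closed a w hK' hQ).measurableSet]
  refine lintegral_mono_ae ?_
  filter_upwards [h, lev_fin hE ha hm hU hc hf] with t ht hfin
  have hex : ∀ J : Set ℂ, ∃ p q : ℂ, J ∈ a.cps U t → p ∈ J ∩ E ∧ q ∈ J ∩ E ∧
      ∀ z ∈ J ∩ E, w.lo q ≤ w.lo z ∧ w.hi z ≤ w.hi p := by
    intro J
    by_cases hJ : J ∈ a.cps U t
    · obtain ⟨z, hz, rfl⟩ := hJ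
      have h1 : IsCompact (connectedComponentIn (a.lev (closure U) t) z ∩ E) :=
        ((Cp.mk z hz.1).cpt (a.lev_cpt hK hc t)).inter_right hE.cpt.isClosed
      have h2 : (connectedComponentIn (a.lev (closure U) t) z ∩ E).Nonempty :=
        ⟨z, mem_connectedComponentIn hz.1, hz.2⟩
      have h3 : connectedComponentIn (a.lev (closure U) t) z ∩ E ⊆ Qc :=
        inter_subset_right.trans (hE.sub.trans Q_sub)
      obtain ⟨p, hp, hmax⟩ := (w.usc.mono h3).exists_isMaxOn h2 h1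
      obtain ⟨q, hq, hmin⟩ := (w.lsc.mono h3).exists_isMinOn h2 h1
      exact ⟨p, q, fun _ => ⟨hp, hq, fun y hy => ⟨hmin hy, hmax hy⟩⟩⟩
    · exact ⟨0, 0, fun h => absurd h hJ⟩
  choose p q hpq using hex
  have h1 := ht hfin.toFinset p q fun J hJ =>
    have hJ' := hfin.mem_toFinset.1 hJ
    ⟨hJ', (hpq J hJ').1, (hpq J hJ').2.1⟩
  refine le_trans ?_ h1
  have h2 : {s : ℝ | (⟨t, s⟩ : ℂ) ∈ a.img w (E ∩ closure U)} ⊆
      ⋃ J ∈ hfin.toFinset, Icc (w.lo (q J)) (w.hi (p J)) := by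
    intro s hs
    obtain ⟨z, hz, hb⟩ := mem_iUnion₂.1 hs
    have hl : z ∈ a.lev (closure U) t := ⟨hz.2, hb.1.1, hb.1.2⟩
    have hJ : connectedComponentIn (a.lev (closure U) t) z ∈ a.cps U t := ⟨z, ⟨hl, hz.1⟩, rfl⟩
    have h3 := (hpq _ hJ).2.2 z ⟨mem_connectedComponentIn hl, hz.1⟩
    exact mem_iUnion₂.2 ⟨_, hfin.mem_toFinset.2 hJ, h3.1.trans hb.2.1, hb.2.2.trans h3.2⟩
  refine (measure_mono h2).trans ((measure_biUnion_finset_le _ _).trans (le_of_eq ?_))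
  simp only [Real.volume_Icc]

end Vale.Agent.P116
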