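import Vale.Agent.P116.K.Defs
import Vale.Agent.P116.K.LevD

/-! P116 K/CbA (owner helper41). Chain distance along a finite open cover. Helper names end with `_CbA`.
`D_tri_Cb`: append the lists (`Lk` by induction), `cost` is additive (`List.map_append`, `List.sum_append`, `Finset.sum_add_distrib`), `ENNReal.ofReal_add_le`, `ENNReal.le_iInf_add_iInf` (or `ENNReal.iInf_add`, `ENNReal.add_iInf`).
`D_seg_Cb`, `D_jmp_Cb`: lists of length one; `intervalIntegral.norm_integral_le_of_norm_le_const` (`segment_eq_image'`).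
`chain_Cb`: `x ∈ S i₀`; among the finsets `T ⊆ I` with `i₀ ∈ T` and `∀ j ∈ T, ∀ y ∈ S j \ E, D x y ≤ ∑ i ∈ T, c i` take one of maximal card (`Finset.exists_max_image` on a filter of the powerset); if `j ∉ T` and `S j` meets `S i`, `i ∈ T`, then `insert j T` is larger.
So the open unions over `T` and `I \ T` are disjoint; `IsPreconnected.subset_left_of_subset_union`. `Clo.th`: `closure_thickening_subset_cthickening`, `IsOpen.frontier_eq`, `cthickening_mono`. -/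

open MeasureTheory Set Metric Filter Topology Complex
open scoped ENNReal

noncomputable section

namespace Vale.Agent.P116.K

open Vale.Agent.P128

variable {P : Par} {E E' U O J : Set ℂ} {a w : TF E} {t r r₀ : ℝ} {n : ℕ} {x y z : ℂ}

/-- `E'` is a part of `E` at distance more than `r₀` from the rest. -/
structure Clo (E E' : Set ℂ) (r₀ : ℝ) : Prop where
  pos : 0 < r₀
  cpt : IsCompact E'
  sub : E' ⊆ E
  dis : Disjoint (cthickening r₀ E') (E \ E')
  inQ : cthickening r₀ E' ⊆ Q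

theorem Clo.th (h : Clo E E' r₀) (h0 : 0 < r) (h1 : r ≤ r₀) : closure (thickening r E') ⊆ Q ∧
    Disjoint (frontier (thickening r E')) E ∧ E ∩ closure (thickening r E') = E' := by
  have hc : closure (thickening r E') ⊆ cthickening r₀ E' :=
    (closure_thickening_subset_cthickening r E').trans (cthickening_mono h1 E')
  have hm : ∀ z ∈ closure (thickening r E'), z ∈ E → z ∈ E' := fun z hz hE => by
    by_contra hn
    exact Set.disjoint_left.1 h.dis (hc hz) ⟨hE, hn⟩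
  refine ⟨hc.trans h.inQ, Set.disjoint_left.2 fun z hz hE => ?_, Subset.antisymm
    (fun z hz => hm z hz.2 hz.1) fun z hz =>
      ⟨h.sub hz, subset_closure (self_subset_thickening h0 E' hz)⟩⟩
  rw [isOpen_thickening.frontier_eq] at hz
  exact hz.2 (self_subset_thickening h0 E' (hm z hz.1 hE))

theorem Lk_app_CbA {l m : List (Stp E)} (h1 : Lk x l y) (h2 : Lk y m z) : Lk x (l ++ m) z := by
  induction l generalizing x with
  | nil =>
    have h : x = y := h1
    rw [h]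
    exact h2
  | cons s l ih => exact ⟨h1.1, ih h1.2⟩

theorem cost_app_CbA (b : ℕ → TF E) (ρ : ℂ → ℝ) (lam : Cp E → ℝ) (n : ℕ) (l m : List (Stp E)) :
    cost b ρ lam n (l ++ m) = cost b ρ lam n l + cost b ρ lam n m := by
  simp only [cost, hopn, List.map_append, List.sum_append, Finset.sum_add_distrib]
  ring

theorem D_tri_Cb (b : ℕ → TF P.E) (ρ : ℂ → ℝ) (lam : Cp P.E → ℝ) (n : ℕ) (O : Set ℂ) (x y z : ℂ) :
    P.D b ρ lam n O x z ≤ P.D b ρ lam n O x y + P.D b ρ lam n O y z := by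
  refine ENNReal.le_iInf₂_add_iInf₂ fun l hl m hm => ?_
  have hC : P.Chn n O x z (l ++ m) := ⟨hl.1, Lk_app_CbA hl.2.1 hm.2.1, fun s hs =>
    (List.mem_append.1 hs).elim (hl.2.2 s) (hm.2.2 s)⟩
  refine (iInf₂_le (l ++ m) hC).trans ?_
  rw [cost_app_CbA]
  exact ENNReal.ofReal_add_le

theorem D_seg_Cb (b : ℕ → TF P.E) {ρ : ℂ → ℝ} (lam : Cp P.E → ℝ) (n : ℕ) (h0 : ∀ z, 0 ≤ ρ z)
    (hs : segment ℝ x y ⊆ O \ P.E) {M : ℝ} (hM : ∀ z ∈ segment ℝ x y, ρ z ≤ M) :
    P.D b ρ lam n O x y ≤ ENNReal.ofReal (M * dist x y) := by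
  have hC : P.Chn n O x y [Stp.seg x y] := by
    refine ⟨hs (left_mem_segment ℝ x y), ⟨rfl, rfl⟩, fun s h => ?_⟩
    rw [List.mem_singleton.1 h]
    exact hs
  refine (iInf₂_le [Stp.seg x y] hC).trans (ENNReal.ofReal_le_ofReal ?_)
  · have h1 : ‖∫ t in (0 : ℝ)..1, ρ (x + t • (y - x))‖ ≤ M * |1 - 0| := by
      refine intervalIntegral.norm_integral_le_of_norm_le_const fun t ht => ?_
      rw [Real.norm_of_nonneg (h0 _)]
      refine hM _ ?_
      rw [segment_eq_image']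
      rw [uIoc_of_le zero_le_one] at ht
      exact ⟨t, Ioc_subset_Icc_self ht, rfl⟩
    have h2 : (∫ t in (0 : ℝ)..1, ρ (x + t • (y - x))) ≤ M := by
      refine (le_abs_self _).trans (h1.trans_eq ?_)
      simp
    simp only [cost, hopn, List.map_cons, List.map_nil, List.sum_cons, List.sum_nil, Stp.len,
      Stp.tel, Stp.hop, add_zero, Finset.sum_const_zero, mul_zero]
    exact mul_le_mul_of_nonneg_right h2 dist_nonneg

theorem D_jmp_Cb (b : ℕ → TF P.E) (ρ : ℂ → ℝ) (lam : Cp P.E → ℝ) {c : Option (Cp P.E)}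
    (h : P.Ok n O (.jmp x y J c)) : P.D b ρ lam n O x y ≤
      ENNReal.ofReal (Stp.tel lam (.jmp 0 0 J c)) +
        ENNReal.ofReal (n * ∑ i ∈ Finset.range n, Stp.hop (b i) (.jmp 0 0 J c)) := by
  have hC : P.Chn n O x y [Stp.jmp x y J c] := by
    refine ⟨⟨(h.2.2.2.2.1 h.1.1).1, h.1.2⟩, ⟨rfl, rfl⟩, fun s hs => ?_⟩
    rw [List.mem_singleton.1 hs]
    exact h
  refine (iInf₂_le [Stp.jmp x y J c] hC).trans (le_trans (le_of_eq ?_) ENNReal.ofReal_add_le)
  · refine congrArg ENNReal.ofReal ?_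
    cases c <;>
      simp only [cost, hopn, List.map_cons, List.map_nil, List.sum_cons, List.sum_nil, Stp.len,
        Stp.tel, Stp.hop, add_zero, zero_add]

theorem chain_Cb {ι : Type} (I : Finset ι) (S : ι → Set ℂ) (c : ι → ℝ≥0∞) {D : ℂ → ℂ → ℝ≥0∞}
    (tri : ∀ x y z, D x z ≤ D x y + D y z) (hS : ∀ i ∈ I, IsOpen (S i))
    (hD : ∀ i ∈ I, ∀ x ∈ S i \ E, ∀ y ∈ S i \ E, D x y ≤ c i)
    (hE : ∀ i ∈ I, ∀ j ∈ I, i ≠ j → Disjoint (S i ∩ S j) E) (hJ : IsPreconnected J)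
    (hc : J ⊆ ⋃ i ∈ I, S i) (hx : x ∈ J \ E) (hy : y ∈ J \ E) : D x y ≤ ∑ i ∈ I, c i := by
  classical
  obtain ⟨i₀, hi₀, hx₀⟩ := mem_iUnion₂.1 (hc hx.1)
  obtain ⟨T, hT, hmax⟩ := Finset.exists_max_image (I.powerset.filter fun T =>
    i₀ ∈ T ∧ ∀ j ∈ T, ∀ y ∈ S j \ E, D x y ≤ ∑ i ∈ T, c i) Finset.card ⟨{i₀}, by
      refine Finset.mem_filter.2 ⟨Finset.mem_powerset.2 (Finset.singleton_subset_iff.2 hi₀),
        Finset.mem_singleton_self _, fun j hj y hy => ?_⟩
      rw [Finset.mem_singleton.1 hj] at hy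
      rw [Finset.sum_singleton]
      exact hD i₀ hi₀ x ⟨hx₀, hx.2⟩ y hy⟩
  obtain ⟨hTI, h0, hb⟩ := Finset.mem_filter.1 hT
  have hTI := Finset.mem_powerset.1 hTI
  have hdis : Disjoint (⋃ i ∈ T, S i) (⋃ i ∈ I \ T, S i) := by
    refine Set.disjoint_left.2 fun p hp hq => ?_
    obtain ⟨i, hi, hpi⟩ := mem_iUnion₂.1 hp
    obtain ⟨j, hj, hpj⟩ := mem_iUnion₂.1 hq
    obtain ⟨hjI, hjT⟩ := Finset.mem_sdiff.1 hj
    have hpE : p ∉ E := Set.disjoint_left.1
      (hE i (hTI hi) j hjI fun h => hjT (h ▸ hi)) ⟨hpi, hpj⟩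
    have h1 := hmax (insert j T) (Finset.mem_filter.2 ⟨Finset.mem_powerset.2
      (Finset.insert_subset hjI hTI), Finset.mem_insert_of_mem h0, fun k hk y hy => by
        rw [Finset.sum_insert hjT]
        rcases Finset.mem_insert.1 hk with h | h
        · rw [h] at hy
          rw [add_comm]
          exact (tri x p y).trans (add_le_add (hb i hi p ⟨hpi, hpE⟩) (hD j hjI p ⟨hpj, hpE⟩ y hy))
        · exact (hb k h y hy).trans le_add_self⟩)
    rw [Finset.card_insert_of_notMem hjT] at h1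
    omega
  have hsub : J ⊆ ⋃ i ∈ T, S i := by
    refine hJ.subset_left_of_subset_union (isOpen_biUnion fun i hi => hS i (hTI hi))
      (isOpen_biUnion fun i hi => hS i (Finset.mem_sdiff.1 hi).1) hdis (fun p hp => ?_)
      ⟨x, hx.1, mem_iUnion₂.2 ⟨i₀, h0, hx₀⟩⟩
    obtain ⟨i, hi, hpi⟩ := mem_iUnion₂.1 (hc hp)
    by_cases h : i ∈ T
    · exact Or.inl (mem_iUnion₂.2 ⟨i, h, hpi⟩)
    · exact Or.inr (mem_iUnion₂.2 ⟨i, Finset.mem_sdiff.2 ⟨hi, h⟩, hpi⟩)
  obtain ⟨j, hj, hyj⟩ := mem_iUnion₂.1 (hsub hy.1)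
  exact (hb j hj y ⟨hyj, hy.2⟩).trans (Finset.sum_le_sum_of_subset hTI)

end Vale.Agent.P116.K
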