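import Vale.Agent.P116.K.CbA

/-! P116 K/CbB (TASK, owner helper41). The length of level sets off `E`. Helper names end with `_CbB`; a helper file K/CbBX is allowed.
`grid_one`: put `A = cthickening s₁ L ⊆ V \ E` compact (`IsCompact.exists_cthickening_subset_open`), `ρa`, `ρ` are uniformly continuous on `A`; take `h` small (`4 h ≤ s₁`, `2 h ≤ s₀`, oscillation of `ρ`, `ρa` at scale `4 h` at most `e`). Cells `C m = Ico (m.1 h) ((m.1 + 1) h) ×ℂ Ico ..`, `m : ℤ × ℤ`, finitely many meet the bounded set `L`;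
choose a point `x m ∈ C m ∩ L`; `C m ⊆ ball (x m) (2 h)`; `M m = ρ (x m) + e`, `Ma m = ρa (x m) + e`; `N t = ∑ m, indicator (Icc (a (x m) - 2 h Ma m) (a (x m) + 2 h Ma m)) (ofReal (4 h M m)) t`. So `∫⁻ N = ∑ 16 h² Ma M ≤ 16 ∑ ∫⁻ in C m, (ρa + 2 e) (ρ + 2 e)`, the cells are disjoint and in `A`.
For `K ⊆ L` in the level `t` let `T` be the set of the `x m` whose cell meets `K` (`m ↦ x m` is injective; define `M` on points by `ρ x + e`), `s = 2 h`; `Maj` on the convex ball.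
`grid_len`: `L l = {z | 1 / (l + 1) ≤ infDist z (V \ E)ᶜ}` (compact, increasing, every compact `K ⊆ V \ E` lies in some `L l`); `N k` from `grid_one` for `L k`, `s₀ = ε = 1 / (k + 1)`; `N = liminf N k`, `lintegral_liminf_le`; `frequently_lt_of_liminf_lt` (if `N t = ⊤` use any `k`). -/

open MeasureTheory Set Metric Filter Topology Complex
open scoped ENNReal

noncomputable section

namespace Vale.Agent.P116.K

open Vale.Agent.P128

variable {P : Par} {E E' U O J : Set ℂ} {a w : TF E} {t r r₀ : ℝ} {n : ℕ} {x y z : ℂ}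

/-- A cover of `K` by small balls of total weight at most `C`. -/
def Cov (ρ : ℂ → ℝ) (K : Set ℂ) (s₀ : ℝ) (C : ℝ≥0∞) : Prop :=
  ∃ (T : Finset ℂ) (s : ℝ) (M : ℂ → ℝ), 0 < s ∧ s ≤ s₀ ∧ K ⊆ ⋃ x ∈ T, ball x s ∧
    (∀ x ∈ T, (ball x s ∩ K).Nonempty ∧ 0 ≤ M x ∧ ∀ z ∈ ball x s, ρ z ≤ M x) ∧
      ∑ x ∈ T, ENNReal.ofReal (M x * (2 * s)) ≤ C

theorem fl_CbB {h : ℝ} (hh : 0 < h) (k : ℤ) :
    Ico (k * h) (k * h + h) ⊆ {x : ℝ | ⌊x / h⌋ = k} := fun x hx => by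
  refine Int.floor_eq_iff.2 ⟨(le_div_iff₀ hh).2 hx.1, (div_lt_iff₀ hh).2 ?_⟩
  have := hx.2
  linarith

theorem near_CbB {h p q : ℝ} (hh : 0 < h) (e : ⌊p / h⌋ = ⌊q / h⌋) : |p - q| < h := by
  have h1 := Int.abs_sub_lt_one_of_floor_eq_floor e
  rwa [← sub_div, abs_div, abs_of_pos hh, div_lt_one hh] at h1

theorem cell_CbB {h : ℝ} (hh : 0 < h) : ∃ g : ℂ → ℤ × ℤ, Measurable g ∧
    (∀ m, ENNReal.ofReal (h * h) ≤ volume (g ⁻¹' {m})) ∧
      (∀ z x, g z = g x → dist z x < 2 * h) ∧ (g '' Q).Finite := by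
  refine ⟨fun z => (⌊z.re / h⌋, ⌊z.im / h⌋), (measurable_re.div_const h).floor.prodMk
    (measurable_im.div_const h).floor, fun m => ?_, fun z x e => ?_, ?_⟩
  · refine le_trans ?_ (measure_mono (s := Ico (m.1 * h) (m.1 * h + h) ×ℂ
      Ico (m.2 * h) (m.2 * h + h)) fun z hz => Prod.ext (fl_CbB hh _ hz.1) (fl_CbB hh _ hz.2))
    rw [vol_Rect measurableSet_Ico measurableSet_Ico, Real.volume_Ico, Real.volume_Ico,
      add_sub_cancel_left, add_sub_cancel_left, ENNReal.ofReal_mul hh.le]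
  · have h1 := near_CbB hh (congrArg Prod.fst e)
    have h2 := near_CbB hh (congrArg Prod.snd e)
    have h3 := norm_le_abs_re_add_abs_im (z - x)
    rw [sub_re, sub_im] at h3
    rw [dist_eq_norm]
    linarith
  · have k : ∀ p : ℝ, p ∈ Ioo (0 : ℝ) 1 → ⌊p / h⌋ ∈ Icc (0 : ℤ) ⌊1 / h⌋ := fun p hp =>
      ⟨Int.floor_nonneg.2 (div_nonneg hp.1.le hh.le),
        Int.floor_le_floor (div_le_div_of_nonneg_right hp.2.le hh.le)⟩
    refine ((finite_Icc (0 : ℤ) ⌊1 / h⌋).prod (finite_Icc (0 : ℤ) ⌊1 / h⌋)).subset ?_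
    rintro _ ⟨z, hz, rfl⟩
    exact ⟨k _ hz.1, k _ hz.2⟩

theorem rep_CbB {g : ℂ → ℤ × ℤ} {L : Set ℂ} (h : (g '' L).Finite) :
    ∃ T : Finset ℂ, (∀ x ∈ T, x ∈ L) ∧ InjOn g T ∧ ∀ z ∈ L, ∃ x ∈ T, g x = g z := by
  obtain ⟨T, h1, h2⟩ := (surjOn_image g L).exists_bijOn_subset
  have h3 : T.Finite := Finite.of_injOn h2.mapsTo h2.injOn h
  refine ⟨h3.toFinset, fun x hx => h1 (h3.mem_toFinset.1 hx), ?_, fun z hz => ?_⟩
  · rw [h3.coe_toFinset]
    exact h2.injOn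
  · obtain ⟨x, hx, e⟩ := h2.surjOn ⟨z, hz, rfl⟩
    exact ⟨x, h3.mem_toFinset.2 hx, e⟩

theorem osc_CbB {A : Set ℂ} (hA : IsCompact A) {f : ℂ → ℝ} (hf : ContinuousOn f A) {e : ℝ}
    (he : 0 < e) : ∃ δ : ℝ, 0 < δ ∧ ∀ x ∈ A, ∀ y ∈ A, dist x y < δ → f x ≤ f y + e := by
  obtain ⟨δ, h0, h⟩ := Metric.uniformContinuousOn_iff.1
    (hA.uniformContinuousOn_of_continuous hf) e he
  refine ⟨δ, h0, fun x hx y hy hd => ?_⟩
  have := (abs_lt.1 (h x hx y hy hd)).2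
  linarith

theorem alg_CbB {p q p' q' e B η : ℝ} (hp : 0 ≤ p) (hq : 0 ≤ q) (he : 0 < e) (h1 : e ≤ 1)
    (h2 : e * (4 * B + 4) ≤ η) (h3 : p ≤ p' + e) (h4 : q ≤ q' + e) (h5 : p' ≤ B) (h6 : q' ≤ B) :
    (p + e) * (q + e) ≤ p' * q' + η := by
  have a1 : (p + e) * (q + e) ≤ (p' + 2 * e) * (q' + 2 * e) :=
    mul_le_mul (by linarith) (by linarith) (by linarith) (by linarith)
  have a2 := mul_le_mul_of_nonneg_left h5 he.le
  have a3 := mul_le_mul_of_nonneg_left h6 he.le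
  have a4 := mul_le_mul_of_nonneg_left h1 he.le
  linarith

theorem one_CbB {C : Set ℂ} (hC : MeasurableSet C) {F : ℂ → ℝ≥0∞} {p q c h : ℝ} (hh : 0 < h)
    (hp : 0 ≤ p) (hq : 0 ≤ q) (hv : ENNReal.ofReal (h * h) ≤ volume C)
    (hF : ∀ z ∈ C, ENNReal.ofReal (p * q) ≤ F z) :
    ∫⁻ t, (Icc (c - p * (2 * h)) (c + p * (2 * h))).indicator
      (fun _ => ENNReal.ofReal (q * (2 * (2 * h)))) t ≤ 16 * ∫⁻ z in C, F z := by
  rw [lintegral_indicator_const measurableSet_Icc, Real.volume_Icc,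
    ← ENNReal.ofReal_mul (by positivity),
    show q * (2 * (2 * h)) * (c + p * (2 * h) - (c - p * (2 * h))) = 16 * (p * q * (h * h)) by ring,
    ENNReal.ofReal_mul (by norm_num), ENNReal.ofReal_ofNat, ENNReal.ofReal_mul (by positivity)]
  refine mul_le_mul_right ((mul_le_mul_right hv _).trans ?_) _
  rw [← setLIntegral_const]
  exact setLIntegral_mono' hC hF

theorem Cov.mono_CbB {ρ : ℂ → ℝ} {K : Set ℂ} {s s' : ℝ} {C C' : ℝ≥0∞} (h : Cov ρ K s C)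
    (h1 : s ≤ s') (h2 : C ≤ C') : Cov ρ K s' C' := by
  obtain ⟨T, s, M, a1, a2, a3, a4, a5⟩ := h
  exact ⟨T, s, M, a1, a2.trans h1, a3, a4, a5.trans h2⟩

theorem grid_one (hE : Dom E) {u ρa ρ : ℂ → ℝ} (h1 : ContinuousOn ρa Eᶜ) (h2 : ContinuousOn ρ Eᶜ)
    (h3 : ∀ z, 0 ≤ ρa z) (h4 : ∀ z, 0 ≤ ρ z) (hm : Maj E Q u ρa) {V L : Set ℂ} (hV : IsOpen V)
    (hQ : V ⊆ Q) (hL : IsCompact L) (hLV : L ⊆ V \ E) {s₀ ε : ℝ} (hs : 0 < s₀) (hε : 0 < ε) :
    ∃ N : ℝ → ℝ≥0∞, Measurable N ∧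
      ∫⁻ t, N t ≤ 16 * (∫⁻ z in V \ E, ENNReal.ofReal (ρa z * ρ z)) + ENNReal.ofReal ε ∧
      ∀ (t : ℝ) (K : Set ℂ), K ⊆ L → (∀ z ∈ K, u z = t) → Cov ρ K s₀ (N t) := by
  classical
  obtain ⟨s₁, hs₁, hA⟩ := hL.exists_cthickening_subset_open (hV.sdiff hE.cpt.isClosed) hLV
  have cA : IsCompact (cthickening s₁ L) := hL.cthickening
  have c1 := h1.mono fun z hz => (hA hz).2
  have c2 := h2.mono fun z hz => (hA hz).2
  obtain ⟨B₁, hB₁⟩ := cA.bddAbove_image c1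
  obtain ⟨B₂, hB₂⟩ := cA.bddAbove_image c2
  obtain ⟨B, hB0, hB1, hB2⟩ : ∃ B : ℝ, 0 ≤ B ∧ B₁ ≤ B ∧ B₂ ≤ B :=
    ⟨max 0 (max B₁ B₂), le_max_left _ _, le_max_of_le_right (le_max_left _ _),
      le_max_of_le_right (le_max_right _ _)⟩
  obtain ⟨e, he, he1, he2⟩ : ∃ e : ℝ, 0 < e ∧ e ≤ 1 ∧ e * (4 * B + 4) ≤ ε / 16 :=
    ⟨min 1 (ε / 16 / (4 * B + 4)), by positivity, min_le_left _ _,
      (le_div_iff₀ (by positivity)).1 (min_le_right _ _)⟩
  obtain ⟨δ₁, hδ₁, o1⟩ := osc_CbB cA c1 he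
  obtain ⟨δ₂, hδ₂, o2⟩ := osc_CbB cA c2 he
  obtain ⟨h, hh, k1, k2, k3, k4⟩ : ∃ h : ℝ, 0 < h ∧ 2 * h ≤ s₀ ∧ 2 * h ≤ s₁ ∧ 2 * h ≤ δ₁ ∧
      2 * h ≤ δ₂ := by
    refine ⟨min (min s₀ s₁) (min δ₁ δ₂) / 2, by positivity, ?_, ?_, ?_, ?_⟩ <;>
      rw [mul_div_cancel₀ _ two_ne_zero]
    exacts [min_le_of_left_le (min_le_left _ _), min_le_of_left_le (min_le_right _ _),
      min_le_of_right_le (min_le_left _ _), min_le_of_right_le (min_le_right _ _)]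
  obtain ⟨g, gm, gv, gd, gf⟩ := cell_CbB hh
  obtain ⟨T, t1, t2, t3⟩ := rep_CbB (gf.subset (image_mono fun z (hz : z ∈ L) => hQ (hLV hz).1))
  have hb : ∀ x ∈ L, ∀ z, dist z x < 2 * h → z ∈ cthickening s₁ L := fun x hx z hz =>
    mem_cthickening_of_dist_le z x _ _ hx (hz.le.trans k2)
  have hx0 : ∀ x ∈ L, x ∈ cthickening s₁ L := fun x hx => self_subset_cthickening L hx
  refine ⟨fun t => ∑ x ∈ T, (Icc (u x - (ρa x + e) * (2 * h)) (u x + (ρa x + e) * (2 * h))).indicator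
    (fun _ => ENNReal.ofReal ((ρ x + e) * (2 * (2 * h)))) t,
    T.measurable_sum fun x _ => measurable_const.indicator measurableSet_Icc, ?_,
    fun t K hK hu => ?_⟩
  · rw [lintegral_finsetSum _ fun x _ => measurable_const.indicator measurableSet_Icc]
    have mc : ∀ x, MeasurableSet (g ⁻¹' {g x}) := fun x => gm (measurableSet_singleton _)
    refine (Finset.sum_le_sum (g := fun x => 16 * ∫⁻ z in g ⁻¹' {g x},
      (ENNReal.ofReal (ρa z * ρ z) + ENNReal.ofReal (ε / 16))) fun x hx => ?_).trans ?_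
    · refine one_CbB (mc x) hh (add_nonneg (h3 x) he.le) (add_nonneg (h4 x) he.le) (gv _)
        fun z hz => le_trans (ENNReal.ofReal_le_ofReal ?_) ENNReal.ofReal_add_le
      have d1 := gd z x hz
      have d2 := hb x (t1 x hx) z d1
      rw [dist_comm] at d1
      exact alg_CbB (h3 x) (h4 x) he he1 he2 (o1 x (hx0 x (t1 x hx)) z d2 (d1.trans_le k3))
        (o2 x (hx0 x (t1 x hx)) z d2 (d1.trans_le k4)) ((hB₁ ⟨z, d2, rfl⟩).trans hB1)
        ((hB₂ ⟨z, d2, rfl⟩).trans hB2)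
    · have pd : (T : Set ℂ).PairwiseDisjoint fun x => g ⁻¹' {g x} := fun x hx y hy hne =>
        disjoint_left.2 fun z (hz : g z = g x) (hz' : g z = g y) => hne (t2 hx hy (hz.symm.trans hz'))
      rw [← Finset.mul_sum, ← lintegral_biUnion_finset pd fun x _ => mc x]
      refine (mul_le_mul_right (lintegral_mono_set (t := V \ E) (iUnion₂_subset fun x hx z hz =>
        hA (hb x (t1 x hx) z (gd z x hz)))) _).trans ?_
      have v1 : volume (V \ E) ≤ 1 := vol_Q ▸ measure_mono fun z hz => hQ hz.1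
      rw [lintegral_add_right _ measurable_const, setLIntegral_const, mul_add]
      refine add_le_add_right ((mul_le_mul_right (mul_le_of_le_one_right' v1) _).trans ?_) _
      rw [← ENNReal.ofReal_ofNat 16, ← ENNReal.ofReal_mul (by norm_num),
        mul_div_cancel₀ _ (by norm_num)]
  · refine ⟨T.filter fun x => ∃ z ∈ K, g z = g x, 2 * h, fun x => ρ x + e, by positivity, k1,
      fun z hz => ?_, fun x hx => ?_, ?_⟩
    · obtain ⟨x, hx, e'⟩ := t3 z (hK hz)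
      exact mem_biUnion (x := x) (Finset.mem_filter.2 ⟨hx, z, hz, e'.symm⟩) (gd z x e'.symm)
    · obtain ⟨hx, z, hz, e'⟩ := Finset.mem_filter.1 hx
      exact ⟨⟨z, gd z x e', hz⟩, add_nonneg (h4 x) he.le, fun y hy =>
        o2 y (hb x (t1 x hx) y hy) x (hx0 x (t1 x hx)) (lt_of_lt_of_le hy k4)⟩
    · refine le_trans (Finset.sum_le_sum fun x hx => ?_)
        (Finset.sum_le_sum_of_subset (Finset.filter_subset (fun x => ∃ z ∈ K, g z = g x) T))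
      obtain ⟨hx, z, hz, e'⟩ := Finset.mem_filter.1 hx
      have d1 := gd z x e'
      have d2 := hm (ball x (2 * h)) (convex_ball _ _) (fun y hy =>
        ⟨hQ (hA (hb x (t1 x hx) y hy)).1, (hA (hb x (t1 x hx) y hy)).2⟩) (ρa x + e)
        (fun y hy => o1 y (hb x (t1 x hx) y hy) x (hx0 x (t1 x hx)) (lt_of_lt_of_le hy k3)) z d1 x
        (mem_ball_self (by positivity))
      have d3 := abs_le.1 (d2.trans (mul_le_mul_of_nonneg_left d1.le (add_nonneg (h3 x) he.le)))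
      rw [hu z hz] at d3
      rw [indicator_of_mem (show t ∈ Icc _ _ from ⟨by linarith [d3.1], by linarith [d3.2]⟩)]

theorem grid_len (hE : Dom E) {u ρa ρ : ℂ → ℝ} (h1 : ContinuousOn ρa Eᶜ) (h2 : ContinuousOn ρ Eᶜ)
    (h3 : ∀ z, 0 ≤ ρa z) (h4 : ∀ z, 0 ≤ ρ z) (hm : Maj E Q u ρa) {V : Set ℂ} (hV : IsOpen V)
    (hQ : V ⊆ Q) : ∃ N : ℝ → ℝ≥0∞,
      ∫⁻ t, N t ≤ 16 * ∫⁻ z in V \ E, ENNReal.ofReal (ρa z * ρ z) ∧ Measurable N ∧
      ∀ (t : ℝ) (K : Set ℂ), IsCompact K → K ⊆ V \ E → (∀ z ∈ K, u z = t) → ∀ s₀ η : ℝ, 0 < s₀ →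
        0 < η → Cov ρ K s₀ (N t + ENNReal.ofReal η) := by
  have p0 : ∀ k : ℕ, (0 : ℝ) < 1 / (k + 1) := fun k => Nat.one_div_pos_of_nat
  have l1 : ∀ k : ℕ, (⋂ w ∈ (V \ E)ᶜ, {z | (1 : ℝ) / (k + 1) ≤ dist z w}) ⊆ V \ E := fun k z hz => by
    by_contra hn
    have h5 : (1 : ℝ) / (k + 1) ≤ dist z z := mem_iInter₂.1 hz z hn
    rw [dist_self] at h5
    exact (p0 k).not_ge h5
  have l2 : ∀ k : ℕ, IsCompact (⋂ w ∈ (V \ E)ᶜ, {z | (1 : ℝ) / (k + 1) ≤ dist z w}) := fun k =>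
    isCompact_Qc.of_isClosed_subset (isClosed_biInter fun w _ =>
      isClosed_le continuous_const (continuous_id.dist continuous_const))
      fun z hz => Q_sub (hQ (l1 k hz).1)
  choose N hN hI hC using fun k : ℕ =>
    grid_one hE h1 h2 h3 h4 hm hV hQ (l2 k) (l1 k) (p0 k) (p0 k)
  have t0 : Tendsto (fun k : ℕ => (1 : ℝ) / (k + 1)) atTop (𝓝 0) :=
    tendsto_one_div_add_atTop_nhds_zero_nat
  refine ⟨fun t => liminf (fun k => N k t) atTop, (lintegral_liminf_le hN).trans ?_,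
    Measurable.liminf hN, fun t K hK hKV hu s₀ η hs hη => ?_⟩
  · have t1 := (ENNReal.tendsto_ofReal t0).const_add
      (16 * ∫⁻ z in V \ E, ENNReal.ofReal (ρa z * ρ z))
    rw [ENNReal.ofReal_zero, add_zero] at t1
    exact (liminf_le_liminf (Eventually.of_forall hI)).trans t1.liminf_eq.le
  · obtain ⟨δ, hδ, hA⟩ := hK.exists_cthickening_subset_open (hV.sdiff hE.cpt.isClosed) hKV
    have f1 : ∃ᶠ k in atTop, N k t ≤ liminf (fun k => N k t) atTop + ENNReal.ofReal η := by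
      by_cases ht : liminf (fun k => N k t) atTop = ∞
      · rw [ht, top_add]
        exact Frequently.of_forall fun _ => le_top
      · exact (frequently_lt_of_liminf_lt (by isBoundedDefault)
          (ENNReal.lt_add_right ht (ENNReal.ofReal_pos.2 hη).ne')).mono fun k hk => hk.le
    obtain ⟨k, a1, a2, a3⟩ := (f1.and_eventually ((t0.eventually (ge_mem_nhds hs)).and
      (t0.eventually (ge_mem_nhds hδ)))).exists
    refine (hC k t K (fun z hz => mem_iInter₂.2 fun w hw => ?_) hu).mono_CbB a2 a1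
    by_contra hn
    have h5 : dist z w < 1 / (k + 1) := not_le.1 hn
    rw [dist_comm] at h5
    exact hw (hA (mem_cthickening_of_dist_le w z _ _ hz (h5.le.trans a3)))

end Vale.Agent.P116.K
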