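import Vale.Agent.P116.K.CbA

/-! P116 K/CbC (TASK, owner helper41). Hops along deep level components. Helper names end with `_CbC`.
`dm_spec`: `UpperSemicontinuousOn.exists_isMaxOn`, `LowerSemicontinuousOn.exists_isMinOn`, `IsGreatest.csSup_eq`. `dm_thick`: `J` lies in the open set `{hi < hi p + η / 2} ∩ {lo q - η / 2 < lo}` (`TF.open_hi`, `TF.open_lo`), `IsCompact.exists_cthickening_subset_open`, `csSup_le`, `le_csInf`.
`hop_one`: `N` from `lev_sum` on `closure U`; `N₀ t = ∑ c ∈ G with c.pt ∈ closure U, indicator (Icc (a.lo c.pt) (a.hi c.pt)) (ofReal (b.osc c)) t`; `N₀ ≤ N` (`lev_sum` for the family `c.1`, `p = q = c.pt`; `Cp.in_or` gives `c.1 ⊆ U`); `H = N - N₀`, `lintegral_sub`, `∫⁻ N₀ = ∑ ofReal (a.osc c * b.osc c)`;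
split the `tsum` into `G` and its complement. For the family `I` (components are compact: `(Cp.mk z hz).cpt (lev_cpt ..)`; `cps_sep`) `∑ ofReal (dm b J) ≤ N t` by `dm_spec`; `ofReal (dm) = ofReal (hop) + ofReal (osc)` and `c ↦ J` with `o J = some c` is injective, so `∑ ofReal (hop) + N₀ t ≤ N t`; `ENNReal.le_sub_of_add_le_right`. -/

open MeasureTheory Set Metric Filter Topology Complex
open scoped ENNReal

noncomputable section

namespace Vale.Agent.P116.K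

open Vale.Agent.P128

variable {P : Par} {E E' U O J : Set ℂ} {a w : TF E} {t r r₀ : ℝ} {n : ℕ} {x y z : ℂ}

theorem dm_spec (b : TF E) (hJ : IsCompact J) (hne : J.Nonempty) (hQ : J ⊆ Q) : ∃ p ∈ J, ∃ q ∈ J,
    dm b J = b.hi p - b.lo q ∧ ∀ z ∈ J, b.lo q ≤ b.lo z ∧ b.hi z ≤ b.hi p := by
  obtain ⟨p, hp, hmax⟩ := UpperSemicontinuousOn.exists_isMaxOn hne hJ (b.usc.mono (hQ.trans Q_sub))
  obtain ⟨q, hq, hmin⟩ := LowerSemicontinuousOn.exists_isMinOn hne hJ (b.lsc.mono (hQ.trans Q_sub))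
  refine ⟨p, hp, q, hq, ?_, fun z hz => ⟨hmin hz, hmax hz⟩⟩
  have h1 : IsGreatest (b.hi '' J) (b.hi p) :=
    ⟨mem_image_of_mem _ hp, by rintro _ ⟨z, hz, rfl⟩; exact hmax hz⟩
  have h2 : IsLeast (b.lo '' J) (b.lo q) :=
    ⟨mem_image_of_mem _ hq, by rintro _ ⟨z, hz, rfl⟩; exact hmin hz⟩
  rw [dm, h1.csSup_eq, h2.csInf_eq]

theorem dm_thick (b : TF E) (hJ : IsCompact J) (hne : J.Nonempty) (hQ : J ⊆ Q) {η : ℝ}
    (hη : 0 < η) : ∃ e : ℝ, 0 < e ∧ ∀ J', J ⊆ J' → J' ⊆ cthickening e J → dm b J' ≤ dm b J + η := by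
  obtain ⟨p, -, q, -, hd, hb⟩ := dm_spec b hJ hne hQ
  obtain ⟨e, he, hsub⟩ := hJ.exists_cthickening_subset_open
    ((b.open_hi (b.hi p + η / 2)).inter (b.open_lo (b.lo q - η / 2))) fun z hz =>
      ⟨⟨hQ hz, by linarith [(hb z hz).2]⟩, hQ hz, by linarith [(hb z hz).1]⟩
  refine ⟨e, he, fun J' h1 h2 => ?_⟩
  have h3 : sSup (b.hi '' J') ≤ b.hi p + η / 2 := csSup_le ((hne.mono h1).image _) (by
    rintro _ ⟨z, hz, rfl⟩
    exact (hsub (h2 hz)).1.2.le)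
  have h4 : b.lo q - η / 2 ≤ sInf (b.lo '' J') := le_csInf ((hne.mono h1).image _) (by
    rintro _ ⟨z, hz, rfl⟩
    exact (hsub (h2 hz)).2.2.le)
  rw [hd, dm]
  linarith

theorem hop_nn (b : TF E) (hJ : IsCompact J) (hne : J.Nonempty) (hQ : J ⊆ Q) {c : Option (Cp E)}
    (hc : ∀ c', c = some c' → c'.1 ⊆ J) : 0 ≤ Stp.hop b (.jmp 0 0 J c) := by
  obtain ⟨p, hp, q, -, hd, hb⟩ := dm_spec b hJ hne hQ
  rcases c with _ | c
  · change 0 ≤ dm b J
    linarith [(hb p hp).1, b.le p]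
  · change 0 ≤ dm b J - (b.hi c.pt - b.lo c.pt)
    have h1 := hb _ (hc c rfl c.pt_in)
    linarith [h1.1, h1.2]

theorem in_CbC (hU : IsOpen U) (hf : Disjoint (frontier U) E) {c : Cp E}
    (h : (c.1 ∩ closure U).Nonempty) : c.1 ⊆ closure U := by
  rcases c.in_or hU hf with h1 | h1
  · exact h1.trans subset_closure
  · exact absurd h (not_nonempty_iff_eq_empty.2 (disjoint_iff_inter_eq_empty.1 h1))

theorem sep_CbC {c c' : Cp E} (h : c ≠ c') : ∀ z ∈ c.1, ∀ z' ∈ c'.1,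
    z ≠ z' ∧ z' ∉ connectedComponentIn E z := by
  intro z hz z' hz'
  refine ⟨fun h1 => h (Cp.ext_mem hz (h1 ▸ hz')), fun h1 => h ?_⟩
  exact (Cp.ext_mem hz (Cp.mem_mk z (c.sub hz))).trans
    (Cp.ext_mem (c := Cp.mk z (c.sub hz)) h1 hz')

theorem split_CbC (hU : IsOpen U) (hf : Disjoint (frontier U) E) (f : Cp E → ℝ≥0∞)
    {G G' : Finset (Cp E)} (hG : ∀ c, c ∈ G' ↔ c ∈ G ∧ c.pt ∈ closure U) :
    ∑' c : {c : Cp E // (c.1 ∩ closure U).Nonempty}, f c ≤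
      ∑' c : {c : Cp E // c ∉ G}, f c + ∑ c ∈ G', f c := by
  have e1 : ∑' c : {c : Cp E // (c.1 ∩ closure U).Nonempty}, f c = _ :=
    tsum_subtype {c : Cp E | (c.1 ∩ closure U).Nonempty} f
  have e2 : ∑' c : {c : Cp E // c ∉ G}, f c = _ := tsum_subtype {c : Cp E | c ∉ G} f
  rw [e1, e2, sum_eq_tsum_indicator, ← ENNReal.tsum_add]
  refine ENNReal.tsum_le_tsum fun c => ?_
  by_cases h1 : c ∈ {c : Cp E | (c.1 ∩ closure U).Nonempty}
  · rw [indicator_of_mem h1]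
    by_cases h2 : c ∈ G
    · have h3 : c ∈ (G' : Set (Cp E)) := (hG c).2 ⟨h2, in_CbC hU hf h1 c.pt_in⟩
      rw [indicator_of_mem h3]
      exact le_add_self
    · have h3 : c ∈ {c : Cp E | c ∉ G} := h2
      rw [indicator_of_mem h3]
      exact le_self_add
  · rw [indicator_of_notMem h1]
    exact zero_le

theorem cps_CbC (hc : closure U ⊆ Q) (hJ : J ∈ a.cps U t) : IsCompact J ∧ J.Nonempty ∧
    IsPreconnected J ∧ J ⊆ a.lev (closure U) t ∧ J ⊆ Q := by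
  obtain ⟨z, hz, rfl⟩ := hJ
  have h1 := connectedComponentIn_subset (a.lev (closure U) t) z
  exact ⟨(Cp.mk z hz.1).cpt (a.lev_cpt (cl_LevD hc) hc t), ⟨z, mem_connectedComponentIn hz.1⟩,
    isPreconnected_connectedComponentIn, h1, fun x hx => hc (h1 hx).1⟩

theorem inj_CbC (b : TF E) {G : Finset (Cp E)} {I : Finset (Set ℂ)} {o : Set ℂ → Option (Cp E)}
    (h : ∀ c ∈ G, ∃ J ∈ I, o J = some c) : ∑ c ∈ G, ENNReal.ofReal (b.osc c) ≤
      ∑ J ∈ I, (o J).elim 0 fun c => ENNReal.ofReal (b.osc c) := by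
  classical
  have h1 : ∀ c : Cp E, ∃ J : Set ℂ, c ∈ G → J ∈ I ∧ o J = some c := by
    intro c
    by_cases hc : c ∈ G
    · obtain ⟨J, hJ⟩ := h c hc
      exact ⟨J, fun _ => hJ⟩
    · exact ⟨∅, fun h2 => absurd h2 hc⟩
  choose φ hφ using h1
  have h2 : Set.InjOn φ G := fun c hc c' hc' e =>
    Option.some.inj ((hφ c hc).2.symm.trans (e ▸ (hφ c' hc').2))
  calc ∑ c ∈ G, ENNReal.ofReal (b.osc c)
      = ∑ c ∈ G, (o (φ c)).elim 0 fun c => ENNReal.ofReal (b.osc c) :=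
        Finset.sum_congr rfl fun c hc => by rw [(hφ c hc).2]; rfl
    _ = ∑ J ∈ G.image φ, (o J).elim 0 fun c => ENNReal.ofReal (b.osc c) :=
        (Finset.sum_image (f := fun J => (o J).elim 0 fun c => ENNReal.ofReal (b.osc c)) h2).symm
    _ ≤ _ := Finset.sum_le_sum_of_subset fun J hJ => by
        obtain ⟨c, hc, rfl⟩ := Finset.mem_image.1 hJ
        exact (hφ c hc).1

theorem hop_one (hE : Dom E) {b : TF E} (ha : a.Fn) (hb : b.Fn) (h : a.Cmp b) (hU : IsOpen U)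
    (hc : closure U ⊆ Q) (hf : Disjoint (frontier U) E) (G : Finset (Cp E)) :
    ∃ H : ℝ → ℝ≥0∞, Measurable H ∧
      ∫⁻ t, H t ≤ (∫⁻ z in closure U \ E, ENNReal.ofReal |jac a.hi b.hi z|) +
        ∑' c : {c : Cp E // c ∉ G}, ENNReal.ofReal (a.osc c * b.osc c) ∧
      ∀ (t : ℝ) (I : Finset (Set ℂ)) (o : Set ℂ → Option (Cp E)), (∀ J ∈ I, J ∈ a.cps U t) →
        (∀ J ∈ I, ∀ c, o J = some c → c.1 ⊆ J) →
        (∀ c ∈ G, c.pt ∈ a.lev (closure U) t → ∃ J ∈ I, o J = some c) →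
        ∑ J ∈ I, ENNReal.ofReal (Stp.hop b (.jmp 0 0 J (o J))) ≤ H t := by
  classical
  obtain ⟨N, hNm, hNi, hN⟩ := lev_sum hE ha hb h isClosed_closure.measurableSet hc
  obtain ⟨G', hG'⟩ : ∃ G' : Finset (Cp E), ∀ c, c ∈ G' ↔ c ∈ G ∧ c.pt ∈ closure U :=
    ⟨G.filter fun c => c.pt ∈ closure U, fun c => Finset.mem_filter⟩
  obtain ⟨N₀, hN₀⟩ : ∃ N₀ : ℝ → ℝ≥0∞, N₀ = fun t => ∑ c ∈ G',
      (Icc (a.lo c.pt) (a.hi c.pt)).indicator (fun _ => ENNReal.ofReal (b.osc c)) t := ⟨_, rfl⟩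
  have hm : ∀ c : Cp E, Measurable fun t : ℝ =>
      (Icc (a.lo c.pt) (a.hi c.pt)).indicator (fun _ => ENNReal.ofReal (b.osc c)) t :=
    fun c => measurable_const.indicator measurableSet_Icc
  have hm₀ : Measurable N₀ := by
    rw [hN₀]
    exact Finset.measurable_sum _ fun c _ => hm c
  have hi₀ : ∫⁻ t, N₀ t = ∑ c ∈ G', ENNReal.ofReal (a.osc c * b.osc c) := by
    rw [hN₀, lintegral_finsetSum _ fun c _ => hm c]
    refine Finset.sum_congr rfl fun c _ => ?_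
    rw [lintegral_indicator_const measurableSet_Icc, Real.volume_Icc,
      ENNReal.ofReal_mul (a.osc_nonneg c), mul_comm]
    rfl
  have hf₀ : ∀ t, N₀ t = ∑ c ∈ G'.filter fun c => t ∈ Icc (a.lo c.pt) (a.hi c.pt),
      ENNReal.ofReal (b.osc c) := by
    intro t
    rw [hN₀, Finset.sum_filter]
    refine Finset.sum_congr rfl fun c _ => ?_
    by_cases h1 : t ∈ Icc (a.lo c.pt) (a.hi c.pt)
    · rw [indicator_of_mem h1, if_pos h1]
    · rw [indicator_of_notMem h1, if_neg h1]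
  have hle : ∀ t, N₀ t ≤ N t := by
    intro t
    rw [hf₀]
    refine hN t (Cp E) _ (fun c => c.1) Cp.pt Cp.pt (fun c hc' => ?_)
      fun c _ c' _ hne => sep_CbC hne
    obtain ⟨h1, h2⟩ := Finset.mem_filter.1 hc'
    refine ⟨c.pre, fun z hz => ⟨in_CbC hU hf ⟨_, c.pt_in, ((hG' c).1 h1).2⟩ hz, ?_⟩, c.pt_in,
      c.pt_in⟩
    rw [(a.at_pt hz).1, (a.at_pt hz).2]
    exact h2
  refine ⟨fun t => N t - N₀ t, hNm.sub hm₀, ?_, ?_⟩
  · rw [lintegral_sub hm₀ (by rw [hi₀]; exact ENNReal.sum_ne_top.2 fun _ _ => ENNReal.ofReal_ne_top)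
      (Eventually.of_forall hle), tsub_le_iff_right, hi₀, add_assoc]
    exact hNi.trans (add_le_add le_rfl
      (split_CbC hU hf (fun c => ENNReal.ofReal (a.osc c * b.osc c)) hG'))
  · intro t I o h1 h2 h3
    have h4 : ∀ J : Set ℂ, ∃ p q : ℂ, J ∈ I → p ∈ J ∧ q ∈ J ∧ dm b J = b.hi p - b.lo q := by
      intro J
      by_cases hJ : J ∈ I
      · obtain ⟨c1, c2, -, -, c5⟩ := cps_CbC hc (h1 J hJ)
        obtain ⟨p, hp, q, hq, hd, -⟩ := dm_spec b c1 c2 c5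
        exact ⟨p, q, fun _ => ⟨hp, hq, hd⟩⟩
      · exact ⟨0, 0, fun h5 => absurd h5 hJ⟩
    choose p q hpq using h4
    have h5 := hN t (Set ℂ) I (fun J => J) p q
      (fun J hJ => ⟨(cps_CbC hc (h1 J hJ)).2.2.1, (cps_CbC hc (h1 J hJ)).2.2.2.1, (hpq J hJ).1,
        (hpq J hJ).2.1⟩)
      fun J hJ J' hJ' hne => cps_sep hU hf (h1 J hJ) (h1 J' hJ') hne
    have h6 : N₀ t ≤ ∑ J ∈ I, (o J).elim 0 fun c => ENNReal.ofReal (b.osc c) := by
      rw [hf₀]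
      refine inj_CbC b fun c hc' => ?_
      obtain ⟨h7, h8⟩ := Finset.mem_filter.1 hc'
      exact h3 c ((hG' c).1 h7).1 ⟨((hG' c).1 h7).2, h8⟩
    refine ENNReal.le_sub_of_add_le_right
      (by rw [hf₀]; exact ENNReal.sum_ne_top.2 fun _ _ => ENNReal.ofReal_ne_top)
      ((add_le_add le_rfl h6).trans (le_trans ?_ h5))
    rw [← Finset.sum_add_distrib]
    refine Finset.sum_le_sum fun J hJ => ?_
    obtain ⟨c1, c2, -, -, c5⟩ := cps_CbC hc (h1 J hJ)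
    have h7 := hop_nn b c1 c2 c5 (h2 J hJ)
    rw [← (hpq J hJ).2.2]
    generalize o J = c at h7 ⊢
    rcases c with _ | c
    · exact (add_zero _).le
    · change ENNReal.ofReal (dm b J - b.osc c) + ENNReal.ofReal (b.osc c) ≤ _
      have h8 : 0 ≤ dm b J - b.osc c := h7
      rw [← ENNReal.ofReal_add h8 (b.osc_nonneg c), sub_add_cancel]

end Vale.Agent.P116.K
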