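import Vale.Agent.P116.K.CbC

/-! P116 K/CbD (TASK, owner helper41). Deep stages. Helper names end with `_CbD`.
`sep_stage`: for `c ≠ c'` in `G` take `U` from `Cp.sep`; `frontier U` is compact and misses `E`, so `cthickening r E` misses it for small `r`; a preconnected set that misses the frontier and meets `U` lies in `U`.
`small_stage`: `jac_int` gives a finite lower integral over `Q \ E` and summability. Choose `G` with small tails for the finitely many `i < n` (`ENNReal.tendsto_tsum_compl_atTop_zero`), then `r` small: the sets `cthickening (1 / (k + 1)) E \ E` decrease to the empty set (`tendsto_measure_iInter_atTop` for `withDensity`, or `tendsto_setLIntegral_zero`).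
`hop_stage`: for every `j` take `G j`, `r j ≤ min r₀ (1 / (j + 1))` from both lemmas with `n = j`, `ε = 4⁻¹ ^ j`, and `H j i` from `hop_one` for `U = thickening (r j) E'` (`Clo.th`); `S j t = j * ∑ i < j, H j i t` has `∑' j, ∫⁻ S j < ⊤` (or choose `ε = 2⁻¹ ^ j / (j + 1) ^ 2`), so `S j t → 0` almost everywhere
(`lintegral_tsum`, `ae_lt_top`, `ENNReal.tendsto_atTop_zero_of_tsum_ne_top`); `lev_fin` for all `j` (`ae_all_iff`). `o J` is the `c ∈ G j` with `c.1 ⊆ J` if there is one (`lev_sat`, unique by `sep_stage`); `hop_nn`, `ENNReal.ofReal_sum_of_nonneg`. -/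

open MeasureTheory Set Metric Filter Topology Complex
open scoped ENNReal

noncomputable section

namespace Vale.Agent.P116.K

open Vale.Agent.P128

variable {P : Par} {E E' U O J : Set ℂ} {a w : TF E} {t r r₀ : ℝ} {n : ℕ} {x y z : ℂ}

theorem sum_CbD {ι : Type} (I : Finset ι) (f : ι → ℝ) :
    ENNReal.ofReal (∑ i ∈ I, f i) ≤ ∑ i ∈ I, ENNReal.ofReal (f i) := by
  classical
  induction I using Finset.induction_on with
  | empty => simp
  | insert i I hi ih =>
    rw [Finset.sum_insert hi, Finset.sum_insert hi]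
    exact ENNReal.ofReal_add_le.trans (add_le_add le_rfl ih)

theorem pair_CbD (hE : Dom E) (c c' : Cp E) : ∀ᶠ r in 𝓝 (0 : ℝ), ∀ J, IsPreconnected J →
    J ⊆ cthickening r E → c.1 ⊆ J → c'.1 ⊆ J → c = c' := by
  by_cases h : c = c'
  · exact Eventually.of_forall fun _ _ _ _ _ _ => h
  obtain ⟨U, u1, u2, u3, -, -, u6⟩ := Cp.sep hE h
  obtain ⟨δ, hδ, h1⟩ := hE.cpt.exists_cthickening_subset_open isClosed_frontier.isOpen_compl
    (subset_compl_iff_disjoint_left.2 u6)
  filter_upwards [eventually_le_nhds hδ] with r hr J hJ hJr hc hc'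
  have h2 : J ⊆ U ∪ (closure U)ᶜ := fun z hz => by
    have h3 := h1 (cthickening_mono hr E (hJr hz))
    rw [u1.frontier_eq] at h3
    by_cases h4 : z ∈ closure U
    · exact Or.inl (by_contra fun h5 => h3 ⟨h4, h5⟩)
    · exact Or.inr h4
  rcases hJ.subset_or_subset u1 isClosed_closure.isOpen_compl
    (disjoint_compl_right.mono_left subset_closure) h2 with h3 | h3
  · exact absurd (subset_closure (h3 (hc' c'.pt_in))) (disjoint_left.1 u3 c'.pt_in)
  · exact absurd (subset_closure (u2 c.pt_in)) (h3 (hc c.pt_in))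

theorem thin_CbD (hE : Dom E) {f : ℂ → ℝ} (hf : IntegrableOn f (Q \ E)) {ε : ℝ≥0∞} (hε : 0 < ε) :
    ∀ᶠ r in 𝓝 (0 : ℝ), ∫⁻ z in cthickening r E \ E, ENNReal.ofReal (f z) ≤ ε := by
  have h1 := tendsto_measure_cthickening_of_isCompact (μ := volume.restrict (Q \ E)) hE.cpt
  rw [Measure.restrict_apply hE.cpt.measurableSet, inter_sdiff_self, measure_empty] at h1
  have h2 := tendsto_setLIntegral_zero hf.lintegral_lt_top.ne
    (s := fun r => cthickening r E) h1
  obtain ⟨δ, hδ, h3⟩ := hE.cpt.exists_cthickening_subset_open isOpen_Q hE.sub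
  filter_upwards [eventually_le_nhds hδ, h2.eventually (eventually_le_nhds hε)] with r hr h4
  rw [Measure.restrict_restrict isClosed_cthickening.measurableSet] at h4
  refine le_trans (lintegral_mono_set fun z hz => ?_) h4
  exact ⟨hz.1, h3 (cthickening_mono hr E hz.1), hz.2⟩

theorem pos_CbD {p : ℝ → Prop} (h : ∀ᶠ r in 𝓝 (0 : ℝ), p r) : ∃ r, 0 < r ∧ p r := by
  obtain ⟨r, h1, h2⟩ :=
    ((h.filter_mono nhdsWithin_le_nhds).and (self_mem_nhdsWithin (s := Ioi 0))).exists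
  exact ⟨r, h2, h1⟩

theorem sep_stage (hE : Dom E) (G : Finset (Cp E)) : ∃ r : ℝ, 0 < r ∧ ∀ J, IsPreconnected J →
    J ⊆ cthickening r E → ∀ c ∈ G, ∀ c' ∈ G, c.1 ⊆ J → c'.1 ⊆ J → c = c' := by
  obtain ⟨r, hr, h⟩ := pos_CbD ((eventually_all_finset G).2 fun c _ =>
    (eventually_all_finset G).2 fun c' _ => pair_CbD hE c c')
  exact ⟨r, hr, fun J h1 h2 c hc c' hc' => h c hc c' hc' J h1 h2⟩

theorem small_stage (hE : Dom E) (ha : a.Fn) {b : ℕ → TF E} (hb : ∀ i, (b i).Fn) (n : ℕ)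
    {ε : ℝ≥0∞} (hε : ε ≠ 0) : ∃ (G : Finset (Cp E)) (r : ℝ), 0 < r ∧ ∀ i < n,
      (∫⁻ z in cthickening r E \ E, ENNReal.ofReal |jac a.hi (b i).hi z|) +
        ∑' c : {c : Cp E // c ∉ G}, ENNReal.ofReal (a.osc c * (b i).osc c) ≤ ε := by
  have h0 : 0 < ε / 2 := ENNReal.half_pos hε
  obtain ⟨G, hG⟩ := ((eventually_all_finset (Finset.range n)).2 fun i _ =>
    (ENNReal.tendsto_tsum_compl_atTop_zero
      (jac_int hE ha (hb i)).2.2.tsum_ofReal_ne_top).eventually (eventually_le_nhds h0)).exists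
  obtain ⟨r, hr, h⟩ := pos_CbD ((eventually_all_finset (Finset.range n)).2 fun i _ =>
    thin_CbD hE (jac_int hE ha (hb i)).2.1 h0)
  refine ⟨G, r, hr, fun i hi => ?_⟩
  rw [← ENNReal.add_halves ε]
  exact add_le_add (h i (Finset.mem_range.2 hi)) (hG i (Finset.mem_range.2 hi))

theorem hop_stage (hE : Dom E) (ha : a.Fn) (hm : a.Mono) {b : ℕ → TF E} (hb : ∀ i, (b i).Fn)
    (h : ∀ i, a.Cmp (b i)) (hC : Clo E E' r₀) : ∀ᵐ t, ∀ (n : ℕ) (η r₁ : ℝ), 0 < η → 0 < r₁ →
      ∃ (r : ℝ) (I : Finset (Set ℂ)) (o : Set ℂ → Option (Cp E)), 0 < r ∧ r ≤ r₀ ∧ r ≤ r₁ ∧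
        (I : Set (Set ℂ)) = a.cps (thickening r E') t ∧ (∀ J ∈ I, ∀ c, o J = some c → c.1 ⊆ J) ∧
        ∑ J ∈ I, (n * ∑ i ∈ Finset.range n, Stp.hop (b i) (.jmp 0 0 J (o J))) ≤ η := by
  classical
  obtain ⟨δ, hδ, hδs⟩ := ENNReal.exists_pos_sum_of_countable one_ne_zero ℕ
  choose G r' hr' hG using fun j : ℕ => small_stage hE ha hb j
    (ε := (δ j : ℝ≥0∞) / ((j : ℝ≥0∞) * j)) (ENNReal.div_ne_zero.2
      ⟨ENNReal.coe_ne_zero.2 (hδ j).ne', ENNReal.mul_ne_top (by simp) (by simp)⟩)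
  choose r'' hr'' hS using fun j => sep_stage hE (G j)
  obtain ⟨r, r0, r1, r2, r3, r4⟩ : ∃ r : ℕ → ℝ, (∀ j, 0 < r j) ∧ (∀ j, r j ≤ r₀) ∧
      (∀ j, r j ≤ 1 / ((j : ℝ) + 1)) ∧ (∀ j, r j ≤ r' j) ∧ ∀ j, r j ≤ r'' j :=
    ⟨fun j => min (min r₀ (1 / ((j : ℝ) + 1))) (min (r' j) (r'' j)),
      fun j => lt_min (lt_min hC.pos (by positivity)) (lt_min (hr' j) (hr'' j)),
      fun j => (min_le_left _ _).trans (min_le_left _ _),
      fun j => (min_le_left _ _).trans (min_le_right _ _),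
      fun j => (min_le_right _ _).trans (min_le_left _ _),
      fun j => (min_le_right _ _).trans (min_le_right _ _)⟩
  have hth := fun j => hC.th (r0 j) (r1 j)
  have hcl : ∀ j s, r j ≤ s → closure (thickening (r j) E') ⊆ cthickening s E := fun j s hs =>
    (closure_thickening_subset_cthickening _ _).trans
      ((cthickening_mono hs _).trans (cthickening_subset_of_subset _ hC.sub))
  choose H H1 H2 H3 using fun j i => hop_one hE ha (hb i) (h i) isOpen_thickening (hth j).1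
    (hth j).2.1 (G j)
  have hSm : ∀ j : ℕ, Measurable fun t => (j : ℝ≥0∞) * ∑ i ∈ Finset.range j, H j i t := fun j =>
    (Finset.measurable_sum _ fun i _ => H1 j i).const_mul _
  have hSi : ∀ j : ℕ, ∫⁻ t, (j : ℝ≥0∞) * ∑ i ∈ Finset.range j, H j i t ≤ δ j := by
    intro j
    rw [lintegral_const_mul _ (Finset.measurable_sum _ fun i _ => H1 j i),
      lintegral_finsetSum _ fun i _ => H1 j i]
    have a1 : ∑ i ∈ Finset.range j, ∫⁻ t, H j i t ≤
        ∑ _i ∈ Finset.range j, (δ j : ℝ≥0∞) / ((j : ℝ≥0∞) * j) :=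
      Finset.sum_le_sum fun i hi => (H2 j i).trans ((add_le_add
        (lintegral_mono_set (sdiff_subset_sdiff_left (hcl j _ (r3 j)))) le_rfl).trans
        (hG j i (Finset.mem_range.1 hi)))
    rw [Finset.sum_const, Finset.card_range, nsmul_eq_mul] at a1
    refine (mul_le_mul_right a1 _).trans ?_
    rw [← mul_assoc]
    exact ENNReal.mul_div_le
  have hfin : ∫⁻ t, ∑' j : ℕ, (j : ℝ≥0∞) * ∑ i ∈ Finset.range j, H j i t ≠ ∞ := by
    rw [lintegral_tsum fun j => (hSm j).aemeasurable]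
    exact ((ENNReal.tsum_le_tsum hSi).trans_lt (hδs.trans ENNReal.one_lt_top)).ne
  filter_upwards [ae_lt_top (Measurable.tsum hSm) hfin, ae_all_iff.2 fun j =>
    lev_fin hE ha hm isOpen_thickening (hth j).1 (hth j).2.1] with t ht1 ht2 n η r₁ hη hr₁
  obtain ⟨j, j1, j2, j3⟩ := (((ENNReal.tendsto_atTop_zero_of_tsum_ne_top ht1.ne).eventually
    (eventually_le_nhds (ENNReal.ofReal_pos.2 hη))).and ((eventually_ge_atTop n).and
      (tendsto_one_div_add_atTop_nhds_zero_nat.eventually (eventually_le_nhds hr₁)))).exists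
  obtain ⟨o, ho⟩ : ∃ o : Set ℂ → Option (Cp E),
      o = fun J => if h : ∃ c ∈ G j, c.1 ⊆ J then some h.choose else none := ⟨_, rfl⟩
  have o1 : ∀ J c, o J = some c → c.1 ⊆ J := by
    intro J c hc
    simp only [ho] at hc
    split_ifs at hc with h1
    exact Option.some.inj hc ▸ h1.choose_spec.2
  have o2 : ∀ c ∈ G j, c.pt ∈ a.lev (closure (thickening (r j) E')) t →
      ∃ J ∈ (ht2 j).toFinset, o J = some c := by
    intro c hc hl
    have a1 : c.1 ⊆ connectedComponentIn (a.lev (closure (thickening (r j) E')) t) c.pt := by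
      rw [c.eq]
      exact lev_sat isOpen_thickening (hth j).2.1 (mem_connectedComponentIn hl)
    have a2 : ∃ c' ∈ G j,
        c'.1 ⊆ connectedComponentIn (a.lev (closure (thickening (r j) E')) t) c.pt := ⟨c, hc, a1⟩
    refine ⟨_, (ht2 j).mem_toFinset.2 ⟨c.pt, ⟨hl, c.pt_mem⟩, rfl⟩, ?_⟩
    simp only [ho, dif_pos a2]
    exact congrArg some (hS j _ isPreconnected_connectedComponentIn
      (fun z hz => hcl j _ (r4 j) (connectedComponentIn_subset _ _ hz).1) _ a2.choose_spec.1 c hc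
      a2.choose_spec.2 a1)
  refine ⟨r j, (ht2 j).toFinset, o, r0 j, r1 j, (r2 j).trans j3, (ht2 j).coe_toFinset,
    fun J _ => o1 J, (ENNReal.ofReal_le_ofReal_iff hη.le).1 (le_trans ?_ j1)⟩
  rw [← Finset.mul_sum, Finset.sum_comm, ENNReal.ofReal_mul (Nat.cast_nonneg n),
    ENNReal.ofReal_natCast]
  refine mul_le_mul' (Nat.cast_le.2 j2) ((sum_CbD _ _).trans ((Finset.sum_le_sum fun i _ =>
    (sum_CbD _ _).trans (H3 j i t _ o (fun J hJ => (ht2 j).mem_toFinset.1 hJ) (fun J _ => o1 J)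
      o2)).trans (Finset.sum_le_sum_of_subset (Finset.range_mono j2))))

end Vale.Agent.P116.K
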