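import Vale.Agent.P116.K.CbA
import Vale.Agent.P116.K.Clu

/-! P116 K/CbF (TASK, owner helper41). The range of the barrier function on level components. Helper names end with `_CbF`.
`tch_small`: the sets `A k = P.E ∩ ⋃ {P.cl k q | cl k q meets thickening (1 / (k + 1)) J}` are relatively open in `E` (measurable: `E` intersected with an open set), decreasing, and their intersection is `E ∩ J`
(for `p ∈ E \ J` the component of `p` misses `J` by `Satd`; `exists_cl_sub` with `V = Jᶜ`, the compact closure has positive distance from `J`); `tendsto_measure_iInter_atTop`.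
`near_pt`: `loE`, `hiE` are finite (`cl_ne`); pick `l` with `loE f p ≤ inf over cl l p \ E + η` (`lt_iSup_iff`, `iInf_lt_iff`), take `l` also so large that `closure (cl (l + 1) p) ⊆ U` (`exists_cl_sub`, `cl_anti`, `Cp.in_or`); `lev_reach` for `V = cl (l + 1) p` (`fr_cl_disj`, `clos_cl`) gives a point of the frontier in the component, which lies in `J`
(`connectedComponentIn_mono`, `connectedComponentIn_eq`). `lam_fam`: `J ↦ Cp.mk (p J)` is injective on `I` (`cps_sep`), `ENNReal.sum_le_tsum`, `TF.at_pt`. `nu_fam`: the sets `E ∩ J` are disjoint, compact; `measure_biUnion_finset`.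
`int_Lam`: restrict to the countable support of `l` (`Summable.countable_support`), `lintegral_tsum`. `int_nu`: Tonelli for the measurable set `{(t, z) | z ∈ E', lo z ≤ t ≤ hi z}` (closed: see `ohi_LevD`, `olo_LevD`), `lintegral_lintegral_swap` or `Measure.prod_apply_symm`. -/

open MeasureTheory Set Metric Filter Topology Complex
open scoped ENNReal

noncomputable section

namespace Vale.Agent.P116.K

open Vale.Agent.P128

variable {P : Par} {E E' U O J : Set ℂ} {a w : TF E} {t r r₀ : ℝ} {n : ℕ} {x y z : ℂ}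

/-- The teleport prices in the level `t`. -/
def Lam (a : TF E) (l : Cp E → ℝ) (E' : Set ℂ) (t : ℝ) : ℝ≥0∞ :=
  ∑' c : {c : Cp E // c.pt ∈ E'},
    (Icc (a.lo c.1.pt) (a.hi c.1.pt)).indicator (fun _ => ENNReal.ofReal (l c.1)) t

theorem open_CbF (k : ℕ) (T : Set ℂ) : IsOpen {p | (P.cl k p ∩ T).Nonempty} := by
  refine isOpen_iff_forall_mem_open.2 fun p hp => ⟨P.cl k p, fun q hq => ?_, P.cl_open k p, ?_⟩
  · show (P.cl k q ∩ T).Nonempty
    rw [P.cl_eq hq]
    exact hp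
  · exact mem_connectedComponentIn (connectedComponentIn_nonempty_iff.1 (hp.mono inter_subset_left))

theorem sub_CbF (hJ : J ∈ a.cps U t) : J ⊆ a.lev (closure U) t := by
  obtain ⟨z, -, rfl⟩ := hJ
  exact connectedComponentIn_subset _ _

theorem tch_small (ν : Measure ℂ) [IsFiniteMeasure ν] (hJ : IsCompact J) (hs : Satd P.E J)
    {η : ℝ≥0∞} (hη : η ≠ 0) : ∃ (O : Set ℂ) (k : ℕ), IsOpen O ∧ J ⊆ O ∧
      P.tch ν k O ≤ ν (P.E ∩ J) + η := by
  obtain ⟨A, hA⟩ : ∃ A : ℕ → Set ℂ, ∀ k, A k =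
      {p | p ∈ P.E ∧ (P.cl k p ∩ thickening (1 / ((k : ℝ) + 1)) J).Nonempty} := ⟨_, fun _ => rfl⟩
  have hm : ∀ k, NullMeasurableSet (A k) ν := fun k => by
    rw [hA]
    exact (P.dom.cpt.measurableSet.inter (open_CbF k _).measurableSet).nullMeasurableSet
  have han : Antitone A := fun k k' hk => by
    rw [hA, hA]
    exact fun p hp => ⟨hp.1, hp.2.mono (inter_subset_inter (P.cl_anti hk p)
      (thickening_mono (Nat.one_div_le_one_div hk) J))⟩
  have hi : ⋂ k, A k ⊆ P.E ∩ J := by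
    intro p hp
    have hp' := mem_iInter.1 hp
    simp only [hA] at hp'
    have hE := (hp' 0).1
    refine ⟨hE, ?_⟩
    by_contra hn
    obtain ⟨n, hn'⟩ := P.exists_cl_sub hE hJ.isClosed.isOpen_compl (fun z hz hzJ => hn
      (hs z hzJ (connectedComponentIn_subset _ _ hz) (by
        rw [← connectedComponentIn_eq hz]
        exact mem_connectedComponentIn hE)))
    obtain ⟨δ, hδ, hd⟩ := (subset_compl_iff_disjoint_left.1 hn').exists_thickenings hJ
      isClosed_closure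
    obtain ⟨m, hm⟩ := exists_nat_one_div_lt hδ
    obtain ⟨z, z1, z2⟩ := (hp' (max m n)).2
    refine disjoint_left.1 hd (thickening_mono
      ((Nat.one_div_le_one_div (le_max_left m n)).trans hm.le) J z2) ?_
    exact self_subset_thickening hδ _ (subset_closure (P.cl_anti (le_max_right m n) p z1))
  have ht := tendsto_measure_iInter_atTop hm han ⟨0, measure_ne_top ν _⟩
  have hlt : ν (⋂ k, A k) < ν (P.E ∩ J) + η :=
    (measure_mono hi).trans_lt (ENNReal.lt_add_right (measure_ne_top ν _) hη)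
  obtain ⟨k, hk⟩ := (ht.eventually_lt_const hlt).exists
  refine ⟨thickening (1 / ((k : ℝ) + 1)) J, k, isOpen_thickening,
    self_subset_thickening Nat.one_div_pos_of_nat J, ?_⟩
  rw [Function.comp_apply, hA] at hk
  exact hk.le

theorem near_pt {a : TF P.E} (hm : a.Mono) (hU : IsOpen U) (hc : closure U ⊆ Q)
    (hf : Disjoint (frontier U) P.E) (hJ : J ∈ a.cps U t) {p : ℂ} (hp : p ∈ J ∩ P.E)
    {f : ℂ → ℝ≥0∞} {β : ℝ} (hβ : ∀ z, f z ≤ ENNReal.ofReal β) {η : ℝ≥0∞} (hη : η ≠ 0) :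
    ∃ y ∈ J \ P.E, P.loE f p ≤ f y + η ∧ f y ≤ P.hiE f p + η := by
  have hl := sub_CbF hJ hp.1
  obtain ⟨n₀, h0⟩ := P.exists_cl_sub hp.2 hU (by
    rcases (Cp.mk p hp.2).in_or hU hf with e | e
    · exact e
    · exact absurd hl.1 (disjoint_left.1 e (Cp.mem_mk p hp.2)))
  have f1 : P.loE f p ≠ ∞ := by
    refine ne_top_of_le_ne_top (ENNReal.ofReal_ne_top (r := β)) (iSup_le fun l => ?_)
    obtain ⟨x, hx⟩ := P.cl_ne l hp.2
    exact (iInf₂_le x hx).trans (hβ x)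
  have f2 : P.hiE f p ≠ ∞ :=
    ne_top_of_le_ne_top (ENNReal.ofReal_ne_top (r := β))
      ((iInf_le _ 0).trans (iSup₂_le fun x _ => hβ x))
  obtain ⟨l₁, h1⟩ : ∃ l, P.loE f p ≤ (⨅ (x : ℂ) (_ : x ∈ P.cl l p \ P.E), f x) + η := by
    by_contra hn
    refine absurd ?_ (not_le.2 (ENNReal.lt_add_right f1 hη))
    conv_lhs => rw [Par.loE, ENNReal.iSup_add]
    exact iSup_le fun l => (not_le.1 fun h => hn ⟨l, h⟩).le
  obtain ⟨l₂, h2⟩ := iInf_lt_iff.1 (ENNReal.lt_add_right f2 hη)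
  obtain ⟨l, a0, a1, a2⟩ : ∃ l, n₀ ≤ l ∧ l₁ ≤ l ∧ l₂ ≤ l := ⟨n₀ + l₁ + l₂, by omega, by omega, by omega⟩
  have c1 := P.clos_cl (Nat.lt_succ_self l) hp.2
  have c2 : closure (P.cl (l + 1) p) ⊆ closure U :=
    c1.trans ((P.cl_anti a0 p).trans (subset_closure.trans (h0.trans subset_closure)))
  obtain ⟨y, y1, y2⟩ := lev_reach (t := t) hm (P.cl_open (l + 1) p) (c2.trans hc)
    ⟨subset_closure (P.mem_cl _ hp.2), hl.2⟩
  have y3 : y ∉ P.E := disjoint_left.1 (P.fr_cl_disj (l + 1) p) y2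
  have y4 : y ∈ P.cl l p := c1 (frontier_subset_closure y2)
  refine ⟨y, ⟨?_, y3⟩, h1.trans ?_, le_trans ?_ h2.le⟩
  · obtain ⟨z, -, rfl⟩ := hJ
    rw [connectedComponentIn_eq hp.1]
    have c3 : a.lev (closure (P.cl (l + 1) p)) t ⊆ a.lev (closure U) t :=
      fun w hw => ⟨c2 hw.1, hw.2⟩
    exact connectedComponentIn_mono p c3 y1
  · exact add_le_add_left (iInf₂_le y ⟨P.cl_anti a1 p y4, y3⟩) η
  · exact le_iSup₂ (f := fun (x : ℂ) (_ : x ∈ P.cl l₂ p \ P.E) => f x) y ⟨P.cl_anti a2 p y4, y3⟩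

theorem lam_fam (hC : Clo E E' r₀) (h0 : 0 < r) (hr : r ≤ r₀) (l : Cp E → ℝ)
    (I : Finset (Set ℂ)) (c : Set ℂ → Cp E)
    (h : ∀ J ∈ I, J ∈ a.cps (thickening r E') t ∧ (c J).pt ∈ J) :
    ∑ J ∈ I, ENNReal.ofReal (l (c J)) ≤ Lam a l E' t := by
  classical
  obtain ⟨t1, t2, t3⟩ := hC.th h0 hr
  obtain ⟨g, hg⟩ : ∃ g : Cp E → ℝ≥0∞, g = fun c =>
      (Icc (a.lo c.pt) (a.hi c.pt)).indicator (fun _ => ENNReal.ofReal (l c)) t := ⟨_, rfl⟩
  have e1 : Lam a l E' t = ∑' c, {c : Cp E | c.pt ∈ E'}.indicator g c := by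
    rw [← tsum_subtype, hg]
    rfl
  have e2 : ∀ J ∈ I, ENNReal.ofReal (l (c J)) = {c : Cp E | c.pt ∈ E'}.indicator g (c J) := by
    intro J hJ
    have h1 := sub_CbF (h J hJ).1 (h J hJ).2
    have h2 : (c J).pt ∈ E' := t3 ▸ ⟨(c J).pt_mem, h1.1⟩
    rw [indicator_of_mem (show c J ∈ {c : Cp E | c.pt ∈ E'} from h2), hg]
    exact (indicator_of_mem (show t ∈ Icc (a.lo (c J).pt) (a.hi (c J).pt) from h1.2)
      fun _ => ENNReal.ofReal (l (c J))).symm
  rw [e1, Finset.sum_congr rfl e2, ← Finset.sum_image]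
  · exact ENNReal.sum_le_tsum _
  · intro J hJ J' hJ' he
    by_contra hne
    exact (cps_sep isOpen_thickening t2 (h J hJ).1 (h J' hJ').1 hne _ (h J hJ).2 _
      (h J' hJ').2).1 (by rw [he])

theorem nu_fam (hE : Dom E) (hC : Clo E E' r₀) (h0 : 0 < r) (hr : r ≤ r₀) (ν : Measure ℂ)
    (I : Finset (Set ℂ)) (h : ∀ J ∈ I, J ∈ a.cps (thickening r E') t) :
    ∑ J ∈ I, ν (E ∩ J) ≤ ν (a.lev E' t) := by
  obtain ⟨t1, t2, t3⟩ := hC.th h0 hr
  rw [← measure_biUnion_finset]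
  · refine measure_mono (iUnion₂_subset fun J hJ z hz => ?_)
    have h1 := sub_CbF (h J hJ) hz.2
    exact ⟨t3 ▸ ⟨hz.1, h1.1⟩, h1.2⟩
  · intro J hJ J' hJ' hne
    exact disjoint_left.2 fun z hz hz' =>
      (cps_sep isOpen_thickening t2 (h J hJ) (h J' hJ') hne z hz.2 z hz'.2).1 rfl
  · intro J hJ
    obtain ⟨z, hz, rfl⟩ := h J hJ
    exact hE.cpt.measurableSet.inter
      ((Cp.mk z hz.1).cpt (a.lev_cpt (cl_LevD t1) t1 t)).measurableSet

theorem int_Lam {l : Cp E → ℝ} (h0 : ∀ c, 0 ≤ l c) (h2 : Summable fun c => l c ^ 2) (E' : Set ℂ) :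
    Measurable (Lam a l E') ∧ ∫⁻ t, Lam a l E' t ≤
      ∑' c : {c : Cp E // c.pt ∈ E'}, ENNReal.ofReal (a.osc c.1 * l c.1) := by
  have hc : {c : {c : Cp E // c.pt ∈ E'} | l c.1 ≠ 0}.Countable :=
    (h2.countable_support.preimage_of_injOn Subtype.val_injective.injOn).mono
      fun c hc => pow_ne_zero 2 hc
  have := hc.to_subtype
  have e : Lam a l E' = fun t => ∑' c : {c : {c : Cp E // c.pt ∈ E'} | l c.1 ≠ 0},
      (Icc (a.lo c.1.1.pt) (a.hi c.1.1.pt)).indicator (fun _ => ENNReal.ofReal (l c.1.1)) t := by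
    funext t
    refine (tsum_subtype_eq_of_support_subset (f := fun c : {c : Cp E // c.pt ∈ E'} =>
      (Icc (a.lo c.1.pt) (a.hi c.1.pt)).indicator (fun _ => ENNReal.ofReal (l c.1)) t) ?_).symm
    intro c hc h
    apply hc
    simp [h]
  have hm : ∀ c : Cp E, Measurable
      ((Icc (a.lo c.pt) (a.hi c.pt)).indicator fun _ : ℝ => ENNReal.ofReal (l c)) := fun c =>
    measurable_const.indicator measurableSet_Icc
  rw [e]
  refine ⟨Measurable.tsum fun c => hm _, ?_⟩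
  rw [lintegral_tsum fun c => (hm _).aemeasurable]
  refine le_trans (le_of_eq (tsum_congr fun c => ?_))
    (ENNReal.tsum_comp_le_tsum_of_injective Subtype.val_injective
      fun c : {c : Cp E // c.pt ∈ E'} => ENNReal.ofReal (a.osc c.1 * l c.1))
  rw [lintegral_indicator_const measurableSet_Icc, Real.volume_Icc, ← ENNReal.ofReal_mul (h0 _),
    mul_comm]
  rfl

theorem int_nu (hC : Clo E E' r₀) (ν : Measure ℂ) [IsFiniteMeasure ν] {θ : ℝ}
    (h : ∀ z ∈ E', a.hi z - a.lo z ≤ θ) : Measurable (fun t => ν (a.lev E' t)) ∧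
      ∫⁻ t, ν (a.lev E' t) ≤ ENNReal.ofReal θ * ν univ := by
  have hQ : E' ⊆ Q := (self_subset_cthickening _).trans hC.inQ
  have hk : Continuous fun p : ℝ × ℂ => ((p.2, (p.1 : ℂ)) : ℂ × ℂ) := by fun_prop
  have hT : MeasurableSet {p : ℝ × ℂ | p.2 ∈ a.lev E' p.1} := by
    have e : {p : ℝ × ℂ | p.2 ∈ a.lev E' p.1} = (Prod.snd ⁻¹' E' \
        (fun p : ℝ × ℂ => ((p.2, (p.1 : ℂ)) : ℂ × ℂ)) ⁻¹' {x | x.1 ∈ Q ∧ a.hi x.1 < x.2.re}) \
        (fun p : ℝ × ℂ => ((p.2, (p.1 : ℂ)) : ℂ × ℂ)) ⁻¹' {x | x.1 ∈ Q ∧ x.2.re < a.lo x.1} := by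
      ext p
      constructor
      · exact fun hp => ⟨⟨hp.1, fun h' => not_lt.2 hp.2.2 h'.2⟩, fun h' => not_lt.2 hp.2.1 h'.2⟩
      · exact fun hp => ⟨hp.1.1, not_lt.1 fun h' => hp.2 ⟨hQ hp.1.1, h'⟩,
          not_lt.1 fun h' => hp.1.2 ⟨hQ hp.1.1, h'⟩⟩
    rw [e]
    exact ((measurable_snd hC.cpt.measurableSet).diff
      ((ohi_LevD a continuous_re).preimage hk).measurableSet).diff
      ((olo_LevD a continuous_re).preimage hk).measurableSet
  refine ⟨measurable_measure_prodMk_left hT, ?_⟩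
  have e1 := Measure.prod_apply (μ := (volume : Measure ℝ)) (ν := ν) hT
  have e2 := Measure.prod_apply_symm (μ := (volume : Measure ℝ)) (ν := ν) hT
  refine (e1.symm.trans e2).le.trans ?_
  rw [← lintegral_const]
  refine lintegral_mono fun z => ?_
  by_cases hz : z ∈ E'
  · refine (measure_mono (t := Icc (a.lo z) (a.hi z)) fun s hs => hs.2).trans ?_
    rw [Real.volume_Icc]
    exact ENNReal.ofReal_le_ofReal (h z hz)
  · refine (measure_mono (t := ∅) fun s hs => hz hs.1).trans ?_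
    simp

end Vale.Agent.P116.K
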