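import Vale.Agent.P116.K.ChainA

/-! P116 K/Chain: chains and the chain distance. -/

open MeasureTheory Set Metric Filter Topology Complex
open scoped ENNReal

noncomputable section

namespace Vale.Agent.P116.K

open Vale.Agent.P128

namespace Par
variable {P : Par}

theorem hop_nn {n : ℕ} {O : Set ℂ} {s : Stp P.E} (h : P.Ok n O s) {b : TF P.E}
    (hb : ∃ M : ℝ, ∀ z ∈ Qc, -M ≤ b.lo z ∧ b.hi z ≤ M) : 0 ≤ s.hop b := by
  obtain ⟨M, hM⟩ := hb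
  rcases s with ⟨x, y⟩ | ⟨x, y, J, c⟩
  · exact le_rfl
  · obtain ⟨hx, -, -, -, hJ, hc⟩ := h
    have hQ : J ⊆ Qc := fun z hz => Q_sub (P.clos_nb_Q n (subset_closure (hJ hz).2))
    have h1 : ∀ z ∈ J, b.hi z - b.lo z ≤ dm b J := fun z hz =>
      sub_le_sub (le_csSup ⟨M, by rintro _ ⟨w, hw, rfl⟩; exact (hM w (hQ hw)).2⟩ ⟨z, hz, rfl⟩)
        (csInf_le ⟨-M, by rintro _ ⟨w, hw, rfl⟩; exact (hM w (hQ hw)).1⟩ ⟨z, hz, rfl⟩)
    rcases c with _ | c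
    · exact (sub_nonneg.2 (b.le x)).trans (h1 x hx.1)
    · exact sub_nonneg.2 (h1 c.pt (hc c rfl c.pt_in))
theorem hopn_mono {n m k : ℕ} (hn : n ≤ m) {O : Set ℂ} {l : List (Stp P.E)}
    (h : ∀ s ∈ l, P.Ok k O s) {b : ℕ → TF P.E}
    (hb : ∀ i, ∃ M : ℝ, ∀ z ∈ Qc, -M ≤ (b i).lo z ∧ (b i).hi z ≤ M) :
    0 ≤ hopn b n l ∧ hopn b n l ≤ hopn b m l ∧
      ∀ i < n, (l.map (Stp.hop (b i))).sum ≤ hopn b n l := by
  have h1 : ∀ i, 0 ≤ (l.map (Stp.hop (b i))).sum := fun i => List.sum_nonneg fun a ha => by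
    obtain ⟨s, hs, rfl⟩ := List.mem_map.1 ha
    exact hop_nn (h s hs) (hb i)
  have h2 : 0 ≤ ∑ i ∈ Finset.range n, (l.map (Stp.hop (b i))).sum :=
    Finset.sum_nonneg fun i _ => h1 i
  refine ⟨mul_nonneg (Nat.cast_nonneg n) h2, mul_le_mul (Nat.cast_le.2 hn)
    (Finset.sum_le_sum_of_subset_of_nonneg (Finset.range_mono hn) fun i _ _ => h1 i) h2
    (Nat.cast_nonneg m), fun i hi => ?_⟩
  refine (Finset.single_le_sum (f := fun i => (l.map (Stp.hop (b i))).sum) (fun i _ => h1 i)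
    (Finset.mem_range.2 hi)).trans (le_mul_of_one_le_left h2 ?_)
  exact_mod_cast Nat.one_le_of_lt hi
theorem cost_nn (d : P.Dat) {n k : ℕ} {O : Set ℂ} {l : List (Stp P.E)} (h : ∀ s ∈ l, P.Ok k O s) :
    0 ≤ cost d.b d.ρ d.lam n l := by
  refine add_nonneg (add_nonneg (List.sum_nonneg fun a ha => ?_) (List.sum_nonneg fun a ha => ?_))
    (hopn_mono (le_refl n) h d.bd).1
  · obtain ⟨s, -, rfl⟩ := List.mem_map.1 ha
    exact len_nn d.nn s
  · obtain ⟨s, -, rfl⟩ := List.mem_map.1 ha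
    rcases s with ⟨x, y⟩ | ⟨x, y, J, _ | c⟩
    · exact le_rfl
    · exact le_rfl
    · exact d.l0 c
theorem D_mono (d : P.Dat) {n m : ℕ} {O O' : Set ℂ} (hn : n ≤ m) (hO : O' ⊆ O) (x y : ℂ) :
    P.D d.b d.ρ d.lam n O x y ≤ P.D d.b d.ρ d.lam m O' x y := by
  refine le_iInf₂ fun l hl => iInf₂_le_of_le l (hl.mono hn hO) (ENNReal.ofReal_le_ofReal ?_)
  exact add_le_add le_rfl (hopn_mono hn hl.2.2 d.bd).2.1
theorem D_tri (d : P.Dat) (n : ℕ) (O : Set ℂ) (x y z : ℂ) : P.D d.b d.ρ d.lam n O x z ≤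
    P.D d.b d.ρ d.lam n O x y + P.D d.b d.ρ d.lam n O y z := by
  refine ENNReal.le_iInf₂_add_iInf₂ fun l hl l' hl' => iInf₂_le_of_le (l ++ l') (hl.append hl') ?_
  rw [cost_append]
  exact ENNReal.ofReal_add_le
theorem Di_tri (d : P.Dat) (O : Set ℂ) (x y z : ℂ) : d.Di O x z ≤ d.Di O x y + d.Di O y z := by
  exact iSup_le fun n => (D_tri d n O x y z).trans (add_le_add
    (le_iSup (fun n => P.D d.b d.ρ d.lam n O x y) n)
    (le_iSup (fun n => P.D d.b d.ρ d.lam n O y z) n))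
theorem D_seg (d : P.Dat) (n : ℕ) {O : Set ℂ} {x y : ℂ} (h : segment ℝ x y ⊆ O \ P.E) {K : ℝ}
    (hK : ∀ z ∈ segment ℝ x y, d.ρ z ≤ K) :
    P.D d.b d.ρ d.lam n O x y ≤ ENNReal.ofReal (K * dist x y) := by
  refine iInf₂_le_of_le [Stp.seg x y] ⟨h (left_mem_segment ℝ x y), ⟨rfl, rfl⟩, fun s hs => ?_⟩
    (ENNReal.ofReal_le_ofReal ?_)
  · rw [List.mem_singleton.1 hs]
    exact h
  · have h1 := len_le (E := P.E) (d.cont.mono fun z hz => (h hz).2) hK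
    simpa [cost, hopn, Stp.tel, Stp.hop] using h1
/-- Functions that are subadditive along segments. -/
theorem maj_of_seg (d : P.Dat) {O : Set ℂ} {f : ℂ → ℝ≥0∞} (hf : ∀ z, f z ≠ ∞)
    (h : ∀ x y K, segment ℝ x y ⊆ O \ P.E → (∀ z ∈ segment ℝ x y, d.ρ z ≤ K) →
      f y ≤ f x + ENNReal.ofReal (K * dist x y)) : Maj P.E O (fun z => (f z).toReal) d.ρ := by
  intro B hB hBO K hK
  have h1 : ∀ x ∈ B, ∀ y ∈ B, (f y).toReal - (f x).toReal ≤ K * dist x y := fun x hx y hy => by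
    have h2 := hB.segment_subset hx hy
    have h3 := ENNReal.toReal_mono (ENNReal.add_ne_top.2 ⟨hf x, ENNReal.ofReal_ne_top⟩)
      (h x y K (h2.trans hBO) fun z hz => hK z (h2 hz))
    rw [ENNReal.toReal_add (hf x) ENNReal.ofReal_ne_top, ENNReal.toReal_ofReal
      (mul_nonneg ((d.nn x).trans (hK x hx)) dist_nonneg)] at h3
    linarith
  intro x hx y hy
  refine abs_sub_le_iff.2 ⟨?_, h1 x hx y hy⟩
  rw [dist_comm]
  exact h1 y hy x hx

end Par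

end Vale.Agent.P116.K
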