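import Vale.Agent.P116.K.CbB
import Vale.Agent.P116.K.CbD
import Vale.Agent.P116.K.CbF
import Vale.Agent.P116.K.ChainB

/-! P116 K/CbE (owner helper41). The limit distance along level components. Helper names end with `_CbE`. -/

open MeasureTheory Set Metric Filter Topology Complex
open scoped ENNReal

noncomputable section

namespace Vale.Agent.P116.K

open Vale.Agent.P128

variable {P : Par} {E E' U O J : Set ℂ} {a w : TF E} {t r r₀ : ℝ} {n : ℕ} {x y z : ℂ}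

theorem sum_CbE {α β : Type} (I : Finset α) (T : Finset β) (p : α → β → Prop)
    [∀ i, DecidablePred (p i)] (g : β → ℝ≥0∞)
    (hp : ∀ b ∈ T, ∀ i ∈ I, ∀ j ∈ I, p i b → p j b → i = j) :
    ∑ i ∈ I, ∑ b ∈ T.filter (p i), g b ≤ ∑ b ∈ T, g b := by
  simp only [Finset.sum_filter]
  rw [Finset.sum_comm]
  refine Finset.sum_le_sum fun b hb => ?_
  by_cases h : ∃ i ∈ I, p i b
  · obtain ⟨i, hi, hpi⟩ := h
    rw [Finset.sum_eq_single i (fun j hj hne => if_neg fun hq => hne (hp b hb j hj i hi hq hpi))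
      (fun h => absurd hi h), if_pos hpi]
  · rw [Finset.sum_eq_zero fun j hj => if_neg fun hq => h ⟨j, hj, hq⟩]
    exact zero_le

theorem cps_CbE (hc : closure U ⊆ Q) (hJ : J ∈ a.cps U t) :
    IsCompact J ∧ IsPreconnected J ∧ J.Nonempty ∧ J ⊆ a.lev (closure U) t := by
  obtain ⟨z, hz, rfl⟩ := hJ
  exact ⟨(Cp.mk z hz.1).cpt (a.lev_cpt (cl_LevD hc) hc t), isPreconnected_connectedComponentIn,
    ⟨z, mem_connectedComponentIn hz.1⟩, connectedComponentIn_subset _ _⟩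

theorem pre_CbE (hJ : IsCompact J) (hp : IsPreconnected J) {e : ℝ} (he : 0 ≤ e) :
    IsPreconnected (cthickening e J) := by
  rw [hJ.cthickening_eq_biUnion_closedBall he]
  rcases J.eq_empty_or_nonempty with rfl | ⟨z, hz⟩
  · simpa using isPreconnected_empty
  refine isPreconnected_of_forall z fun y hy => ?_
  obtain ⟨x, hx, hy⟩ := mem_iUnion₂.1 hy
  refine ⟨J ∪ closedBall x e, ?_, Or.inl hz, Or.inr hy,
    hp.union x hx (mem_closedBall_self he) (convex_closedBall x e).isPreconnected⟩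
  exact union_subset (fun w hw => mem_iUnion₂.2 ⟨w, hw, mem_closedBall_self he⟩)
    fun w hw => mem_iUnion₂.2 ⟨x, hx, hw⟩

theorem ev_CbE {p : ℝ → Prop} (h : ∃ e : ℝ, 0 < e ∧ ∀ e', 0 < e' → e' ≤ e → p e') :
    ∀ᶠ e in 𝓝[>] (0 : ℝ), p e := by
  obtain ⟨e, he, h⟩ := h
  filter_upwards [Ioc_mem_nhdsGT he] with e' he' using h e' he'.1 he'.2

theorem evo_CbE {K V : Set ℂ} (hK : IsCompact K) (hV : IsOpen V) (h : K ⊆ V) :
    ∀ᶠ e in 𝓝[>] (0 : ℝ), cthickening (2 * e) K ⊆ V := by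
  obtain ⟨e, he, h⟩ := hK.exists_cthickening_subset_open hV h
  exact ev_CbE ⟨e / 2, by linarith, fun e' _ h2 => (cthickening_mono (by linarith) K).trans h⟩

theorem hop_CbE (b : TF E) {J J' : Set ℂ} {η : ℝ} (h : dm b J' ≤ dm b J + η)
    (c : Option (Cp E)) : Stp.hop b (.jmp 0 0 J' c) ≤ Stp.hop b (.jmp 0 0 J c) + η := by
  cases c with
  | none => exact h
  | some c =>
    change dm b J' - b.osc c ≤ dm b J - b.osc c + η
    linarith

theorem tel_CbE (hne : E.Nonempty) (hC : Clo E E' r₀) (h0 : 0 < r) (hr : r ≤ r₀) (l : Cp E → ℝ)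
    (I : Finset (Set ℂ)) (o : Set ℂ → Option (Cp E)) (h : ∀ J ∈ I, J ∈ a.cps (thickening r E') t)
    (ho : ∀ J ∈ I, ∀ c, o J = some c → c.1 ⊆ J) :
    ∑ J ∈ I, ENNReal.ofReal (Stp.tel l (.jmp 0 0 J (o J))) ≤ Lam a l E' t := by
  classical
  obtain ⟨z, hz⟩ := hne
  have h1 := lam_fam (a := a) (t := t) hC h0 hr l (I.filter fun J => (o J).isSome)
    (fun J => (o J).getD (Cp.mk z hz)) (fun J hJ => by
      obtain ⟨hJ, hs⟩ := Finset.mem_filter.1 hJ
      obtain ⟨c, hc⟩ := Option.isSome_iff_exists.1 hs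
      refine ⟨h J hJ, ?_⟩
      simp only [hc, Option.getD_some]
      exact ho J hJ c hc c.pt_in)
  refine le_trans (le_of_eq ?_) h1
  rw [Finset.sum_filter]
  refine Finset.sum_congr rfl fun J _ => ?_
  cases o J with
  | none => simp [Stp.tel]
  | some c => simp [Stp.tel]

theorem one_CbE (d : P.Dat) {J O : Set ℂ} (hJ : IsPreconnected J) (T : Finset ℂ)
    (I : Finset (Set ℂ)) (o : Set ℂ → Option (Cp P.E)) {s e : ℝ} (he : 0 < e) (M : ℂ → ℝ)
    (hT : ∀ x ∈ T, ball x s ⊆ O \ P.E ∧ 0 ≤ M x ∧ ∀ z ∈ ball x s, d.ρ z ≤ M x)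
    (hI : ∀ J' ∈ I, IsCompact J' ∧ IsPreconnected J' ∧ cthickening e J' ⊆ O ∩ P.nb n ∧
      ∀ c, o J' = some c → c.1 ⊆ J')
    (hd : ∀ J' ∈ I, ∀ J'' ∈ I, J' ≠ J'' → Disjoint (thickening e J') (thickening e J''))
    (hc : J ⊆ (⋃ x ∈ T, ball x s) ∪ ⋃ J' ∈ I, thickening e J') (hx : x ∈ J \ P.E)
    (hy : y ∈ J \ P.E) : P.D d.b d.ρ d.lam n O x y ≤
      ∑ x ∈ T, ENNReal.ofReal (M x * (2 * s)) +
        ∑ J' ∈ I, (ENNReal.ofReal (Stp.tel d.lam (.jmp 0 0 J' (o J'))) + ENNReal.ofReal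
          (n * ∑ i ∈ Finset.range n, Stp.hop (d.b i) (.jmp 0 0 (cthickening e J') (o J')))) := by
  have h1 := chain_Cb (E := P.E) (T.disjSum I)
    (Sum.elim (fun x => ball x s) fun J' => thickening e J')
    (Sum.elim (fun x => ENNReal.ofReal (M x * (2 * s))) fun J' =>
      ENNReal.ofReal (Stp.tel d.lam (.jmp 0 0 J' (o J'))) + ENNReal.ofReal
          (n * ∑ i ∈ Finset.range n, Stp.hop (d.b i) (.jmp 0 0 (cthickening e J') (o J'))))
    (D := P.D d.b d.ρ d.lam n O) (D_tri_Cb d.b d.ρ d.lam n O) ?_ ?_ ?_ hJ ?_ hx hy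
  · rw [Finset.sum_disjSum] at h1
    exact h1
  · rintro (i | i) _
    · exact isOpen_ball
    · exact isOpen_thickening
  · rintro (i | i) hi u hu v hv
    · obtain ⟨h2, h3, h4⟩ := hT i (Finset.inl_mem_disjSum.1 hi)
      have h5 : segment ℝ u v ⊆ ball i s := (convex_ball i s).segment_subset hu.1 hv.1
      refine (D_seg_Cb d.b d.lam n d.nn (h5.trans h2) fun z hz => h4 z (h5 hz)).trans ?_
      refine ENNReal.ofReal_le_ofReal (mul_le_mul_of_nonneg_left ?_ h3)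
      have h6 := mem_ball.1 hu.1
      have h7 := mem_ball.1 hv.1
      have h8 := dist_triangle_right u v i
      linarith
    · obtain ⟨h2, h3, h4, h5⟩ := hI i (Finset.inr_mem_disjSum.1 hi)
      have h6 : P.Ok n O (.jmp u v (cthickening e i) (o i)) :=
        ⟨⟨thickening_subset_cthickening _ _ hu.1, hu.2⟩,
          ⟨thickening_subset_cthickening _ _ hv.1, hv.2⟩, h2.cthickening, pre_CbE h2 h3 he.le, h4,
          fun c hc => (h5 c hc).trans (self_subset_cthickening _)⟩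
      refine (D_jmp_Cb d.b d.ρ d.lam h6).trans (le_of_eq ?_)
      simp only [Sum.elim_inr]
      cases o i <;> rfl
  · rintro (i | i) hi (j | j) hj hne
    · exact disjoint_left.2 fun z hz => ((hT i (Finset.inl_mem_disjSum.1 hi)).1 hz.1).2
    · exact disjoint_left.2 fun z hz => ((hT i (Finset.inl_mem_disjSum.1 hi)).1 hz.1).2
    · exact disjoint_left.2 fun z hz => ((hT j (Finset.inl_mem_disjSum.1 hj)).1 hz.2).2
    · exact disjoint_left.2 fun z hz _ => disjoint_left.1 (hd i (Finset.inr_mem_disjSum.1 hi) j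
        (Finset.inr_mem_disjSum.1 hj) fun h => hne (congrArg _ h)) hz.1 hz.2
  · rintro z hz
    rcases hc hz with h | h
    · obtain ⟨i, hi, h⟩ := mem_iUnion₂.1 h
      exact mem_iUnion₂.2 ⟨Sum.inl i, Finset.inl_mem_disjSum.2 hi, h⟩
    · obtain ⟨i, hi, h⟩ := mem_iUnion₂.1 h
      exact mem_iUnion₂.2 ⟨Sum.inr i, Finset.inr_mem_disjSum.2 hi, h⟩

theorem thk_CbE (b : ℕ → TF E) (I : Finset (Set ℂ)) (o : Set ℂ → Option (Cp E))
    (hI : ∀ J ∈ I, IsCompact J ∧ J.Nonempty ∧ J ⊆ Q ∧ ∀ c, o J = some c → c.1 ⊆ J) {η : ℝ}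
    (hη : 0 < η) (h : ∑ J ∈ I, (n * ∑ i ∈ Finset.range n, Stp.hop (b i) (.jmp 0 0 J (o J))) ≤ η) :
    ∀ᶠ e in 𝓝[>] (0 : ℝ), ∑ J ∈ I, ENNReal.ofReal
      (n * ∑ i ∈ Finset.range n, Stp.hop (b i) (.jmp 0 0 (cthickening e J) (o J))) ≤
        ENNReal.ofReal (2 * η) := by
  set θ : ℝ := η / (I.card * (n * n) + 1) with hθ
  have hpos : (0 : ℝ) < I.card * (n * n) + 1 := by positivity
  have hθ0 : 0 < θ := div_pos hη hpos
  have h1 : ∀ᶠ e in 𝓝[>] (0 : ℝ), ∀ J ∈ I, ∀ i ∈ Finset.range n,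
      dm (b i) (cthickening e J) ≤ dm (b i) J + θ := by
    refine (eventually_all_finset I).2 fun J hJ => (eventually_all_finset _).2 fun i _ => ?_
    obtain ⟨h2, h3, h4, -⟩ := hI J hJ
    obtain ⟨e, he, h5⟩ := dm_thick (b i) h2 h3 h4 hθ0
    exact ev_CbE ⟨e, he, fun e' _ h6 => h5 _ (self_subset_cthickening _) (cthickening_mono h6 _)⟩
  filter_upwards [h1] with e he
  have h2 : ∀ J ∈ I, ENNReal.ofReal
      (n * ∑ i ∈ Finset.range n, Stp.hop (b i) (.jmp 0 0 (cthickening e J) (o J))) ≤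
      ENNReal.ofReal (n * ∑ i ∈ Finset.range n, Stp.hop (b i) (.jmp 0 0 J (o J)) +
        n * n * θ) := by
    intro J hJ
    refine ENNReal.ofReal_le_ofReal ?_
    have h3 := Finset.sum_le_sum fun i hi => hop_CbE (b i) (he J hJ i hi) (o J)
    rw [Finset.sum_add_distrib, Finset.sum_const, Finset.card_range, nsmul_eq_mul] at h3
    have h4 := mul_le_mul_of_nonneg_left h3 (Nat.cast_nonneg (α := ℝ) n)
    linarith
  refine (Finset.sum_le_sum h2).trans ?_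
  rw [← ENNReal.ofReal_sum_of_nonneg]
  · refine ENNReal.ofReal_le_ofReal ?_
    rw [Finset.sum_add_distrib, Finset.sum_const, nsmul_eq_mul]
    have h3 : θ * (I.card * (n * n) + 1) = η := div_mul_cancel₀ η hpos.ne'
    nlinarith
  · intro J hJ
    obtain ⟨h3, h4, h5, h6⟩ := hI J hJ
    have h7 := Finset.sum_nonneg (s := Finset.range n) fun i _ => hop_nn (b i) h3 h4 h5 h6
    positivity

theorem di_sum (d : P.Dat) {a : TF P.E} (ha : a.Fn) (hm : a.Mono) {ρa : ℂ → ℝ}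
    (h1 : ContinuousOn ρa P.Eᶜ) (h3 : ∀ z, 0 ≤ ρa z) (hM : Maj P.E Q a.hi ρa)
    (hb : ∀ i, (d.b i).Fn) (h : ∀ i, a.Cmp (d.b i)) (hC : Clo P.E E' r₀) (h0 : 0 < r)
    (hr : r < r₀) : ∃ N : ℝ → ℝ≥0∞, Measurable N ∧
      ∫⁻ t, N t ≤ 16 * ∫⁻ z in thickening r₀ E' \ P.E, ENNReal.ofReal (ρa z * d.ρ z) ∧
      ∀ᵐ t, ∀ (I : Finset (Set ℂ)) (O : Set ℂ → Set ℂ) (x y : Set ℂ → ℂ),
        (∀ J ∈ I, J ∈ a.cps (thickening r E') t ∧ IsOpen (O J) ∧ J ⊆ O J ∧ x J ∈ J \ P.E ∧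
          y J ∈ J \ P.E) → ∑ J ∈ I, d.Di (O J) (x J) (y J) ≤ N t + Lam a d.lam E' t := by
  classical
  have hVQ : thickening r₀ E' ⊆ Q := (thickening_subset_cthickening _ _).trans hC.inQ
  obtain ⟨N, hN, hNm, hcov⟩ := grid_len P.dom h1 d.cont h3 d.nn hM isOpen_thickening hVQ
  refine ⟨N, hNm, hN, ?_⟩
  filter_upwards [hop_stage P.dom ha hm hb h hC] with t ht I O x y hI
  obtain ⟨hUQ, hUf, hUE⟩ := hC.th h0 hr.le
  unfold Par.Dat.Di
  rw [ENNReal.finsetSum_iSup_of_monotone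
    (f := fun J n => P.D d.b d.ρ d.lam n (O J) (x J) (y J))
    fun J n m hnm => Par.D_mono d hnm subset_rfl _ _]
  refine iSup_le fun n => ENNReal.le_of_forall_pos_le_add fun η3 hη3 _ => ?_
  set η : ℝ := η3 / 3 with hηd
  have hη : 0 < η := by positivity
  have hδ : 0 < P.δ / (n + 1) := div_pos P.δ0 (by positivity)
  obtain ⟨r', I', o, r0, r1, r2, hI', ho, hs⟩ := ht n η (min r (P.δ / (n + 1) / 4)) hη
    (lt_min h0 (by positivity))
  have r3 : r' ≤ r := r2.trans (min_le_left _ _)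
  have r4 : r' ≤ P.δ / (n + 1) / 4 := r2.trans (min_le_right _ _)
  obtain ⟨hU'Q, hU'f, hU'E⟩ := hC.th r0 r1
  have hmem : ∀ J' ∈ I', J' ∈ a.cps (thickening r' E') t := fun J' hJ' => hI' ▸ hJ'
  have hc' := fun J' hJ' => cps_CbE hU'Q (hmem J' hJ')
  have hc := fun J hJ => cps_CbE hUQ (hI J hJ).1
  have hdis : ∀ J ∈ I, ∀ J₂ ∈ I, J ≠ J₂ → Disjoint J J₂ := fun J hJ J₂ hJ₂ hne =>
    disjoint_left.2 fun z hz hz' =>
      (cps_sep isOpen_thickening hUf (hI J hJ).1 (hI J₂ hJ₂).1 hne z hz z hz').1 rfl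
  have e1 := thk_CbE d.b I' o (fun J' hJ' => ⟨(hc' J' hJ').1, (hc' J' hJ').2.2.1,
    fun z hz => hU'Q ((hc' J' hJ').2.2.2 hz).1, ho J' hJ'⟩) hη hs
  have e2 : ∀ᶠ e in 𝓝[>] (0 : ℝ), ∀ J' ∈ I', ∀ J'' ∈ I', J' ≠ J'' →
      Disjoint (thickening e J') (thickening e J'') := by
    refine (eventually_all_finset _).2 fun J' hJ' => (eventually_all_finset _).2 fun J'' hJ'' => ?_
    by_cases hne : J' = J''
    · exact Eventually.of_forall fun e h => absurd hne h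
    have h5 : Disjoint J' J'' := disjoint_left.2 fun z hz hz' =>
      (cps_sep isOpen_thickening hU'f (hmem J' hJ') (hmem J'' hJ'') hne z hz z hz').1 rfl
    obtain ⟨e, he, h6⟩ := h5.exists_thickenings (hc' J' hJ').1 (hc' J'' hJ'').1.isClosed
    exact ev_CbE ⟨e, he, fun e' _ h7 _ =>
      h6.mono (thickening_mono h7 _) (thickening_mono h7 _)⟩
  have e3 : ∀ᶠ e in 𝓝[>] (0 : ℝ), ∀ J ∈ I, ∀ J' ∈ I', J' ⊆ J →
      cthickening (2 * e) J' ⊆ O J ∩ P.nb n := by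
    refine (eventually_all_finset _).2 fun J hJ => (eventually_all_finset _).2 fun J' hJ' => ?_
    by_cases hsub : J' ⊆ J
    · have h5 : J' ⊆ O J ∩ P.nb n := fun z hz => ⟨(hI J hJ).2.2.1 (hsub hz),
        thickening_subset_of_subset _ hC.sub (cthickening_subset_thickening' hδ (by linarith) E'
          (closure_thickening_subset_cthickening _ _ ((hc' J' hJ').2.2.2 hz).1))⟩
      filter_upwards [evo_CbE (hc' J' hJ').1 ((hI J hJ).2.1.inter (P.nb_open n)) h5]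
        with e he _ using he
    · exact Eventually.of_forall fun e h => absurd h hsub
  obtain ⟨e, ⟨⟨f1, f2⟩, f3⟩, he⟩ := (((e1.and e2).and e3).and self_mem_nhdsWithin).exists
  have he0 : 0 < e := he
  set K : Set ℂ → Set ℂ := fun J => J \ ⋃ J' ∈ I'.filter (· ⊆ J), thickening e J' with hK
  have hKc : ∀ J ∈ I, IsCompact (K J) := fun J hJ =>
    (hc J hJ).1.diff (isOpen_biUnion fun _ _ => isOpen_thickening)
  have hKE : ∀ J ∈ I, ∀ z ∈ K J, z ∉ P.E := by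
    intro J hJ z hz hzE
    have h5 := (hc J hJ).2.2.2 hz.1
    have h6 : z ∈ E' := hUE ▸ ⟨hzE, h5.1⟩
    have h7 : z ∈ a.lev (closure (thickening r' E')) t :=
      ⟨subset_closure (self_subset_thickening r0 _ h6), h5.2⟩
    have h8 : connectedComponentIn (a.lev (closure (thickening r' E')) t) z ∈ I' := by
      rw [← Finset.mem_coe, hI']
      exact ⟨z, ⟨h7, hzE⟩, rfl⟩
    have h9 : connectedComponentIn (a.lev (closure (thickening r' E')) t) z ⊆ J := by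
      obtain ⟨z₀, -, hJe⟩ := (hI J hJ).1
      have h10 : z ∈ connectedComponentIn (a.lev (closure (thickening r E')) t) z₀ := hJe ▸ hz.1
      rw [hJe, connectedComponentIn_eq h10]
      exact connectedComponentIn_mono z fun u hu =>
        ⟨closure_mono (thickening_mono r3 _) hu.1, hu.2⟩
    exact hz.2 (mem_iUnion₂.2 ⟨_, Finset.mem_filter.2 ⟨h8, h9⟩,
      self_subset_thickening he0 _ (mem_connectedComponentIn h7)⟩)
  have e4 : ∀ᶠ s in 𝓝[>] (0 : ℝ), ∀ J ∈ I,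
      cthickening (2 * s) (K J) ⊆ (O J \ P.E) \ ⋃ J₂ ∈ I.erase J, J₂ := by
    refine (eventually_all_finset _).2 fun J hJ => evo_CbE (hKc J hJ) ?_ ?_
    · exact ((hI J hJ).2.1.sdiff P.dom.cpt.isClosed).sdiff (isClosed_biUnion_finset fun J₂ h₂ =>
        (hc J₂ (Finset.mem_of_mem_erase h₂)).1.isClosed)
    · intro z hz
      refine ⟨⟨(hI J hJ).2.2.1 hz.1, hKE J hJ z hz⟩, fun h5 => ?_⟩
      obtain ⟨J₂, h₂, h5⟩ := mem_iUnion₂.1 h5
      exact disjoint_left.1 (hdis J hJ J₂ (Finset.mem_of_mem_erase h₂)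
        (Finset.ne_of_mem_erase h₂).symm) hz.1 h5
  obtain ⟨s₀, f4, hs₀⟩ := (e4.and self_mem_nhdsWithin).exists
  obtain ⟨T, s, M, s0, s1, hT1, hT2, hT3⟩ := hcov t (⋃ J ∈ I, K J)
    (I.isCompact_biUnion hKc) (fun z hz => by
      obtain ⟨J, hJ, hz⟩ := mem_iUnion₂.1 hz
      exact ⟨cthickening_subset_thickening' hC.pos hr E'
        (closure_thickening_subset_cthickening _ _ ((hc J hJ).2.2.2 hz.1).1), hKE J hJ z hz⟩)
    (fun z hz => by
      obtain ⟨J, hJ, hz⟩ := mem_iUnion₂.1 hz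
      have h5 := ((hc J hJ).2.2.2 hz.1).2
      rw [a.eq z (hKE J hJ z hz)] at h5
      exact le_antisymm h5.1 h5.2) s₀ η hs₀ hη
  have hball : ∀ J ∈ I, ∀ u, (ball u s ∩ K J).Nonempty →
      ball u s ⊆ (O J \ P.E) \ ⋃ J₂ ∈ I.erase J, J₂ := by
    rintro J hJ u ⟨v, hv⟩ z hz
    refine f4 J hJ (mem_cthickening_of_dist_le z v _ _ hv.2 ?_)
    have h5 := mem_ball.1 hz
    have h6 := mem_ball.1 hv.1
    have h7 := dist_triangle_right z v u
    linarith
  have key : ∀ J ∈ I, P.D d.b d.ρ d.lam n (O J) (x J) (y J) ≤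
      ∑ u ∈ T.filter (fun u => (ball u s ∩ K J).Nonempty), ENNReal.ofReal (M u * (2 * s)) +
        ∑ J' ∈ I'.filter (· ⊆ J), (ENNReal.ofReal (Stp.tel d.lam (.jmp 0 0 J' (o J'))) +
          ENNReal.ofReal (n * ∑ i ∈ Finset.range n,
            Stp.hop (d.b i) (.jmp 0 0 (cthickening e J') (o J')))) := by
    intro J hJ
    refine one_CbE d (hc J hJ).2.1 _ _ o he0 M (fun u hu => ?_) (fun J' hJ' => ?_)
      (fun J' hJ' J'' hJ'' => f2 J' (Finset.mem_filter.1 hJ').1 J'' (Finset.mem_filter.1 hJ'').1)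
      (fun z hz => ?_) (hI J hJ).2.2.2.1 (hI J hJ).2.2.2.2
    · obtain ⟨h5, h6⟩ := Finset.mem_filter.1 hu
      exact ⟨(hball J hJ u h6).trans sdiff_subset, (hT2 u h5).2⟩
    · obtain ⟨h5, h6⟩ := Finset.mem_filter.1 hJ'
      exact ⟨(hc' J' h5).1, (hc' J' h5).2.1,
        (cthickening_mono (by linarith) _).trans (f3 J hJ J' h5 h6), ho J' h5⟩
    · by_cases h5 : z ∈ K J
      · obtain ⟨u, hu, h6⟩ := mem_iUnion₂.1 (hT1 (mem_iUnion₂.2 ⟨J, hJ, h5⟩))
        exact Or.inl (mem_iUnion₂.2 ⟨u, Finset.mem_filter.2 ⟨hu, z, h6, h5⟩, h6⟩)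
      · exact Or.inr (by_contra fun h6 => h5 ⟨hz, h6⟩)
  refine (Finset.sum_le_sum key).trans ?_
  rw [Finset.sum_add_distrib]
  have g1 := sum_CbE I T (fun J u => (ball u s ∩ K J).Nonempty)
    (fun u => ENNReal.ofReal (M u * (2 * s))) (fun u _ J hJ J₂ hJ₂ h5 h6 => by
      by_contra hne
      obtain ⟨v, hv⟩ := h6
      exact (hball J hJ u h5 hv.1).2 (mem_iUnion₂.2 ⟨J₂,
        Finset.mem_erase.2 ⟨fun h => hne h.symm, hJ₂⟩, hv.2.1⟩))
  have g2 := sum_CbE I I' (fun J J' => J' ⊆ J)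
    (fun J' => ENNReal.ofReal (Stp.tel d.lam (.jmp 0 0 J' (o J'))) +
      ENNReal.ofReal (n * ∑ i ∈ Finset.range n,
        Stp.hop (d.b i) (.jmp 0 0 (cthickening e J') (o J')))) (fun J' hJ' J hJ J₂ hJ₂ h5 h6 => by
      by_contra hne
      obtain ⟨v, hv⟩ := (hc' J' hJ').2.2.1
      exact disjoint_left.1 (hdis J hJ J₂ hJ₂ hne) (h5 hv) (h6 hv))
  have g3 := tel_CbE P.ne hC r0 r1 d.lam I' o hmem ho
  rw [Finset.sum_add_distrib (s := I')] at g2
  refine (add_le_add (g1.trans hT3) (g2.trans (add_le_add g3 f1))).trans (le_of_eq ?_)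
  · have g4 : (η3 : ℝ≥0∞) = ENNReal.ofReal η + ENNReal.ofReal (2 * η) := by
      rw [← ENNReal.ofReal_add hη.le (by positivity), ← ENNReal.ofReal_coe_nnreal]
      refine congrArg _ ?_
      rw [hηd]
      ring
    rw [g4]
    ring

end Vale.Agent.P116.K
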