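import Vale.Agent.P116.K.CbE

/-! P116 K/CbG (TASK, owner helper41). The area over a clopen part. Helper names end with `_CbG`.
`lev_area` for `U = thickening r E'`, `r = r₀ / 2` (`Clo.th`), with `N' t = κ * (N t + 3 * Lam t + 3 * ν (lev E' t))`, `N` from `di_sum`. Given `I, p, q` and `η`: `y J`, `x J` from `near_pt` at `p J`, `q J`; `O J` = the set of `tch_small` (components are compact and `Satd` by `lev_sat`) intersected with `W` (`tch_anti`);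
`hiE p ≤ loE p + lam + ν c ≤ f y + η + ..` (`Bar.osc` for `c = Cp.mk (p J) _`; `loE f c.pt = loE f p` by `cl_pt`; `c.pt ∈ E'` since `c.1 ⊆ J`), `f y ≤ f x + Di + tch` (`Bar.sub`), `f x ≤ hiE q + η ≤ loE q + lam + ν c' + η`; `tsub_le_iff_left`.
Sum over `J` (`lam_fam`, `nu_fam`, `ν c ≤ ν (E ∩ J)`), then let `η → 0` (`ENNReal.le_of_forall_pos_le_add`, `κ ≠ ⊤`). `lintegral_const_mul`, `lintegral_add_left`, `int_Lam`, `int_nu`. -/

open MeasureTheory Set Metric Filter Topology Complex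
open scoped ENNReal

noncomputable section

namespace Vale.Agent.P116.K

open Vale.Agent.P128

variable {P : Par} {E E' U O J : Set ℂ} {a w : TF E} {t r r₀ : ℝ} {n : ℕ} {x y z : ℂ}

theorem osc_CbG (d : P.Dat) {f : ℂ → ℝ≥0∞} (hf : Par.Bar d f) (hs : Satd P.E J) (hO : J ⊆ d.O)
    {p : ℂ} (hp : p ∈ J ∩ P.E) : ∃ c : Cp P.E, c.pt ∈ J ∧
      P.hiE f p ≤ P.loE f p + ENNReal.ofReal (d.lam c) + d.ν (P.E ∩ J) := by
  have h1 : (Cp.mk p hp.2).1 ⊆ J := hs p hp.1 hp.2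
  have h2 := h1 (Cp.mk p hp.2).pt_in
  have h3 := hf.osc (Cp.mk p hp.2) (hO h2).2
  have e1 : P.hiE f (Cp.mk p hp.2).pt = P.hiE f p := by
    simp only [Par.hiE, P.cl_pt _ hp.2]
  have e2 : P.loE f (Cp.mk p hp.2).pt = P.loE f p := by
    simp only [Par.loE, P.cl_pt _ hp.2]
  rw [e1, e2] at h3
  exact ⟨_, h2, h3.trans (add_le_add le_rfl
    (measure_mono (subset_inter (Cp.mk p hp.2).sub h1)))⟩

theorem one_CbG (d : P.Dat) {f : ℂ → ℝ≥0∞} (hf : Par.Bar d f) {a : TF P.E} (hm : a.Mono)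
    (hU : IsOpen U) (hc : closure U ⊆ Q) (hfr : Disjoint (frontier U) P.E) {W : Set ℂ}
    (hW : IsOpen W) (hW1 : closure U ⊆ W) (hW2 : W ⊆ d.O) (hJ : J ∈ a.cps U t) {p q : ℂ}
    (hp : p ∈ J ∩ P.E) (hq : q ∈ J ∩ P.E) {η : ℝ≥0∞} (hη : η ≠ 0) :
    ∃ (O : Set ℂ) (x y : ℂ) (c c' : Cp P.E), (IsOpen O ∧ J ⊆ O ∧ x ∈ J \ P.E ∧ y ∈ J \ P.E) ∧
      c.pt ∈ J ∧ c'.pt ∈ J ∧ P.hiE f p - P.loE f q ≤ d.Di O x y + ENNReal.ofReal (d.lam c) +
        ENNReal.ofReal (d.lam c') + 3 * d.ν (P.E ∩ J) + 3 * η := by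
  have := d.fin
  obtain ⟨y, hy, y1, -⟩ := near_pt hm hU hc hfr hJ hp hf.le hη
  obtain ⟨x, hx, -, x1⟩ := near_pt hm hU hc hfr hJ hq hf.le hη
  obtain ⟨z, hz, rfl⟩ := hJ
  have hK : IsCompact (connectedComponentIn (a.lev (closure U) t) z) :=
    (Cp.mk z hz.1).cpt (a.lev_cpt (cl_LevD hc) hc t)
  have hs : Satd P.E (connectedComponentIn (a.lev (closure U) t) z) :=
    fun z' h1 _ => lev_sat hU hfr h1
  have hJW : connectedComponentIn (a.lev (closure U) t) z ⊆ W :=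
    fun z' h1 => hW1 (connectedComponentIn_subset _ _ h1).1
  generalize connectedComponentIn (a.lev (closure U) t) z = J at *
  obtain ⟨O, k, o1, o2, o3⟩ := tch_small d.ν hK hs hη
  obtain ⟨c, c1, c2⟩ := osc_CbG d hf hs (hJW.trans hW2) hp
  obtain ⟨c', c3, c4⟩ := osc_CbG d hf hs (hJW.trans hW2) hq
  have hJO : J ⊆ O ∩ W := subset_inter o2 hJW
  have h1 := hf.sub (O ∩ W) (o1.inter hW) (inter_subset_right.trans hW2) k x ⟨hJO hx.1, hx.2⟩ y
    ⟨hJO hy.1, hy.2⟩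
  have h2 := (Par.tch_anti d.ν (le_refl k) (inter_subset_left : O ∩ W ⊆ O)).trans o3
  refine ⟨O ∩ W, x, y, c, c', ⟨o1.inter hW, hJO, hx, hy⟩, c1, c3, tsub_le_iff_left.2 ?_⟩
  calc P.hiE f p ≤ P.loE f p + ENNReal.ofReal (d.lam c) + d.ν (P.E ∩ J) := c2
    _ ≤ (P.loE f q + ENNReal.ofReal (d.lam c') + d.ν (P.E ∩ J) + η + d.Di (O ∩ W) x y +
        (d.ν (P.E ∩ J) + η) + η) + ENNReal.ofReal (d.lam c) + d.ν (P.E ∩ J) :=
        add_le_add (add_le_add (y1.trans (add_le_add (h1.trans (add_le_add (add_le_add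
          (x1.trans (add_le_add c4 le_rfl)) le_rfl) h2)) le_rfl)) le_rfl) le_rfl
    _ = _ := by ring

theorem bar_area (d : P.Dat) {f : ℂ → ℝ≥0∞} (hf : Par.Bar d f) {a w : TF P.E} (ha : a.Fn)
    (hm : a.Mono) {ρa : ℂ → ℝ} (h1 : ContinuousOn ρa P.Eᶜ) (h3 : ∀ z, 0 ≤ ρa z)
    (hM : Maj P.E Q a.hi ρa) (hb : ∀ i, (d.b i).Fn) (h : ∀ i, a.Cmp (d.b i)) (hC : Clo P.E E' r₀)
    {W : Set ℂ} (hW : IsOpen W) (hW1 : cthickening r₀ E' ⊆ W) (hW2 : W ⊆ d.O) {κ : ℝ≥0∞}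
    (hκ : κ ≠ ⊤) (hw : ∀ p ∈ P.E \ d.Z, ∀ q ∈ P.E \ d.Z,
      ENNReal.ofReal (w.hi p - w.lo q) ≤ κ * (P.hiE f p - P.loE f q)) {θ : ℝ}
    (hθ : ∀ z ∈ E', a.hi z - a.lo z ≤ θ) :
    volume (a.img w E') ≤
      κ * (16 * (∫⁻ z in thickening r₀ E' \ P.E, ENNReal.ofReal (ρa z * d.ρ z)) +
        3 * (∑' c : {c : Cp P.E // c.pt ∈ E'}, ENNReal.ofReal (a.osc c.1 * d.lam c.1)) +
          3 * (ENNReal.ofReal θ * d.ν univ)) := by
  have := d.fin
  have r0 : 0 < r₀ / 2 := half_pos hC.pos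
  have r1 : r₀ / 2 < r₀ := half_lt_self hC.pos
  obtain ⟨u1, u2, u3⟩ := hC.th r0 r1.le
  have u4 : closure (thickening (r₀ / 2) E') ⊆ W :=
    (closure_thickening_subset_cthickening _ _).trans ((cthickening_mono r1.le _).trans hW1)
  obtain ⟨N, n1, n2, n3⟩ := di_sum d ha hm h1 h3 hM hb h hC r0 r1
  obtain ⟨l1, l2⟩ := int_Lam (a := a) d.l0 d.l2 E'
  obtain ⟨v1, v2⟩ := int_nu hC d.ν hθ
  have : Nonempty (Cp P.E) := ⟨Cp.mk _ P.ne.some_mem⟩
  have key := lev_area (w := w) P.dom ha hm isOpen_thickening u1 u2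
    (N := fun t => κ * (N t + 3 * Lam a d.lam E' t + 3 * d.ν (a.lev E' t))) (by
      filter_upwards [n3] with t ht I p q hI
      have hZ : ∀ J ∈ I, ∀ z ∈ J ∩ P.E, z ∈ P.E \ d.Z := by
        intro J hJ z hz
        obtain ⟨z₀, -, e⟩ := (hI J hJ).1
        have h4 := hz.1
        rw [e] at h4
        exact ⟨hz.2, (hW2 (u4 (connectedComponentIn_subset _ _ h4).1)).2⟩
      refine (Finset.sum_le_sum fun J hJ => hw _ (hZ J hJ _ (hI J hJ).2.1) _
        (hZ J hJ _ (hI J hJ).2.2)).trans ?_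
      rw [← Finset.mul_sum]
      refine mul_le_mul_right (ENNReal.le_of_forall_pos_le_add fun ε hε _ => ?_) κ
      have hη : (ε : ℝ≥0∞) / (I.card * 3) ≠ 0 := ENNReal.div_ne_zero.2
        ⟨ENNReal.coe_ne_zero.2 hε.ne', ENNReal.mul_ne_top (ENNReal.natCast_ne_top _) (by simp)⟩
      have h5 := fun J (hJ : J ∈ I) => one_CbG d hf hm isOpen_thickening u1 u2 hW u4 hW2
        (hI J hJ).1 (hI J hJ).2.1 (hI J hJ).2.2 hη
      choose! O x y c c' k1 k2 k3 k4 using h5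
      refine (Finset.sum_le_sum k4).trans ?_
      have s1 := ht I O x y fun J hJ => ⟨(hI J hJ).1, k1 J hJ⟩
      have s2 := lam_fam hC r0 r1.le d.lam I c fun J hJ => ⟨(hI J hJ).1, k2 J hJ⟩
      have s3 := lam_fam hC r0 r1.le d.lam I c' fun J hJ => ⟨(hI J hJ).1, k3 J hJ⟩
      have s4 := nu_fam P.dom hC r0 r1.le d.ν I fun J hJ => (hI J hJ).1
      have s5 : ∑ _J ∈ I, 3 * ((ε : ℝ≥0∞) / (I.card * 3)) ≤ ε := by
        rw [Finset.sum_const, nsmul_eq_mul, ← mul_assoc]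
        exact ENNReal.mul_div_le
      rw [Finset.sum_add_distrib, Finset.sum_add_distrib, Finset.sum_add_distrib,
        Finset.sum_add_distrib, ← Finset.mul_sum]
      refine (add_le_add (add_le_add (add_le_add (add_le_add s1 s2) s3)
        (mul_le_mul_right s4 3)) s5).trans (le_of_eq ?_)
      ring)
  have hsub : E' ⊆ P.E ∩ thickening (r₀ / 2) E' :=
    subset_inter hC.sub (self_subset_thickening r0 E')
  refine ((measure_mono (biUnion_subset_biUnion_left hsub)).trans key).trans ?_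
  rw [lintegral_const_mul' _ _ hκ, lintegral_add_right _ (v1.const_mul 3),
    lintegral_add_left n1, lintegral_const_mul _ l1, lintegral_const_mul _ v1]
  exact mul_le_mul_right (add_le_add (add_le_add n2 (mul_le_mul_right l2 3))
    (mul_le_mul_right v2 3)) κ

end Vale.Agent.P116.K
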