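import Vale.Agent.P116.K.ChainZ

/-! P116 K/Chain: chains and the chain distance. -/

open MeasureTheory Set Metric Filter Topology Complex
open scoped ENNReal

noncomputable section

namespace Vale.Agent.P116.K

open Vale.Agent.P128

namespace Par
variable {P : Par}

theorem Ok.mono {n m : ℕ} {O O' : Set ℂ} (hn : n ≤ m) (hO : O ⊆ O') {s : Stp P.E}
    (h : P.Ok m O s) : P.Ok n O' s := by
  cases s with
  | seg x y => exact Subset.trans h (sdiff_subset_sdiff_left hO)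
  | jmp x y J c =>
    obtain ⟨h1, h2, h3, h4, h5, h6⟩ := h
    refine ⟨h1, h2, h3, h4, h5.trans (inter_subset_inter hO (thickening_mono ?_ _)), h6⟩
    exact div_le_div_of_nonneg_left P.δ0.le (by positivity) (by simpa using hn)
theorem Chn.mono {n m : ℕ} {O O' : Set ℂ} (hn : n ≤ m) (hO : O ⊆ O') {x y : ℂ}
    {l : List (Stp P.E)} (h : P.Chn m O x y l) : P.Chn n O' x y l := by
  exact ⟨⟨hO h.1.1, h.1.2⟩, h.2.1, fun s hs => (h.2.2 s hs).mono hn hO⟩
theorem ok_ChainA {n : ℕ} {O : Set ℂ} {s : Stp P.E} (h : P.Ok n O s) :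
    s.src ∈ s.tr ∧ s.tgt ∈ s.tr ∧ s.tgt ∉ P.E ∧ s.tr ⊆ O ∧ IsCompact s.tr ∧
      IsPreconnected s.tr := by
  cases s with
  | seg x y =>
    refine ⟨left_mem_segment ℝ x y, right_mem_segment ℝ x y, (h (right_mem_segment ℝ x y)).2,
      fun z hz => (h hz).1, ?_, (convex_segment x y).isPreconnected⟩
    rw [Stp.tr, segment_eq_image]
    exact isCompact_Icc.image (by fun_prop)
  | jmp x y J c =>
    exact ⟨h.1.1, h.2.1.1, h.2.1.2, fun z hz => (h.2.2.2.2.1 hz).1, h.2.2.1, h.2.2.2.1⟩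
theorem cons_ChainA {n : ℕ} {O : Set ℂ} {x y : ℂ} {s : Stp P.E} {l : List (Stp P.E)}
    (h : P.Chn n O x y (s :: l)) : P.Ok n O s ∧ P.Chn n O s.tgt y l ∧ x ∈ s.tr ∧
      K.trc x (s :: l) = s.tr ∪ K.trc s.tgt l := by
  have h1 := h.2.2 s List.mem_cons_self
  obtain ⟨k1, k2, k3, k4, -⟩ := ok_ChainA h1
  rw [h.2.1.1] at k1
  refine ⟨h1, ⟨⟨k4 k2, k3⟩, h.2.1.2, fun t ht => h.2.2 t (List.mem_cons_of_mem _ ht)⟩, k1, ?_⟩
  ext z
  simp only [K.trc, mem_union, mem_singleton_iff, mem_iUnion, List.mem_cons, exists_prop,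
    exists_eq_or_imp]
  constructor
  · rintro (rfl | h | h)
    exacts [Or.inl k1, Or.inl h, Or.inr (Or.inr h)]
  · rintro (h | rfl | h)
    exacts [Or.inr (Or.inl h), Or.inr (Or.inl k2), Or.inr (Or.inr h)]
theorem Chn.tgt {n : ℕ} {O : Set ℂ} {x y : ℂ} {l : List (Stp P.E)} (h : P.Chn n O x y l) :
    y ∈ O \ P.E ∧ y ∈ trc x l := by
  induction l generalizing x with
  | nil =>
    obtain rfl : x = y := h.2.1
    exact ⟨h.1, Or.inl rfl⟩
  | cons s l ih =>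
    obtain ⟨-, h2, -, h4⟩ := cons_ChainA h
    exact ⟨(ih h2).1, h4 ▸ Or.inr (ih h2).2⟩
theorem Chn.append {n : ℕ} {O : Set ℂ} {x y z : ℂ} {l l' : List (Stp P.E)}
    (h : P.Chn n O x y l) (h' : P.Chn n O y z l') : P.Chn n O x z (l ++ l') := by
  exact ⟨h.1, h.2.1.append h'.2.1, fun s hs => (List.mem_append.1 hs).elim (h.2.2 s) (h'.2.2 s)⟩
theorem Chn.trc {n : ℕ} {O : Set ℂ} {x y : ℂ} {l : List (Stp P.E)} (h : P.Chn n O x y l) :
    trc x l ⊆ O ∧ IsCompact (trc x l) ∧ IsPreconnected (trc x l) := by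
  induction l generalizing x with
  | nil =>
    have e : K.trc x ([] : List (Stp P.E)) = {x} := by simp [K.trc]
    rw [e]
    exact ⟨singleton_subset_iff.2 h.1.1, isCompact_singleton, isPreconnected_singleton⟩
  | cons s l ih =>
    obtain ⟨h1, h2, -, h4⟩ := cons_ChainA h
    obtain ⟨-, k2, -, k4, k5, k6⟩ := ok_ChainA h1
    obtain ⟨i1, i2, i3⟩ := ih h2
    rw [h4]
    exact ⟨union_subset k4 i1, k5.union i2, k6.union _ k2 (Or.inl rfl) i3⟩
/-- A chain whose trace lies in a smaller region. -/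
theorem Chn.restrict {n : ℕ} {O O' : Set ℂ} {x y : ℂ} {l : List (Stp P.E)} (h : P.Chn n O x y l)
    (hs : K.trc x l ⊆ O') : P.Chn n O' x y l := by
  refine ⟨⟨hs (Or.inl rfl), h.1.2⟩, h.2.1, fun s k => ?_⟩
  have h1 := h.2.2 s k
  have h2 : s.tr ⊆ O' := fun z hz => hs (Or.inr (mem_iUnion₂.2 ⟨s, k, hz⟩))
  cases s with
  | seg x y => exact fun z hz => ⟨h2 hz, (h1 hz).2⟩
  | jmp x y J c =>
    obtain ⟨a1, a2, a3, a4, a5, a6⟩ := h1
    exact ⟨a1, a2, a3, a4, fun z hz => ⟨h2 hz, (a5 hz).2⟩, a6⟩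

end Par

end Vale.Agent.P116.K
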