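import Vale.Agent.P116.K.ChainB

/-! P116 K/Chain: chains and the chain distance. -/

open MeasureTheory Set Metric Filter Topology Complex
open scoped ENNReal

noncomputable section

namespace Vale.Agent.P116.K

open Vale.Agent.P128

namespace Par
variable {P : Par}

theorem near_ChainC (b : ℕ → TF P.E) (n : ℕ) {p : ℂ} (hp : p ∈ P.E) {t : ℝ} (ht : 0 < t) :
    ∃ m, ∀ J : Set ℂ, J.Nonempty → J ⊆ closure (P.cl m p) → ∀ i < n,
      dm (b i) J - (b i).osc (Cp.mk p hp) ≤ 2 * t := by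
  obtain ⟨m, hm⟩ := P.exists_cl_sub hp (V := ⋂ i ∈ Finset.range n,
      ({z | z ∈ Q ∧ (b i).hi z < (b i).hi (Cp.mk p hp).pt + t} ∩
        {z | z ∈ Q ∧ (b i).lo (Cp.mk p hp).pt - t < (b i).lo z}))
    (isOpen_biInter_finset fun i _ => ((b i).open_hi _).inter ((b i).open_lo _))
    (subset_iInter₂ fun i _ z hz => by
      obtain ⟨h1, h2⟩ := (b i).at_pt (c := Cp.mk p hp) hz
      have h3 := P.dom.sub (connectedComponentIn_subset _ _ hz)
      exact ⟨⟨h3, by linarith⟩, h3, by linarith⟩)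
  refine ⟨m, fun J hJ hs i hi => ?_⟩
  have h0 := fun z (hz : z ∈ J) => mem_iInter₂.1 (hm (hs hz)) i (Finset.mem_range.2 hi)
  have h1 : sSup ((b i).hi '' J) ≤ (b i).hi (Cp.mk p hp).pt + t :=
    csSup_le (hJ.image _) (forall_mem_image.2 fun z hz => (h0 z hz).1.2.le)
  have h2 : (b i).lo (Cp.mk p hp).pt - t ≤ sInf ((b i).lo '' J) :=
    le_csInf (hJ.image _) (forall_mem_image.2 fun z hz => (h0 z hz).2.2.le)
  rw [dm, TF.osc]
  linarith

/-- Teleport: deep in the cluster of `p` the distance is at most the price of the component. -/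
theorem D_tel (d : P.Dat) (n k : ℕ) {p : ℂ} (hp : p ∈ P.E) {η : ℝ} (hη : 0 < η) : ∃ l,
    ∀ x ∈ P.cl l p \ P.E, ∀ y ∈ P.cl l p \ P.E,
      P.D d.b d.ρ d.lam n (P.cl k p) x y ≤ ENNReal.ofReal (d.lam (Cp.mk p hp) + η) := by
  obtain ⟨m, hm⟩ := near_ChainC d.b n hp (t := η / (2 * (n * n + 1))) (by positivity)
  refine ⟨m + n + k + 1, fun x hx y hy => ?_⟩
  have h1 := P.clos_cl (n := k) (m := m + n + k + 1) (by omega) hp
  have h2 := (P.clos_cl (n := n) (m := m + n + k + 1) (by omega) hp).trans (P.cl_sub n p)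
  have h3 := hm (closure (P.cl (m + n + k + 1) p)) ⟨x, subset_closure hx.1⟩
    (closure_mono (P.cl_anti (by omega) p))
  have h4 : P.Chn n (P.cl k p) x y
      [Stp.jmp x y (closure (P.cl (m + n + k + 1) p)) (some (Cp.mk p hp))] := by
    refine ⟨⟨h1 (subset_closure hx.1), hx.2⟩, ⟨rfl, rfl⟩, fun s hs => ?_⟩
    rw [List.mem_singleton.1 hs]
    refine ⟨⟨subset_closure hx.1, hx.2⟩, ⟨subset_closure hy.1, hy.2⟩,
      (P.clos_nb_cpt _).of_isClosed_subset isClosed_closure (closure_mono (P.cl_sub _ _)),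
      (P.cl_conn _ p).closure, subset_inter h1 h2, fun c' hc => ?_⟩
    rw [← Option.some.inj hc]
    exact (P.cmp_sub_cl _ hp).trans subset_closure
  refine (iInf₂_le _ h4).trans (ENNReal.ofReal_le_ofReal ?_)
  have h5 := Finset.sum_le_card_nsmul (Finset.range n) _ _ fun i hi => h3 i (Finset.mem_range.1 hi)
  rw [Finset.card_range, nsmul_eq_mul] at h5
  have h6 := mul_le_mul_of_nonneg_left h5 (Nat.cast_nonneg n)
  have h7 : (n : ℝ) * (n * (2 * (η / (2 * (n * n + 1))))) ≤ η := by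
    rw [show (n : ℝ) * (n * (2 * (η / (2 * (n * n + 1))))) = η * (n * n) / (n * n + 1) by
      field_simp, div_le_iff₀ (by positivity)]
    linarith
  simp only [cost, hopn, List.map_cons, List.map_nil, List.sum_cons, List.sum_nil, Stp.len, Stp.tel,
    Stp.hop, add_zero, zero_add]
  linarith

end Par

end Vale.Agent.P116.K
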