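import Vale.Agent.P116.K.ChainC

/-! P116 K/Chain: chains and the chain distance. -/

open MeasureTheory Set Metric Filter Topology Complex
open scoped ENNReal

noncomputable section

namespace Vale.Agent.P116.K

open Vale.Agent.P128

theorem cut_ChainD {U : Set ℂ} (hU : IsOpen U) {x y : ℂ} (hx : ¬ segment ℝ x y ⊆ U) (hy : y ∈ U) :
    ∃ z ∈ frontier U, z ∈ segment ℝ x y ∧ segment ℝ z y ⊆ {z} ∪ U := by
  have hf : Continuous fun t : ℝ => x + t • (y - x) := by fun_prop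
  have hS : IsCompact (Icc (0 : ℝ) 1 ∩ (fun t : ℝ => x + t • (y - x)) ⁻¹' Uᶜ) :=
    isCompact_Icc.inter_right (hU.isClosed_compl.preimage hf)
  have hne : (Icc (0 : ℝ) 1 ∩ (fun t : ℝ => x + t • (y - x)) ⁻¹' Uᶜ).Nonempty := by
    obtain ⟨w, hw, hw'⟩ := not_subset.1 hx
    rw [segment_eq_image'] at hw
    obtain ⟨t, ht, rfl⟩ := hw
    exact ⟨t, ht, hw'⟩
  obtain ⟨t, ⟨⟨t0, t1⟩, ht⟩, hmax⟩ := hS.exists_isGreatest hne
  have hlt : t < 1 := by
    refine lt_of_le_of_ne t1 fun h => ht ?_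
    show x + t • (y - x) ∈ U
    rw [h, one_smul, add_sub_cancel]
    exact hy
  have hop : openSegment ℝ (x + t • (y - x)) y ⊆ U := by
    rw [openSegment_eq_image']
    rintro _ ⟨s, ⟨s0, s1⟩, rfl⟩
    by_contra hc
    have h1 : 0 < s * (1 - t) := mul_pos s0 (sub_pos.2 hlt)
    have h2 : s * (1 - t) ≤ 1 - t := mul_le_of_le_one_left (sub_pos.2 hlt).le s1.le
    have h3 : x + (t + s * (1 - t)) • (y - x) =
        x + t • (y - x) + s • (y - (x + t • (y - x))) := by module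
    have h4 : t + s * (1 - t) ≤ t := hmax ⟨⟨by linarith, by linarith⟩, fun h => hc (mem_of_eq_of_mem h3.symm h)⟩
    linarith
  refine ⟨x + t • (y - x), ?_, ?_, ?_⟩
  · rw [hU.frontier_eq]
    exact ⟨closure_mono hop (segment_subset_closure_openSegment (left_mem_segment ℝ _ _)), ht⟩
  · rw [segment_eq_image']
    exact ⟨t, ⟨t0, t1⟩, rfl⟩
  · rw [← insert_endpoints_openSegment]
    rintro w (rfl | rfl | hw)
    · exact Or.inl rfl
    · exact Or.inr hy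
    · exact Or.inr (hop hw)

theorem mem_trc_ChainD {E : Set ℂ} {x w : ℂ} {l : List (Stp E)} :
    w ∈ trc x l ↔ w = x ∨ ∃ s ∈ l, w ∈ s.tr := by
  simp only [trc, mem_union, mem_singleton_iff, mem_iUnion, exists_prop]

theorem trc_cons_ChainD {E : Set ℂ} {x y : ℂ} {s : Stp E} (hy : y ∈ s.tr) (l : List (Stp E)) :
    trc x (s :: l) = {x} ∪ s.tr ∪ trc y l := by
  ext w
  simp only [mem_trc_ChainD, mem_union, mem_singleton_iff, List.mem_cons, exists_eq_or_imp]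
  constructor
  · rintro (h | h | h)
    · exact Or.inl (Or.inl h)
    · exact Or.inl (Or.inr h)
    · exact Or.inr (Or.inr h)
  · rintro ((h | h) | h | h)
    · exact Or.inl h
    · exact Or.inr (Or.inl h)
    · exact Or.inr (Or.inl (h ▸ hy))
    · exact Or.inr (Or.inr h)

theorem cost_cons_ChainD {E : Set ℂ} (b : ℕ → TF E) (ρ : ℂ → ℝ) (lam : Cp E → ℝ) (n : ℕ)
    (s : Stp E) (l : List (Stp E)) :
    cost b ρ lam n (s :: l) = cost b ρ lam n [s] + cost b ρ lam n l :=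
  cost_append b ρ lam n [s] l

theorem cost_seg_ChainD {E : Set ℂ} (b : ℕ → TF E) (ρ : ℂ → ℝ) (lam : Cp E → ℝ) (n : ℕ)
    (x y : ℂ) : cost b ρ lam n [Stp.seg x y] = Stp.len ρ (Stp.seg x y : Stp E) := by
  simp [cost, hopn, Stp.tel, Stp.hop]

namespace Par
variable {P : Par}

theorem ok_ChainD {n : ℕ} {O : Set ℂ} {s : Stp P.E} (h : P.Ok n O s) :
    s.src ∈ s.tr ∧ s.tgt ∈ s.tr ∧ s.tgt ∈ O \ P.E := by
  cases s with
  | seg x y => exact ⟨left_mem_segment ℝ x y, right_mem_segment ℝ x y, h (right_mem_segment ℝ x y)⟩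
  | jmp x y J c => exact ⟨h.1.1, h.2.1.1, (h.2.2.2.2.1 h.2.1.1).1, h.2.1.2⟩

theorem tail_ChainD {n : ℕ} {O : Set ℂ} {x y : ℂ} {s : Stp P.E} {l : List (Stp P.E)}
    (h : P.Chn n O x y (s :: l)) : s.src = x ∧ P.Ok n O s ∧ P.Chn n O s.tgt y l :=
  ⟨h.2.1.1, h.2.2 s List.mem_cons_self, (ok_ChainD (h.2.2 s List.mem_cons_self)).2.2, h.2.1.2,
    fun t ht => h.2.2 t (List.mem_cons_of_mem s ht)⟩

theorem cons_ChainD {n : ℕ} {O : Set ℂ} {x y : ℂ} {s : Stp P.E} {l : List (Stp P.E)}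
    (hx : x ∈ O \ P.E) (h1 : s.src = x) (h2 : P.Ok n O s) (h : P.Chn n O s.tgt y l) :
    P.Chn n O x y (s :: l) := by
  refine ⟨hx, ⟨h1, h.2.1⟩, fun t ht => ?_⟩
  rcases List.mem_cons.1 ht with rfl | ht
  · exact h2
  · exact h.2.2 t ht

/-- A step that meets a cluster without being contained in it is a segment. -/
theorem seg_ChainD {n k : ℕ} (hk : k < n) {O : Set ℂ} {s : Stp P.E} (h : P.Ok n O s) {p w : ℂ}
    (hw : w ∈ s.tr) (hw' : w ∈ P.cl k p) (hs : ¬ s.tr ⊆ P.cl k p) : ∃ x y, s = Stp.seg x y := by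
  cases s with
  | seg x y => exact ⟨x, y, rfl⟩
  | jmp x y J c =>
    refine absurd ?_ hs
    rw [← P.cl_eq hw']
    exact h.2.2.2.1.subset_connectedComponentIn hw
      fun v hv => P.nb_anti hk.le (h.2.2.2.2.1 hv).2

/-- Cutting the first step. -/
theorem split_ChainD (d : P.Dat) {n : ℕ} {O : Set ℂ} {x m y z : ℂ} {l : List (Stp P.E)}
    (h : P.Chn n O x y (Stp.seg x m :: l)) (hz : z ∈ segment ℝ x m) :
    P.Chn n O x z [Stp.seg x z] ∧ P.Chn n O z y (Stp.seg z m :: l) ∧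
      K.trc x [(Stp.seg x z : Stp P.E)] ⊆ K.trc x (Stp.seg x m :: l) ∧
      K.trc z (Stp.seg z m :: l) ⊆ K.trc x (Stp.seg x m :: l) ∧
      cost d.b d.ρ d.lam n [Stp.seg x z] + cost d.b d.ρ d.lam n (Stp.seg z m :: l) =
        cost d.b d.ρ d.lam n (Stp.seg x m :: l) := by
  obtain ⟨-, h2, h3⟩ := tail_ChainD h
  have h2' : segment ℝ x m ⊆ O \ P.E := h2
  have s1 : segment ℝ x z ⊆ segment ℝ x m :=
    (convex_segment x m).segment_subset (left_mem_segment ℝ x m) hz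
  have s2 : segment ℝ z m ⊆ segment ℝ x m :=
    (convex_segment x m).segment_subset hz (right_mem_segment ℝ x m)
  refine ⟨cons_ChainD h.1 rfl (s1.trans h2') ⟨h2' hz, rfl, fun t ht => absurd ht List.not_mem_nil⟩,
    cons_ChainD (h2' hz) rfl (s2.trans h2') h3, ?_, ?_, ?_⟩
  · intro w hw
    rcases mem_trc_ChainD.1 hw with hw | ⟨t, ht, hw⟩
    · exact mem_trc_ChainD.2 (Or.inl hw)
    · rw [List.mem_singleton.1 ht] at hw
      exact mem_trc_ChainD.2 (Or.inr ⟨_, List.mem_cons_self, s1 hw⟩)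
  · intro w hw
    rcases mem_trc_ChainD.1 hw with hw | ⟨t, ht, hw⟩
    · exact mem_trc_ChainD.2 (Or.inr ⟨_, List.mem_cons_self, hw ▸ hz⟩)
    · rcases List.mem_cons.1 ht with rfl | ht
      · exact mem_trc_ChainD.2 (Or.inr ⟨_, List.mem_cons_self, s2 hw⟩)
      · exact mem_trc_ChainD.2 (Or.inr ⟨t, List.mem_cons_of_mem _ ht, hw⟩)
  · rw [cost_cons_ChainD _ _ _ _ (Stp.seg z m) l, cost_cons_ChainD _ _ _ _ (Stp.seg x m) l,
      cost_seg_ChainD, cost_seg_ChainD, cost_seg_ChainD,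
      len_split hz (d.cont.mono fun w hw => (h2' hw).2), add_assoc]

/-- Prepending a step. -/
theorem pre_ChainD (d : P.Dat) {n : ℕ} {O : Set ℂ} {x y z : ℂ} {s : Stp P.E}
    {l l₁ l₂ : List (Stp P.E)} (h : P.Chn n O x y (s :: l)) (h1 : P.Chn n O s.tgt z l₁)
    (t1 : K.trc s.tgt l₁ ⊆ K.trc s.tgt l) (t2 : K.trc z l₂ ⊆ K.trc s.tgt l)
    (hc : cost d.b d.ρ d.lam n l₁ + cost d.b d.ρ d.lam n l₂ = cost d.b d.ρ d.lam n l) :
    P.Chn n O x z (s :: l₁) ∧ K.trc x (s :: l₁) ⊆ K.trc x (s :: l) ∧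
      K.trc z l₂ ⊆ K.trc x (s :: l) ∧
      cost d.b d.ρ d.lam n (s :: l₁) + cost d.b d.ρ d.lam n l₂ = cost d.b d.ρ d.lam n (s :: l) := by
  obtain ⟨a1, a2, -⟩ := tail_ChainD h
  have a4 := (ok_ChainD a2).2.1
  refine ⟨cons_ChainD h.1 a1 a2 h1, ?_, ?_, ?_⟩
  · rw [trc_cons_ChainD a4, trc_cons_ChainD a4]
    exact union_subset_union_right _ t1
  · rw [trc_cons_ChainD a4]
    exact t2.trans subset_union_right
  · rw [cost_cons_ChainD _ _ _ _ s l₁, cost_cons_ChainD _ _ _ _ s l, add_assoc, hc]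

theorem last_ChainD (d : P.Dat) {n k : ℕ} (hk : k < n) {O : Set ℂ} {y p : ℂ}
    (hy : y ∈ P.cl k p) (l : List (Stp P.E)) : ∀ x, P.Chn n O x y l → K.trc x l ⊆ P.cl k p ∨
    ∃ z ∈ frontier (P.cl k p), ∃ l₁ l₂, P.Chn n O x z l₁ ∧ P.Chn n O z y l₂ ∧
      K.trc z l₂ ⊆ {z} ∪ P.cl k p ∧ K.trc x l₁ ⊆ K.trc x l ∧ K.trc z l₂ ⊆ K.trc x l ∧
      cost d.b d.ρ d.lam n l₁ + cost d.b d.ρ d.lam n l₂ = cost d.b d.ρ d.lam n l := by
  induction l with
  | nil =>
    intro x h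
    refine Or.inl fun w hw => ?_
    rcases mem_trc_ChainD.1 hw with hw | ⟨t, ht, -⟩
    · have h1 : x = y := h.2.1
      rw [hw, h1]
      exact hy
    · exact absurd ht List.not_mem_nil
  | cons s l ih =>
    intro x h
    obtain ⟨a1, a2, a3⟩ := tail_ChainD h
    obtain ⟨b1, b2, -⟩ := ok_ChainD a2
    rcases ih _ a3 with hl | ⟨z, hz, l₁, l₂, c1, c2, c3, c4, c5, c6⟩
    · have hm : s.tgt ∈ P.cl k p := hl (mem_trc_ChainD.2 (Or.inl rfl))
      by_cases hs : s.tr ⊆ P.cl k p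
      · left
        rw [trc_cons_ChainD b2]
        exact union_subset (union_subset (singleton_subset_iff.2 (hs (a1 ▸ b1))) hs) hl
      · obtain ⟨x', m, rfl⟩ := seg_ChainD hk a2 b2 hm hs
        obtain rfl : x' = x := a1
        obtain ⟨z, z1, z2, z3⟩ := cut_ChainD (P.cl_open k p) hs hm
        obtain ⟨e1, e2, e3, e4, e5⟩ := split_ChainD d h z2
        refine Or.inr ⟨z, z1, _, _, e1, e2, ?_, e3, e4, e5⟩
        rw [trc_cons_ChainD (s := Stp.seg z m) (right_mem_segment ℝ z m)]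
        exact union_subset (union_subset subset_union_left z3) (hl.trans subset_union_right)
    · obtain ⟨e1, e2, e3, e4⟩ := pre_ChainD d h c1 c4 c5 c6
      exact Or.inr ⟨z, hz, _, _, e1, c2, c3, e2, e3, e4⟩

/-- Last entrance: a chain of level `n > k` that starts outside the cluster `U` of level `k` and
ends in it passes a point of the frontier, and then stays in the closure. -/
theorem Chn.last (d : P.Dat) {n k : ℕ} (hk : k < n) {O : Set ℂ} {x y p : ℂ} {l : List (Stp P.E)}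
    (h : P.Chn n O x y l) (hx : x ∉ P.cl k p) (hy : y ∈ P.cl k p) :
    ∃ z ∈ frontier (P.cl k p), ∃ l₁ l₂, P.Chn n O x z l₁ ∧ P.Chn n O z y l₂ ∧
      K.trc z l₂ ⊆ {z} ∪ P.cl k p ∧ K.trc x l₁ ⊆ K.trc x l ∧ K.trc z l₂ ⊆ K.trc x l ∧
      cost d.b d.ρ d.lam n l₁ + cost d.b d.ρ d.lam n l₂ = cost d.b d.ρ d.lam n l := by
  exact (last_ChainD d hk hy l x h).resolve_left fun hl => hx (hl (mem_trc_ChainD.2 (Or.inl rfl)))
/-- First exit. -/
theorem Chn.first (d : P.Dat) {n k : ℕ} (hk : k < n) {O : Set ℂ} {x y p : ℂ} {l : List (Stp P.E)}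
    (h : P.Chn n O x y l) (hx : x ∈ P.cl k p) (hy : y ∉ P.cl k p) :
    ∃ z ∈ frontier (P.cl k p), ∃ l₁ l₂, P.Chn n O x z l₁ ∧ P.Chn n O z y l₂ ∧
      K.trc x l₁ ⊆ {z} ∪ P.cl k p ∧ K.trc x l₁ ⊆ K.trc x l ∧ K.trc z l₂ ⊆ K.trc x l ∧
      cost d.b d.ρ d.lam n l₁ + cost d.b d.ρ d.lam n l₂ = cost d.b d.ρ d.lam n l := by
  induction l generalizing x with
  | nil =>
    have h1 : x = y := h.2.1
    exact absurd (h1 ▸ hx) hy
  | cons s l ih =>
    obtain ⟨a1, a2, a3⟩ := tail_ChainD h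
    obtain ⟨b1, b2, -⟩ := ok_ChainD a2
    by_cases hs : s.tr ⊆ P.cl k p
    · obtain ⟨z, hz, l₁, l₂, c1, c2, c3, c4, c5, c6⟩ := ih a3 (hs b2)
      obtain ⟨e1, e2, e3, e4⟩ := pre_ChainD d h c1 c4 c5 c6
      refine ⟨z, hz, _, _, e1, c2, ?_, e2, e3, e4⟩
      rw [trc_cons_ChainD b2]
      exact union_subset ((union_subset (singleton_subset_iff.2 hx) hs).trans subset_union_right) c3
    · obtain ⟨x', m, rfl⟩ := seg_ChainD hk a2 b1 (a1 ▸ hx) hs
      obtain rfl : x' = x := a1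
      have hs' : ¬ segment ℝ m x' ⊆ P.cl k p := fun hc => hs ((segment_symm ℝ x' m).subset.trans hc)
      obtain ⟨z, z1, z2, z3⟩ := cut_ChainD (P.cl_open k p) hs' hx
      rw [segment_symm] at z2 z3
      obtain ⟨e1, e2, e3, e4, e5⟩ := split_ChainD d h z2
      refine ⟨z, z1, _, _, e1, e2, fun w hw => ?_, e3, e4, e5⟩
      rcases mem_trc_ChainD.1 hw with hw | ⟨t, ht, hw⟩
      · exact Or.inr (hw ▸ hx)
      · rw [List.mem_singleton.1 ht] at hw
        exact z3 hw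

end Par

end Vale.Agent.P116.K
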