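import Vale.Agent.P116.K.ChainD

/-! P116 K/Chain: chains and the chain distance. -/

open MeasureTheory Set Metric Filter Topology Complex
open scoped ENNReal

noncomputable section

namespace Vale.Agent.P116.K

open Vale.Agent.P128

namespace Par
variable {P : Par}

theorem step_ChainE {n : ℕ} {O : Set ℂ} {s : Stp P.E} (h : P.Ok n O s)
    {u ρ : ℂ → ℝ} (hc : ContinuousOn ρ P.Eᶜ) (hu : Maj P.E O u ρ) {b' : TF P.E}
    (hb : ∃ M : ℝ, ∀ z ∈ Qc, -M ≤ b'.lo z ∧ b'.hi z ≤ M)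
    (he : ∀ z ∈ (O ∩ P.nb n) \ P.E, b'.hi z = u z) {lam : Cp P.E → ℝ}
    (hl : ∀ c : Cp P.E, c.1 ⊆ O → b'.osc c ≤ lam c) :
    |u s.tgt - u s.src| ≤ s.len ρ + s.tel lam + s.hop b' := by
  cases s with
  | seg x y =>
    have h1 := Maj.seg (hc.mono fun z hz => hz.2) hu h
    simp only [Stp.tgt, Stp.src, Stp.tel, Stp.hop, add_zero]
    exact h1
  | jmp x y J c =>
    obtain ⟨hx, hy, -, -, hJ, hc'⟩ := h
    obtain ⟨M, hM⟩ := hb
    have hQ : ∀ z ∈ J, z ∈ Qc := fun z hz => by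
      have h1 := nb_sub_TfA P n (hJ hz).2
      exact ⟨Ioo_subset_Icc_self h1.1, Ioo_subset_Icc_self h1.2⟩
    have b1 : BddAbove (b'.hi '' J) := ⟨M, forall_mem_image.2 fun z hz => (hM z (hQ z hz)).2⟩
    have b2 : BddBelow (b'.lo '' J) := ⟨-M, forall_mem_image.2 fun z hz => (hM z (hQ z hz)).1⟩
    have k : ∀ z ∈ J \ P.E, sInf (b'.lo '' J) ≤ u z ∧ u z ≤ sSup (b'.hi '' J) := fun z hz => by
      rw [← he z ⟨hJ hz.1, hz.2⟩]
      exact ⟨(csInf_le b2 (mem_image_of_mem _ hz.1)).trans (b'.le z),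
        le_csSup b1 (mem_image_of_mem _ hz.1)⟩
    have k2 : |u y - u x| ≤ dm b' J := by
      rw [dm, abs_le]
      constructor <;> linarith [(k x hx).1, (k x hx).2, (k y hy).1, (k y hy).2]
    cases c with
    | none => simpa only [Stp.tgt, Stp.src, Stp.len, Stp.tel, Stp.hop, zero_add] using k2
    | some c =>
      have k3 := hl c ((hc' c rfl).trans (hJ.trans inter_subset_left))
      simp only [Stp.tgt, Stp.src, Stp.len, Stp.tel, Stp.hop, zero_add]
      linarith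

/-- Variation of a function along a chain, with jumps controlled by `b'`. -/
theorem chn_var {n : ℕ} {O : Set ℂ} {x y : ℂ} {l : List (Stp P.E)} (h : P.Chn n O x y l)
    {u ρ : ℂ → ℝ} (hc : ContinuousOn ρ P.Eᶜ) (hu : Maj P.E O u ρ) {b' : TF P.E}
    (hb : ∃ M : ℝ, ∀ z ∈ Qc, -M ≤ b'.lo z ∧ b'.hi z ≤ M)
    (he : ∀ z ∈ (O ∩ P.nb n) \ P.E, b'.hi z = u z) {lam : Cp P.E → ℝ}
    (hl : ∀ c : Cp P.E, c.1 ⊆ O → b'.osc c ≤ lam c) :
    |u y - u x| ≤ (l.map (Stp.len ρ)).sum + (l.map (Stp.tel lam)).sum +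
      (l.map (Stp.hop b')).sum := by
  obtain ⟨-, h1, h2⟩ := h
  induction l generalizing x with
  | nil =>
    have e : x = y := h1
    simp [e]
  | cons s l ih =>
    obtain ⟨e, h3⟩ := h1
    have k1 := step_ChainE (h2 s List.mem_cons_self) hc hu hb he hl
    have k2 := ih h3 fun t ht => h2 t (List.mem_cons_of_mem _ ht)
    have k3 := abs_sub_le (u y) (u s.tgt) (u x)
    rw [e] at k1
    simp only [List.map_cons, List.sum_cons]
    linarith

end Par

end Vale.Agent.P116.K
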