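import Vale.Agent.P116.K.Tf
import Vale.Agent.P116.K.Clu

/-! P116 K/Chain: chains and the chain distance. -/

open MeasureTheory Set Metric Filter Topology Complex
open scoped ENNReal

noncomputable section

namespace Vale.Agent.P116.K

open Vale.Agent.P128

theorem Lk.append {E : Set ℂ} {x y z : ℂ} {l l' : List (Stp E)} (h : Lk x l y) (h' : Lk y l' z) :
    Lk x (l ++ l') z := by
  induction l generalizing x with
  | nil =>
    have e : x = y := h
    rw [e]
    exact h'
  | cons s l ih => exact ⟨h.1, ih h.2⟩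

theorem Lk.split {E : Set ℂ} {x z : ℂ} {l l' : List (Stp E)} (h : Lk x (l ++ l') z) :
    ∃ y, Lk x l y ∧ Lk y l' z := by
  induction l generalizing x with
  | nil => exact ⟨x, rfl, h⟩
  | cons s l ih =>
    obtain ⟨y, a, b⟩ := ih h.2
    exact ⟨y, ⟨h.1, a⟩, b⟩

theorem cost_append {E : Set ℂ} (b : ℕ → TF E) (ρ : ℂ → ℝ) (lam : Cp E → ℝ) (n : ℕ)
    (l l' : List (Stp E)) : cost b ρ lam n (l ++ l') = cost b ρ lam n l + cost b ρ lam n l' := by
  simp only [cost, hopn, List.map_append, List.sum_append, Finset.sum_add_distrib]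
  ring

theorem trc_append {E : Set ℂ} (x y : ℂ) (l l' : List (Stp E)) :
    trc x (l ++ l') ⊆ trc x l ∪ trc y l' := by
  rintro z (hz | hz)
  · exact Or.inl (Or.inl hz)
  · obtain ⟨s, hs, hz⟩ := mem_iUnion₂.1 hz
    rcases List.mem_append.1 hs with hs | hs
    · exact Or.inl (Or.inr (mem_iUnion₂.2 ⟨s, hs, hz⟩))
    · exact Or.inr (Or.inr (mem_iUnion₂.2 ⟨s, hs, hz⟩))

theorem mem_ChainZ (x y : ℂ) {t : ℝ} (ht : t ∈ Icc (0 : ℝ) 1) : x + t • (y - x) ∈ segment ℝ x y := by
  rw [segment_eq_image']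
  exact ⟨t, ht, rfl⟩

theorem cont_ChainZ {ρ : ℂ → ℝ} {x y : ℂ} (hc : ContinuousOn ρ (segment ℝ x y)) :
    ContinuousOn (fun t : ℝ => ρ (x + t • (y - x))) (Icc 0 1) :=
  hc.comp (by fun_prop) fun _ ht => mem_ChainZ x y ht

theorem len_split {E : Set ℂ} {ρ : ℂ → ℝ} {x y z : ℂ} (hz : z ∈ segment ℝ x y)
    (hc : ContinuousOn ρ (segment ℝ x y)) : Stp.len ρ (Stp.seg x y : Stp E) =
      Stp.len ρ (Stp.seg x z : Stp E) + Stp.len ρ (Stp.seg z y : Stp E) := by
  rw [segment_eq_image'] at hz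
  obtain ⟨a, ha, rfl⟩ := hz
  have hf := cont_ChainZ hc
  have i1 : IntervalIntegrable (fun t : ℝ => ρ (x + t • (y - x))) volume 0 a :=
    (hf.mono (Icc_subset_Icc_right ha.2)).intervalIntegrable_of_Icc ha.1
  have i2 : IntervalIntegrable (fun t : ℝ => ρ (x + t • (y - x))) volume a 1 :=
    (hf.mono (Icc_subset_Icc_left ha.1)).intervalIntegrable_of_Icc ha.2
  have d1 : dist x (x + a • (y - x)) = a * dist x y := by
    rw [dist_comm, dist_eq_norm, add_sub_cancel_left, norm_smul, Real.norm_of_nonneg ha.1,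
      dist_comm, dist_eq_norm]
  have d2 : dist (x + a • (y - x)) y = (1 - a) * dist x y := by
    have e : y - (x + a • (y - x)) = (1 - a) • (y - x) := by
      rw [sub_smul, one_smul]
      abel
    rw [dist_comm, dist_eq_norm, e, norm_smul, Real.norm_of_nonneg (sub_nonneg.2 ha.2),
      dist_comm, dist_eq_norm]
  have e1 : ∀ t : ℝ, x + t • (x + a • (y - x) - x) = x + (a * t) • (y - x) := fun t => by
    rw [add_sub_cancel_left, smul_smul, mul_comm]
  have e2 : ∀ t : ℝ, x + a • (y - x) + t • (y - (x + a • (y - x))) =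
      x + ((1 - a) * t + a) • (y - x) := fun t => by
    simp only [Complex.real_smul]
    push_cast
    ring
  have h1 := intervalIntegral.smul_integral_comp_mul_left (a := 0) (b := 1)
    (fun t : ℝ => ρ (x + t • (y - x))) a
  have h2 := intervalIntegral.smul_integral_comp_mul_add (a := 0) (b := 1)
    (fun t : ℝ => ρ (x + t • (y - x))) (1 - a) a
  simp only [smul_eq_mul, mul_zero, mul_one, zero_add, sub_add_cancel] at h1 h2
  simp only [Stp.len, e1, e2, d1, d2]
  rw [← intervalIntegral.integral_add_adjacent_intervals i1 i2, ← h1, ← h2]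
  ring

theorem len_le {E : Set ℂ} {ρ : ℂ → ℝ} {x y : ℂ} {K : ℝ} (hc : ContinuousOn ρ (segment ℝ x y))
    (hK : ∀ z ∈ segment ℝ x y, ρ z ≤ K) : Stp.len ρ (Stp.seg x y : Stp E) ≤ K * dist x y := by
  refine mul_le_mul_of_nonneg_right ?_ dist_nonneg
  have h := intervalIntegral.integral_mono_on (g := fun _ : ℝ => K) zero_le_one
    ((cont_ChainZ hc).intervalIntegrable_of_Icc (μ := volume) zero_le_one)
    intervalIntegrable_const fun t ht => hK _ (mem_ChainZ x y ht)
  simpa only [intervalIntegral.integral_const, sub_zero, one_smul] using h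

theorem len_nn {E : Set ℂ} {ρ : ℂ → ℝ} (h : ∀ z, 0 ≤ ρ z) (s : Stp E) : 0 ≤ s.len ρ := by
  cases s with
  | seg x y =>
    exact mul_nonneg (intervalIntegral.integral_nonneg zero_le_one fun _ _ => h _) dist_nonneg
  | jmp x y J c => exact le_rfl

end Vale.Agent.P116.K
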