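import Vale.Agent.P116.K.Defs

/-! P116 K/Clu: clusters. -/

open MeasureTheory Set Metric Filter Topology Complex
open scoped ENNReal

noncomputable section

namespace Vale.Agent.P116.K

open Vale.Agent.P128

namespace Par
variable (P : Par)

theorem nb_open (n : ℕ) : IsOpen (P.nb n) := by
  exact isOpen_thickening
theorem sub_nb (n : ℕ) : P.E ⊆ P.nb n := by
  exact self_subset_thickening (div_pos P.δ0 (Nat.cast_add_one_pos n)) _
theorem nb_anti {n m : ℕ} (h : n ≤ m) : P.nb m ⊆ P.nb n := by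
  refine thickening_mono (div_le_div_of_nonneg_left P.δ0.le (Nat.cast_add_one_pos n) ?_) _
  exact_mod_cast Nat.succ_le_succ h
theorem clos_nb {n m : ℕ} (h : n < m) : closure (P.nb m) ⊆ P.nb n := by
  have h1 := div_pos P.δ0 (Nat.cast_add_one_pos n : (0 : ℝ) < n + 1)
  refine (closure_thickening_subset_cthickening _ _).trans (cthickening_subset_thickening' h1 ?_ _)
  refine div_lt_div_of_pos_left P.δ0 (Nat.cast_add_one_pos n) ?_
  exact_mod_cast Nat.succ_lt_succ h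
theorem clos_nb_cpt (n : ℕ) : IsCompact (closure (P.nb n)) := by
  exact P.dom.cpt.cthickening.of_isClosed_subset isClosed_closure
    (closure_thickening_subset_cthickening _ _)
theorem far_CluA {z : ℂ} (hz : z ∈ P.E) : (100 * P.δ ≤ z.re ∧ z.re ≤ 1 - 100 * P.δ) ∧
    100 * P.δ ≤ z.im ∧ z.im ≤ 1 - 100 * P.δ := by
  have h0 : 100 * P.δ ≤ P.δ / P.ε := by
    rw [le_div_iff₀ P.ε0]
    have := mul_le_mul_of_nonneg_left P.ε1 P.δ0.le
    linarith
  have hq : z.re ∈ Ioo (0 : ℝ) 1 ∧ z.im ∈ Ioo (0 : ℝ) 1 := P.dom.sub hz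
  have h1 := P.far z hz ⟨0, z.im⟩ fun h => lt_irrefl (0 : ℝ) h.1.1
  have h2 := P.far z hz ⟨1, z.im⟩ fun h => lt_irrefl (1 : ℝ) h.1.2
  have h3 := P.far z hz ⟨z.re, 0⟩ fun h => lt_irrefl (0 : ℝ) h.2.1
  have h4 := P.far z hz ⟨z.re, 1⟩ fun h => lt_irrefl (1 : ℝ) h.2.2
  rw [dist_of_im_eq (by rfl), Real.dist_eq] at h1 h2
  rw [dist_of_re_eq (by rfl), Real.dist_eq] at h3 h4
  simp only [sub_zero] at h1 h2 h3 h4
  rw [abs_of_pos hq.1.1] at h1
  rw [abs_of_neg (sub_neg.2 hq.1.2)] at h2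
  rw [abs_of_pos hq.2.1] at h3
  rw [abs_of_neg (sub_neg.2 hq.2.2)] at h4
  exact ⟨⟨by linarith, by linarith⟩, by linarith, by linarith⟩

/-- The closed neighbourhood lies well inside the square and the box. -/
theorem clos_nb_sub (n : ℕ) : closure (P.nb n) ⊆ Ioo (2 * P.δ) (1 - 2 * P.δ) ×ℂ
    Ioo (2 * P.δ) (1 - 2 * P.δ) := by
  intro x hx
  have h0 := P.δ0
  have h1 : P.δ / (n + 1) < 2 * P.δ :=
    (div_le_self h0.le (le_add_of_nonneg_left (Nat.cast_nonneg n))).trans_lt (by linarith)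
  obtain ⟨z, hz, hd⟩ := mem_thickening_iff.1 (cthickening_subset_thickening' (by linarith) h1 _
    (closure_thickening_subset_cthickening _ _ hx))
  obtain ⟨⟨a1, a2⟩, a3, a4⟩ := P.far_CluA hz
  rw [dist_eq_norm] at hd
  have b1 := abs_lt.1 ((abs_re_le_norm (x - z)).trans_lt hd)
  have b2 := abs_lt.1 ((abs_im_le_norm (x - z)).trans_lt hd)
  rw [sub_re] at b1
  rw [sub_im] at b2
  exact ⟨⟨by linarith [b1.1], by linarith [b1.2]⟩, by linarith [b2.1], by linarith [b2.2]⟩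
theorem clos_nb_Q (n : ℕ) : closure (P.nb n) ⊆ Q := by
  intro x hx
  have h0 := P.δ0
  obtain ⟨⟨a1, a2⟩, a3, a4⟩ := P.clos_nb_sub n hx
  exact ⟨⟨by linarith, by linarith⟩, by linarith, by linarith⟩
theorem clos_nb_R (n : ℕ) : closure (P.nb n) ⊆ interior P.R := by
  refine (P.clos_nb_sub n).trans (interior_maximal (fun x hx => ?_) (isOpen_Ioo.reProdIm isOpen_Ioo))
  have h0 := P.δ0
  obtain ⟨⟨a1, a2⟩, a3, a4⟩ := hx
  exact ⟨⟨by linarith, by linarith⟩, by linarith, by linarith⟩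
theorem exists_nb {V : Set ℂ} (hV : IsOpen V) (h : P.E ⊆ V) : ∃ n, closure (P.nb n) ⊆ V := by
  obtain ⟨r, hr, h1⟩ := P.dom.cpt.exists_cthickening_subset_open hV h
  obtain ⟨n, hn⟩ := exists_nat_ge (P.δ / r)
  refine ⟨n, (closure_thickening_subset_cthickening _ _).trans ((cthickening_mono ?_ _).trans h1)⟩
  rw [div_le_iff₀ hr] at hn
  rw [div_le_iff₀ (Nat.cast_add_one_pos n)]
  linarith

end Par

end Vale.Agent.P116.K
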