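import Vale.Agent.P116.K.CluA

/-! P116 K/Clu: clusters. -/

open MeasureTheory Set Metric Filter Topology Complex
open scoped ENNReal

noncomputable section

namespace Vale.Agent.P116.K

open Vale.Agent.P128

namespace Par
variable (P : Par)

theorem cl_open (n : ℕ) (p : ℂ) : IsOpen (P.cl n p) :=
  (P.nb_open n).connectedComponentIn
theorem cl_conn (n : ℕ) (p : ℂ) : IsPreconnected (P.cl n p) :=
  isPreconnected_connectedComponentIn
theorem cl_sub (n : ℕ) (p : ℂ) : P.cl n p ⊆ P.nb n :=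
  connectedComponentIn_subset _ _
theorem mem_cl (n : ℕ) {p : ℂ} (hp : p ∈ P.E) : p ∈ P.cl n p :=
  mem_connectedComponentIn (P.sub_nb n hp)
theorem cl_eq {n : ℕ} {p q : ℂ} (h : q ∈ P.cl n p) : P.cl n q = P.cl n p :=
  (connectedComponentIn_eq h).symm
theorem cl_anti {n m : ℕ} (h : n ≤ m) (p : ℂ) : P.cl m p ⊆ P.cl n p :=
  connectedComponentIn_mono _ (P.nb_anti h)
theorem clos_cl {n m : ℕ} (h : n < m) {p : ℂ} (hp : p ∈ P.E) : closure (P.cl m p) ⊆ P.cl n p :=
  (P.cl_conn m p).closure.subset_connectedComponentIn (subset_closure (P.mem_cl m hp))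
    ((closure_mono (P.cl_sub m p)).trans (P.clos_nb h))
theorem cmp_sub_cl (n : ℕ) {p : ℂ} (hp : p ∈ P.E) : connectedComponentIn P.E p ⊆ P.cl n p :=
  isPreconnected_connectedComponentIn.subset_connectedComponentIn (mem_connectedComponentIn hp)
    ((connectedComponentIn_subset _ _).trans (P.sub_nb n))
theorem cl_pt (n : ℕ) {p : ℂ} (hp : p ∈ P.E) : P.cl n (Cp.mk p hp).pt = P.cl n p := by
  obtain ⟨h1, h2⟩ := (Cp.mk p hp).2.choose_spec
  refine P.cl_eq (P.cmp_sub_cl n hp ?_)
  exact (show connectedComponentIn P.E p = _ from h2).symm ▸ mem_connectedComponentIn h1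

end Par

end Vale.Agent.P116.K
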