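import Vale.Agent.P116.K.CluB

/-! P116 K/Clu: clusters. -/

open MeasureTheory Set Metric Filter Topology Complex
open scoped ENNReal

noncomputable section

namespace Vale.Agent.P116.K

open Vale.Agent.P128

namespace Par
variable (P : Par)

theorem cl_ne (n : ℕ) {p : ℂ} (hp : p ∈ P.E) : (P.cl n p \ P.E).Nonempty := by
  obtain ⟨z, hz, hz'⟩ := (Cp.mk p hp).meets P.dom (P.cl_open n p) (P.cmp_sub_cl n hp)
  exact ⟨z, hz.1, hz'⟩
/-- Every point of the neighbourhood lies in the cluster of a point of `E`. -/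
theorem exists_cl {n : ℕ} {z : ℂ} (hz : z ∈ P.nb n) : ∃ p ∈ P.E, z ∈ P.cl n p := by
  obtain ⟨p, hp, h⟩ := mem_thickening_iff.1 hz
  refine ⟨p, hp, (convex_ball p (P.δ / (n + 1))).isPreconnected.subset_connectedComponentIn
    (mem_ball_self (dist_nonneg.trans_lt h)) (fun y hy => ?_) h⟩
  exact mem_thickening_iff.2 ⟨p, hp, hy⟩
/-- The frontier of a cluster is at the exact distance. -/
theorem fr_cl {n : ℕ} {p z : ℂ} (hz : z ∈ frontier (P.cl n p)) :
    infDist z P.E = P.δ / (n + 1) := by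
  rw [(P.cl_open n p).frontier_eq] at hz
  refine le_antisymm (closure_minimal (t := {y | infDist y P.E ≤ P.δ / (n + 1)}) (fun y hy => ?_)
    (isClosed_le (continuous_infDist_pt _) continuous_const) hz.1) (not_lt.1 fun h => hz.2 ?_)
  · exact ((mem_thickening_iff_infDist_lt P.ne).1 (P.cl_sub n p hy)).le
  · have h1 : z ∈ P.cl n z := mem_connectedComponentIn ((mem_thickening_iff_infDist_lt P.ne).2 h)
    obtain ⟨q, h2, h3⟩ := mem_closure_iff.1 hz.1 _ (P.cl_open n z) h1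
    rw [← P.cl_eq h3, P.cl_eq h2]
    exact h1
theorem fr_cl_disj (n : ℕ) (p : ℂ) : Disjoint (frontier (P.cl n p)) P.E := by
  refine disjoint_left.2 fun z hz hE => ?_
  have h1 := P.fr_cl hz
  have h2 : 0 < P.δ / (n + 1) := div_pos P.δ0 (by positivity)
  rw [infDist_zero_of_mem hE] at h1
  exact h2.ne h1
/-- Finitely many clusters per level. -/
theorem exists_reps (n : ℕ) : ∃ F : Finset ℂ, P.Sep n F ∧ ∀ p ∈ P.E, ∃ q ∈ F, p ∈ P.cl n q := by
  classical
  obtain ⟨t, h1, h2⟩ := P.dom.cpt.elim_nhds_subcover (P.cl n)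
    fun x hx => (P.cl_open n x).mem_nhds (P.mem_cl n hx)
  have h3 : ∀ T : Set ℂ, (∃ x ∈ P.E, T = P.cl n x) → ∃ x, x ∈ P.E ∧ T = P.cl n x := fun _ h => h
  choose! g g1 g2 using h3
  refine ⟨t.image fun x => g (P.cl n x), ⟨fun p hp => ?_, fun p hp q hq hne h => hne ?_⟩,
    fun p hp => ?_⟩
  · obtain ⟨x, hx, rfl⟩ := Finset.mem_image.1 hp
    exact g1 _ ⟨x, h1 x hx, rfl⟩
  · obtain ⟨x, hx, rfl⟩ := Finset.mem_image.1 hp
    obtain ⟨y, hy, rfl⟩ := Finset.mem_image.1 hq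
    have h4 := P.cl_eq h
    rw [← g2 _ ⟨x, h1 x hx, rfl⟩, ← g2 _ ⟨y, h1 y hy, rfl⟩] at h4
    rw [h4]
  · obtain ⟨x, hx, h⟩ := mem_iUnion₂.1 (h2 hp)
    refine ⟨_, Finset.mem_image_of_mem _ hx, ?_⟩
    rw [← g2 _ ⟨x, h1 x hx, rfl⟩]
    exact h
/-- Clusters shrink to the component. -/
theorem exists_cl_sub {p : ℂ} (hp : p ∈ P.E) {V : Set ℂ} (hV : IsOpen V)
    (h : connectedComponentIn P.E p ⊆ V) : ∃ n, closure (P.cl n p) ⊆ V := by
  obtain ⟨U, u1, u2, u3, -, u5⟩ := (Cp.mk p hp).sat P.dom.cpt hV h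
  obtain ⟨n, hn⟩ := P.exists_nb isClosed_frontier.isOpen_compl
    (subset_compl_iff_disjoint_left.2 u5)
  refine ⟨n, (closure_mono ?_).trans u3⟩
  refine (P.cl_conn n p).subset_left_of_subset_union u1 isClosed_closure.isOpen_compl
    (disjoint_compl_right_iff_subset.2 subset_closure) (fun z hz => ?_)
    ⟨p, P.mem_cl n hp, u2 (Cp.mem_mk p hp)⟩
  by_cases h1 : z ∈ U
  · exact Or.inl h1
  · refine Or.inr fun h2 => hn (subset_closure (P.cl_sub n p hz)) ?_
    rw [u1.frontier_eq]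
    exact ⟨h2, h1⟩
theorem iInter_cl {p : ℂ} (hp : p ∈ P.E) : ⋂ n, P.cl n p = connectedComponentIn P.E p := by
  refine subset_antisymm (fun z hz => by_contra fun h => ?_) (subset_iInter fun n => P.cmp_sub_cl n hp)
  obtain ⟨n, hn⟩ := P.exists_cl_sub hp isOpen_compl_singleton (subset_compl_singleton_iff.2 h)
  exact hn (subset_closure (mem_iInter.1 hz n)) rfl

end Par

end Vale.Agent.P116.K
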