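import Vale.Agent.P116.K.Chain
import Vale.Agent.P116.K.LevD

/-! P116 K/CmpL: compatibility from bounds on level continua. Owner of plan: helper30. -/

open MeasureTheory Set Metric Filter Topology Complex
open scoped ENNReal

noncomputable section

namespace Vale.Agent.P116.K

open Vale.Agent.P128

namespace Par
variable {P : Par}



/-- The region of level `k` off the tube and off the clusters of `F`. -/
def reg (P : Par) (Z : Set ℂ) (F : Finset (Cp P.E)) (k₀ k : ℕ) : Set ℂ :=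
  P.nb k \ (Z ∪ ⋃ c ∈ F, closure (P.cl k₀ c.pt))

theorem tube_CmpLA {Z : Set ℂ} (hZ : P.Tube Z) (F : Finset (Cp P.E)) (k₀ : ℕ) :
    P.Tube (Z ∪ ⋃ c ∈ F, closure (P.cl k₀ c.pt)) := by
  classical
  refine hZ.union ⟨F.image fun c => (k₀, c.pt), fun q hq => ?_, ?_⟩
  · obtain ⟨c, -, rfl⟩ := Finset.mem_image.1 hq
    exact c.pt_mem
  · rw [Finset.set_biUnion_finset_image]

theorem reg_open {Z : Set ℂ} (hZ : P.Tube Z) (F : Finset (Cp P.E)) (k₀ k : ℕ) :
    IsOpen (P.reg Z F k₀ k) ∧ closure (P.reg Z F k₀ k) ⊆ Q :=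
  ⟨(P.nb_open k).sdiff (tube_CmpLA hZ F k₀).cpt.isClosed,
    (closure_mono sdiff_subset).trans (P.clos_nb_Q k)⟩

/-- For deep `k` the region is a union of clusters, and so is the region of the level above. -/
theorem reg_deep {Z : Set ℂ} (hZ : P.Tube Z) (F : Finset (Cp P.E)) (k₀ : ℕ) : ∃ K, ∀ k, K ≤ k →
    Disjoint (frontier (P.reg Z F k₀ k)) P.E ∧ closure (P.reg Z F k₀ (k + 1)) ⊆ P.reg Z F k₀ k ∧
      ∀ z ∈ P.reg Z F k₀ k, P.cl k z ⊆ P.reg Z F k₀ k := by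
  obtain ⟨K, hK⟩ := (tube_CmpLA hZ F k₀).deep
  refine ⟨K, fun k hk => ?_⟩
  have ho := (reg_open hZ F k₀ k).1
  unfold reg at ho ⊢
  generalize Z ∪ ⋃ c ∈ F, closure (P.cl k₀ c.pt) = Y at hK ho ⊢
  have key : ∀ (A : Set ℂ) (z : ℂ), z ∈ P.nb k → z ∈ closure (A \ Y) → z ∉ Y := by
    intro A z hz hc hY
    obtain ⟨p, hp, hzp⟩ := P.exists_cl hz
    have h1 : p ∈ Y := by
      by_contra h
      exact disjoint_left.1 ((hK k hk p hp).2 h) (subset_closure hzp) hY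
    obtain ⟨y, h2, h3⟩ := mem_closure_iff.1 hc _ (P.cl_open k p) hzp
    exact h3.2 ((hK k hk p hp).1 h1 (subset_closure h2))
  refine ⟨disjoint_left.2 fun z hz hE => ?_, fun z hz => ?_, fun z hz y hy => ?_⟩
  · rw [ho.frontier_eq] at hz
    exact hz.2 ⟨P.sub_nb k hE, key _ z (P.sub_nb k hE) hz.1⟩
  · have h1 := P.clos_nb (Nat.lt_succ_self k) (closure_mono sdiff_subset hz)
    exact ⟨h1, key _ z h1 hz⟩
  · obtain ⟨p, hp, hzp⟩ := P.exists_cl hz.1
    have h1 : p ∉ Y := fun h => hz.2 ((hK k hk p hp).1 h (subset_closure hzp))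
    rw [P.cl_eq hzp] at hy
    exact ⟨P.cl_sub k p hy, disjoint_left.1 ((hK k hk p hp).2 h1) (subset_closure hy)⟩

end Par

end Vale.Agent.P116.K
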