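import Vale.Agent.P116.K.CmpLA

/-! P116 K/CmpL: compatibility from bounds on level continua. Owner of plan: helper30. -/

open MeasureTheory Set Metric Filter Topology Complex
open scoped ENNReal

noncomputable section

namespace Vale.Agent.P116.K

open Vale.Agent.P128

namespace Par
variable {P : Par}


theorem line_CmpLB : volume {y : ℂ | y.im = 0} = 0 := by
  rw [slice_LevD (isClosed_eq continuous_im continuous_const).measurableSet]
  simp

/-- `lev_area` on the regions; increasing union in `k₀` (outer measure, no measurability), then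
`η → 0`; the part in `Z` is mapped into a line. -/
theorem cmp_of_lev {a w : TF P.E} (ha : Mem a) {Z : Set ℂ} (hZ : P.Tube Z)
    (h0 : ∀ p ∈ P.E ∩ Z, w.hi p = 0)
    (h : ∀ η : ℝ, 0 < η → ∃ F : Finset (Cp P.E), (∀ c ∈ F, 0 < a.osc c) ∧ ∀ k₀ K, ∃ k, K ≤ k ∧
      ∃ N : ℝ → ℝ≥0∞, ∫⁻ t, N t ≤ ENNReal.ofReal η ∧
        ∀ᵐ t, ∀ (I : Finset (Set ℂ)) (p q : Set ℂ → ℂ),
          (∀ J ∈ I, J ∈ a.cps (P.reg Z F k₀ k) t ∧ p J ∈ J ∩ P.E ∧ q J ∈ J ∩ P.E) →
            ∑ J ∈ I, ENNReal.ofReal (w.hi (p J) - w.lo (q J)) ≤ N t) : a.Cmp w := by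
  have key : ∀ η : ℝ, 0 < η → volume (TF.pr a w ''
      ({z | z ∈ P.E ∧ a.lo z = a.hi z ∧ w.lo z = w.hi z} \ Z)) ≤ ENNReal.ofReal η := by
    intro η hη
    obtain ⟨F, hF, h1⟩ := h η hη
    have hm : Monotone fun k₀ : ℕ => TF.pr a w ''
        ({z | z ∈ P.E ∧ a.lo z = a.hi z ∧ w.lo z = w.hi z} \
          (Z ∪ ⋃ c ∈ F, closure (P.cl k₀ c.pt))) := fun i j hij =>
      image_mono (sdiff_subset_sdiff_right (union_subset_union_right _
        (iUnion₂_mono fun c _ => closure_mono (cl_anti P hij c.pt))))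
    refine (measure_mono (t := ⋃ k₀ : ℕ, TF.pr a w ''
      ({z | z ∈ P.E ∧ a.lo z = a.hi z ∧ w.lo z = w.hi z} \
        (Z ∪ ⋃ c ∈ F, closure (P.cl k₀ c.pt)))) ?_).trans ?_
    · rintro _ ⟨z, ⟨hz, hz'⟩, rfl⟩
      have h2 : ∀ᶠ k₀ in atTop, ∀ c ∈ F, z ∉ closure (P.cl k₀ c.pt) := by
        refine (eventually_all_finset F).2 fun c hc => ?_
        obtain ⟨n, hn⟩ := exists_cl_sub (P := P) c.pt_mem (V := {z}ᶜ) isOpen_compl_singleton (by
          rw [← c.eq]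
          refine subset_compl_singleton_iff.2 fun h3 => ?_
          have h4 := hF c hc
          rw [TF.osc, ← (a.at_pt h3).1, ← (a.at_pt h3).2, hz.2.1, sub_self] at h4
          exact lt_irrefl _ h4)
        filter_upwards [eventually_ge_atTop n] with k hk h3
        exact hn (closure_mono (cl_anti P hk _) h3) rfl
      obtain ⟨k₀, hk⟩ := h2.exists
      refine mem_iUnion.2 ⟨k₀, z, ⟨hz, ?_⟩, rfl⟩
      rintro (h3 | h3)
      · exact hz' h3
      · obtain ⟨c, hc, h4⟩ := mem_iUnion₂.1 h3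
        exact hk c hc h4
    · rw [hm.measure_iUnion]
      refine iSup_le fun k₀ => ?_
      obtain ⟨K, hK⟩ := reg_deep hZ F k₀
      obtain ⟨k, hk, N, hN, h2⟩ := h1 k₀ K
      refine (measure_mono ?_).trans ((lev_area P.dom ha.fn ha.mono (reg_open hZ F k₀ k).1
        (reg_open hZ F k₀ k).2 (hK k hk).1 h2).trans hN)
      rintro _ ⟨z, ⟨hz, hz'⟩, rfl⟩
      exact mem_iUnion₂.2 ⟨z, ⟨hz.1, sub_nb P k hz.1, hz'⟩, ⟨a.le z, le_rfl⟩, w.le z, le_rfl⟩
  have h1 : volume (TF.pr a w ''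
      ({z | z ∈ P.E ∧ a.lo z = a.hi z ∧ w.lo z = w.hi z} \ Z)) = 0 := by
    refine le_antisymm (ENNReal.le_of_forall_pos_le_add fun η hη _ => ?_) bot_le
    rw [zero_add, ← ENNReal.ofReal_coe_nnreal]
    exact key η hη
  refine measure_mono_null ?_ (measure_union_null line_CmpLB h1)
  rintro _ ⟨z, hz, rfl⟩
  by_cases hz' : z ∈ Z
  · exact Or.inl (h0 z ⟨hz.1, hz'⟩)
  · exact Or.inr ⟨z, ⟨hz, hz'⟩, rfl⟩

end Par

end Vale.Agent.P116.K
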