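import Vale.Agent.P116.K.CmpLB

/-! P116 K/CmpL: compatibility from bounds on level continua. Owner of plan: helper30. -/

open MeasureTheory Set Metric Filter Topology Complex
open scoped ENNReal

noncomputable section

namespace Vale.Agent.P116.K

open Vale.Agent.P128

namespace Par
variable {P : Par}


/-- A continuum that leaves `E` has points off `E` in every cluster of its points in `E`. -/
theorem acc_off {J : Set ℂ} (hJ : IsPreconnected J) (hn : (J \ P.E).Nonempty) {p : ℂ}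
    (hp : p ∈ J ∩ P.E) (l : ℕ) : ((J ∩ P.cl l p) \ P.E).Nonempty := by
  have hU : IsOpen (P.cl l p) := (P.nb_open l).connectedComponentIn
  have hV : IsOpen (P.nb l \ P.cl l p) := by
    refine isOpen_iff_forall_mem_open.2 fun z hz => ⟨P.cl l z, fun y hy => ⟨?_, fun hy' => ?_⟩,
      (P.nb_open l).connectedComponentIn, mem_connectedComponentIn hz.1⟩
    · exact connectedComponentIn_subset _ _ hy
    · have e1 : P.cl l z = P.cl l y := connectedComponentIn_eq hy
      have e2 : P.cl l p = P.cl l y := connectedComponentIn_eq hy'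
      refine hz.2 ?_
      rw [e2, ← e1]
      exact mem_connectedComponentIn hz.1
  have hW : IsOpen (P.Eᶜ ∪ (P.nb l \ P.cl l p)) := P.dom.cpt.isClosed.isOpen_compl.union hV
  obtain ⟨q, hq⟩ := hn
  obtain ⟨z, hz, hz1, hz2⟩ := hJ _ _ hU hW (fun z _ => by
      by_cases h1 : z ∈ P.cl l p
      · exact Or.inl h1
      · by_cases h2 : z ∈ P.E
        · exact Or.inr (Or.inr ⟨P.sub_nb l h2, h1⟩)
        · exact Or.inr (Or.inl h2))
    ⟨p, hp.1, mem_connectedComponentIn (P.sub_nb l hp.2)⟩ ⟨q, hq.1, Or.inl hq.2⟩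
  rcases hz2 with h | h
  · exact ⟨z, ⟨hz, hz1⟩, h⟩
  · exact absurd hz1 h.2
/-- Atoms at level `t`: the integral of the sum of weights. -/
theorem atoms_int (a : TF P.E) (v : Cp P.E → ℝ≥0∞) (S : Set (Cp P.E)) (ha : a.Fn) :
    ∃ N : ℝ → ℝ≥0∞, Measurable N ∧
      ∫⁻ t, N t ≤ ∑' c : S, ENNReal.ofReal (a.osc c) * v c ∧
      ∀ t (G : Finset (Cp P.E)), (∀ c ∈ G, c ∈ S ∧ 0 < a.osc c ∧ a.lo c.pt ≤ t ∧ t ≤ a.hi c.pt) →
        ∑ c ∈ G, v c ≤ N t := by
  set T : Set (Cp P.E) := {c | c ∈ S ∧ 0 < a.osc c} with hT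
  have hc : T.Countable := ha.countable.mono fun c hc => hc.2
  have := hc.to_subtype
  have hm : ∀ c : Cp P.E,
      Measurable ((Icc (a.lo c.pt) (a.hi c.pt)).indicator fun _ : ℝ => v c) := fun c =>
    measurable_const.indicator measurableSet_Icc
  refine ⟨fun t => ∑' c : T, (Icc (a.lo c.1.pt) (a.hi c.1.pt)).indicator (fun _ => v c) t,
    Measurable.ennreal_tsum fun c => hm c, ?_, fun t G hG => ?_⟩
  · rw [lintegral_tsum fun c : T => (hm c).aemeasurable]
    have e : ∀ c : T, ∫⁻ t, (Icc (a.lo c.1.pt) (a.hi c.1.pt)).indicator (fun _ : ℝ => v c) t =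
        ENNReal.ofReal (a.osc c) * v c := fun c => by
      rw [lintegral_indicator_const measurableSet_Icc, Real.volume_Icc, mul_comm]
      rfl
    rw [tsum_congr e]
    exact ENNReal.tsum_comp_le_tsum_of_injective (f := fun c : T => (⟨c.1, c.2.1⟩ : S))
      (fun x y h => Subtype.ext (congrArg Subtype.val h :))
      (fun c : S => ENNReal.ofReal (a.osc c) * v c)
  · refine le_trans ?_
      (tsum_subtype T fun c => (Icc (a.lo c.pt) (a.hi c.pt)).indicator (fun _ => v c) t).ge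
    refine le_trans (le_of_eq (Finset.sum_congr rfl fun c hc => ?_)) (ENNReal.sum_le_tsum G)
    obtain ⟨h1, h2, h3, h4⟩ := hG c hc
    rw [indicator_of_mem (show c ∈ T from ⟨h1, h2⟩), indicator_of_mem (show t ∈ Icc _ _ from ⟨h3, h4⟩)]
theorem flt_CmpLC {ι M : Type*} [AddCommMonoid M] [TopologicalSpace M] (F : Finset ι)
    (p : ι → Prop) [DecidablePred p] (f : ι → M) (h : ∀ c, ¬ p c → f c = 0) :
    ∑' c : {c // c ∉ F.filter p}, f c = ∑' c : {c // c ∉ F}, f c := by
  refine (tsum_subtype {c | c ∉ F.filter p} f).trans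
    (Eq.trans (tsum_congr fun c => ?_) (tsum_subtype {c | c ∉ F} f).symm)
  by_cases h1 : p c
  · by_cases h2 : c ∈ F
    · rw [indicator_of_notMem, indicator_of_notMem]
      · exact fun h3 => h3 h2
      · exact fun h3 => h3 (Finset.mem_filter.2 ⟨h2, h1⟩)
    · rw [indicator_of_mem, indicator_of_mem]
      · exact h2
      · exact fun h3 => h2 (Finset.mem_filter.1 h3).1
  · rw [indicator_apply_eq_zero.2 fun _ => h c h1, indicator_apply_eq_zero.2 fun _ => h c h1]

/-- Small tails. -/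
theorem tail_small {a : TF P.E} (ha : a.Fn) {v : Cp P.E → ℝ} (h0 : ∀ c, 0 ≤ v c)
    (hv : Summable fun c => v c ^ 2) {η : ℝ} (hη : 0 < η) : ∃ F : Finset (Cp P.E),
      (∀ c ∈ F, 0 < a.osc c) ∧ ∑' c : {c // c ∉ F}, a.osc c ^ 2 ≤ η ∧
      ∑' c : {c // c ∉ F}, ENNReal.ofReal (a.osc c) * ENNReal.ofReal (v c) ≤ ENNReal.ofReal η := by
  classical
  have hs : Summable fun c => a.osc c * v c := by
    refine Summable.of_nonneg_of_le (fun c => mul_nonneg (a.osc_nonneg c) (h0 c))
      (fun c => ?_) (ha.2.add hv)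
    nlinarith [sq_nonneg (a.osc c - v c), mul_nonneg (a.osc_nonneg c) (h0 c)]
  have hfin : ∑' c, ENNReal.ofReal (a.osc c) * ENNReal.ofReal (v c) ≠ ∞ := by
    have e : ∀ c, ENNReal.ofReal (a.osc c) * ENNReal.ofReal (v c) =
        ENNReal.ofReal (a.osc c * v c) := fun c => (ENNReal.ofReal_mul (a.osc_nonneg c)).symm
    rw [tsum_congr e]
    exact hs.tsum_ofReal_ne_top
  have t1 := (tendsto_tsum_compl_atTop_zero fun c => a.osc c ^ 2).eventually (ge_mem_nhds hη)
  have t2 := (ENNReal.tendsto_tsum_compl_atTop_zero hfin).eventually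
    (ge_mem_nhds (ENNReal.ofReal_pos.2 hη))
  obtain ⟨F, h1, h2⟩ := (t1.and t2).exists
  have hz : ∀ c, ¬ 0 < a.osc c → a.osc c = 0 := fun c hc =>
    le_antisymm (not_lt.1 hc) (a.osc_nonneg c)
  refine ⟨F.filter fun c => 0 < a.osc c, fun c hc => (Finset.mem_filter.1 hc).2, ?_, ?_⟩
  · exact (flt_CmpLC F _ (fun c => a.osc c ^ 2) fun c hc => by
      rw [hz c hc]; ring).le.trans h1
  · exact (flt_CmpLC F _ (fun c => ENNReal.ofReal (a.osc c) * ENNReal.ofReal (v c)) fun c hc => by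
      rw [hz c hc, ENNReal.ofReal_zero, zero_mul]).le.trans h2
/-- Almost every level avoids the values at countably many points that are not atoms. -/
theorem ae_atom (a : TF P.E) {v : Cp P.E → ℝ} (hv : Summable fun c => v c ^ 2) :
    ∀ᵐ t, ∀ p (hp : p ∈ P.E), a.lo p ≤ t → t ≤ a.hi p → v (Cp.mk p hp) ≠ 0 →
      0 < a.osc (Cp.mk p hp) := by
  have hc : {c | v c ≠ 0}.Countable :=
    hv.countable_support.mono fun c hc => pow_ne_zero 2 hc
  filter_upwards [(hc.image fun c => a.lo c.pt).ae_notMem volume] with t ht p hp h1 h2 h3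
  obtain ⟨e1, e2⟩ := a.at_pt (Cp.mem_mk p hp)
  by_contra hn
  refine ht ⟨Cp.mk p hp, h3, ?_⟩
  have h4 : a.hi (Cp.mk p hp).pt - a.lo (Cp.mk p hp).pt ≤ 0 := not_lt.1 hn
  change a.lo (Cp.mk p hp).pt = t
  linarith


end Par

end Vale.Agent.P116.K
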