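import Vale.Agent.P116.S.Area
import Vale.Agent.P116.S.Sat

/-! P116 K/Defs (owner helper30, FROZEN): chains, plans, kernels for steps (1), (3), (4). -/

open MeasureTheory Set Metric Filter Topology Complex
open scoped ENNReal

noncomputable section

namespace Vale.Agent.P116.K

open Vale.Agent.P128

/-- Parameters. -/
structure Par where
  E : Set ℂ
  dom : Dom E
  ne : E.Nonempty
  ε : ℝ
  δ : ℝ
  ε0 : 0 < ε
  ε1 : ε ≤ 1 / 100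
  δ0 : 0 < δ
  far : ∀ z ∈ E, ∀ w, w ∉ Q → δ / ε ≤ dist z w

/-- `ρ` bounds the Lipschitz constants of `u` on convex parts of `O \ E`. -/
def Maj (E O : Set ℂ) (u ρ : ℂ → ℝ) : Prop := ∀ B : Set ℂ, Convex ℝ B → B ⊆ O \ E → ∀ K : ℝ,
  (∀ z ∈ B, ρ z ≤ K) → ∀ x ∈ B, ∀ y ∈ B, |u x - u y| ≤ K * dist x y

/-- Square integrable continuous weights. -/
structure Wt (E : Set ℂ) (ρ : ℂ → ℝ) : Prop where
  cont : ContinuousOn ρ Eᶜ
  nn : ∀ z, 0 ≤ ρ z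
  l2 : IntegrableOn (fun z => ρ z ^ 2) (Q \ E)

/-- Weights whose suprema over Whitney discs are square integrable. -/
structure Gw (E : Set ℂ) (ρ : ℂ → ℝ) : Prop extends Wt E ρ where
  sup : ∃ g : ℂ → ℝ, MemLp g 2 volume ∧ (∀ x, 0 ≤ g x) ∧
    ∀ x ∈ Q \ E, ∀ y ∈ ball x (infDist x E / 8), ρ y ≤ g x

/-- Auxiliary functions. -/
structure Aux {E : Set ℂ} (A : List (TF E)) (b : TF E) : Prop where
  fn : b.Fn
  bd : ∃ M : ℝ, ∀ z ∈ Qc, -M ≤ b.lo z ∧ b.hi z ≤ M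
  maj : ∃ ρ, Wt E ρ ∧ Maj E Q b.hi ρ
  cmp : ∀ a ∈ A, a.Cmp b

/-- Members. -/
structure Mem {E : Set ℂ} (a : TF E) : Prop where
  fn : a.Fn
  mem : ∀ z ∈ Qc, 0 ≤ a.lo z ∧ a.hi z ≤ 1
  mono : a.Mono
  maj : ∃ ρ, Gw E ρ ∧ Maj E Q a.hi ρ

/-- Compatible families. -/
def Fam {E : Set ℂ} (A : List (TF E)) : Prop := (∀ a ∈ A, Mem a) ∧ ∀ a ∈ A, ∀ b ∈ A, a.Cmp b

/-- The range of `b` on `J`. -/
def dm {E : Set ℂ} (b : TF E) (J : Set ℂ) : ℝ := sSup (b.hi '' J) - sInf (b.lo '' J)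

/-- The level set. -/
def lev {E : Set ℂ} (a : TF E) (t : ℝ) : Set ℂ := {z | z ∈ Q ∧ a.lo z ≤ t ∧ t ≤ a.hi z}

/-- Unions of components. -/
def Satd (E X : Set ℂ) : Prop := ∀ z ∈ X, z ∈ E → connectedComponentIn E z ⊆ X

/-- Steps of a chain. -/
inductive Stp (E : Set ℂ)
  | seg (x y : ℂ)
  | jmp (x y : ℂ) (J : Set ℂ) (c : Option (Cp E))

namespace Stp
variable {E : Set ℂ}
def src : Stp E → ℂ
  | seg x _ => x
  | jmp x _ _ _ => x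
def tgt : Stp E → ℂ
  | seg _ y => y
  | jmp _ y _ _ => y
def tr : Stp E → Set ℂ
  | seg x y => segment ℝ x y
  | jmp _ _ J _ => J
/-- The length for the weight `ρ`. -/
def len (ρ : ℂ → ℝ) : Stp E → ℝ
  | seg x y => (∫ t in (0 : ℝ)..1, ρ (x + t • (y - x))) * dist x y
  | jmp _ _ _ _ => 0
/-- The price of a teleport. -/
def tel (l : Cp E → ℝ) : Stp E → ℝ
  | jmp _ _ _ (some c) => l c
  | _ => 0
/-- The variation of `b` in a jump. -/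
def hop (b : TF E) : Stp E → ℝ
  | seg _ _ => 0
  | jmp _ _ J none => dm b J
  | jmp _ _ J (some c) => dm b J - b.osc c
end Stp

/-- The list of steps leads from `x` to `y`. -/
def Lk {E : Set ℂ} : ℂ → List (Stp E) → ℂ → Prop
  | x, [], y => x = y
  | x, s :: l, y => s.src = x ∧ Lk s.tgt l y

/-- The trace of a chain starting at `x`. -/
def trc {E : Set ℂ} (x : ℂ) (l : List (Stp E)) : Set ℂ := {x} ∪ ⋃ s ∈ l, s.tr

/-- Total hop term at level `n`. -/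
def hopn {E : Set ℂ} (b : ℕ → TF E) (n : ℕ) (l : List (Stp E)) : ℝ :=
  n * ∑ i ∈ Finset.range n, (l.map (Stp.hop (b i))).sum

/-- The cost at level `n`. -/
def cost {E : Set ℂ} (b : ℕ → TF E) (ρ : ℂ → ℝ) (lam : Cp E → ℝ) (n : ℕ) (l : List (Stp E)) : ℝ :=
  (l.map (Stp.len ρ)).sum + (l.map (Stp.tel lam)).sum + hopn b n l

namespace Par
variable (P : Par)

/-- The box in which chains run. -/
def R : Set ℂ := Icc P.δ (1 - P.δ) ×ℂ Icc (-P.δ) (1 + P.δ)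
/-- The neighbourhood of level `n`. -/
def nb (n : ℕ) : Set ℂ := thickening (P.δ / (n + 1)) P.E
/-- The cluster of level `n`. -/
def cl (n : ℕ) (z : ℂ) : Set ℂ := connectedComponentIn (P.nb n) z

/-- Steps allowed at level `n` in the region `O`. -/
def Ok (n : ℕ) (O : Set ℂ) : Stp P.E → Prop
  | .seg x y => segment ℝ x y ⊆ O \ P.E
  | .jmp x y J c => x ∈ J \ P.E ∧ y ∈ J \ P.E ∧ IsCompact J ∧ IsPreconnected J ∧
      J ⊆ O ∩ P.nb n ∧ ∀ c' : Cp P.E, c = some c' → c'.1 ⊆ J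

/-- Chains from `x` to `y`. -/
def Chn (n : ℕ) (O : Set ℂ) (x y : ℂ) (l : List (Stp P.E)) : Prop :=
  x ∈ O \ P.E ∧ Lk x l y ∧ ∀ s ∈ l, P.Ok n O s

/-- The chain distance of level `n` in `O`. -/
def D (b : ℕ → TF P.E) (ρ : ℂ → ℝ) (lam : Cp P.E → ℝ) (n : ℕ) (O : Set ℂ) (x y : ℂ) : ℝ≥0∞ :=
  ⨅ (l : List (Stp P.E)) (_ : P.Chn n O x y l), ENNReal.ofReal (cost b ρ lam n l)

/-- The charge for meeting clusters of level `k`. -/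
def tch (ν : Measure ℂ) (k : ℕ) (T : Set ℂ) : ℝ≥0∞ := ν {p | p ∈ P.E ∧ (P.cl k p ∩ T).Nonempty}

/-- Avoided sets. -/
def Tube (Z : Set ℂ) : Prop :=
  ∃ S : Finset (ℕ × ℂ), (∀ q ∈ S, q.2 ∈ P.E) ∧ Z = ⋃ q ∈ S, closure (P.cl q.1 q.2)

/-- The charged distance from the bottom of the box. -/
def W (b : ℕ → TF P.E) (ρ : ℂ → ℝ) (lam : Cp P.E → ℝ) (ν : Measure ℂ) (Z : Set ℂ) (n k : ℕ)
    (y : ℂ) : ℝ≥0∞ :=
  ⨅ (x : ℂ) (_ : x.im = -P.δ) (l : List (Stp P.E)) (_ : P.Chn n (P.R \ Z) x y l),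
    ENNReal.ofReal (cost b ρ lam n l) + P.tch ν k (trc x l)

/-- The value of a tube. -/
def val (b : ℕ → TF P.E) (ρ : ℂ → ℝ) (lam : Cp P.E → ℝ) (ν : Measure ℂ) (Z : Set ℂ) (n k : ℕ) :
    ℝ≥0∞ := ⨅ (y : ℂ) (_ : y.im = 1 + P.δ), P.W b ρ lam ν Z n k y

/-- The lower value at a point of `E` of a function given off `E`. -/
def loE (f : ℂ → ℝ≥0∞) (p : ℂ) : ℝ≥0∞ := ⨆ l : ℕ, ⨅ (x : ℂ) (_ : x ∈ P.cl l p \ P.E), f x
/-- The upper value. -/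
def hiE (f : ℂ → ℝ≥0∞) (p : ℂ) : ℝ≥0∞ := ⨅ l : ℕ, ⨆ (x : ℂ) (_ : x ∈ P.cl l p \ P.E), f x

/-- Data of the barrier construction. -/
structure Dat where
  b : ℕ → TF P.E
  ρ : ℂ → ℝ
  lam : Cp P.E → ℝ
  ν : Measure ℂ
  Z : Set ℂ
  β : ℝ
  bd : ∀ i, ∃ M : ℝ, ∀ z ∈ Qc, -M ≤ (b i).lo z ∧ (b i).hi z ≤ M
  cont : ContinuousOn ρ P.Eᶜ
  nn : ∀ z, 0 ≤ ρ z
  l0 : ∀ c, 0 ≤ lam c
  l2 : Summable fun c => lam c ^ 2
  fin : IsFiniteMeasure ν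
  tube : P.Tube Z
  β0 : 0 ≤ β

variable {P}

/-- The region. -/
def Dat.O (d : P.Dat) : Set ℂ := P.R \ d.Z
/-- The limit chain distance. -/
def Dat.Di (d : P.Dat) (O : Set ℂ) (x y : ℂ) : ℝ≥0∞ := ⨆ n, P.D d.b d.ρ d.lam n O x y

/-- The invariants of the barrier construction from level `K` on. -/
structure Inv (d : P.Dat) (K : ℕ) (f : ℂ → ℝ≥0∞) : Prop where
  le : ∀ z, f z ≤ ENNReal.ofReal d.β
  maj : Maj P.E d.O (fun z => (f z).toReal) d.ρ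
  sub : ∀ O, IsOpen O → O ⊆ d.O → ∀ k, ∀ x ∈ O \ P.E, ∀ y ∈ O \ P.E,
    f y ≤ f x + d.Di O x y + P.tch d.ν k O
  flat : ∀ k, K ≤ k → ∀ p ∈ P.E \ d.Z, ∀ y ∈ P.cl k p \ P.E, f y ≤ P.loE f p +
    P.tch d.ν k (P.cl k p) + ⨆ m, P.hiE (fun x => P.D d.b d.ρ d.lam m (P.cl k p) x y) p

/-- The output of the barrier construction. -/
structure Bar (d : P.Dat) (f : ℂ → ℝ≥0∞) : Prop where
  le : ∀ z, f z ≤ ENNReal.ofReal d.β
  maj : Maj P.E d.O (fun z => (f z).toReal) d.ρ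
  sub : ∀ O, IsOpen O → O ⊆ d.O → ∀ k, ∀ x ∈ O \ P.E, ∀ y ∈ O \ P.E,
    f y ≤ f x + d.Di O x y + P.tch d.ν k O
  bot : ∀ z ∈ d.O, z.im = -P.δ → f z = 0
  top : ∀ z ∈ d.O, z.im = 1 + P.δ → f z = ENNReal.ofReal d.β
  osc : ∀ c : Cp P.E, c.pt ∉ d.Z →
    P.hiE f c.pt ≤ P.loE f c.pt + ENNReal.ofReal (d.lam c) + d.ν c.1

variable (P)

/-- The mollification radius. -/
def r (x : ℂ) : ℝ := P.ε * min (infDist x P.E) P.δ
/-- The profile. -/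
def φ (h : ℂ) : ℝ := 3 / Real.pi * max 0 (1 - ‖h‖)
/-- The kernel. -/
def ker (x y : ℂ) : ℝ := φ ((y - x) / (P.r x : ℂ)) / P.r x ^ 2
/-- The weight generated by a test function. -/
def ms (g : ℂ → ℝ) (y : ℂ) : ℝ := ∫ x, P.ker x y * g x
/-- The smoothed length measure of a chain. -/
def eta (l : List (Stp P.E)) (x : ℂ) : ℝ := (l.map (Stp.len (P.ker x))).sum
open Classical in
/-- The number of teleports at `c`. -/
def tele (l : List (Stp P.E)) (c : Cp P.E) : ℝ :=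
  (l.map (Stp.tel fun c' => if c' = c then 1 else 0)).sum

/-- Items of a plan: tube, starting point, chain. -/
abbrev It : Type := Set ℂ × ℂ × List (Stp P.E)

/-- Crossing chains. -/
def Crs (n : ℕ) (i : P.It) : Prop :=
  i.2.1.im = -P.δ ∧ ∃ y : ℂ, y.im = 1 + P.δ ∧ P.Chn n (P.R \ i.1) i.2.1 y i.2.2

/-- Tube systems. -/
structure Sys (θ : Set ℂ →₀ ℝ) : Prop where
  nn : ∀ Z, 0 ≤ θ Z
  one : θ.sum (fun _ a => a) = 1
  tube : ∀ Z ∈ θ.support, P.Tube Z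

/-- Plans of level `n` with marginal `θ`. -/
structure Plan (n : ℕ) (θ : Set ℂ →₀ ℝ) (π : P.It →₀ ℝ) : Prop where
  nn : ∀ i, 0 ≤ π i
  crs : ∀ i ∈ π.support, P.Crs n i
  mar : π.mapDomain Prod.fst = θ

/-- Expectation. -/
def ex (π : P.It →₀ ℝ) (F : P.It → ℝ) : ℝ := π.sum fun i a => a * F i
/-- The density of a plan. -/
def den (π : P.It →₀ ℝ) (x : ℂ) : ℝ := P.ex π fun i => P.eta i.2.2 x
/-- Squared norms. -/
def n1 (π : P.It →₀ ℝ) : ℝ := ∫ x, P.den π x ^ 2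
def n2 (π : P.It →₀ ℝ) : ℝ := ∑' c : Cp P.E, (P.ex π fun i => P.tele i.2.2 c) ^ 2

/-- Test vectors. -/
structure Tv (g : ℂ → ℝ) (lam : Cp P.E → ℝ) : Prop where
  g2 : MemLp g 2 volume
  g0 : ∀ x, 0 ≤ g x
  l0 : ∀ c, 0 ≤ lam c
  l2 : Summable fun c => lam c ^ 2
/-- The norm of a test vector. -/
def nv (g : ℂ → ℝ) (lam : Cp P.E → ℝ) : ℝ := √((∫ x, g x ^ 2) + ∑' c, lam c ^ 2)

/-- The bound `c` for the system `θ`, for all auxiliary sequences. -/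
def Bs (A : List (TF P.E)) (θ : Set ℂ →₀ ℝ) (c : ℝ) : Prop :=
  ∀ b : ℕ → TF P.E, (∀ i, Aux A (b i)) → ∀ n g lam, P.Tv g lam → ∀ η : ℝ, 0 < η →
    ∃ π, P.Plan n θ π ∧ P.ex π (fun i => cost b (P.ms g) lam n i.2.2) ≤ c * P.nv g lam + η

open Classical in
/-- The weight of the tubes that do not avoid `S`. -/
def tau (θ : Set ℂ →₀ ℝ) (S : Set ℂ) : ℝ := θ.sum fun Z a => if S ⊆ Z then 0 else a

/-- Finite sets of points in distinct clusters of level `j`. -/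
def Sep (j : ℕ) (F : Finset ℂ) : Prop :=
  (∀ p ∈ F, p ∈ P.E) ∧ ∀ p ∈ F, ∀ q ∈ F, p ≠ q → q ∉ P.cl j p

/-- The certificate of level `j` with clusters of level `k`. -/
def Cert (b : ℕ → TF P.E) (j k : ℕ) (θ : Set ℂ →₀ ℝ) (c : ℝ) : Prop :=
  ∀ (n : ℕ) (η : ℝ), 0 < η → ∃ π, P.Plan n θ π ∧ P.ex π (fun i => hopn b n i.2.2) ≤ η ∧
    P.n1 π + P.n2 π ≤ (c + η) ^ 2 ∧
    ∀ F, P.Sep j F → P.n1 π + ∑ p ∈ F, tau θ (closure (P.cl k p)) ^ 2 ≤ (c + η) ^ 2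

/-- The strip and the left side of a closed set. -/
def strip : Set ℂ := {z | -P.δ ≤ z.im ∧ z.im ≤ 1 + P.δ}
def left (T : Set ℂ) : Set ℂ := connectedComponentIn (P.strip \ T) 0
/-- The indicator of the complement of the left side. -/
def chi (i : P.It) (z : ℂ) : ℝ := (P.left (trc i.2.1 i.2.2))ᶜ.indicator 1 z
/-- The smoothed stream function of a plan. -/
def str (π : P.It →₀ ℝ) (x : ℂ) : ℝ :=
  P.ex π fun i => ∫ h, φ h * P.chi i (x + (P.r x : ℂ) * h)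

/-- The sequence of plans. -/
structure Pls (b : ℕ → TF P.E) (c : ℝ) (π : ℕ → P.It →₀ ℝ) (τ : ℕ → ℂ → ℝ) (k : ℕ → ℕ) :
    Prop where
  plan : ∀ j, ∃ θ, P.Sys θ ∧ P.Plan j θ (π j)
  hop : ∀ j, P.ex (π j) (fun i => hopn b j i.2.2) ≤ 1
  nrm : ∀ j, P.n1 (π j) + P.n2 (π j) ≤ c ^ 2
  t0 : ∀ j p, 0 ≤ τ j p
  sep : ∀ j F, P.Sep j F → P.n1 (π j) + ∑ p ∈ F, τ j p ^ 2 ≤ c ^ 2
  anti : ∀ i j, i ≤ j → ∀ p ∈ P.E, τ j p ≤ τ i p
  tch : ∀ i j, i ≤ j → ∀ p ∈ P.E, P.ex (π j)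
    (fun it => {it : P.It | (P.cl (k i) p ∩ trc it.2.1 it.2.2).Nonempty}.indicator 1 it) ≤ τ i p

end Par

end Vale.Agent.P116.K
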