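import Vale.Agent.P116.K.Pl11B

/-! P116 K/RfT (owner helper18). Certificates give bounds, and the iteration. Plan for cert_bs: ex cost = pairing of g with den
plus pairing of lam with tl plus the hop term (den_pair, tl_pair, ex_add); Cauchy-Schwarz.
pls_of: pi j from Cert at n = j with eta' = min 1 (eta / 2); tau j p = tau (theta j) (closure
(cl (k j) p)); tch: a chain of the plan avoids its tube (Chn.trc), Plan.ex_mono, Plan.ex_fst.
Helper names end with `_RfT`. -/

open MeasureTheory Set Metric Filter Topology Complex
open scoped ENNReal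

noncomputable section

namespace Vale.Agent.P116.K

open Vale.Agent.P128

namespace Par
variable {P : Par}

theorem cert_bs {A : List (TF P.E)} {θ : Set ℂ →₀ ℝ} {c : ℝ} (hc : 0 ≤ c) {j k : ℕ}
    (h : ∀ b : ℕ → TF P.E, (∀ i, Aux A (b i)) → P.Cert b j k θ c) : P.Bs A θ c :=
  cert_bs11 hc h

end Par

end Vale.Agent.P116.K
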