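import Vale.Agent.P116.K.RfS
import Vale.Agent.P116.K.RfT

/-! P116 K/Rf (owner helper18). The sequence of plans. Plan: recursion with refine and cert_bs, c j = c + eta / 2 * (1 - 2^(-j-1)),
then pls_of with C = c + eta / 2.
Helper names end with `_Rf`. -/

open MeasureTheory Set Metric Filter Topology Complex
open scoped ENNReal

noncomputable section

namespace Vale.Agent.P116.K

open Vale.Agent.P128

namespace Par
variable {P : Par}

theorem exists_pls {A : List (TF P.E)} {θ₀ : Set ℂ →₀ ℝ} (h₀ : P.Sys θ₀) {c : ℝ} (hc : 0 ≤ c)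
    (h : P.BV A θ₀ c) (hs : ∀ θ c', P.Sys θ → 0 ≤ c' → P.Bs A θ c' → P.BV A θ c')
    {b : ℕ → TF P.E} (hb : ∀ i, Aux A (b i)) {η : ℝ} (hη : 0 < η) :
    ∃ π τ k, P.Pls b (c + η) π τ k := by
  have h2 : 0 < η / 2 := half_pos hη
  obtain ⟨k₁, θ₁, -, a2, -, a4⟩ := refine h₀ hc h 0 0 h2
  have h3 : 0 ≤ c + η / 2 := by linarith
  have h4 := pls_of_ref (b := b) (A := A) (fun θ c' j k₀ η' b1 b2 b3 b4 => by
    obtain ⟨k, θ', c1, c2, c3, c4⟩ := refine b1 b3 (hs θ c' b1 b3 b2) j k₀ b4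
    exact ⟨θ', k, c1, c2, c3, cert_bs (by linarith) c4, c4 b hb⟩) a2 (cert_bs h3 a4) h3 h2
  rwa [add_assoc, add_halves] at h4

end Par

end Vale.Agent.P116.K
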