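import Vale.Agent.P116.K.Glue
import Vale.Agent.P116.K.B25b
import Vale.Agent.P116.K.Ax26B
import Vale.Agent.P116.K.Rf
import Vale.Agent.P116.T.Top

/-! P116 K/Fin (helper80): steps (1) to (4). -/

open MeasureTheory Set

namespace Vale.Agent.P116.K

theorem baseSt : BaseSt := fun P _ _ hA hc h => Par.base25 P hA hc h

theorem plsSt : PlsSt := fun P A c hA hc h b hb η hη => by
  have hs : ∀ θ c', P.Sys θ → 0 ≤ c' → P.Bs A θ c' → P.BV A θ c' :=
    fun θ c' hθ _ h b hb g lam ht ν hν => bs_charge26 hA hθ h hb ht ν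
  have h0 : P.Sys (Finsupp.single ∅ 1) := by
    refine ⟨fun Z => ?_, Finsupp.sum_single_index rfl, fun Z hZ => ?_⟩
    · exact Finsupp.single_nonneg.2 zero_le_one Z
    · rw [Finset.mem_singleton.1 (Finsupp.support_single_subset hZ)]
      exact Par.Tube.empty
  exact Par.exists_pls h0 hc.le (hs _ _ h0 hc.le h) hs hb hη

theorem seq_exists1 : SeqEx := seq_of baseSt plsSt

end Vale.Agent.P116.K
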