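import Vale.Agent.P116.K.Tf
import Vale.Agent.P116.S.Rect

/-! P116 K/Top (helper80): from the duality statement to the sequences. -/

open MeasureTheory Set Metric Filter Topology Complex
open scoped ENNReal

noncomputable section

namespace Vale.Agent.P116.K

variable {E : Set ℂ} {A A' : List (TF E)}

/-- The duality statement. -/
def Dual (E : Set ℂ) : Prop := ∀ A : List (TF E), Fam A → ∀ c : ℝ, 0 < c →
  (∀ w : TF E, w.V → Fam (w :: A) → 1 ≤ c ^ 2 * w.en) → ∀ η : ℝ, 0 < η →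
    ∃ s : TF E, s.H ∧ Fam (s :: A) ∧ s.en ≤ c ^ 2 + η

theorem fam_cons (hA : Fam A) {a : TF E} (ha : Mem a) (h : ∀ d ∈ A, a.Cmp d) : Fam (a :: A) := by
  refine ⟨fun x hx => ?_, fun x hx y hy => ?_⟩
  · rcases List.mem_cons.1 hx with rfl | hx
    exacts [ha, hA.1 x hx]
  · rcases List.mem_cons.1 hx with rfl | hx' <;> rcases List.mem_cons.1 hy with rfl | hy'
    exacts [cmp_self _, h y hy', cmp_symm (h x hx'), hA.2 x hx' y hy']

theorem Fam.sub (h : Fam A') (hs : A ⊆ A') : Fam A :=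
  ⟨fun x hx => h.1 x (hs hx), fun x hx y hy => h.2 x (hs hx) y (hs hy)⟩

theorem en_nn (a : TF E) : 0 ≤ a.en :=
  add_nonneg (integral_nonneg fun _ => sq_nonneg _) (tsum_nonneg fun _ => sq_nonneg _)

/-- The clamp. -/
def clp (δ t : ℝ) : ℝ := (min t δ + (max t (1 - δ) - (1 - δ))) / (2 * δ)

theorem clp_lip {δ : ℝ} (hδ : 0 < δ) (s t : ℝ) : |clp δ s - clp δ t| ≤ δ⁻¹ * |s - t| := by
  have h1 := abs_min_sub_min_le_max s δ t δ
  have h2 := abs_max_sub_max_le_abs s t (1 - δ)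
  rw [sub_self, abs_zero, max_eq_left (abs_nonneg _)] at h1
  have e : clp δ s - clp δ t =
      ((min s δ - min t δ) + (max s (1 - δ) - max t (1 - δ))) / (2 * δ) := by
    unfold clp
    ring
  rw [e, abs_div, abs_of_pos (by positivity : 0 < 2 * δ), div_le_iff₀ (by positivity)]
  have e2 : δ⁻¹ * |s - t| * (2 * δ) = 2 * |s - t| := by field_simp
  rw [e2]
  linarith [abs_add_le (min s δ - min t δ) (max s (1 - δ) - max t (1 - δ))]

theorem triv (hE : Dom E) {l : ℂ → ℝ} (hl : ∀ x y, |l x - l y| ≤ dist x y)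
    (hQ : ∀ z ∈ Qc, 0 ≤ l z ∧ l z ≤ 1) {δ : ℝ} (hδ : 0 < δ) (h1 : δ ≤ 1)
    (hin : ∀ z ∈ E, δ ≤ l z ∧ l z ≤ 1 - δ) : ∃ b : TF E, Mem b ∧ (∀ d, b.Cmp d) ∧
      ∀ z, z ∉ Q → (l z = 0 → b.hi z = 0) ∧ (l z = 1 → b.hi z = 1) := by
  have hL : ∀ x y, |clp δ (l x) - clp δ (l y)| ≤ δ⁻¹ * dist x y := fun x y =>
    (clp_lip hδ _ _).trans (mul_le_mul_of_nonneg_left (hl x y) (by positivity))
  have hLip : LipschitzWith (Real.toNNReal δ⁻¹) fun z => clp δ (l z) :=
    LipschitzWith.of_dist_le' fun x y => hL x y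
  have hc : ∀ z ∈ E, clp δ (l z) = 1 / 2 := fun z hz => by
    rw [clp, min_eq_right (hin z hz).1, max_eq_right (hin z hz).2]
    field_simp
    ring
  let a : TF E := ⟨fun z => clp δ (l z), fun z => clp δ (l z), fun _ => le_rfl, fun _ _ => rfl,
    hLip.continuous.lowerSemicontinuous.lowerSemicontinuousOn _,
    hLip.continuous.upperSemicontinuous.upperSemicontinuousOn _,
    fun z hz z' hz' => by
      rw [hc z hz, hc z' (connectedComponentIn_subset _ _ hz')]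
      exact ⟨rfl, rfl⟩,
    hLip.locallyLipschitz.locallyLipschitzOn⟩
  have hv : volume Q ≠ ∞ := by rw [vol_Q]; exact ENNReal.one_ne_top
  have hw : Wt E fun _ => δ⁻¹ := ⟨continuousOn_const, fun _ => by positivity,
    integrableOn_const ((measure_mono Set.sdiff_subset).trans_lt hv.lt_top).ne⟩
  have hg : Gw E fun _ => δ⁻¹ := ⟨hw, Q.indicator fun _ => δ⁻¹,
    memLp_indicator_const 2 isOpen_Q.measurableSet _ (Or.inr hv),
    fun x => indicator_nonneg (fun _ _ => by positivity) x,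
    fun x hx y _ => (indicator_of_mem hx.1 fun _ => δ⁻¹).ge⟩
  have hm : Maj E Q a.hi fun _ => δ⁻¹ := fun B _ _ K hK x hx y _ =>
    (hL x y).trans (mul_le_mul_of_nonneg_right (hK x hx) dist_nonneg)
  have hf : a.Fn := (fn_of_maj hE hw hm (l := fun _ => 0) (fun c => (sub_self _).le)
    (by simp [summable_zero])).1
  obtain ⟨b, hb, hs⟩ := exists_mono hE a
  refine ⟨b, ⟨hs.fn hE hf, hs.mem fun z hz => ?_, hb, _, hg, St.maj hs hw.nn hm⟩,
    fun d => hs.cmp_left hE hf ?_, fun z hz => ?_⟩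
  · obtain ⟨h2, h3⟩ := hQ z hz
    have h4 := le_max_right (l z) (1 - δ)
    have h5 := min_le_right (l z) δ
    have h6 : max (l z) (1 - δ) ≤ 1 := max_le h3 (by linarith)
    have h7 : 0 ≤ min (l z) δ := le_min h2 hδ.le
    exact ⟨div_nonneg (by linarith) (by positivity), (div_le_one (by positivity)).2 (by linarith)⟩
  · refine measure_mono_null (t := {(1 / 2 : ℝ)} ×ℂ univ) ?_ ?_
    · rintro _ ⟨z, hz, rfl⟩
      exact ⟨hc z hz.1, mem_univ _⟩
    · rw [vol_Rect (measurableSet_singleton _) MeasurableSet.univ, Real.volume_singleton, zero_mul]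
  · rw [hs.bd z hz]
    refine ⟨fun h => ?_, fun h => ?_⟩
    · change clp δ (l z) = 0
      rw [h, clp, min_eq_left hδ.le, max_eq_right (by linarith)]
      simp
    · change clp δ (l z) = 1
      rw [h, clp, min_eq_right h1, max_eq_left (by linarith)]
      field_simp
      ring

theorem triv_HV (hE : Dom E) (hne : E.Nonempty) : ∃ s w : TF E, s.H ∧ w.V ∧ Mem s ∧ Mem w ∧
    (∀ d, s.Cmp d) ∧ ∀ d, w.Cmp d := by
  obtain ⟨δ, hδ, h⟩ := exists_inner hE.cpt hE.sub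
  obtain ⟨p, hp⟩ := hne
  have h1 : δ ≤ 1 := by linarith [(h hp).1.1, (h hp).1.2]
  obtain ⟨s, a1, a2, a3⟩ := triv hE (l := re) (fun x y => by
    rw [← sub_re, dist_eq_norm]; exact abs_re_le_norm _) (fun z hz => hz.1) hδ h1 fun z hz => (h hz).1
  obtain ⟨w, b1, b2, b3⟩ := triv hE (l := im) (fun x y => by
    rw [← sub_im, dist_eq_norm]; exact abs_im_le_norm _) (fun z hz => hz.2) hδ h1 fun z hz => (h hz).2
  refine ⟨s, w, fun z _ => ⟨fun e => (a3 z fun k => k.1.1.ne' e).1 e,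
    fun e => (a3 z fun k => k.1.2.ne e).2 e⟩, fun z _ => ⟨fun e => (b3 z fun k => k.2.1.ne' e).1 e,
    fun e => (b3 z fun k => k.2.2.ne e).2 e⟩, a1, b1, a2, b2⟩

/-- The least energy. -/
def mn (p : TF E → Prop) (A : List (TF E)) : ℝ := sInf (TF.en '' {s | p s ∧ Fam (s :: A)})

theorem mn_bdd (p : TF E → Prop) (A : List (TF E)) :
    BddBelow (TF.en '' {s | p s ∧ Fam (s :: A)}) := ⟨0, by rintro _ ⟨s, -, rfl⟩; exact en_nn s⟩

theorem mn_le {p : TF E → Prop} {s : TF E} (h : p s) (h' : Fam (s :: A)) : mn p A ≤ s.en :=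
  csInf_le (mn_bdd p A) ⟨s, ⟨h, h'⟩, rfl⟩

theorem mn_ex {p : TF E → Prop} (h : ∃ s, p s ∧ Fam (s :: A)) {η : ℝ} (hη : 0 < η) :
    ∃ s, p s ∧ Fam (s :: A) ∧ s.en ≤ mn p A + η := by
  obtain ⟨_, ⟨s, hs, rfl⟩, h1⟩ := exists_lt_of_csInf_lt (Set.Nonempty.image TF.en h)
    (lt_add_of_pos_right (mn p A) hη)
  exact ⟨s, hs.1, hs.2, h1.le⟩

theorem mn_mono {p : TF E → Prop} (h : ∃ s, p s ∧ Fam (s :: A')) (hs : A ⊆ A') :
    mn p A ≤ mn p A' :=
  csInf_le_csInf (mn_bdd p A) (Set.Nonempty.image TF.en h)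
    (image_mono fun _ k => ⟨k.1, k.2.sub (List.cons_subset_cons _ hs)⟩)

theorem seq_of_dual (hE : Dom E) (hne : E.Nonempty) (hD : Dual E) : ∃ μ s w, Seq E μ s w := by
  obtain ⟨s₀, w₀, hs₀, hw₀, ms, mw, cs, cw⟩ := triv_HV hE hne
  have nH : ∀ {A}, Fam A → ∃ s : TF E, s.H ∧ Fam (s :: A) := fun h =>
    ⟨s₀, hs₀, fam_cons h ms fun d _ => cs d⟩
  have nV : ∀ {A}, Fam A → ∃ s : TF E, s.V ∧ Fam (s :: A) := fun h =>
    ⟨w₀, hw₀, fam_cons h mw fun d _ => cw d⟩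
  have hd : ∀ {A : List (TF E)}, Fam A → mn TF.H A * mn TF.V A ≤ 1 := by
    intro A hA
    have h0 : 0 < s₀.en := by
      have := area_ineq hE ms.fn mw.fn (cs _) hs₀ hw₀
      exact (en_nn s₀).lt_of_ne fun e => by rw [← e, zero_mul] at this; linarith
    have h1 : s₀.en⁻¹ ≤ mn TF.V A := le_csInf (Set.Nonempty.image TF.en (nV hA)) (by
      rintro _ ⟨w, hw, rfl⟩
      rw [inv_le_iff_one_le_mul₀' h0]
      exact area_ineq hE ms.fn (hw.2.1 w List.mem_cons_self).fn (cs _) hs₀ hw.1)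
    have h2 : 0 < mn TF.V A := (inv_pos.2 h0).trans_le h1
    have h3 : (√(mn TF.V A))⁻¹ ^ 2 = (mn TF.V A)⁻¹ := by rw [inv_pow, Real.sq_sqrt h2.le]
    rw [← le_div_iff₀ h2, one_div]
    refine le_of_forall_pos_le_add fun η hη => ?_
    obtain ⟨s, k1, k2, k3⟩ := hD A hA (√(mn TF.V A))⁻¹ (inv_pos.2 (Real.sqrt_pos.2 h2))
      (fun w k1 k2 => by rw [h3, le_inv_mul_iff₀ h2, mul_one]; exact mn_le k1 k2) η hη
    exact (mn_le k1 k2).trans (h3 ▸ k3)
  have st : ∀ (n : ℕ) (A : {A : List (TF E) // Fam A}), ∃ s w : TF E, s.H ∧ w.V ∧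
      Fam (s :: w :: A.1) ∧ w.en ≤ mn TF.V A.1 + 1 / (n + 1) ∧
        s.en ≤ mn TF.H (s :: w :: A.1) + 1 / (n + 1) := by
    intro n A
    obtain ⟨w, a1, a2, a3⟩ := mn_ex (nV A.2) (Nat.one_div_pos_of_nat (n := n))
    obtain ⟨s, b1, b2, b3⟩ := mn_ex (nH a2) (Nat.one_div_pos_of_nat (n := n))
    exact ⟨s, w, b1, a1, b2, a3, b3.trans (add_le_add_left
      (mn_mono (nH b2) (List.subset_cons_self _ _)) _)⟩
  choose S W h1 h2 h3 h4 h5 using st
  let A : ℕ → {A : List (TF E) // Fam A} := fun n =>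
    Nat.rec ⟨[], by simp [Fam]⟩ (fun n A => ⟨S n A :: W n A :: A.1, h3 n A⟩) n
  have hA : ∀ n, (A (n + 1)).1 = S n (A n) :: W n (A n) :: (A n).1 := fun n => rfl
  have hm : ∀ {n m}, n ≤ m → (A n).1 ⊆ (A m).1 := by
    intro n m h
    induction h with
    | refl => exact fun _ k => k
    | step _ ih => exact fun _ k => List.mem_cons_of_mem _ (List.mem_cons_of_mem _ (ih k))
  have eS : ∀ {n m}, n < m → S n (A n) ∈ (A m).1 := fun h => hm h List.mem_cons_self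
  have eW : ∀ {n m}, n < m → W n (A n) ∈ (A m).1 := fun h =>
    hm h (List.mem_cons_of_mem _ List.mem_cons_self)
  have tH := tendsto_atTop_ciSup (f := fun n => mn TF.H (A n).1)
    (fun _ m h => mn_mono (nH (A m).2) (hm h))
    ⟨s₀.en, by rintro _ ⟨n, rfl⟩; exact mn_le hs₀ (fam_cons (A n).2 ms fun d _ => cs d)⟩
  have tV := tendsto_atTop_ciSup (f := fun n => mn TF.V (A n).1)
    (fun _ m h => mn_mono (nV (A m).2) (hm h))
    ⟨w₀.en, by rintro _ ⟨n, rfl⟩; exact mn_le hw₀ (fam_cons (A n).2 mw fun d _ => cw d)⟩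
  set u := ⨆ n, mn TF.H (A n).1
  set v := ⨆ n, mn TF.V (A n).1
  have t0 := tendsto_one_div_add_atTop_nhds_zero_nat (𝕜 := ℝ)
  have tS : Tendsto (fun n => (S n (A n)).en) atTop (𝓝 u) :=
    tendsto_of_tendsto_of_tendsto_of_le_of_le tH
      (by simpa using ((tendsto_add_atTop_iff_nat 1).2 tH).add t0)
      (fun n => mn_le (h1 n _) ((h3 n _).sub (List.cons_subset_cons _ (List.subset_cons_self _ _))))
      fun n => by simpa [hA] using h5 n (A n)
  have tW : Tendsto (fun n => (W n (A n)).en) atTop (𝓝 v) :=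
    tendsto_of_tendsto_of_tendsto_of_le_of_le tV (by simpa using tV.add t0)
      (fun n => mn_le (h2 n _) ((h3 n _).sub (List.subset_cons_self _ _)))
      fun n => by simpa using h4 n (A n)
  have mS : ∀ n, Mem (S n (A n)) := fun n => (A (n + 1)).2.1 _ (eS n.lt_succ_self)
  have mW : ∀ n, Mem (W n (A n)) := fun n => (A (n + 1)).2.1 _ (eW n.lt_succ_self)
  have l1 : ∀ n m : ℕ, n < n + m + 1 := fun n m => by omega
  have l2 : ∀ n m : ℕ, m < n + m + 1 := fun n m => by omega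
  have cSW : ∀ n m, (S n (A n)).Cmp (W m (A m)) := fun n m =>
    (A (n + m + 1)).2.2 _ (eS (l1 n m)) _ (eW (l2 n m))
  have e1 : u * v = 1 := le_antisymm (le_of_tendsto' (tH.mul tV) fun n => hd (A n).2)
    (ge_of_tendsto' (tS.mul tW) fun n =>
      area_ineq hE (mS n).fn (mW n).fn (cSW n n) (h1 n _) (h2 n _))
  have u0 : 0 < u := (ge_of_tendsto' tS fun n => en_nn _).lt_of_ne fun e => by
    rw [← e, zero_mul] at e1
    exact zero_ne_one e1
  exact ⟨u, fun n => S n (A n), fun n => W n (A n), u0, fun n => h1 n _, fun n => h2 n _,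
    fun n => (mS n).mem, fun n => (mW n).mem, fun n => (mS n).fn, fun n => (mW n).fn,
    fun n => (mS n).mono, fun n => (mW n).mono,
    fun n m => (A (n + m + 1)).2.2 _ (eS (l1 n m)) _ (eS (l2 n m)), cSW,
    fun n m => (A (n + m + 1)).2.2 _ (eW (l1 n m)) _ (eW (l2 n m)), tS,
    eq_inv_of_mul_eq_one_right e1 ▸ tW⟩

end Vale.Agent.P116.K
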