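import Vale.Agent.P116.K.ZZ
import Vale.Agent.P116.K.Top

/-! P116 K/G74 (helper74): the duality statement from the base bound, the plans and the stream. -/

open MeasureTheory Set Metric Filter Topology Complex
open scoped ENNReal

noncomputable section

namespace Vale.Agent.P116.K

/-- The base bound. -/
def BaseP : Prop := ∀ (P : Par) (A : List (TF P.E)), Fam A → ∀ c : ℝ, 0 < c →
  (∀ w : TF P.E, w.V → Fam (w :: A) → 1 ≤ c ^ 2 * w.en) →
    P.Bs A (Finsupp.single ∅ 1) (c * (1 + 20 * P.ε))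

/-- The existence of plans. -/
def PlansP : Prop := ∀ (P : Par) (A : List (TF P.E)), Fam A → ∀ c : ℝ, 0 < c →
  P.Bs A (Finsupp.single ∅ 1) c → ∀ b : ℕ → TF P.E, (∀ i, Aux A (b i)) → ∀ η : ℝ, 0 < η →
    ∃ π τ k, P.Pls b (c + η) π τ k

theorem dual74 (hB : BaseP) (hP : PlansP) {E : Set ℂ} (hE : Dom E) (hne : E.Nonempty) :
    Dual E := by
  intro A hA c hc h η hη
  have h1 : ∀ᶠ t in 𝓝 (0 : ℝ), (1 + t) ^ 2 * (c * (1 + 20 * t) + t) ^ 2 < c ^ 2 + η :=
    (by fun_prop : Continuous fun t : ℝ =>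
      (1 + t) ^ 2 * (c * (1 + 20 * t) + t) ^ 2).continuousAt.eventually_lt continuousAt_const
      (by simpa using hη)
  have h2 : ∀ᶠ t in 𝓝 (0 : ℝ), t < 1 / 100 := eventually_lt_nhds (by norm_num)
  obtain ⟨t, ⟨t1, t2⟩, t0⟩ := (((h1.and h2).filter_mono nhdsWithin_le_nhds).and
    (self_mem_nhdsWithin (s := Ioi (0 : ℝ)))).exists
  have t0 : 0 < t := t0
  have hQ : IsOpen Q := isOpen_Ioo.reProdIm isOpen_Ioo
  obtain ⟨d, d0, hd⟩ := hE.cpt.exists_thickening_subset_open hQ hE.sub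
  let P : Par := ⟨E, hE, hne, t, t * d, t0, t2.le, mul_pos t0 d0, fun z hz w hw => by
    rw [mul_div_cancel_left₀ _ t0.ne']
    exact not_lt.1 fun k => hw (hd (mem_thickening_iff.2 ⟨z, hz, by rwa [dist_comm]⟩))⟩
  obtain ⟨s₀, -, -, -, ms, -, cs, -⟩ := triv_HV hE hne
  have hF : Fam (s₀ :: A) := fam_cons hA ms fun x _ => cs x
  have hx : ∀ x ∈ s₀ :: A, Aux A x := fun x hx =>
    ⟨(Mem.aux hF hx).fn, (Mem.aux hF hx).bd, (Mem.aux hF hx).maj,
      fun a ha => (Mem.aux hF hx).cmp a (List.mem_cons_of_mem _ ha)⟩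
  have hb : ∀ i, Aux A (A.getD i s₀) := fun i => hx _ (by
    rcases lt_or_ge i A.length with k | k
    · rw [List.getD_eq_getElem _ _ k]
      exact List.mem_cons_of_mem _ (List.getElem_mem k)
    · rw [List.getD_eq_default _ _ k]
      exact List.mem_cons_self)
  obtain ⟨π, τ, k, hp⟩ := hP P A hA _ (by positivity) (hB P A hA c hc h)
    (fun i => A.getD i s₀) hb t t0
  obtain ⟨s, a1, a2, a3⟩ := Par.stream (P := P) hA (fun a ha => by
    obtain ⟨i, hi, e⟩ := List.getElem_of_mem ha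
    exact ⟨i, (List.getD_eq_getElem _ _ hi).trans e⟩) (fun i => (hb i).bd) hp
  exact ⟨s, a1, a2, a3.trans t1.le⟩

theorem seq74 (hB : BaseP) (hP : PlansP) {E : Set ℂ} (hE : Dom E) (hne : E.Nonempty) :
    ∃ μ s w, Seq E μ s w :=
  seq_of_dual hE hne (dual74 hB hP hE hne)

end Vale.Agent.P116.K
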