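import Vale.Agent.P116.K.ZI

/-! P116 K/ZJ (TASK, owner helper20, stream block). Helper names end with `_ZJ`.
`Lim.l2`, `Lim.fatou`: `ρ` is measurable (continuous on the open set `Eᶜ`, zero on `E`), `ρ ≤ liminf den` everywhere, `lintegral_liminf_le`. `Lim.int`: uniform convergence on the compact `closedBall y t`.
`gw_of_avg`: `g x = C' / infDist x E ^ 2 * ∫_{ball x (infDist x E / 4)} ρ` on `Q \ E` (`0` elsewhere); for `y ∈ ball x (d x / 8)`: `ball y (2 r y) ⊆ ball x (d x / 4)`, `r y ≥ ε min (7 / 8) (δ / 2) d x` (`d x ≤ 2`).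
Cauchy-Schwarz, Tonelli with lower integrals: if `dist z x < d x / 4` then `4 / 5 d z ≤ d x` and `dist x z < d z / 3`. (The proof of `ms_gw` in `K/KerD` has the same estimate.) -/

open MeasureTheory Set Metric Filter Topology Complex
open scoped ENNReal

set_option linter.unusedVariables false

noncomputable section

namespace Vale.Agent.P116.K

open Vale.Agent.P128

namespace Par

variable {P : Par} {n : ℕ} {θ : Set ℂ →₀ ℝ} {π : P.It →₀ ℝ} {i : P.It}

variable {b : ℕ → TF P.E} {c : ℝ} {pl : ℕ → P.It →₀ ℝ} {τ : ℕ → ℂ → ℝ} {k ψ : ℕ → ℕ}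
  {u ρ : ℂ → ℝ}

theorem pt_ZJ (hl : Lim pl ψ u ρ) {y : ℂ} (hy : y ∉ P.E) :
    Tendsto (fun j => P.den (pl (ψ j)) y) atTop (𝓝 (ρ y)) := by
  refine Metric.tendsto_nhds.2 fun η hη => ?_
  filter_upwards [hl.rt {y} isCompact_singleton (singleton_subset_iff.2 hy) (η / 2) (half_pos hη)]
    with j hj
  rw [Real.dist_eq]
  exact (hj y rfl).trans_lt (half_lt_self hη)

theorem meas_ZJ (hl : Lim pl ψ u ρ) : Measurable ρ := by
  classical
  have h1 : ρ = P.E.piecewise (fun _ => 0) ρ := by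
    funext z
    by_cases hz : z ∈ P.E
    · rw [piecewise_eq_of_mem _ _ _ hz, hl.rE z hz]
    · rw [piecewise_eq_of_notMem _ _ _ hz]
  rw [h1]
  exact continuousOn_const.measurable_piecewise hl.rc P.dom.cpt.isClosed.measurableSet

theorem Lim.fatou (h : P.Pls b c pl τ k) (hl : Lim pl ψ u ρ) {M : ℝ}
    (hM : ∀ᶠ j in atTop, P.n1 (pl j) ≤ M) : MemLp ρ 2 volume ∧ ∫ z, ρ z ^ 2 ≤ M := by
  have hm := meas_ZJ hl
  have hd : ∀ j, Continuous (P.den (pl j)) ∧ MemLp (P.den (pl j)) 2 volume := fun j => by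
    obtain ⟨θ, -, hp⟩ := h.plan j
    exact ⟨(den_cont hp).1, (den_cont hp).2.2⟩
  have hM0 : 0 ≤ M := by
    obtain ⟨j, hj⟩ := hM.exists
    exact (integral_nonneg fun z => sq_nonneg _).trans hj
  have h1 : ∫⁻ z, ENNReal.ofReal (ρ z ^ 2) ≤ ENNReal.ofReal M := by
    refine (lintegral_mono (g := fun z => liminf
      (fun j => ENNReal.ofReal (P.den (pl (ψ j)) z ^ 2)) atTop) fun z => ?_).trans
      ((lintegral_liminf_le fun j => ((hd (ψ j)).1.measurable.pow_const 2).ennreal_ofReal).trans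
        (liminf_le_of_frequently_le' (Eventually.frequently ?_)))
    · by_cases hz : z ∈ P.E
      · simp [hl.rE z hz]
      · exact (ENNReal.tendsto_ofReal ((pt_ZJ hl hz).pow 2)).liminf_eq.ge
    · filter_upwards [hl.mono.tendsto_atTop.eventually hM] with j hj
      rw [← ofReal_integral_eq_lintegral_ofReal (hd (ψ j)).2.integrable_sq
        (Eventually.of_forall fun z => sq_nonneg _)]
      exact ENNReal.ofReal_le_ofReal hj
  have h2 : AEStronglyMeasurable (fun z => ρ z ^ 2) volume := (hm.pow_const 2).aestronglyMeasurable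
  have h3 : 0 ≤ᵐ[volume] fun z => ρ z ^ 2 := Eventually.of_forall fun z => sq_nonneg _
  refine ⟨(memLp_two_iff_integrable_sq hm.aestronglyMeasurable).2
    ⟨h2, (hasFiniteIntegral_iff_ofReal h3).2 (h1.trans_lt ENNReal.ofReal_lt_top)⟩, ?_⟩
  rw [integral_eq_lintegral_of_nonneg_ae h3 h2]
  exact ENNReal.toReal_le_of_le_ofReal hM0 h1

theorem Lim.int (h : P.Pls b c pl τ k) (hl : Lim pl ψ u ρ) {y : ℂ} {t : ℝ}
    (ht : t < infDist y P.E) : Tendsto (fun j => ∫ x in ball y t, P.den (pl (ψ j)) x) atTop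
      (𝓝 (∫ x in ball y t, ρ x)) := by
  have h1 : closedBall y t ⊆ P.Eᶜ :=
    (disjoint_closedBall_of_lt_infDist ht).subset_compl_right
  have h2 : IntegrableOn (fun x => ρ x + 1) (ball y t) :=
    (((hl.rc.mono h1).add continuousOn_const).integrableOn_compact
      (isCompact_closedBall y t)).mono_set ball_subset_closedBall
  refine tendsto_integral_filter_of_dominated_convergence (fun x => ρ x + 1)
    (Eventually.of_forall fun j => ?_) ?_ h2 ?_
  · obtain ⟨θ, -, hp⟩ := h.plan (ψ j)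
    exact (den_cont hp).1.aestronglyMeasurable
  · filter_upwards [hl.rt _ (isCompact_closedBall y t) h1 1 one_pos] with j hj
    refine (ae_restrict_iff' measurableSet_ball).2 (Eventually.of_forall fun x hx => ?_)
    have h3 := abs_le.1 (hj x (ball_subset_closedBall hx))
    have h4 := hl.r0 x
    rw [Real.norm_eq_abs, abs_le]
    constructor <;> linarith [h3.1, h3.2]
  · exact (ae_restrict_iff' measurableSet_ball).2 (Eventually.of_forall fun x hx =>
      pt_ZJ hl (h1 (ball_subset_closedBall hx)))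

theorem Lim.avg (h : P.Pls b c pl τ k) (hl : Lim pl ψ u ρ) {y : ℂ} (hy : y ∉ P.E) :
    ρ y ≤ 3 / P.r y ^ 2 * ∫ x in ball y (2 * P.r y), ρ x := by
  have h1 : 0 < infDist y P.E := (P.dom.cpt.isClosed.notMem_iff_infDist_pos P.ne).1 hy
  have h2 : 2 * P.r y < infDist y P.E := by
    have h3 := (r_le (P := P) y).2
    have h4 := mul_le_mul_of_nonneg_right P.ε1 h1.le
    linarith
  refine le_of_tendsto_of_tendsto' (pt_ZJ hl hy) ((Lim.int h hl h2).const_mul _) fun j => ?_
  obtain ⟨θ, -, hp⟩ := h.plan (ψ j)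
  exact z_avg hp hy

end Par

end Vale.Agent.P116.K
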