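import Vale.Agent.P116.K.ZA

/-! P116 K/ZK (TASK, owner helper20, stream block). Helper names end with `_ZK`.
`g x = C' / infDist x E ^ 2 * ∫_{ball x (infDist x E / 4)} ρ` on `Q \ E` (`0` elsewhere); for `y ∈ ball x (d x / 8)`: `ball y (2 r y) ⊆ ball x (d x / 4)`, `r y ≥ ε min (7 / 8) (δ / 2) d x` (`d x ≤ 2`).
Cauchy-Schwarz, Tonelli with lower integrals: if `dist z x < d x / 4` then `4 / 5 d z ≤ d x` and `dist x z < d z / 3`. The proof of `ms_gw` in `K/KerD` has the same estimate: reuse its helper lemmas. -/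

open MeasureTheory Set Metric Filter Topology Complex
open scoped ENNReal

set_option linter.unusedVariables false

noncomputable section

namespace Vale.Agent.P116.K

open Vale.Agent.P128

namespace Par

variable {P : Par} {n : ℕ} {θ : Set ℂ →₀ ℝ} {π : P.It →₀ ℝ} {i : P.It}

theorem geo_ZK (P : Par) {x y : ℂ} (hx : x ∈ Q \ P.E) (hy : y ∈ ball x (infDist x P.E / 8)) :
    0 < infDist x P.E ∧ y ∉ P.E ∧ P.ε * min (1 / 2) (P.δ / 2) * infDist x P.E ≤ P.r y ∧
      ∀ z ∈ ball y (2 * P.r y), dist z x < infDist x P.E / 4 := by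
  have hε := P.ε0
  have hδ := P.δ0
  have d0 : 0 < infDist x P.E := (P.dom.cpt.isClosed.notMem_iff_infDist_pos P.ne).1 hx.2
  have d2 : infDist x P.E ≤ 2 := by
    obtain ⟨e, he⟩ := P.ne
    refine (infDist_le_dist_of_mem he).trans ?_
    obtain ⟨⟨b1, b2⟩, b3, b4⟩ := mem_reProdIm.1 (P.dom.sub he)
    obtain ⟨⟨c1, c2⟩, c3, c4⟩ := mem_reProdIm.1 hx.1
    have e1 : |(x - e).re| ≤ 1 := by rw [sub_re, abs_le]; constructor <;> linarith
    have e2 : |(x - e).im| ≤ 1 := by rw [sub_im, abs_le]; constructor <;> linarith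
    rw [dist_eq_norm]
    linarith [Complex.norm_le_abs_re_add_abs_im (x - e)]
  have a1 := infDist_le_infDist_add_dist (x := x) (y := y) (s := P.E)
  have a2 := infDist_le_infDist_add_dist (x := y) (y := x) (s := P.E)
  have a3 := dist_comm x y
  have a5 := mem_ball.1 hy
  have a6 : P.ε * infDist y P.E ≤ 1 / 100 * infDist y P.E :=
    mul_le_mul_of_nonneg_right P.ε1 infDist_nonneg
  have a7 := (P.r_le y).2
  refine ⟨d0, (P.dom.cpt.isClosed.notMem_iff_infDist_pos P.ne).2 (by linarith), ?_,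
    fun z hz => ?_⟩
  · rw [mul_assoc]
    refine mul_le_mul_of_nonneg_left (le_min ?_ ?_) hε.le
    · have := mul_le_mul_of_nonneg_right (min_le_left (1 / 2) (P.δ / 2)) d0.le
      linarith
    · have := mul_le_mul (min_le_right (1 / 2) (P.δ / 2)) d2 d0.le (by positivity)
      linarith
  · have a4 := dist_triangle z y x
    have a8 := mem_ball.1 hz
    linarith

theorem avg_ZK {E : Set ℂ} {ρ : ℂ → ℝ} (h0 : ∀ z, 0 ≤ ρ z) (hu : Integrable fun z => ρ z ^ 2)
    {x y : ℂ} {r t : ℝ} (hr : 0 ≤ r) (ht : 0 < t) (hd : 0 < infDist x E)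
    (h : ∀ z ∈ ball y (2 * r), dist z x < infDist x E / 4) :
    ∫ z in ball y (2 * r), ρ z ≤
      16 * r ^ 2 * t + infDist x E ^ 2 / t * ∫ z, k_KerD E x z * ρ z ^ 2 := by
  have i1 : Integrable ((ball y (2 * r)).indicator fun _ => t) :=
    (integrableOn_const measure_ball_lt_top.ne).integrable_indicator measurableSet_ball
  have i2 : Integrable fun z => k_KerD E x z * ρ z ^ 2 :=
    hu.bdd_mul (c := (infDist x E ^ 2)⁻¹)
      ((kmeas_KerD E).comp measurable_prodMk_right).aestronglyMeasurable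
      (Eventually.of_forall fun z => by
        rw [Real.norm_of_nonneg (knn_KerD _ _ _)]
        exact kle_KerD _ _ _)
  have i3 := i2.const_mul (infDist x E ^ 2 / t)
  rw [← integral_indicator measurableSet_ball]
  refine (integral_mono_of_nonneg (Eventually.of_forall fun z =>
    indicator_nonneg (fun w _ => h0 w) z) (i1.add i3) (Eventually.of_forall fun z => ?_)).trans ?_
  · simp only [Pi.add_apply]
    by_cases hz : z ∈ ball y (2 * r)
    · rw [indicator_of_mem hz, indicator_of_mem hz, k_KerD, if_pos (h z hz)]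
      have e : infDist x E ^ 2 / t * ((infDist x E ^ 2)⁻¹ * ρ z ^ 2) = ρ z ^ 2 / t := by
        field_simp
      rw [e, ← sub_le_iff_le_add', le_div_iff₀ ht]
      nlinarith [sq_nonneg (ρ z - t), mul_nonneg (h0 z) ht.le]
    · rw [indicator_of_notMem hz, indicator_of_notMem hz, zero_add]
      have := knn_KerD E x z
      positivity
  · simp only [Pi.add_apply]
    rw [integral_add i1 i3, integral_const_mul, integral_indicator_const _ measurableSet_ball,
      measureReal_def, Complex.volume_ball, ENNReal.toReal_mul, ENNReal.toReal_pow,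
      ENNReal.toReal_ofReal (by positivity), ENNReal.coe_toReal, NNReal.coe_real_pi, smul_eq_mul]
    have := mul_le_mul_of_nonneg_left Real.pi_le_four (by positivity : 0 ≤ 4 * r ^ 2 * t)
    linarith

theorem gw_of_avg {ρ : ℂ → ℝ} (hc : ContinuousOn ρ P.Eᶜ) (h0 : ∀ z, 0 ≤ ρ z)
    (h2 : MemLp ρ 2 volume) {C : ℝ} (hC : 0 ≤ C)
    (h : ∀ y, y ∉ P.E → ρ y ≤ C / P.r y ^ 2 * ∫ x in ball y (2 * P.r y), ρ x) : Gw P.E ρ := by
  have hu := h2.integrable_sq
  have hH := hint_KerD P.E hu
  have hn : ∀ x, 0 ≤ ∫ z, k_KerD P.E x z * ρ z ^ 2 := fun x =>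
    integral_nonneg fun z => mul_nonneg (knn_KerD _ _ _) (sq_nonneg _)
  obtain ⟨c, hc'⟩ : ∃ c : ℝ, c = P.ε * min (1 / 2) (P.δ / 2) := ⟨_, rfl⟩
  have hc0 : 0 < c := by
    have := P.δ0
    rw [hc']
    exact mul_pos P.ε0 (lt_min (by norm_num) (by positivity))
  obtain ⟨M, hM⟩ : ∃ M : ℝ, M = 16 * C + C / c ^ 2 + 1 := ⟨_, rfl⟩
  have hM1 : 0 ≤ C / c ^ 2 := by positivity
  have hM0 : 0 < M := by linarith
  refine ⟨⟨hc, h0, hu.integrableOn⟩, fun x => M * (2 * √(∫ z, k_KerD P.E x z * ρ z ^ 2)), ?_,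
    fun x => by positivity, fun x hx y hy => ?_⟩
  · refine MemLp.const_mul (MemLp.const_mul ((memLp_two_iff_integrable_sq
      (Real.continuous_sqrt.comp_aestronglyMeasurable hH.1)).2 ?_) 2) M
    simpa only [Real.sq_sqrt (hn _)] using hH
  · obtain ⟨d0, hyE, hr, hb⟩ := geo_ZK P hx hy
    rw [← hc'] at hr
    rw [← div_le_iff₀' hM0]
    refine am_KerD (hn x) fun t ht => ?_
    have r0 := P.r_pos hyE
    have a1 := (h y hyE).trans (mul_le_mul_of_nonneg_left (avg_ZK h0 hu r0.le ht d0 hb)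
      (by positivity))
    have hB := hn x
    generalize (∫ z, k_KerD P.E x z * ρ z ^ 2) = B at a1 hB ⊢
    generalize P.r y = r at a1 hr r0
    generalize infDist x P.E = d at a1 hr d0
    have e : C / r ^ 2 * (16 * r ^ 2 * t + d ^ 2 / t * B) =
        16 * C * t + C * (d ^ 2 / r ^ 2) * (B / t) := by field_simp
    have a2 : d ^ 2 / r ^ 2 ≤ 1 / c ^ 2 := by
      rw [div_le_div_iff₀ (by positivity) (by positivity), one_mul, ← mul_pow, mul_comm]
      exact pow_le_pow_left₀ (by positivity) hr 2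
    have a3 : C * (d ^ 2 / r ^ 2) ≤ M := by
      have := mul_le_mul_of_nonneg_left a2 hC
      rw [mul_one_div] at this
      linarith
    have a4 := mul_le_mul_of_nonneg_right a3 (by positivity : 0 ≤ B / t)
    have a5 := mul_le_mul_of_nonneg_right (show 16 * C ≤ M by linarith) ht.le
    rw [div_le_iff₀' hM0]
    linarith

end Par

end Vale.Agent.P116.K
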