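import Vale.Agent.P116.K.ZH
import Vale.Agent.P116.K.ZJ
import Vale.Agent.P116.K.ZK

/-! P116 K/ZL (TASK, owner helper20, stream block). Helper names end with `_ZL`.
`Lim.osc`: for `l ≥ 2 k i + 1` and `x ∈ cl l p \ E` the disc `ball x (r x)` lies in `cl (k i) p` (it is connected, contains `x`, lies in `nb (k i)` since `r x ≤ ε infDist x E`); `z_osc` with `V = cl (k i) p ⊆ Q ⊆ strip`, `Pls.tch`, limit: `u x - u y ≤ τ i p`; then `Cv.h1`, `Cv.l1` (fix `y`: `hi p ≤ u y + τ`; so `hi p - τ ≤ u y` for all `y`).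
`Lim.en`: for a finite set `F` of components `F.image pt` is `Sep j` for large `j` (`iInter_cl`, `cl_anti`), `Pls.sep`, `Lim.fatou` with `M = c ^ 2 - ∑ F osc ^ 2`; `summable_of_sum_le`, `fn_of_maj` with `l = osc`. -/

open MeasureTheory Set Metric Filter Topology Complex
open scoped ENNReal

set_option linter.unusedVariables false

noncomputable section

namespace Vale.Agent.P116.K

open Vale.Agent.P128

namespace Par

variable {P : Par} {n : ℕ} {θ : Set ℂ →₀ ℝ} {π : P.It →₀ ℝ} {i : P.It}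

variable {b : ℕ → TF P.E} {c : ℝ} {pl : ℕ → P.It →₀ ℝ} {τ : ℕ → ℂ → ℝ} {k ψ : ℕ → ℕ}
  {u ρ : ℂ → ℝ}

theorem ball_ZL (K : ℕ) {p x : ℂ} (hx : x ∈ P.cl (2 * K + 1) p \ P.E) :
    ball x (P.r x) ⊆ P.cl K p := by
  have h1 : infDist x P.E < P.δ / (((2 * K + 1 : ℕ) : ℝ) + 1) :=
    (mem_thickening_iff_infDist_lt P.ne).1 (P.cl_sub _ p hx.1)
  have h2 : P.δ / (((2 * K + 1 : ℕ) : ℝ) + 1) = P.δ / ((K : ℝ) + 1) / 2 := by
    push_cast
    field_simp
    ring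
  have h3 : P.r x ≤ infDist x P.E := (P.r_le x).2.trans
    (mul_le_of_le_one_left infDist_nonneg (P.ε1.trans (by norm_num)))
  rw [← P.cl_eq (P.cl_anti (by omega : K ≤ 2 * K + 1) p hx.1)]
  refine (convex_ball x _).isPreconnected.subset_connectedComponentIn
    (mem_ball_self (P.r_pos hx.2)) fun z hz => (mem_thickening_iff_infDist_lt P.ne).2 ?_
  have h4 : infDist z P.E ≤ infDist x P.E + dist z x := infDist_le_infDist_add_dist
  have h5 : dist z x < P.r x := hz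
  linarith

theorem strip_ZL (K : ℕ) (p : ℂ) : P.cl K p ⊆ P.strip := fun z hz => by
  have h1 : z.im ∈ Ioo (0 : ℝ) 1 := (nb_sub_TfA P K (P.cl_sub K p hz)).2
  have h2 := P.δ0
  exact ⟨by linarith [h1.1], by linarith [h1.2]⟩

theorem Lim.osc (h : P.Pls b c pl τ k) (hl : Lim pl ψ u ρ) {w : TF P.E}
    (hw : ∀ p ∈ P.E, Cv P u w p) (i : ℕ) {p : ℂ} (hp : p ∈ P.E) : w.hi p - w.lo p ≤ τ i p := by
  have key : ∀ x ∈ P.cl (2 * k i + 1) p \ P.E, ∀ y ∈ P.cl (2 * k i + 1) p \ P.E,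
      u x - u y ≤ τ i p := fun x hx y hy => by
    refine le_of_tendsto ((hl.ut x (cl_sub_TfA P _ p hx)).sub (hl.ut y (cl_sub_TfA P _ p hy))) ?_
    filter_upwards [eventually_ge_atTop i] with j hj
    obtain ⟨θ, -, hθ⟩ := h.plan (ψ j)
    exact (le_abs_self _).trans ((z_osc hθ (P.cl_conn (k i) p) (strip_ZL _ p) hx.2 hy.2
      (ball_ZL _ hx) (ball_ZL _ hy)).trans (h.tch i (ψ j) (hj.trans (hl.mono.id_le j)) p hp))
  have h1 := (hw p hp).l1 (w.hi p - τ i p) (2 * k i + 1) fun y hy => by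
    have h2 := (hw p hp).h1 (u y + τ i p) (2 * k i + 1) fun x hx => by
      linarith [key x hx y hy]
    linarith
  linarith

theorem n1_ZL (h : P.Pls b c pl τ k) (j : ℕ) : P.n1 (pl j) ≤ c ^ 2 := by
  have h1 : 0 ≤ P.n2 (pl j) := tsum_nonneg fun _ => sq_nonneg _
  linarith [h.nrm j]

theorem Lim.gw (h : P.Pls b c pl τ k) (hl : Lim pl ψ u ρ) : Gw P.E fun z => (1 + P.ε) * ρ z := by
  have hε : 0 ≤ 1 + P.ε := by linarith [P.ε0]
  refine gw_of_avg (continuousOn_const.mul hl.rc) (fun z => mul_nonneg hε (hl.r0 z))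
    ((hl.fatou h (Eventually.of_forall (n1_ZL h))).1.const_mul _) (C := 3) (by norm_num)
    fun y hy => ?_
  rw [integral_const_mul, mul_left_comm]
  exact mul_le_mul_of_nonneg_left (hl.avg h hy) hε

open Classical in
theorem sep_ZL (F : Finset (Cp P.E)) : ∀ᶠ j in atTop, P.Sep j (F.image Cp.pt) := by
  have h1 : ∀ c ∈ F, ∀ᶠ j in atTop, ∀ c' ∈ F, c.pt ≠ c'.pt → c'.pt ∉ P.cl j c.pt := fun c _ => by
    refine (eventually_all_finset F).2 fun c' _ => ?_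
    rcases eq_or_ne c c' with rfl | hc
    · exact Eventually.of_forall fun _ h => (h rfl).elim
    · have h2 : c'.pt ∉ ⋂ n, P.cl n c.pt := by
        rw [P.iInter_cl c.pt_mem, ← c.eq]
        exact fun h => hc (Cp.ext_mem h c'.pt_in)
      obtain ⟨n, hn⟩ := not_forall.1 fun h => h2 (mem_iInter.2 h)
      filter_upwards [eventually_ge_atTop n] with j hj _ h
      exact hn (P.cl_anti hj _ h)
  filter_upwards [(eventually_all_finset F).2 h1] with j hj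
  refine ⟨fun p hp => ?_, fun p hp q hq hne => ?_⟩
  · obtain ⟨c, -, rfl⟩ := Finset.mem_image.1 hp
    exact c.pt_mem
  · obtain ⟨c, hc, rfl⟩ := Finset.mem_image.1 hp
    obtain ⟨c', hc', rfl⟩ := Finset.mem_image.1 hq
    exact hj c hc c' hc' hne

theorem fin_ZL (h : P.Pls b c pl τ k) (hl : Lim pl ψ u ρ) {w : TF P.E}
    (hw : ∀ p ∈ P.E, Cv P u w p) (F : Finset (Cp P.E)) :
    ∑ a ∈ F, w.osc a ^ 2 ≤ c ^ 2 - ∫ z, ρ z ^ 2 := by
  classical
  have h1 : ∀ᶠ j in atTop, P.n1 (pl j) ≤ c ^ 2 - ∑ a ∈ F, w.osc a ^ 2 := by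
    filter_upwards [sep_ZL F] with j hj
    have h2 := h.sep j _ hj
    rw [Finset.sum_image fun a _ a' _ e => Cp.ext_mem a.pt_in (e ▸ a'.pt_in)] at h2
    have h3 : ∑ a ∈ F, w.osc a ^ 2 ≤ ∑ a ∈ F, τ j a.pt ^ 2 := Finset.sum_le_sum fun a _ =>
      pow_le_pow_left₀ (w.osc_nonneg a) (hl.osc h hw j a.pt_mem) 2
    linarith
  linarith [(hl.fatou h h1).2]

theorem Lim.en (h : P.Pls b c pl τ k) (hl : Lim pl ψ u ρ) {w : TF P.E}
    (he : ∀ z, z ∉ P.E → w.hi z = u z) (hw : ∀ p ∈ P.E, Cv P u w p) :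
    w.Fn ∧ w.en ≤ (1 + P.ε) ^ 2 * c ^ 2 := by
  have hs : Summable fun a => w.osc a ^ 2 :=
    summable_of_sum_le (fun _ => sq_nonneg _) (fin_ZL h hl hw)
  have ht : ∑' a, w.osc a ^ 2 ≤ c ^ 2 - ∫ z, ρ z ^ 2 := hs.tsum_le_of_sum_le (fin_ZL h hl hw)
  have hm : Maj P.E Q w.hi fun z => (1 + P.ε) * ρ z := fun B hB hBs K hK x hx y hy => by
    rw [he x (hBs hx).2, he y (hBs hy).2]
    exact hl.maj h B hB hBs K hK x hx y hy
  obtain ⟨f1, f2⟩ := fn_of_maj P.dom (hl.gw h).toWt hm (fun _ => le_rfl) hs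
  refine ⟨f1, f2.trans ?_⟩
  have i1 : Integrable fun z => ρ z ^ 2 :=
    (hl.fatou h (Eventually.of_forall (n1_ZL h))).1.integrable_sq
  have i2 : ∫ z in Q \ P.E, ρ z ^ 2 ≤ ∫ z, ρ z ^ 2 :=
    setIntegral_le_integral i1 (Eventually.of_forall fun _ => sq_nonneg _)
  have i3 : 0 ≤ ∑' a, w.osc a ^ 2 := tsum_nonneg fun _ => sq_nonneg _
  have i4 : 1 ≤ (1 + P.ε) ^ 2 := one_le_pow₀ (by linarith [P.ε0])
  simp only [mul_pow]
  rw [integral_const_mul]
  nlinarith [mul_le_mul_of_nonneg_left i2 (zero_le_one.trans i4),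
    mul_le_mul_of_nonneg_left ht (zero_le_one.trans i4), mul_le_mul_of_nonneg_right i4 i3]

end Par

end Vale.Agent.P116.K
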