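import Vale.Agent.P116.K.ZT
import Vale.Agent.P116.K.ZL

/-! P116 K/ZZ (TASK, owner helper20, stream block). Helper names end with `_ZZ`.
`exists_lim`, `exists_tf` (`Maj.locLip`), values in `[0, 1]` by `Cv.h1`, `Cv.l1`, `Lim.en`, `Lim.cmp`, then `exists_mono`, `St.H`, `St.mem`, `St.fn`, `St.en_le`, `St.maj`, `St.cmp_right`, `cmp_symm`, `cmp_self`. `Maj` only depends on the values off `E`. -/

open MeasureTheory Set Metric Filter Topology Complex
open scoped ENNReal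

set_option linter.unusedVariables false

noncomputable section

namespace Vale.Agent.P116.K

open Vale.Agent.P128

namespace Par

variable {P : Par} {n : ℕ} {θ : Set ℂ →₀ ℝ} {π : P.It →₀ ℝ} {i : P.It}

variable {b : ℕ → TF P.E} {c : ℝ} {pl : ℕ → P.It →₀ ℝ} {τ : ℕ → ℂ → ℝ} {k ψ : ℕ → ℕ}
  {u ρ : ℂ → ℝ}

theorem stream {A : List (TF P.E)} (hA : Fam A) (hin : ∀ a ∈ A, ∃ i, b i = a)
    (hb : ∀ i, ∃ M : ℝ, ∀ z ∈ Qc, -M ≤ (b i).lo z ∧ (b i).hi z ≤ M) (h : P.Pls b c pl τ k) :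
    ∃ s : TF P.E, s.H ∧ Fam (s :: A) ∧ s.en ≤ (1 + P.ε) ^ 2 * c ^ 2 := by
  obtain ⟨ψ, u, ρ, hl⟩ := exists_lim h
  have hm := hl.mem h
  have hj := hl.maj h
  have hg := hl.gw h
  obtain ⟨w, he, hw⟩ := exists_tf P (u := u) (M := 1)
    (fun z hz => abs_le.2 ⟨by linarith [(hm z hz).1], (hm z hz).2⟩) hl.uc
    (Maj.locLip P.dom.cpt.isClosed isOpen_Q (hg.cont.mono fun z hz => hz.2) hj)
  obtain ⟨hF, hen⟩ := hl.en h he hw
  have h1 : ∀ z ∈ Qc, 0 ≤ w.lo z ∧ w.hi z ≤ 1 := fun z hz => by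
    by_cases hE : z ∈ P.E
    · exact ⟨(hw z hE).l1 0 0 fun x hx => (hm x (cl_sub_TfA P 0 z hx)).1,
        (hw z hE).h1 1 0 fun x hx => (hm x (cl_sub_TfA P 0 z hx)).2⟩
    · rw [w.eq z hE, he z hE]
      exact hm z ⟨hz, hE⟩
  have h2 : w.H := fun z hz => by
    refine ⟨fun e => ?_, fun e => ?_⟩
    · rw [he z fun hE => (mem_reProdIm.1 (P.dom.sub hE)).1.1.ne' e]
      exact (hl.bd h z hz).1 e
    · rw [he z fun hE => (mem_reProdIm.1 (P.dom.sub hE)).1.2.ne e]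
      exact (hl.bd h z hz).2 e
  have h3 : Maj P.E Q w.hi fun z => (1 + P.ε) * ρ z := fun B h4 h5 K hK x hx y hy => by
    rw [he x (h5 hx).2, he y (h5 hy).2]
    exact hj B h4 h5 K hK x hx y hy
  obtain ⟨s, hs, st⟩ := exists_mono P.dom w
  have h4 : ∀ a ∈ A, a.Cmp s := fun a ha => by
    obtain ⟨i, rfl⟩ := hin a ha
    exact st.cmp_right P.dom hF (hl.cmp h hb hF hw (hA.1 _ ha))
  refine ⟨s, st.H h2, ⟨fun a ha => ?_, fun a ha a' ha' => ?_⟩, (st.en_le P.dom hF).trans hen⟩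
  · rcases List.mem_cons.1 ha with rfl | ha
    · exact ⟨st.fn P.dom hF, st.mem h1, hs, _, hg, St.maj st hg.nn h3⟩
    · exact hA.1 a ha
  · rcases List.mem_cons.1 ha with e | e <;> rcases List.mem_cons.1 ha' with e' | e'
    · rw [e, e']
      exact cmp_self _
    · rw [e]
      exact cmp_symm (h4 _ e')
    · rw [e']
      exact h4 _ e
    · exact hA.2 _ e _ e'

end Par

end Vale.Agent.P116.K
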