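import Vale.Agent.P116.K.Top
import Vale.Agent.P116.K.ZZ

/-! P116 K/Glue (helper80): the duality statement from the blocks. -/

open MeasureTheory Set Metric Filter Topology Complex
open scoped ENNReal

noncomputable section

namespace Vale.Agent.P116.K

/-- The statement of the block BASE. -/
def BaseSt : Prop := ∀ (P : Par) (A : List (TF P.E)) (c : ℝ), Fam A → 0 < c →
  (∀ w : TF P.E, w.V → Fam (w :: A) → 1 ≤ c ^ 2 * w.en) →
    P.Bs A (Finsupp.single ∅ 1) (c * (1 + 20 * P.ε))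

/-- The statement of the blocks AX and REFINE. -/
def PlsSt : Prop := ∀ (P : Par) (A : List (TF P.E)) (c : ℝ), Fam A → 0 < c →
  P.Bs A (Finsupp.single ∅ 1) c → ∀ b : ℕ → TF P.E, (∀ i, Aux A (b i)) → ∀ η : ℝ, 0 < η →
    ∃ π τ k, P.Pls b (c + η) π τ k

theorem dual_of (h1 : BaseSt) (h2 : PlsSt) {E : Set ℂ} (hE : Dom E) (hne : E.Nonempty) :
    Dual E := by
  intro A hA c hc hw η hη
  have ht : Tendsto (fun ε : ℝ => (1 + ε) ^ 2 * (c * (1 + 20 * ε) + ε) ^ 2) (𝓝[>] 0)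
      (𝓝 (c ^ 2)) := by
    refine tendsto_nhdsWithin_of_tendsto_nhds (Continuous.tendsto' (by fun_prop) _ _ ?_)
    ring
  obtain ⟨ε, ⟨e1, e2⟩, e3⟩ := ((ht.eventually_lt_const (lt_add_of_pos_right _ hη)).and
    (Ioc_mem_nhdsGT (by norm_num : (0 : ℝ) < 1 / 100))).exists.imp fun _ h => And.symm h
  obtain ⟨d, hd, hs⟩ := hE.cpt.exists_thickening_subset_open isOpen_Q hE.sub
  let P : Par := ⟨E, hE, hne, ε, ε * d, e1, e2, mul_pos e1 hd, fun z hz w hw => by
    rw [mul_div_cancel_left₀ _ e1.ne']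
    exact not_lt.1 fun h => hw (hs (mem_thickening_iff.2 ⟨z, hz, by rwa [dist_comm]⟩))⟩
  obtain ⟨s₀, -, -, -, ms, -, cs, -⟩ := triv_HV hE hne
  have hL : Fam (s₀ :: A) := fam_cons hA ms fun a _ => cs a
  have hb : ∀ i, Aux A ((s₀ :: A).getD i s₀) := fun i => by
    have hm : (s₀ :: A).getD i s₀ ∈ s₀ :: A := by
      rw [List.getD_eq_getElem?_getD]
      rcases h : (s₀ :: A)[i]? with _ | a
      exacts [List.mem_cons_self, List.mem_of_getElem? h]
    have := Mem.aux hL hm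
    exact ⟨this.fn, this.bd, this.maj, fun a ha => this.cmp a (List.mem_cons_of_mem _ ha)⟩
  obtain ⟨π, τ, k, hp⟩ := h2 P A _ hA (by positivity) (h1 P A c hA hc hw) _ hb ε e1
  obtain ⟨s, a1, a2, a3⟩ := Par.stream (P := P) hA (fun a ha => by
    obtain ⟨i, hi⟩ := List.getElem?_of_mem (List.mem_cons_of_mem s₀ ha)
    exact ⟨i, by rw [List.getD_eq_getElem?_getD, hi]; rfl⟩) (fun i => (hb i).bd) hp
  exact ⟨s, a1, a2, a3.trans e3.le⟩

theorem seq_of (h1 : BaseSt) (h2 : PlsSt) (E : Set ℂ) (hE : Dom E) (hne : E.Nonempty) :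
    ∃ μ s w, Seq E μ s w := seq_of_dual hE hne (dual_of h1 h2 hE hne)

end Vale.Agent.P116.K
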