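import Vale.Agent.P116.K.InFit
import Vale.Agent.P116.K.Cb
import Vale.Agent.P116.K.Bar
import Vale.Agent.P116.K.Ker
import Vale.Agent.P116.K.Top

/-! P116 K/In63 (helper63): the initial bound. -/

open MeasureTheory Set Metric Filter Topology Complex
open scoped ENNReal

noncomputable section

namespace Vale.Agent.P116.K

open Vale.Agent.P128

variable {P : Par}

theorem hi_In63 {f : ℂ → ℝ≥0∞} {u : ℂ → ℝ} {w : TF P.E} {p : ℂ} {β : ℝ} (hβ : 0 < β)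
    (hc : Cv P u w p) (hf : ∀ z, f z ≤ ENNReal.ofReal β)
    (hu : ∀ z ∈ P.cl 0 p, u z = (f z).toReal / β) :
    ENNReal.ofReal (β * w.hi p) ≤ P.hiE f p := by
  refine le_iInf fun l => ?_
  have h1 : (⨆ (x : ℂ) (_ : x ∈ P.cl l p \ P.E), f x) ≠ ∞ :=
    ne_top_of_le_ne_top ENNReal.ofReal_ne_top (iSup₂_le fun x _ => hf x)
  rw [← ENNReal.ofReal_toReal h1]
  refine ENNReal.ofReal_le_ofReal ((le_div_iff₀' hβ).1 (hc.h1 _ l fun x hx => ?_))
  rw [hu x (P.cl_anti (Nat.zero_le l) p hx.1)]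
  exact div_le_div_of_nonneg_right (ENNReal.toReal_mono h1
    (le_iSup₂_of_le (f := fun x (_ : x ∈ P.cl l p \ P.E) => f x) x hx le_rfl)) hβ.le

theorem lo_In63 {f : ℂ → ℝ≥0∞} {u : ℂ → ℝ} {w : TF P.E} {p : ℂ} {β : ℝ} (hβ : 0 < β)
    (hp : p ∈ P.E) (hc : Cv P u w p) (hf : ∀ z, f z ≤ ENNReal.ofReal β)
    (hu : ∀ z ∈ P.cl 0 p, u z = (f z).toReal / β) :
    P.loE f p ≤ ENNReal.ofReal (β * w.lo p) := by
  refine iSup_le fun l => ?_
  have h0 : ∀ z, f z ≠ ∞ := fun z => ne_top_of_le_ne_top ENNReal.ofReal_ne_top (hf z)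
  have h2 : ∀ y ∈ P.cl l p \ P.E, (⨅ (x : ℂ) (_ : x ∈ P.cl l p \ P.E), f x) ≤ f y := fun y hy =>
    iInf₂_le (f := fun x (_ : x ∈ P.cl l p \ P.E) => f x) y hy
  obtain ⟨y, hy⟩ := P.cl_ne l hp
  rw [← ENNReal.ofReal_toReal (ne_top_of_le_ne_top (h0 y) (h2 y hy))]
  refine ENNReal.ofReal_le_ofReal ((div_le_iff₀' hβ).1 (hc.l1 _ l fun x hx => ?_))
  rw [hu x (P.cl_anti (Nat.zero_le l) p hx.1)]
  exact div_le_div_of_nonneg_right (ENNReal.toReal_mono (h0 x) (h2 x hx)) hβ.le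

theorem const_In63 {e : ℝ} (h0 : 0 < e) (h1 : e ≤ 1 / 100) :
    (1 + 8 * e) * ((1 - 8 * e)⁻¹ * ((1 + e) / (1 - e))) ≤ 1 + 20 * e := by
  have a1 : 0 < 1 - 8 * e := by linarith
  have a2 : 0 < 1 - e := by linarith
  rw [← div_eq_inv_mul, div_div, ← mul_div_assoc, div_le_iff₀ (by positivity)]
  nlinarith [mul_pos h0 h0, mul_pos h0 (mul_pos h0 h0)]

/-- A barrier without tube and charge gives a member with vertical boundary values. -/
theorem mem_In63 {A : List (TF P.E)} (hA : Fam A) (d : P.Dat) (hb : ∀ i, Aux A (d.b i))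
    {g : ℂ → ℝ} (hv : P.Tv g d.lam) (hρ : d.ρ = P.ms g) (hZ : d.Z = ∅) (hν : d.ν = 0)
    (hβ : 0 < d.β) {f : ℂ → ℝ≥0∞} (hf : Par.Bar d f) : ∃ w : TF P.E, w.V ∧ Fam (w :: A) ∧
      d.β ^ 2 * w.en ≤ ((1 + 20 * P.ε) * P.nv g d.lam) ^ 2 := by
  obtain ⟨τ, N, hτ⟩ := exists_fitV P
  have e0 : 0 < 1 + 8 * P.ε := by linarith [P.ε0]
  have hO : d.O = P.R := by rw [Par.Dat.O, hZ, diff_empty]
  have hG : Gw P.E fun z => (1 + 8 * P.ε) / d.β * d.ρ (τ z) :=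
    hτ.gw (hρ ▸ P.ms_gw hv.g2 hv.g0) (hρ ▸ (P.ms_l2 hv.g2).1) (by positivity)
  have h1 : ∀ x ∈ Qc \ P.E, ∀ K, (1 + 8 * P.ε) / d.β * d.ρ (τ x) < K → ∀ᶠ y in 𝓝[Qc \ P.E] x,
      |(f (τ y)).toReal / d.β - (f (τ x)).toReal / d.β| ≤ K * dist y x := by
    intro x hx K hK
    rw [div_mul_eq_mul_div, div_lt_iff₀ hβ] at hK
    filter_upwards [hτ.maj d.cont d.nn (hO ▸ hf.maj) x hx _ hK] with y hy
    rw [← sub_div, abs_div, abs_of_pos hβ, div_le_iff₀ hβ]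
    linarith
  have hb1 : ∀ z, 0 ≤ (f (τ z)).toReal / d.β ∧ (f (τ z)).toReal / d.β ≤ 1 := fun z =>
    ⟨by positivity, (div_le_one hβ).2 (ENNReal.toReal_le_of_le_ofReal hβ.le (hf.le _))⟩
  have hM : Maj P.E Q (fun z => (f (τ z)).toReal / d.β)
      fun z => (1 + 8 * P.ε) / d.β * d.ρ (τ z) := maj_of_loc fun x hx K hK =>
    (h1 x ⟨Q_sub hx.1, hx.2⟩ K hK).filter_mono (nhdsWithin_mono _ (diff_subset_diff_left Q_sub))
  have hc : ContinuousOn (fun z => (f (τ z)).toReal / d.β) (Qc \ P.E) := by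
    intro x hx
    rw [ContinuousWithinAt, tendsto_iff_dist_tendsto_zero]
    refine squeeze_zero' (Eventually.of_forall fun _ => dist_nonneg) (h1 x hx _ (lt_add_one _)) ?_
    have := ((continuous_id.dist (continuous_const (y := x))).const_mul
      ((1 + 8 * P.ε) / d.β * d.ρ (τ x) + 1)).tendsto x
    simp only [id, dist_self, mul_zero] at this
    exact this.mono_left nhdsWithin_le_nhds
  obtain ⟨w, w1, w2⟩ := exists_tf P (M := 1)
    (fun z _ => abs_le.2 ⟨by linarith [(hb1 z).1], (hb1 z).2⟩) hc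
    (hM.locLip P.dom.cpt.isClosed isOpen_Q (hG.cont.mono fun _ k => k.2))
  have hM' : Maj P.E Q w.hi fun z => (1 + 8 * P.ε) / d.β * d.ρ (τ z) := by
    intro B a1 a2 K hK x hx y hy
    rw [w1 x (a2 hx).2, w1 y (a2 hy).2]
    exact hM B a1 a2 K hK x hx y hy
  have hmem : ∀ z, 0 ≤ w.lo z ∧ w.hi z ≤ 1 := fun z => by
    by_cases hz : z ∈ P.E
    · exact ⟨(w2 z hz).l1 0 0 fun x _ => (hb1 x).1, (w2 z hz).h1 1 0 fun x _ => (hb1 x).2⟩
    · rw [w.eq z hz, w1 z hz]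
      exact hb1 z
  have hu : ∀ p, ∀ z ∈ P.cl 0 p, (f (τ z)).toReal / d.β = (f z).toReal / d.β := fun p z hz => by
    rw [hτ.id z (hτ.nb (subset_closure (P.cl_sub 0 p hz)))]
  have hhi := fun p hp => hi_In63 hβ (w2 p hp) hf.le (hu p)
  have hlo := fun p hp => lo_In63 hβ hp (w2 p hp) hf.le (hu p)
  have hosc : ∀ c, w.osc c ≤ d.β⁻¹ * d.lam c := fun c => by
    have a1 := hf.osc c (by rw [hZ]; exact notMem_empty _)
    rw [hν, Measure.coe_zero, Pi.zero_apply, add_zero] at a1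
    have a2 := ((hhi _ c.pt_mem).trans a1).trans (add_le_add_left (hlo _ c.pt_mem) _)
    have a3 := mul_nonneg hβ.le (hmem c.pt).1
    rw [← ENNReal.ofReal_add a3 (d.l0 c), ENNReal.ofReal_le_ofReal_iff
      (add_nonneg a3 (d.l0 c))] at a2
    rw [TF.osc, le_inv_mul_iff₀ hβ]
    linarith
  have hsum : Summable fun c => (d.β⁻¹ * d.lam c) ^ 2 := by
    simp only [mul_pow]
    exact d.l2.mul_left _
  obtain ⟨f1, f2⟩ := fn_of_maj P.dom hG.toWt hM' hosc hsum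
  have hcmp : ∀ a ∈ A, a.Cmp w := fun a ha => by
    refine measure_mono_null (image_mono fun z hz => ?_) (bar_cmp d hf (hA.1 a ha)
      (hρ ▸ (P.ms_wt hv.g2 hv.g0).l2) (fun i => (hb i).fn) (fun i => (hb i).cmp a ha)
      (κ := ENNReal.ofReal d.β⁻¹) ENNReal.ofReal_ne_top fun p hp q hq => ?_)
    · exact ⟨⟨hz.1, by rw [hZ]; exact notMem_empty _⟩, hz.2⟩
    · refine le_trans (le_of_eq ?_) (mul_le_mul_right (tsub_le_tsub (hhi p hp.1) (hlo q hq.1)) _)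
      rw [← ENNReal.ofReal_sub _ (mul_nonneg hβ.le (hmem q).1),
        ← ENNReal.ofReal_mul (inv_nonneg.2 hβ.le), ← mul_sub, inv_mul_cancel_left₀ hβ.ne']
  have hV : w.V := fun z hz => by
    have hz' : τ z ∈ d.O := hO ▸ hτ.box hz
    constructor <;> intro e
    · rw [w1 z fun k => (P.dom.sub k).2.1.ne' e, hf.bot _ hz' (hτ.bot z e)]
      simp
    · rw [w1 z fun k => (P.dom.sub k).2.2.ne e, hf.top _ hz' (hτ.top z e),
        ENNReal.toReal_ofReal hβ.le, div_self hβ.ne']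
  obtain ⟨v, v1, v2⟩ := exists_mono P.dom w
  refine ⟨v, v2.V hV, fam_cons hA ⟨v2.fn P.dom f1, v2.mem fun z _ => hmem z, v1, _, hG,
    St.maj v2 hG.nn hM'⟩ fun a ha => cmp_symm (v2.cmp_right P.dom f1 (hcmp a ha)), ?_⟩
  obtain ⟨i1, i2⟩ := hτ.l2 (P.ms_l2 hv.g2).1
  have i3 := (P.ms_l2 hv.g2).2
  rw [← hρ] at i1 i2 i3
  have i4 : ∫ z in Q \ P.E, d.ρ (τ z) ^ 2 ≤ ∫ z, d.ρ (τ z) ^ 2 :=
    setIntegral_le_integral i1 (ae_of_all _ fun z => sq_nonneg _)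
  have g0 : 0 ≤ ∫ x, g x ^ 2 := integral_nonneg fun _ => sq_nonneg _
  have l0 : 0 ≤ ∑' c, d.lam c ^ 2 := tsum_nonneg fun _ => sq_nonneg _
  simp only [mul_pow, integral_const_mul, tsum_mul_left] at f2
  have i5 := i4.trans (i2.trans (mul_le_mul_of_nonneg_left i3 (sq_nonneg _)))
  have c1 := pow_le_pow_left₀ (by
    have : 0 < 1 - 8 * P.ε := by linarith [P.ε1]
    have : 0 < 1 - P.ε := by linarith [P.ε1]
    have := P.ε0
    positivity) (const_In63 P.ε0 P.ε1) 2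
  rw [mul_pow, mul_pow] at c1
  have c2 : 1 ≤ (1 + 20 * P.ε) ^ 2 := one_le_pow₀ (by linarith [P.ε0])
  rw [mul_pow, Par.nv, Real.sq_sqrt (add_nonneg g0 l0)]
  refine (mul_le_mul_of_nonneg_left ((v2.en_le P.dom f1).trans f2) (sq_nonneg _)).trans ?_
  have e1 : ∀ x y : ℝ, d.β ^ 2 * (((1 + 8 * P.ε) / d.β) ^ 2 * x + d.β⁻¹ ^ 2 * y) =
      (1 + 8 * P.ε) ^ 2 * x + y := fun x y => by field_simp
  rw [e1]
  have i6 := mul_le_mul_of_nonneg_left i5 (sq_nonneg (1 + 8 * P.ε))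
  have i7 := mul_le_mul_of_nonneg_right c1 g0
  have i8 := mul_le_mul_of_nonneg_right c2 l0
  linarith

theorem base63 (P : Par) {A : List (TF P.E)} (hA : Fam A) {c : ℝ} (hc : 0 < c)
    (h : ∀ w : TF P.E, w.V → Fam (w :: A) → 1 ≤ c ^ 2 * w.en) :
    P.Bs A (Finsupp.single ∅ 1) (c * (1 + 20 * P.ε)) := by
  intro b hb n g lam hv η hη
  have c0 : 0 ≤ c * (1 + 20 * P.ε) * P.nv g lam :=
    mul_nonneg (mul_nonneg hc.le (by linarith [P.ε0])) (Real.sqrt_nonneg _)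
  have key : P.val b (P.ms g) lam 0 ∅ n 0 ≤ ENNReal.ofReal (c * (1 + 20 * P.ε) * P.nv g lam) := by
    by_contra hlt
    obtain ⟨β, β0, β1, β2⟩ := ENNReal.lt_iff_exists_real_btwn.1 (not_le.1 hlt)
    rw [ENNReal.ofReal_lt_ofReal_iff_of_nonneg c0] at β1
    let d : P.Dat := ⟨b, P.ms g, lam, 0, ∅, β, fun i => (hb i).bd, P.ms_cont hv.g2,
      P.ms_nn hv.g0, hv.l0, hv.l2, inferInstance, Par.Tube.empty, β0⟩
    obtain ⟨f, hf⟩ := Par.exists_bar d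
      (le_iInf fun k => le_iSup_of_le n (β2.le.trans (le_of_eq rfl)))
    obtain ⟨w, w1, w2, w3⟩ := mem_In63 hA d hb hv rfl rfl rfl (c0.trans_lt β1) hf
    have h1 := mul_le_mul_of_nonneg_left (h w w1 w2) (sq_nonneg β)
    have h2 := mul_le_mul_of_nonneg_left w3 (sq_nonneg c)
    have h3 := pow_lt_pow_left₀ β1 c0 two_ne_zero
    simp only [d, mul_pow] at h2 h3
    nlinarith
  have h1 := key.trans_lt ((ENNReal.ofReal_lt_ofReal_iff_of_nonneg c0).2 (lt_add_of_pos_right _ hη))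
  simp only [Par.val, Par.W, iInf_lt_iff] at h1
  obtain ⟨y, hy, x, hx, l, hl, h2⟩ := h1
  refine ⟨Finsupp.single (∅, x, l) 1, ⟨fun i => ?_, fun i hi => ?_, Finsupp.mapDomain_single⟩, ?_⟩
  · classical
    rw [Finsupp.single_apply]
    split_ifs
    exacts [zero_le_one, le_rfl]
  · rw [Finset.mem_singleton.1 (Finsupp.support_single_subset hi)]
    exact ⟨hx, y, hy, hl⟩
  · rw [Par.ex, Finsupp.sum_single_index (zero_mul _), one_mul]
    exact (ENNReal.ofReal_le_ofReal_iff (by linarith)).1 (le_self_add.trans h2.le)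

end Vale.Agent.P116.K
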