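import Vale.Agent.P116.K.Fit
import Vale.Agent.P116.K.CluA

/-! P116 K/InFit (helper63): a near identity map of the closed square into the box `P.R`. -/

open MeasureTheory Set Metric Filter Topology Complex
open scoped ENNReal

noncomputable section

namespace Vale.Agent.P116.K

open Vale.Agent.P128

/-- Near identity maps from the square to the box. -/
structure FitV (P : Par) (τ : ℂ → ℂ) (N : Set ℂ) : Prop where
  lip : ∀ z z', dist (τ z) (τ z') ≤ (1 + 8 * P.ε) * dist z z'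
  anti : ∀ z z', (1 - 8 * P.ε) * dist z z' ≤ dist (τ z) (τ z')
  op : IsOpen N
  nb : closure (P.nb 0) ⊆ N
  sub : N ⊆ Q
  id : ∀ z ∈ N, τ z = z
  out : ∀ z, z ∉ N → τ z ∉ N
  box : MapsTo τ Qc P.R
  bot : ∀ z : ℂ, z.im = 0 → (τ z).im = -P.δ
  top : ∀ z : ℂ, z.im = 1 → (τ z).im = 1 + P.δ

theorem far_InFit (P : Par) {z : ℂ} (hz : z ∈ P.E) : (P.δ / P.ε ≤ z.re ∧ z.re ≤ 1 - P.δ / P.ε) ∧
    P.δ / P.ε ≤ z.im ∧ z.im ≤ 1 - P.δ / P.ε := by
  obtain ⟨⟨x1, x2⟩, x3, x4⟩ := mem_reProdIm.1 (P.dom.sub hz)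
  have h1 := P.far z hz ⟨0, z.im⟩ fun h => lt_irrefl _ h.1.1
  have h2 := P.far z hz ⟨1, z.im⟩ fun h => lt_irrefl _ h.1.2
  have h3 := P.far z hz ⟨z.re, 0⟩ fun h => lt_irrefl _ h.2.1
  have h4 := P.far z hz ⟨z.re, 1⟩ fun h => lt_irrefl _ h.2.2
  rw [dist_of_im_eq (by rfl), Real.dist_eq] at h1 h2
  rw [dist_of_re_eq (by rfl), Real.dist_eq] at h3 h4
  rw [sub_zero, abs_of_pos (by assumption)] at h1 h3
  rw [abs_of_neg (by linarith)] at h2 h4
  exact ⟨⟨h1, by linarith⟩, h3, by linarith⟩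

theorem exists_fitV (P : Par) : ∃ τ N, FitV P τ N := by
  have e0 := P.ε0
  have e1 := P.ε1
  have d0 := P.δ0
  obtain ⟨κ, hκ⟩ : ∃ κ : ℝ, κ = P.δ / P.ε / 2 := ⟨_, rfl⟩
  have k1 : 2 * P.ε * κ = P.δ := by rw [hκ]; field_simp
  have k0 : 0 < κ := by rw [hκ]; positivity
  have k2 : κ ≤ 1 / 4 := by
    obtain ⟨z, hz⟩ := P.ne
    have := (far_InFit P hz).1
    linarith [this.1, this.2]
  have k3 : 50 * P.δ ≤ κ := by nlinarith
  obtain ⟨l, hl⟩ : ∃ l : ℝ, l = 2 * P.ε := ⟨_, rfl⟩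
  have l0 : 0 < l := by linarith
  have l2 : l ≤ 1 / 16 := by linarith
  rw [← hl] at k1
  obtain ⟨τ, t1, t2⟩ : ∃ τ : ℂ → ℂ, (∀ z, (τ z).re = z.re + l * g_Fit κ z.re) ∧
      ∀ z, (τ z).im = z.im - l * g_Fit κ z.im :=
    ⟨fun z => ⟨z.re + l * g_Fit κ z.re, z.im - l * g_Fit κ z.im⟩, fun _ => rfl, fun _ => rfl⟩
  have h1 : ∀ z z', ‖(τ z - τ z') - (z - z')‖ ≤ 4 * l * ‖z - z'‖ := fun z z' => by
    refine (norm_le_abs_re_add_abs_im _).trans ?_
    have e1 : (τ z - τ z' - (z - z')).re = l * (g_Fit κ z.re - g_Fit κ z'.re) := by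
      simp only [sub_re, t1]; ring
    have e2 : (τ z - τ z' - (z - z')).im = -(l * (g_Fit κ z.im - g_Fit κ z'.im)) := by
      simp only [sub_im, t2]; ring
    have e3 := (lip_Fit κ z.re z'.re).trans
      (mul_le_mul_of_nonneg_left (abs_re_le_norm (z - z')) zero_le_two)
    have e4 := (lip_Fit κ z.im z'.im).trans
      (mul_le_mul_of_nonneg_left (abs_im_le_norm (z - z')) zero_le_two)
    rw [e1, e2, abs_neg, abs_mul, abs_mul, abs_of_pos l0]
    nlinarith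
  have h2 : ∀ z ∈ Ioo κ (1 - κ) ×ℂ Ioo κ (1 - κ), τ z = z := fun z hz => by
    obtain ⟨⟨x1, x2⟩, x3, x4⟩ := mem_reProdIm.1 hz
    refine Complex.ext ?_ ?_
    · rcases case_Fit k2 z.re with h | h | h
      · linarith [h.1]
      · linarith [h.1]
      · rw [t1, h.2.2, mul_zero, add_zero]
    · rcases case_Fit k2 z.im with h | h | h
      · linarith [h.1]
      · linarith [h.1]
      · rw [t2, h.2.2, mul_zero, sub_zero]
  refine ⟨τ, Ioo κ (1 - κ) ×ℂ Ioo κ (1 - κ), fun z z' => ?_, fun z z' => ?_,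
    isOpen_Ioo.reProdIm isOpen_Ioo, fun y hy => ?_, fun z hz => ?_, h2, fun z hz hE' => ?_,
    fun z hz => ?_, fun z hz => ?_, fun z hz => ?_⟩
  · have := norm_sub_norm_le (τ z - τ z') (z - z')
    rw [dist_eq_norm, dist_eq_norm]
    have := h1 z z'
    rw [hl] at this
    linarith
  · have := norm_sub_norm_le (z - z') (τ z - τ z')
    rw [norm_sub_rev (z - z')] at this
    rw [dist_eq_norm, dist_eq_norm]
    have := h1 z z'
    rw [hl] at this
    linarith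
  · obtain ⟨x, hx, hxy⟩ := Metric.mem_closure_iff.1 hy P.δ d0
    obtain ⟨z, hz, hxz⟩ := mem_thickening_iff.1 hx
    have h3 : dist y z < 2 * P.δ := by
      have := dist_triangle y x z
      simp only [Nat.cast_zero, zero_add, div_one] at hxz
      linarith
    rw [dist_eq_norm] at h3
    have h4 := abs_lt.1 ((abs_re_le_norm (y - z)).trans_lt h3)
    have h5 := abs_lt.1 ((abs_im_le_norm (y - z)).trans_lt h3)
    obtain ⟨⟨a1, a2⟩, a3, a4⟩ := far_InFit P hz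
    rw [sub_re] at h4
    rw [sub_im] at h5
    exact mem_reProdIm.2 ⟨⟨by linarith [h4.1], by linarith [h4.2]⟩, by linarith [h5.1],
      by linarith [h5.2]⟩
  · obtain ⟨⟨x1, x2⟩, x3, x4⟩ := mem_reProdIm.1 hz
    exact mem_reProdIm.2 ⟨⟨by linarith, by linarith⟩, by linarith, by linarith⟩
  · obtain ⟨⟨y1, y2⟩, y3, y4⟩ := mem_reProdIm.1 hE'
    rw [t1] at y1 y2
    rw [t2] at y3 y4
    refine hz (mem_reProdIm.2 ⟨?_, ?_⟩)
    · rcases case_Fit k2 z.re with ⟨h, e⟩ | ⟨h, e⟩ | ⟨h, h', e⟩ <;> rw [e] at y1 y2 <;>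
        constructor <;> nlinarith
    · rcases case_Fit k2 z.im with ⟨h, e⟩ | ⟨h, e⟩ | ⟨h, h', e⟩ <;> rw [e] at y3 y4 <;>
        constructor <;> nlinarith
  · obtain ⟨⟨x1, x2⟩, x3, x4⟩ := mem_reProdIm.1 hz
    refine mem_reProdIm.2 ⟨?_, ?_⟩
    · rw [t1, ← k1]
      rcases case_Fit k2 z.re with ⟨h, e⟩ | ⟨h, e⟩ | ⟨h, h', e⟩ <;> rw [e] <;>
        constructor <;> nlinarith
    · rw [t2, ← k1]
      rcases case_Fit k2 z.im with ⟨h, e⟩ | ⟨h, e⟩ | ⟨h, h', e⟩ <;> rw [e] <;>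
        constructor <;> nlinarith
  · rcases case_Fit k2 z.im with ⟨h, e⟩ | ⟨h, e⟩ | ⟨h, h', e⟩
    · rw [t2, e, hz, ← k1]; ring
    · linarith
    · linarith
  · rcases case_Fit k2 z.im with ⟨h, e⟩ | ⟨h, e⟩ | ⟨h, h', e⟩
    · linarith
    · rw [t2, e, hz, ← k1]; ring
    · linarith

namespace FitV
variable {P : Par} {τ : ℂ → ℂ} {N : Set ℂ}

theorem cont (h : FitV P τ N) : Continuous τ :=
  (LipschitzWith.of_dist_le' h.lip).continuous

theorem subE (h : FitV P τ N) : P.E ⊆ N := (P.sub_nb 0).trans (subset_closure.trans h.nb)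

theorem offE (h : FitV P τ N) {z : ℂ} (hz : z ∉ P.E) : τ z ∉ P.E := by
  by_cases hN : z ∈ N
  · rwa [h.id z hN]
  · exact fun k => h.out z hN (h.subE k)

/-- Square integrals of compositions. -/
theorem l2 (h : FitV P τ N) {ρ : ℂ → ℝ} (hρ : MemLp ρ 2 volume) :
    Integrable (fun z => ρ (τ z) ^ 2) ∧
      ∫ z, ρ (τ z) ^ 2 ≤ ((1 - 8 * P.ε)⁻¹) ^ 2 * ∫ z, ρ z ^ 2 := by
  have l3 : 0 < 1 - 8 * P.ε := by linarith [P.ε1]
  have hB : AntilipschitzWith (NNReal.mk (1 - 8 * P.ε)⁻¹ (by positivity)) τ :=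
    .of_le_mul_dist fun z z' => by
      rw [NNReal.coe_mk, le_inv_mul_iff₀ l3]
      exact h.anti z z'
  have h1 := map_Fit h.cont hB
  have i0 := hρ.integrable_sq.smul_measure
    (c := (((NNReal.mk (1 - 8 * P.ε)⁻¹ (by positivity)) ^ 2 : NNReal) : ℝ≥0∞)) ENNReal.coe_ne_top
  have i1 := i0.mono_measure h1
  have e1 := integral_mono_measure h1 (ae_of_all _ fun z => sq_nonneg (ρ z)) i0
  rw [integral_map h.cont.aemeasurable i1.1, integral_smul_measure, ENNReal.coe_toReal,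
    smul_eq_mul, NNReal.coe_pow, NNReal.coe_mk] at e1
  exact ⟨(integrable_map_measure i1.1 h.cont.aemeasurable).1 i1, e1⟩

/-- Good weights compose. -/
theorem gw (h : FitV P τ N) {ρ : ℂ → ℝ} (hρ : Gw P.E ρ) (h2 : MemLp ρ 2 volume) {K : ℝ}
    (hK : 0 ≤ K) : Gw P.E fun z => K * ρ (τ z) := by
  refine ⟨⟨continuousOn_const.mul (hρ.cont.comp h.cont.continuousOn fun z hz => h.offE hz),
    fun z => mul_nonneg hK (hρ.nn _), ?_⟩, ?_⟩
  · simp only [mul_pow]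
    exact ((h.l2 h2).1.const_mul _).integrableOn
  obtain ⟨g, g1, g2, g3⟩ := hρ.sup
  have hS : IsCompact (closedBall (0 : ℂ) 4 \ N) := (isCompact_closedBall _ _).diff h.op
  obtain ⟨M, hM⟩ := (hS.image_of_continuousOn ((hρ.cont.comp h.cont.continuousOn
    fun z hz => h.offE hz).mono fun z hz k => hz.2 (h.subE k))).bddAbove
  have hQ : ∀ x ∈ Q, ‖x‖ ≤ 2 := fun x hx => by
    obtain ⟨⟨x1, x2⟩, x3, x4⟩ := mem_reProdIm.1 hx
    have := norm_le_abs_re_add_abs_im x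
    rw [abs_of_pos x1, abs_of_pos x3] at this
    linarith
  refine ⟨fun x => K * (g x + (closedBall (0 : ℂ) 2).indicator (fun _ => max M 0) x),
    (g1.add (memLp_indicator_const 2 measurableSet_closedBall _
      (Or.inr measure_closedBall_lt_top.ne))).const_mul K,
    fun x => mul_nonneg hK (add_nonneg (g2 x) (indicator_nonneg (fun _ _ => le_max_right _ _) x)),
    fun x hx y hy => mul_le_mul_of_nonneg_left ?_ hK⟩
  rw [indicator_of_mem (mem_closedBall_zero_iff.2 (hQ x hx.1))]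
  by_cases hN : y ∈ N
  · rw [h.id y hN]
    exact (g3 x hx y hy).trans (le_add_of_nonneg_right (le_max_right _ _))
  · refine (hM ⟨y, ⟨mem_closedBall_zero_iff.2 ?_, hN⟩, rfl⟩).trans
      ((le_max_left M 0).trans (le_add_of_nonneg_left (g2 x)))
    obtain ⟨p, hp⟩ := P.ne
    have a1 := infDist_le_dist_of_mem (x := x) hp
    have a2 := dist_le_norm_add_norm x p
    have a3 := norm_le_norm_add_norm_sub' y x
    have a4 := mem_ball.1 hy
    rw [dist_eq_norm] at a4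
    linarith [hQ x hx.1, hQ p (P.dom.sub hp)]

/-- Majorants compose. -/
theorem maj (h : FitV P τ N) {u ρ : ℂ → ℝ} (hc : ContinuousOn ρ P.Eᶜ) (h0 : ∀ z, 0 ≤ ρ z)
    (hm : Maj P.E P.R u ρ) : ∀ x ∈ Qc \ P.E, ∀ K, (1 + 8 * P.ε) * ρ (τ x) < K →
      ∀ᶠ y in 𝓝[Qc \ P.E] x, |u (τ y) - u (τ x)| ≤ K * dist y x := by
  intro x hx K hK
  have e0 : 0 < 1 + 8 * P.ε := by linarith [P.ε0]
  rw [← lt_div_iff₀' e0] at hK
  have hx' := h.offE hx.2
  have h1 : ∀ᶠ y in 𝓝 (τ x), y ∉ P.E ∧ ρ y < K / (1 + 8 * P.ε) :=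
    (P.dom.cpt.isClosed.isOpen_compl.eventually_mem hx').and
      ((hc.continuousAt (P.dom.cpt.isClosed.isOpen_compl.mem_nhds hx')).eventually
        (gt_mem_nhds hK))
  obtain ⟨r, hr, hb⟩ := Metric.eventually_nhds_iff_ball.1 h1
  have hR : Convex ℝ P.R := 
    ((convex_Icc _ _).linear_preimage reLm).inter ((convex_Icc _ _).linear_preimage imLm)
  have h2 := hm (ball (τ x) r ∩ P.R) ((convex_ball _ _).inter hR)
    (fun z hz => ⟨hz.2, (hb z hz.1).1⟩) _ fun z hz => (hb z hz.1).2.le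
  filter_upwards [self_mem_nhdsWithin, mem_nhdsWithin_of_mem_nhds
    (h.cont.continuousAt.preimage_mem_nhds (ball_mem_nhds (τ x) hr))] with y hy hy'
  refine (h2 _ ⟨hy', h.box hy.1⟩ _ ⟨mem_ball_self hr, h.box hx.1⟩).trans ?_
  refine (mul_le_mul_of_nonneg_left (h.lip y x) ((h0 _).trans hK.le)).trans (le_of_eq ?_)
  field_simp

end FitV

end Vale.Agent.P116.K
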