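import Vale.Agent.P116.K.Bs64

/-! P116 K/Init (owner helper26). Fix b n g lam eta. Put d = (b, ms g, lam, nu = 0, Z = empty, beta). Claim val n 0 ≤ c nv for all n (val is monotone in n, W_mono; no dependence on k as nu = 0). Otherwise some beta > c nv, beta > 0, satisfies the hypothesis of exists_bar. Pull f / beta back by the piecewise linear product map Psi = (psi1 re, psi2 im) from Qc onto R, the identity on the square at distance delta / eps from the boundary, slopes 1 - eps and 1 + eps on the margins (if delta/eps ≤ 1/2 by far and ne); exists_tf; V from bot and top; weight (1+eps) * ms g (Psi z) / beta; change of variables costs 1/(1-eps); Gw: Psi distorts distances to E by a bounded factor, or replace the weight near the margins by ms_gw applied to g and boundedness of ms g off nb 0; bar_cmp; exists_mono; energy bound by fn_of_maj, ms_l2 contradicts m. Then one almost optimal chain gives the plan Finsupp.single. -/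

open MeasureTheory Set Metric Filter Topology Complex
open scoped ENNReal

noncomputable section

namespace Vale.Agent.P116.K

open Vale.Agent.P128

theorem init (P : Par) {A : List (TF P.E)} (hA : Fam A) {m : ℝ} (hm : 0 < m)
    (h : ∀ w : TF P.E, Mem w → w.V → (∀ a ∈ A, a.Cmp w) → m ≤ w.en) :
    P.Bs A (Finsupp.single ∅ 1) ((1 + 10 * P.ε) / √m) := by
  have h0 : 0 < √m := Real.sqrt_pos.2 hm
  rw [div_eq_inv_mul]
  refine P.base64 hA (inv_pos.2 h0) fun w hv hw => ?_
  rw [inv_pow, Real.sq_sqrt hm.le, le_inv_mul_iff₀ hm, mul_one]
  exact h w (hw.1 w List.mem_cons_self) hv fun a ha =>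
    hw.2 a (List.mem_cons_of_mem _ ha) w List.mem_cons_self

end Vale.Agent.P116.K
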