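import Vale.Agent.P116.K.Tf
import Vale.Agent.P116.K.Clu

/-! P116 K/Ker: the kernel. r is eps-Lipschitz, positive off E, at most eps*delta; for |y-x| < r x one has r y between (1-eps) r x and (1+eps) r x. Schur test: the y-integral of ker is 1 off E (0 on E), the x-integral is at most ((1+eps)/(1-eps))^2. -/

open MeasureTheory Set Metric Filter Topology Complex
open scoped ENNReal

noncomputable section

namespace Vale.Agent.P116.K

open Vale.Agent.P128

namespace Par
variable (P : Par)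

theorem r_lip (x y : ℂ) : |P.r x - P.r y| ≤ P.ε * dist x y := by
  rw [r, r, ← mul_sub, abs_mul, abs_of_pos P.ε0]
  refine mul_le_mul_of_nonneg_left ((abs_min_sub_min_le_max _ _ _ _).trans (max_le ?_ ?_)) P.ε0.le
  · simpa [Real.dist_eq] using (lipschitz_infDist_pt P.E).dist_le_mul x y
  · simp
theorem r_nn (x : ℂ) : 0 ≤ P.r x :=
  mul_nonneg P.ε0.le (le_min infDist_nonneg P.δ0.le)
theorem r_pos {x : ℂ} (hx : x ∉ P.E) : 0 < P.r x :=
  mul_pos P.ε0 (lt_min ((P.dom.cpt.isClosed.notMem_iff_infDist_pos P.ne).1 hx) P.δ0)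
theorem r_le (x : ℂ) : P.r x ≤ P.ε * P.δ ∧ P.r x ≤ P.ε * infDist x P.E :=
  ⟨mul_le_mul_of_nonneg_left (min_le_right _ _) P.ε0.le,
    mul_le_mul_of_nonneg_left (min_le_left _ _) P.ε0.le⟩
theorem φ_nn (h : ℂ) : 0 ≤ φ h :=
  mul_nonneg (div_nonneg (by norm_num) Real.pi_pos.le) (le_max_left _ _)
theorem φ_cont : Continuous φ := by
  unfold φ
  fun_prop
theorem φ_zero {h : ℂ} (hh : 1 ≤ ‖h‖) : φ h = 0 := by
  rw [φ, max_eq_left (sub_nonpos.2 hh), mul_zero]
theorem φ_int : Integrable φ ∧ ∫ h, φ h = 1 := by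
  refine ⟨φ_cont.integrable_of_hasCompactSupport (HasCompactSupport.intro
    (isCompact_closedBall (0 : ℂ) 1) fun x hx => φ_zero ?_), ?_⟩
  · simpa using (not_le.1 (mem_closedBall_zero_iff.not.1 hx)).le
  have h1 := integral_fun_norm_addHaar (volume : Measure ℂ) fun y => 3 / Real.pi * max 0 (1 - y)
  have h2 : ∫ y in Ioi (0 : ℝ), y ^ (2 - 1) • (3 / Real.pi * max 0 (1 - y)) =
      ∫ y in (0 : ℝ)..1, 3 / Real.pi * (y - y ^ 2) := by
    rw [intervalIntegral.integral_of_le zero_le_one,
      setIntegral_eq_of_subset_of_forall_sdiff_eq_zero measurableSet_Ioi Ioc_subset_Ioi_self]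
    · refine setIntegral_congr_fun measurableSet_Ioc fun y hy => ?_
      simp only [max_eq_right (sub_nonneg.2 hy.2), smul_eq_mul]
      ring
    · intro y hy
      have h3 : 1 < y := not_le.1 fun h => hy.2 ⟨hy.1, h⟩
      rw [max_eq_left (sub_nonpos.2 h3.le), mul_zero, smul_zero]
  rw [finrank_real_complex, h2, intervalIntegral.integral_const_mul,
    intervalIntegral.integral_sub (by simp) (by simp), integral_id, integral_pow] at h1
  refine h1.trans ?_
  simp only [Measure.real, Complex.volume_ball, ENNReal.ofReal_one, one_pow, one_mul,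
    ENNReal.coe_toReal, NNReal.coe_real_pi, smul_eq_mul, nsmul_eq_mul]
  field_simp
  norm_num

end Par

end Vale.Agent.P116.K
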