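import Vale.Agent.P116.K.KerA

/-! P116 K/Ker: the kernel. r is eps-Lipschitz, positive off E, at most eps*delta; for |y-x| < r x one has r y between (1-eps) r x and (1+eps) r x. Schur test: the y-integral of ker is 1 off E (0 on E), the x-integral is at most ((1+eps)/(1-eps))^2. -/

open MeasureTheory Set Metric Filter Topology Complex
open scoped ENNReal

noncomputable section

namespace Vale.Agent.P116.K

open Vale.Agent.P128

namespace Par
variable (P : Par)

theorem cont_KerB : Continuous P.r :=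
  continuous_const.mul ((continuous_infDist_pt P.E).min continuous_const)

theorem bump_KerB (x : ℂ) {R : ℝ} (hR : 0 < R) :
    Integrable (fun y => φ ((y - x) / (R : ℂ))) ∧ ∫ y, φ ((y - x) / (R : ℂ)) = R ^ 2 := by
  have e : (fun y => φ ((y - x) / (R : ℂ))) = fun y => (fun y => φ (R⁻¹ • y)) (y - x) := by
    funext y
    simp only [real_smul, ofReal_inv, div_eq_inv_mul]
  rw [e]
  refine ⟨(φ_int.1.comp_smul (inv_ne_zero hR.ne')).comp_sub_right x, ?_⟩
  rw [integral_sub_right_eq_self (fun y => φ (R⁻¹ • y)) x,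
    Measure.integral_comp_inv_smul_of_nonneg volume φ hR.le, φ_int.2, finrank_real_complex,
    smul_eq_mul, mul_one]

theorem near_KerB {x y : ℂ} (h : dist x y < P.r x) :
    (1 - P.ε) * P.r x ≤ P.r y ∧ P.r y ≤ (1 + P.ε) * P.r x := by
  have h1 := abs_le.1 (P.r_lip x y)
  have h2 := mul_le_mul_of_nonneg_left h.le P.ε0.le
  constructor <;> linarith [h1.1, h1.2]

theorem mono_KerB {h h' : ℂ} (hh : ‖h'‖ ≤ ‖h‖) : φ h ≤ φ h' :=
  mul_le_mul_of_nonneg_left (max_le_max le_rfl (by linarith)) (by positivity)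

theorem ker_nn (x y : ℂ) : 0 ≤ P.ker x y := div_nonneg (φ_nn _) (sq_nonneg _)

theorem ker_zero {x y : ℂ} (h : P.r x ≤ dist x y) : P.ker x y = 0 := by
  rcases (P.r_nn x).eq_or_lt with h0 | h0
  · rw [ker, ← h0, zero_pow two_ne_zero, div_zero]
  · rw [ker, φ_zero, zero_div]
    rwa [norm_div, norm_real, Real.norm_of_nonneg h0.le, one_le_div h0, ← dist_eq_norm, dist_comm]

theorem ker_meas : Measurable fun q : ℂ × ℂ => P.ker q.1 q.2 := by
  have h : Measurable fun q : ℂ × ℂ => P.r q.1 := P.cont_KerB.measurable.comp measurable_fst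
  exact (φ_cont.measurable.comp ((measurable_snd.sub measurable_fst).div
    (measurable_ofReal.comp h))).div (h.pow_const 2)

theorem ker_cont : ContinuousOn (fun q : ℂ × ℂ => P.ker q.1 q.2) {q | q.1 ∉ P.E ∨ q.2 ∉ P.E} := by
  intro q hq
  refine ContinuousAt.continuousWithinAt ?_
  have h : Continuous fun q : ℂ × ℂ => P.r q.1 := P.cont_KerB.comp continuous_fst
  rcases (P.r_nn q.1).eq_or_lt with h0 | h0
  · have h1 : q.1 ∈ P.E := by_contra fun hc => (P.r_pos hc).ne h0
    have h2 : q.1 ≠ q.2 := fun e => hq.elim (fun h => h h1) fun h => h (e ▸ h1)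
    have h3 : ∀ᶠ p : ℂ × ℂ in 𝓝 q, P.r p.1 < dist p.1 p.2 :=
      h.continuousAt.eventually_lt (continuous_fst.dist continuous_snd).continuousAt
        (by rw [← h0]; exact dist_pos.2 h2)
    exact (continuousAt_const (y := (0 : ℝ))).congr
      (h3.mono fun p hp => (P.ker_zero hp.le).symm)
  · exact (φ_cont.continuousAt.comp ((continuous_snd.sub continuous_fst).continuousAt.div
      (continuous_ofReal.comp h).continuousAt (ofReal_ne_zero.2 h0.ne'))).div
        (h.pow 2).continuousAt (pow_ne_zero 2 h0.ne')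

theorem ker_int_y (x : ℂ) : Integrable (P.ker x) ∧ ∫ y, P.ker x y ≤ 1 := by
  rcases (P.r_nn x).eq_or_lt with h0 | h0
  · have e : P.ker x = fun _ => 0 := funext fun y => P.ker_zero (h0 ▸ dist_nonneg)
    rw [e]
    simp
  · obtain ⟨h1, h2⟩ := bump_KerB x h0
    refine ⟨h1.div_const _, ?_⟩
    simp only [ker]
    rw [integral_div, h2, div_self (pow_ne_zero 2 h0.ne')]

theorem ker_int_x (y : ℂ) : Integrable (fun x => P.ker x y) ∧
    ∫ x, P.ker x y ≤ ((1 + P.ε) / (1 - P.ε)) ^ 2 := by
  have e0 := P.ε0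
  have e1 : 0 < 1 - P.ε := by linarith [P.ε1]
  rcases (P.r_nn y).eq_or_lt with h0 | h0
  · have e : (fun x => P.ker x y) = fun _ => 0 := funext fun x => P.ker_zero (by
      by_contra hc
      have h1 := (P.near_KerB (not_le.1 hc)).1
      have h2 := mul_pos e1 (dist_nonneg.trans_lt (not_le.1 hc))
      linarith)
    rw [e]
    simp [sq_nonneg]
  have hR : 0 < P.r y / (1 - P.ε) := div_pos h0 e1
  obtain ⟨h1, h2⟩ := bump_KerB y hR
  have key : ∀ x, P.ker x y ≤
      φ ((x - y) / ((P.r y / (1 - P.ε) : ℝ) : ℂ)) / (P.r y / (1 + P.ε)) ^ 2 := fun x => by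
    rcases le_or_gt (P.r x) (dist x y) with hc | hc
    · rw [P.ker_zero hc]
      exact div_nonneg (φ_nn _) (sq_nonneg _)
    obtain ⟨a, b⟩ := P.near_KerB hc
    have hx : 0 < P.r x := dist_nonneg.trans_lt hc
    refine div_le_div₀ (φ_nn _) (mono_KerB ?_) (by positivity) (pow_le_pow_left₀ (by positivity) ?_ 2)
    · rw [norm_div, norm_div, norm_real, norm_real, Real.norm_of_nonneg hR.le,
        Real.norm_of_nonneg hx.le, norm_sub_rev]
      refine div_le_div_of_nonneg_left (norm_nonneg _) hx ?_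
      rw [le_div_iff₀ e1]
      linarith
    · rw [div_le_iff₀ (by positivity)]
      linarith
  have hm : Measurable fun x => P.ker x y :=
    Measurable.comp (g := fun q : ℂ × ℂ => P.ker q.1 q.2) (f := fun x => (x, y)) P.ker_meas
      (measurable_id.prodMk measurable_const)
  have hi := h1.div_const ((P.r y / (1 + P.ε)) ^ 2)
  have h3 : Integrable fun x => P.ker x y := hi.mono' hm.aestronglyMeasurable
    (.of_forall fun x => by rw [Real.norm_of_nonneg (P.ker_nn x y)]; exact key x)
  refine ⟨h3, (integral_mono h3 hi key).trans_eq ?_⟩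
  have e3 : P.r y / (1 - P.ε) / (P.r y / (1 + P.ε)) = (1 + P.ε) / (1 - P.ε) := by
    field_simp
  rw [integral_div, h2, ← div_pow, e3]

/-- A bound that is uniform for `y` in a compact set off `E`. -/
theorem ker_dom {S : Set ℂ} (hS : IsCompact S) (hd : Disjoint S P.E) : ∃ (C : ℝ) (T : Set ℂ),
    IsCompact T ∧ Disjoint T P.E ∧ ∀ y ∈ S, ∀ x, P.ker x y ≤ T.indicator (fun _ => C) x := by
  obtain ⟨m, hm, hm'⟩ := hS.exists_forall_le' (f := P.r) (a := 0) P.cont_KerB.continuousOn
    fun y hy => P.r_pos (disjoint_left.1 hd hy)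
  refine ⟨φ 0 / (m / 2) ^ 2, cthickening (P.ε * P.δ) S ∩ {x | m / 2 ≤ P.r x},
    hS.cthickening.inter_right (isClosed_le continuous_const P.cont_KerB),
    disjoint_left.2 fun x hx hE => ?_, fun y hy x => ?_⟩
  · have h1 := (P.r_le x).2
    have h2 : m / 2 ≤ P.r x := hx.2
    rw [infDist_zero_of_mem hE] at h1
    linarith
  rcases le_or_gt (P.r x) (dist x y) with hc | hc
  · rw [P.ker_zero hc]
    exact indicator_nonneg (fun _ _ => div_nonneg (φ_nn _) (sq_nonneg _)) _
  have h1 : m / 2 ≤ P.r x := by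
    have a := (P.near_KerB hc).2
    have b := hm' y hy
    have c := mul_le_mul_of_nonneg_right P.ε1 (P.r_nn x)
    have d := P.r_nn x
    linarith
  rw [indicator_of_mem (show x ∈ cthickening (P.ε * P.δ) S ∩ {x | m / 2 ≤ P.r x} from
    ⟨mem_cthickening_of_dist_le x y _ S hy (hc.le.trans (P.r_le x).1), h1⟩)]
  exact div_le_div₀ (φ_nn _) (mono_KerB (norm_zero.trans_le (norm_nonneg _))) (by positivity)
    (pow_le_pow_left₀ (by positivity) h1 2)

end Par

end Vale.Agent.P116.K
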