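import Vale.Agent.P116.K.KerB

/-! P116 K/Ker: the kernel. r is eps-Lipschitz, positive off E, at most eps*delta; for |y-x| < r x one has r y between (1-eps) r x and (1+eps) r x. Schur test: the y-integral of ker is 1 off E (0 on E), the x-integral is at most ((1+eps)/(1-eps))^2. -/

open MeasureTheory Set Metric Filter Topology Complex
open scoped ENNReal

noncomputable section

namespace Vale.Agent.P116.K

open Vale.Agent.P128

namespace Par
variable (P : Par)

variable {P}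
theorem meas_KerC {g : ℂ → ℝ} (h2 : MemLp g 2 volume) (y : ℂ) :
    AEStronglyMeasurable (fun x => P.ker x y * g x) volume :=
  (P.ker_meas.comp (measurable_id.prodMk measurable_const)).aestronglyMeasurable.mul h2.1

theorem dom_KerC {g : ℂ → ℝ} (h2 : MemLp g 2 volume) {S : Set ℂ} (hS : IsCompact S)
    (hd : Disjoint S P.E) : ∃ B : ℂ → ℝ, Integrable B ∧ ∀ y ∈ S, ∀ x, ‖P.ker x y * g x‖ ≤ B x := by
  obtain ⟨C, T, hT, -, h⟩ := P.ker_dom hS hd
  refine ⟨fun x => T.indicator (fun _ => C) x * ‖g x‖,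
    (memLp_indicator_const 2 hT.measurableSet C (Or.inr hT.measure_lt_top.ne)).integrable_mul
      h2.norm, fun y hy x => ?_⟩
  rw [norm_mul, Real.norm_of_nonneg (P.ker_nn x y)]
  exact mul_le_mul_of_nonneg_right (h y hy x) (norm_nonneg _)

theorem int_KerC {g : ℂ → ℝ} (h2 : MemLp g 2 volume) {y : ℂ} (hy : y ∉ P.E) :
    Integrable fun x => P.ker x y * g x := by
  obtain ⟨B, hB, h⟩ := dom_KerC (P := P) h2 isCompact_singleton (disjoint_singleton_left.2 hy)
  exact hB.mono' (meas_KerC h2 y) (ae_of_all _ (h y rfl))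

theorem cs_KerC {k g : ℂ → ℝ} {A : ℝ} (hA : 0 < A) (h0 : ∀ x, 0 ≤ k x) (h1 : Integrable k)
    (h2 : Integrable fun x => k x * g x ^ 2) (h3 : AEStronglyMeasurable (fun x => k x * g x) volume)
    (h4 : ∫ x, k x ≤ A) : (∫ x, k x * g x) ^ 2 ≤ A * ∫ x, k x * g x ^ 2 := by
  have h5 : Integrable fun x => k x * g x := by
    refine (h1.add h2).mono' h3 (ae_of_all _ fun x => ?_)
    rw [norm_mul, Real.norm_of_nonneg (h0 x), Real.norm_eq_abs, Pi.add_apply]
    have a : |g x| ≤ 1 + g x ^ 2 := by nlinarith [sq_nonneg (|g x| - 1), sq_abs (g x), abs_nonneg (g x)]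
    have := mul_le_mul_of_nonneg_left a (h0 x)
    linarith
  obtain ⟨t, ht⟩ : ∃ t : ℝ, t * A = ∫ x, k x * g x := ⟨_, div_mul_cancel₀ _ hA.ne'⟩
  have h6 : ∫ x, 2 * t * (k x * g x) ≤ ∫ x, (k x * g x ^ 2 + t ^ 2 * k x) :=
    integral_mono (h5.const_mul _) (h2.add (h1.const_mul _)) fun x => by
      have := mul_nonneg (h0 x) (sq_nonneg (g x - t))
      linarith
  rw [integral_add h2 (h1.const_mul _), integral_const_mul, integral_const_mul, ← ht] at h6
  have h7 := mul_le_mul_of_nonneg_left h4 (sq_nonneg t)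
  rw [← ht]
  have h8 := mul_le_mul_of_nonneg_left (show t ^ 2 * A ≤ ∫ x, k x * g x ^ 2 by linarith) hA.le
  linarith

theorem ms_nn {g : ℂ → ℝ} (h0 : ∀ x, 0 ≤ g x) (y : ℂ) : 0 ≤ P.ms g y := by
  exact integral_nonneg fun x => mul_nonneg (P.ker_nn x y) (h0 x)
theorem ms_cont {g : ℂ → ℝ} (h2 : MemLp g 2 volume) : ContinuousOn (P.ms g) P.Eᶜ := by
  intro y hy
  obtain ⟨S, hS, hyS, hSE⟩ := exists_compact_subset P.dom.cpt.isClosed.isOpen_compl hy
  obtain ⟨B, hB, h⟩ := dom_KerC (P := P) h2 hS (disjoint_left.2 fun z hz => hSE hz)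
  refine (continuousAt_of_dominated (Eventually.of_forall fun z => meas_KerC h2 z) ?_ hB
    (ae_of_all _ fun x => Continuous.continuousAt ?_)).continuousWithinAt
  · filter_upwards [mem_interior_iff_mem_nhds.1 hyS] with z hz
    exact ae_of_all _ (h z hz)
  · unfold ker φ
    fun_prop
theorem ms_l2 {g : ℂ → ℝ} (h2 : MemLp g 2 volume) : MemLp (P.ms g) 2 volume ∧
    ∫ y, P.ms g y ^ 2 ≤ ((1 + P.ε) / (1 - P.ε)) ^ 2 * ∫ x, g x ^ 2 := by
  have hA : 0 < ((1 + P.ε) / (1 - P.ε)) ^ 2 := by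
    have h0 := P.ε0
    have h1 : 0 < 1 - P.ε := by linarith [P.ε1]
    positivity
  have hg := h2.integrable_sq
  have m1 : AEStronglyMeasurable (fun q : ℂ × ℂ => P.ker q.1 q.2 * g q.1) (volume.prod volume) :=
    P.ker_meas.aestronglyMeasurable.mul h2.1.comp_fst
  have m2 : AEStronglyMeasurable (fun q : ℂ × ℂ => P.ker q.1 q.2 * g q.1 ^ 2)
      (volume.prod volume) := P.ker_meas.aestronglyMeasurable.mul hg.1.comp_fst
  have e : ∀ x, ∫ y, P.ker x y * g x ^ 2 ≤ g x ^ 2 := fun x => by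
    rw [integral_mul_const]
    exact mul_le_of_le_one_left (sq_nonneg _) (P.ker_int_y x).2
  have hH : Integrable (fun q : ℂ × ℂ => P.ker q.1 q.2 * g q.1 ^ 2) (volume.prod volume) := by
    refine (integrable_prod_iff m2).2
      ⟨ae_of_all _ fun x => (P.ker_int_y x).1.mul_const (g x ^ 2), ?_⟩
    refine hg.mono' m2.norm.integral_prod_right' (ae_of_all _ fun x => ?_)
    rw [Real.norm_of_nonneg (integral_nonneg fun y => norm_nonneg _)]
    refine le_trans (le_of_eq (integral_congr_ae (ae_of_all _ fun y => ?_))) (e x)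
    exact Real.norm_of_nonneg (mul_nonneg (P.ker_nn x y) (sq_nonneg _))
  have hm : AEStronglyMeasurable (P.ms g) volume := m1.prod_swap.integral_prod_right'
  have hI : Integrable fun y => ((1 + P.ε) / (1 - P.ε)) ^ 2 * ∫ x, P.ker x y * g x ^ 2 :=
    hH.integral_prod_right.const_mul _
  have hb : ∀ᵐ y, P.ms g y ^ 2 ≤ ((1 + P.ε) / (1 - P.ε)) ^ 2 * ∫ x, P.ker x y * g x ^ 2 := by
    filter_upwards [hH.prod_left_ae] with y hy
    exact cs_KerC hA (fun x => P.ker_nn x y) (P.ker_int_x y).1 hy (meas_KerC h2 y)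
      (P.ker_int_x y).2
  have hs : Integrable fun y => P.ms g y ^ 2 := by
    refine hI.mono' (hm.pow 2) ?_
    filter_upwards [hb] with y hy
    rwa [Real.norm_of_nonneg (sq_nonneg _)]
  refine ⟨(memLp_two_iff_integrable_sq hm).2 hs, (integral_mono_ae hs hI hb).trans ?_⟩
  rw [integral_const_mul]
  refine mul_le_mul_of_nonneg_left ?_ hA.le
  rw [← integral_integral_swap (f := fun x y => P.ker x y * g x ^ 2) hH]
  exact integral_mono hH.integral_prod_left hg e
theorem ms_mono {g g' : ℂ → ℝ} (h : MemLp g 2 volume) (h' : MemLp g' 2 volume)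
    (hl : ∀ᵐ x, g x ≤ g' x) {y : ℂ} (hy : y ∉ P.E) : P.ms g y ≤ P.ms g' y := by
  refine integral_mono_ae (int_KerC h hy) (int_KerC h' hy) ?_
  filter_upwards [hl] with x hx
  exact mul_le_mul_of_nonneg_left hx (P.ker_nn x y)
theorem ms_wt {g : ℂ → ℝ} (h2 : MemLp g 2 volume) (h0 : ∀ x, 0 ≤ g x) : Wt P.E (P.ms g) := by
  exact ⟨ms_cont h2, ms_nn h0, (ms_l2 h2).1.integrable_sq.integrableOn⟩

end Par

end Vale.Agent.P116.K
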