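import Vale.Agent.P116.K.KerC

/-! P116 K/Ker: the kernel. r is eps-Lipschitz, positive off E, at most eps*delta; for |y-x| < r x one has r y between (1-eps) r x and (1+eps) r x. Schur test: the y-integral of ker is 1 off E (0 on E), the x-integral is at most ((1+eps)/(1-eps))^2. -/

open MeasureTheory Set Metric Filter Topology Complex
open scoped ENNReal

noncomputable section

namespace Vale.Agent.P116.K

open Vale.Agent.P128

namespace Par
variable {P : Par}

/-- The averaging kernel. -/
def k_KerD (E : Set ℂ) (x z : ℂ) : ℝ :=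
  if dist z x < infDist x E / 4 then (infDist x E ^ 2)⁻¹ else 0

theorem knn_KerD (E : Set ℂ) (x z : ℂ) : 0 ≤ k_KerD E x z := by
  unfold k_KerD
  split_ifs
  · positivity
  · exact le_rfl

theorem kle_KerD (E : Set ℂ) (x z : ℂ) : k_KerD E x z ≤ (infDist x E ^ 2)⁻¹ := by
  unfold k_KerD
  split_ifs
  · exact le_rfl
  · positivity

theorem kmeas_KerD (E : Set ℂ) : Measurable fun q : ℂ × ℂ => k_KerD E q.2 q.1 := by
  have h1 : Continuous fun q : ℂ × ℂ => infDist q.2 E :=
    (continuous_infDist_pt E).comp continuous_snd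
  exact Measurable.ite (measurableSet_lt (continuous_fst.dist continuous_snd).measurable
    (h1.div_const 4).measurable) (h1.measurable.pow_const 2).inv measurable_const

theorem kint_KerD (E : Set ℂ) (z : ℂ) :
    Integrable (fun x => k_KerD E x z) ∧ ∫ x, k_KerD E x z ≤ 16 := by
  have h0 : 0 ≤ infDist z E := infDist_nonneg
  have h1 : ∀ x, k_KerD E x z ≤
      (ball z (infDist z E)).indicator (fun _ => 4 * (infDist z E ^ 2)⁻¹) x := by
    intro x
    unfold k_KerD
    split_ifs with h
    · have a1 := infDist_le_infDist_add_dist (x := x) (y := z) (s := E)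
      have a2 := infDist_le_infDist_add_dist (x := z) (y := x) (s := E)
      have a3 := dist_comm x z
      have a4 := dist_nonneg (x := z) (y := x)
      have a5 : 0 < infDist x E := by linarith
      have a6 : 0 < infDist z E := by linarith
      rw [indicator_of_mem (mem_ball.2 (by linarith)), ← div_eq_mul_inv, inv_eq_one_div,
        div_le_div_iff₀ (by positivity) (by positivity)]
      nlinarith
    · exact indicator_nonneg (fun _ _ => by positivity) _
  have h2 : Integrable ((ball z (infDist z E)).indicator fun _ => 4 * (infDist z E ^ 2)⁻¹) :=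
    (integrableOn_const measure_ball_lt_top.ne).integrable_indicator measurableSet_ball
  have h3 : Measurable fun x => k_KerD E x z := (kmeas_KerD E).comp measurable_prodMk_left
  refine ⟨h2.mono' h3.aestronglyMeasurable (Eventually.of_forall fun x => ?_), ?_⟩
  · rw [Real.norm_of_nonneg (knn_KerD _ _ _)]
    exact h1 x
  · refine (integral_mono_of_nonneg (Eventually.of_forall fun x => knn_KerD _ _ _) h2
      (Eventually.of_forall h1)).trans ?_
    rw [integral_indicator_const _ measurableSet_ball, measureReal_def, Complex.volume_ball,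
      ENNReal.toReal_mul, ENNReal.toReal_pow, ENNReal.toReal_ofReal h0, ENNReal.coe_toReal,
      NNReal.coe_real_pi, smul_eq_mul]
    have h4 : infDist z E ^ 2 * (infDist z E ^ 2)⁻¹ ≤ 1 := mul_inv_le_one
    nlinarith [Real.pi_le_four, Real.pi_pos]

theorem hint_KerD (E : Set ℂ) {u : ℂ → ℝ} (hu : Integrable u) :
    Integrable fun x => ∫ z, k_KerD E x z * u z := by
  have hF : AEStronglyMeasurable (fun q : ℂ × ℂ => k_KerD E q.2 q.1 * u q.1)
      ((volume : Measure ℂ).prod volume) :=
    (kmeas_KerD E).aestronglyMeasurable.mul hu.1.comp_fst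
  refine ((integrable_prod_iff hF).2 ⟨Eventually.of_forall fun z =>
    (kint_KerD E z).1.mul_const (u z), (hu.norm.const_mul 16).mono' hF.norm.integral_prod_right'
      (Eventually.of_forall fun z => ?_)⟩).integral_prod_right
  simp only [norm_mul, Real.norm_of_nonneg (knn_KerD _ _ _)]
  rw [integral_mul_const, norm_mul, norm_norm,
    Real.norm_of_nonneg (integral_nonneg fun x => knn_KerD _ _ _)]
  exact mul_le_mul_of_nonneg_right (kint_KerD E z).2 (norm_nonneg _)

theorem am_KerD {m B : ℝ} (hB : 0 ≤ B) (h : ∀ t, 0 < t → m ≤ t + B / t) : m ≤ 2 * √B := by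
  rcases hB.eq_or_lt with rfl | hB'
  · rw [Real.sqrt_zero, mul_zero]
    refine le_of_forall_pos_le_add fun t ht => ?_
    simpa using h t ht
  · have h1 := h _ (Real.sqrt_pos.2 hB')
    rw [Real.div_sqrt] at h1
    linarith

theorem kb_KerD (P : Par) : ∃ C : ℝ, 0 ≤ C ∧ ∀ x ∈ Q \ P.E, ∀ y ∈ ball x (infDist x P.E / 8),
    ∀ z, P.ker z y ≤ C * k_KerD P.E x z := by
  have hε := P.ε0
  have hδ := P.δ0
  have hc : 0 < min (1 / 2) (P.δ / 2) := lt_min (by norm_num) (by positivity)
  refine ⟨((P.ε * min (1 / 2) (P.δ / 2)) ^ 2)⁻¹, by positivity, fun x hx y hy z => ?_⟩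
  rcases le_or_gt (P.r z) (dist z y) with h | h
  · rw [P.ker_zero h]
    exact mul_nonneg (by positivity) (knn_KerD _ _ _)
  have d0 : 0 < infDist x P.E := (P.dom.cpt.isClosed.notMem_iff_infDist_pos P.ne).1 hx.2
  have d2 : infDist x P.E ≤ 2 := by
    obtain ⟨e, he⟩ := P.ne
    refine (infDist_le_dist_of_mem he).trans ?_
    obtain ⟨⟨b1, b2⟩, b3, b4⟩ := mem_reProdIm.1 (P.dom.sub he)
    obtain ⟨⟨c1, c2⟩, c3, c4⟩ := mem_reProdIm.1 hx.1
    have e1 : |(x - e).re| ≤ 1 := by rw [sub_re, abs_le]; constructor <;> linarith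
    have e2 : |(x - e).im| ≤ 1 := by rw [sub_im, abs_le]; constructor <;> linarith
    rw [dist_eq_norm]
    linarith [Complex.norm_le_abs_re_add_abs_im (x - e)]
  have a1 := infDist_le_infDist_add_dist (x := x) (y := z) (s := P.E)
  have a2 := infDist_le_infDist_add_dist (x := z) (y := x) (s := P.E)
  have a3 := dist_comm x z
  have a4 := dist_triangle z y x
  have a5 := mem_ball.1 hy
  have a6 : P.ε * infDist z P.E ≤ 1 / 100 * infDist z P.E :=
    mul_le_mul_of_nonneg_right P.ε1 infDist_nonneg
  have a7 := (P.r_le z).2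
  have a8 : dist z x < infDist x P.E / 4 := by linarith
  have a9 : P.ε * (min (1 / 2) (P.δ / 2) * infDist x P.E) ≤ P.r z := by
    refine mul_le_mul_of_nonneg_left (le_min ?_ ?_) hε.le
    · have := mul_le_mul_of_nonneg_right (min_le_left (1 / 2) (P.δ / 2)) d0.le
      linarith
    · have := mul_le_mul (min_le_right (1 / 2) (P.δ / 2)) d2 d0.le (by positivity)
      linarith
  have hφ : φ ((y - z) / (P.r z : ℂ)) ≤ 1 := by
    have b1 : 3 / Real.pi ≤ 1 := (div_le_one Real.pi_pos).2 Real.pi_gt_three.le
    have b2 : max 0 (1 - ‖(y - z) / (P.r z : ℂ)‖) ≤ 1 :=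
      max_le zero_le_one (sub_le_self _ (norm_nonneg _))
    exact mul_le_one₀ b1 (le_max_left _ _) b2
  rw [k_KerD, if_pos a8, ← mul_inv, ← mul_pow, mul_assoc, inv_eq_one_div]
  exact div_le_div₀ zero_le_one hφ (by positivity) (pow_le_pow_left₀ (by positivity) a9 2)

/-- Suprema over Whitney discs: compare with averages of `g` over discs of comparable radius. -/
theorem ms_gw {g : ℂ → ℝ} (h2 : MemLp g 2 volume) (h0 : ∀ x, 0 ≤ g x) : Gw P.E (P.ms g) := by
  obtain ⟨C, hC, hk⟩ := kb_KerD P
  have hu := h2.integrable_sq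
  have hH := (hint_KerD P.E hu).const_mul C
  have hn : ∀ x, 0 ≤ C * ∫ z, k_KerD P.E x z * g z ^ 2 := fun x =>
    mul_nonneg hC (integral_nonneg fun z => mul_nonneg (knn_KerD _ _ _) (sq_nonneg _))
  refine ⟨ms_wt h2 h0, fun x => 2 * √(C * ∫ z, k_KerD P.E x z * g z ^ 2), ?_,
    fun x => by positivity, fun x hx y hy => am_KerD (hn x) fun t ht => ?_⟩
  · refine MemLp.const_mul ((memLp_two_iff_integrable_sq
      (Real.continuous_sqrt.comp_aestronglyMeasurable hH.1)).2 ?_) 2
    simpa only [Real.sq_sqrt (hn _)] using hH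
  · have i1 := (P.ker_int_x y).1.const_mul (t / 2)
    have i2 : Integrable fun z => k_KerD P.E x z * g z ^ 2 :=
      hu.bdd_mul (c := (infDist x P.E ^ 2)⁻¹)
        ((kmeas_KerD P.E).comp measurable_prodMk_right).aestronglyMeasurable
        (Eventually.of_forall fun z => by
          rw [Real.norm_of_nonneg (knn_KerD _ _ _)]
          exact kle_KerD _ _ _)
    have i3 := i2.const_mul (C / t)
    have h3 : ((1 + P.ε) / (1 - P.ε)) ^ 2 ≤ 2 := by
      have b1 := P.ε0
      have b2 := P.ε1
      rw [div_pow, div_le_iff₀ (pow_pos (by linarith) 2)]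
      nlinarith
    refine (integral_mono_of_nonneg
      (Eventually.of_forall fun z => mul_nonneg (P.ker_nn _ _) (h0 z)) (i1.add i3)
      (Eventually.of_forall fun z => ?_)).trans ?_
    · have b1 : g z ≤ t / 2 + g z ^ 2 / t := by
        rw [← sub_le_iff_le_add', le_div_iff₀ ht]
        nlinarith [sq_nonneg (g z - t)]
      have b2 := mul_le_mul_of_nonneg_left b1 (P.ker_nn z y)
      have b3 := mul_le_mul_of_nonneg_right (hk x hx y hy z) (div_nonneg (sq_nonneg (g z)) ht.le)
      have b4 : C * k_KerD P.E x z * (g z ^ 2 / t) = C / t * (k_KerD P.E x z * g z ^ 2) := by ring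
      simp only [Pi.add_apply]
      linarith
    · simp only [Pi.add_apply]
      rw [integral_add i1 i3, integral_const_mul, integral_const_mul, div_mul_eq_mul_div C]
      have := mul_le_mul_of_nonneg_left ((P.ker_int_x y).2.trans h3) (half_pos ht).le
      linarith

end Par

end Vale.Agent.P116.K
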