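import Vale.Agent.P116.K.KerD

/-! P116 K/Ker: the kernel. r is eps-Lipschitz, positive off E, at most eps*delta; for |y-x| < r x one has r y between (1-eps) r x and (1+eps) r x. Schur test: the y-integral of ker is 1 off E (0 on E), the x-integral is at most ((1+eps)/(1-eps))^2. -/

open MeasureTheory Set Metric Filter Topology Complex
open scoped ENNReal

noncomputable section

namespace Vale.Agent.P116.K

open Vale.Agent.P128

namespace Par
variable {P : Par}

theorem len_nn_KerE (s : Stp P.E) (x : ℂ) : 0 ≤ s.len (P.ker x) := by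
  cases s with
  | seg a b =>
    exact mul_nonneg (intervalIntegral.integral_nonneg zero_le_one fun t _ => P.ker_nn _ _)
      dist_nonneg
  | jmp a b J c => exact le_rfl

theorem mem_seg_KerE (a b : ℂ) {t : ℝ} (ht : t ∈ Icc (0 : ℝ) 1) :
    a + t • (b - a) ∈ segment ℝ a b := by
  rw [segment_eq_image']
  exact ⟨t, ht, rfl⟩

theorem seg_cpt_KerE (a b : ℂ) : IsCompact (segment ℝ a b) := by
  rw [segment_eq_image']
  exact isCompact_Icc.image (by fun_prop)

theorem len_cont_KerE {n : ℕ} {O : Set ℂ} {s : Stp P.E} (hs : P.Ok n O s) :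
    Continuous (fun x => s.len (P.ker x)) ∧ HasCompactSupport fun x => s.len (P.ker x) := by
  cases s with
  | seg a b =>
    have hd : Disjoint (segment ℝ a b) P.E := disjoint_left.2 fun z hz => (hs hz).2
    constructor
    · have hc : Continuous fun q : ℂ × ℝ =>
          P.ker q.1 (a + ((projIcc (0 : ℝ) 1 zero_le_one q.2 : Icc (0 : ℝ) 1) : ℝ) • (b - a)) :=
        P.ker_cont.comp_continuous (f := fun q : ℂ × ℝ =>
          (q.1, a + ((projIcc (0 : ℝ) 1 zero_le_one q.2 : Icc (0 : ℝ) 1) : ℝ) • (b - a)))
          (continuous_fst.prodMk (continuous_const.add ((continuous_subtype_val.comp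
            (continuous_projIcc.comp continuous_snd)).smul continuous_const)))
          fun q => Or.inr (disjoint_left.1 hd (mem_seg_KerE a b (projIcc _ _ _ q.2).2))
      have h1 := intervalIntegral.continuous_parametric_intervalIntegral_of_continuous'
        (μ := volume) (f := fun (x : ℂ) (t : ℝ) => P.ker x
          (a + ((projIcc (0 : ℝ) 1 zero_le_one t : Icc (0 : ℝ) 1) : ℝ) • (b - a))) hc 0 1
      refine (h1.congr fun x => ?_).mul continuous_const
      refine intervalIntegral.integral_congr fun t ht => ?_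
      rw [uIcc_of_le zero_le_one] at ht
      simp only [projIcc_of_mem _ ht]
    · obtain ⟨C, T, hT, -, hb⟩ := P.ker_dom (seg_cpt_KerE a b) hd
      refine HasCompactSupport.intro hT fun x hx => ?_
      have h0 : ∫ t in (0 : ℝ)..1, P.ker x (a + t • (b - a)) = ∫ t in (0 : ℝ)..1, (0 : ℝ) := by
        refine intervalIntegral.integral_congr fun t ht => ?_
        rw [uIcc_of_le zero_le_one] at ht
        have := hb _ (mem_seg_KerE a b ht) x
        rw [indicator_of_notMem hx] at this
        exact le_antisymm this (P.ker_nn _ _)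
      simp only [Stp.len, h0, intervalIntegral.integral_zero, zero_mul]
  | jmp a b J c => exact ⟨continuous_const, HasCompactSupport.zero⟩

theorem len_pair_KerE {n : ℕ} {O : Set ℂ} {s : Stp P.E} (hs : P.Ok n O s) {g : ℂ → ℝ}
    (h2 : MemLp g 2 volume) : ∫ x, g x * s.len (P.ker x) = s.len (P.ms g) := by
  cases s with
  | seg a b =>
    have hd : Disjoint (segment ℝ a b) P.E := disjoint_left.2 fun z hz => (hs hz).2
    obtain ⟨C, T, hT, -, hb⟩ := P.ker_dom (seg_cpt_KerE a b) hd
    have i1 : IntegrableOn g T := by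
      have : IsFiniteMeasure (volume.restrict T) := ⟨by simpa using hT.measure_lt_top⟩
      exact (h2.restrict T).integrable one_le_two
    have i2 : Integrable (T.indicator fun x => C * ‖g x‖) :=
      (integrable_indicator_iff hT.measurableSet).2 (i1.norm.const_mul C)
    have i3 : Integrable (Function.uncurry fun (x : ℂ) (t : ℝ) => P.ker x (a + t • (b - a)) * g x)
        (volume.prod (volume.restrict (Ioc (0 : ℝ) 1))) := by
      refine (i2.comp_fst (volume.restrict (Ioc (0 : ℝ) 1))).mono' ?_ ?_
      · exact (P.ker_meas.comp (f := fun q : ℂ × ℝ => (q.1, a + q.2 • (b - a)))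
          (by fun_prop)).aestronglyMeasurable.mul h2.1.comp_fst
      · have h3 : ∀ᵐ q : ℂ × ℝ ∂(volume.prod (volume.restrict (Ioc (0 : ℝ) 1))),
            q.2 ∈ Ioc (0 : ℝ) 1 :=
          Measure.quasiMeasurePreserving_snd.ae (ae_restrict_mem measurableSet_Ioc)
        filter_upwards [h3] with q hq
        have h4 := hb _ (mem_seg_KerE a b (Ioc_subset_Icc_self hq)) q.1
        simp only [Function.uncurry, norm_mul, Real.norm_of_nonneg (P.ker_nn _ _)]
        refine (mul_le_mul_of_nonneg_right h4 (norm_nonneg _)).trans_eq ?_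
        by_cases h : q.1 ∈ T <;> simp [h]
    have h5 := integral_integral_swap i3
    simp only [Stp.len, ms, intervalIntegral.integral_of_le zero_le_one, ← mul_assoc]
    rw [integral_mul_const, ← h5]
    simp only [integral_mul_const]
    simp only [mul_comm]
  | jmp a b J c => simp [Stp.len]

theorem eta_cons_KerE (s : Stp P.E) (l : List (Stp P.E)) :
    P.eta (s :: l) = fun x => s.len (P.ker x) + P.eta l x := by
  funext x
  simp [eta]

theorem eta_nn (l : List (Stp P.E)) (x : ℂ) : 0 ≤ P.eta l x := by
  refine List.sum_nonneg fun y hy => ?_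
  obtain ⟨s, -, rfl⟩ := List.mem_map.1 hy
  exact len_nn_KerE s x
theorem eta_cont {n : ℕ} {O : Set ℂ} {l : List (Stp P.E)} (hl : ∀ s ∈ l, P.Ok n O s) :
    Continuous (P.eta l) ∧ HasCompactSupport (P.eta l) := by
  induction l with
  | nil => exact ⟨continuous_const, HasCompactSupport.zero⟩
  | cons s l ih =>
    obtain ⟨h1, h2⟩ := ih fun t ht => hl t (List.mem_cons_of_mem _ ht)
    obtain ⟨h3, h4⟩ := len_cont_KerE (hl s List.mem_cons_self)
    rw [eta_cons_KerE]
    exact ⟨h3.add h1, h4.add h2⟩
theorem eta_pair {n : ℕ} {O : Set ℂ} {l : List (Stp P.E)} (hl : ∀ s ∈ l, P.Ok n O s)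
    {g : ℂ → ℝ} (h2 : MemLp g 2 volume) :
    ∫ x, g x * P.eta l x = (l.map (Stp.len (P.ms g))).sum := by
  induction l with
  | nil => simp [eta]
  | cons s l ih =>
    have hl' : ∀ t ∈ l, P.Ok n O t := fun t ht => hl t (List.mem_cons_of_mem _ ht)
    obtain ⟨h5, h6⟩ := eta_cont hl'
    obtain ⟨h3, h4⟩ := len_cont_KerE (hl s List.mem_cons_self)
    have i1 : Integrable fun x => g x * s.len (P.ker x) :=
      h2.integrable_mul (h3.memLp_of_hasCompactSupport (p := 2) h4)
    have i2 : Integrable fun x => g x * P.eta l x :=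
      h2.integrable_mul (h5.memLp_of_hasCompactSupport (p := 2) h6)
    rw [eta_cons_KerE, List.map_cons, List.sum_cons, ← ih hl',
      ← len_pair_KerE (hl s List.mem_cons_self) h2, ← integral_add i1 i2]
    simp only [mul_add]

open Classical in
theorem tel_KerE (s : Stp P.E) :
    (∀ c, 0 ≤ s.tel fun c' => if c' = c then 1 else 0) ∧
    (Function.support fun c => s.tel fun c' => if c' = c then 1 else 0).Finite ∧
    ∀ lam : Cp P.E → ℝ, ∑' c, lam c * s.tel (fun c' => if c' = c then 1 else 0) = s.tel lam := by
  rcases s with ⟨a, b⟩ | ⟨a, b, J, _ | c⟩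
  · simp [Stp.tel]
  · simp [Stp.tel]
  · refine ⟨fun c' => ?_, (finite_singleton c).subset fun c' hc => ?_, fun lam => ?_⟩
    · simp only [Stp.tel]
      split_ifs <;> norm_num
    · by_contra hn
      exact hc (if_neg fun h => hn h.symm)
    · rw [tsum_eq_single c fun c' hc => by simp [Stp.tel, hc.symm]]
      simp [Stp.tel]

open Classical in
theorem tele_cons_KerE (s : Stp P.E) (l : List (Stp P.E)) :
    P.tele (s :: l) = fun c => s.tel (fun c' => if c' = c then 1 else 0) + P.tele l c := by
  funext x
  simp [tele]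

theorem tele_nn (l : List (Stp P.E)) (c : Cp P.E) : 0 ≤ P.tele l c := by
  refine List.sum_nonneg fun y hy => ?_
  obtain ⟨s, -, rfl⟩ := List.mem_map.1 hy
  exact (tel_KerE s).1 c
theorem tele_fin (l : List (Stp P.E)) : (Function.support (P.tele l)).Finite := by
  induction l with
  | nil => exact finite_empty.subset fun c hc => hc rfl
  | cons s l ih =>
    rw [tele_cons_KerE]
    exact ((tel_KerE s).2.1.union ih).subset (Function.support_add _ _)
theorem tele_pair (l : List (Stp P.E)) (lam : Cp P.E → ℝ) :
    ∑' c, lam c * P.tele l c = (l.map (Stp.tel lam)).sum := by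
  induction l with
  | nil => simp [tele]
  | cons s l ih =>
    rw [tele_cons_KerE, List.map_cons, List.sum_cons, ← ih, ← (tel_KerE s).2.2 lam,
      ← Summable.tsum_add (summable_of_hasFiniteSupport ((tel_KerE s).2.1.subset
        (Function.support_mul_subset_right _ _))) (summable_of_hasFiniteSupport
        ((tele_fin l).subset (Function.support_mul_subset_right _ _)))]
    simp only [mul_add]

end Par

end Vale.Agent.P116.K
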