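import Vale.Agent.P116.K.KerE

/-! P116 K/Ker: the kernel. r is eps-Lipschitz, positive off E, at most eps*delta; for |y-x| < r x one has r y between (1-eps) r x and (1+eps) r x. Schur test: the y-integral of ker is 1 off E (0 on E), the x-integral is at most ((1+eps)/(1-eps))^2. -/

open MeasureTheory Set Metric Filter Topology Complex
open scoped ENNReal

noncomputable section

namespace Vale.Agent.P116.K

open Vale.Agent.P128

namespace Par
variable {P : Par}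

theorem ok_KerF {n : ℕ} {θ : Set ℂ →₀ ℝ} {π : P.It →₀ ℝ} (h : P.Plan n θ π) {i : P.It}
    (hi : i ∈ π.support) : ∀ s ∈ i.2.2, P.Ok n (P.R \ i.1) s := by
  obtain ⟨-, y, -, hy⟩ := h.crs i hi
  exact hy.2.2

theorem den_KerF (π : P.It →₀ ℝ) :
    P.den π = fun x => ∑ i ∈ π.support, π i * P.eta i.2.2 x := rfl

theorem den_nn {n : ℕ} {θ : Set ℂ →₀ ℝ} {π : P.It →₀ ℝ} (h : P.Plan n θ π) (x : ℂ) :
    0 ≤ P.den π x :=
  Finset.sum_nonneg fun i _ => mul_nonneg (h.nn i) (eta_nn _ _)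

theorem den_cont {n : ℕ} {θ : Set ℂ →₀ ℝ} {π : P.It →₀ ℝ} (h : P.Plan n θ π) :
    Continuous (P.den π) ∧ HasCompactSupport (P.den π) ∧ MemLp (P.den π) 2 volume := by
  have h1 : Continuous (P.den π) := by
    rw [den_KerF]
    exact continuous_finsetSum _ fun i hi => continuous_const.mul (eta_cont (ok_KerF h hi)).1
  have h2 : HasCompactSupport (P.den π) := by
    refine HasCompactSupport.intro (K := ⋃ i ∈ π.support, tsupport (P.eta i.2.2))
      (π.support.isCompact_biUnion fun i hi => (eta_cont (ok_KerF h hi)).2) fun x hx => ?_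
    rw [den_KerF]
    refine Finset.sum_eq_zero fun i hi => ?_
    rw [image_eq_zero_of_notMem_tsupport fun h3 => hx (mem_iUnion₂.2 ⟨i, hi, h3⟩), mul_zero]
  exact ⟨h1, h2, h1.memLp_of_hasCompactSupport h2⟩

theorem den_pair {n : ℕ} {θ : Set ℂ →₀ ℝ} {π : P.It →₀ ℝ} (h : P.Plan n θ π)
    {g : ℂ → ℝ} (h2 : MemLp g 2 volume) :
    ∫ x, g x * P.den π x = P.ex π fun i => (i.2.2.map (Stp.len (P.ms g))).sum := by
  have h1 : ∀ i ∈ π.support, Integrable fun x => π i * (g x * P.eta i.2.2 x) := fun i hi =>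
    (h2.integrable_mul ((eta_cont (ok_KerF h hi)).1.memLp_of_hasCompactSupport (p := 2)
      (eta_cont (ok_KerF h hi)).2)).const_mul _
  have h3 : ∀ x, g x * P.den π x = ∑ i ∈ π.support, π i * (g x * P.eta i.2.2 x) := fun x => by
    rw [den_KerF, Finset.mul_sum]
    exact Finset.sum_congr rfl fun i _ => mul_left_comm _ _ _
  simp only [h3]
  rw [integral_finsetSum _ h1]
  refine Finset.sum_congr rfl fun i hi => ?_
  rw [integral_const_mul, eta_pair (ok_KerF h hi) h2]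

theorem fst_KerF {n : ℕ} {θ : Set ℂ →₀ ℝ} {π : P.It →₀ ℝ} (h : P.Plan n θ π) (F : Set ℂ → ℝ) :
    P.ex π (fun i => F i.1) = θ.sum fun Z a => a * F Z := by
  rw [← h.mar, Finsupp.sum_mapDomain_index (fun _ => zero_mul _) fun _ _ _ => add_mul _ _ _]
  rfl

theorem Plan.one {n : ℕ} {θ : Set ℂ →₀ ℝ} {π : P.It →₀ ℝ} (h : P.Plan n θ π) (hθ : P.Sys θ) :
    P.ex π (fun _ => 1) = 1 := by
  have h1 := fst_KerF h fun _ => 1
  simp only [mul_one] at h1
  exact h1.trans hθ.one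

theorem Plan.ex_fst {n : ℕ} {θ : Set ℂ →₀ ℝ} {π : P.It →₀ ℝ} (h : P.Plan n θ π) (F : Set ℂ → ℝ) :
    P.ex π (fun i => F i.1) = θ.sum fun Z a => a * F Z := fst_KerF h F

theorem Plan.ex_mono {n : ℕ} {θ : Set ℂ →₀ ℝ} {π : P.It →₀ ℝ} (h : P.Plan n θ π)
    {F G : P.It → ℝ} (hl : ∀ i ∈ π.support, F i ≤ G i) : P.ex π F ≤ P.ex π G :=
  Finset.sum_le_sum fun i hi => mul_le_mul_of_nonneg_left (hl i hi) (h.nn i)

theorem anti_KerF {n m : ℕ} (hn : n ≤ m) {O : Set ℂ} {s : Stp P.E} (h : P.Ok m O s) :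
    P.Ok n O s := by
  cases s with
  | seg x y => exact h
  | jmp x y J c =>
    obtain ⟨h1, h2, h3, h4, h5, h6⟩ := h
    refine ⟨h1, h2, h3, h4, h5.trans (inter_subset_inter_right _ (thickening_mono ?_ _)), h6⟩
    have h7 : (n : ℝ) ≤ m := Nat.cast_le.2 hn
    exact div_le_div_of_nonneg_left P.δ0.le (by positivity) (by linarith)

theorem Plan.anti {n m : ℕ} (hn : n ≤ m) {θ : Set ℂ →₀ ℝ} {π : P.It →₀ ℝ} (h : P.Plan m θ π) :
    P.Plan n θ π := by
  refine ⟨h.nn, fun i hi => ?_, h.mar⟩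
  obtain ⟨h1, y, h2, h3, h4, h5⟩ := h.crs i hi
  exact ⟨h1, y, h2, h3, h4, fun s hs => anti_KerF hn (h5 s hs)⟩

end Par

end Vale.Agent.P116.K
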