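import Vale.Agent.P116.K.KerF

/-! P116 K/Ker: the kernel. r is eps-Lipschitz, positive off E, at most eps*delta; for |y-x| < r x one has r y between (1-eps) r x and (1+eps) r x. Schur test: the y-integral of ker is 1 off E (0 on E), the x-integral is at most ((1+eps)/(1-eps))^2. -/

open MeasureTheory Set Metric Filter Topology Complex
open scoped ENNReal

noncomputable section

namespace Vale.Agent.P116.K

open Vale.Agent.P128

namespace Par
variable {P : Par}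

theorem ker_eq_KerG {x : ℂ} (y : ℂ) (hr : 0 < P.r x) :
    P.ker x y = 3 / Real.pi * (max 0 (1 - dist x y * (P.r x)⁻¹) * (P.r x)⁻¹ ^ 2) := by
  rw [ker, φ, norm_div, Complex.norm_real, Real.norm_of_nonneg hr.le, dist_comm, dist_eq_norm,
    div_eq_mul_inv _ (P.r x ^ 2), div_eq_mul_inv ‖y - x‖, inv_pow, mul_assoc]

theorem poly_KerG {a a' u u' w M d : ℝ} (hu0 : 0 ≤ u) (hu : u ≤ w) (hu0' : 0 ≤ u') (hu' : u' ≤ w)
    (h : |u - u'| ≤ w ^ 2 * d) (ha0 : 0 ≤ a) (ha : a ≤ M) (haa : a' - a ≤ d) (hd : 0 ≤ d) :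
    (1 - a * u) * u ^ 2 ≤ (1 - a' * u') * u' ^ 2 + (3 * w ^ 3 + 3 * M * w ^ 4) * d := by
  have hw : 0 ≤ w := hu0.trans hu
  obtain ⟨g1, g2⟩ := abs_le.1 h
  have h1 : (u - u') * (u + u') ≤ (w ^ 2 * d) * (w + w) :=
    mul_le_mul g2 (by linarith) (by positivity) (by positivity)
  have h2 : (u' - u) * (u' * u' + u * u' + u * u) ≤ (w ^ 2 * d) * (w * w + w * w + w * w) :=
    mul_le_mul (by linarith) (by gcongr) (by positivity) (by positivity)
  have h3 : a * ((u' - u) * (u' * u' + u * u' + u * u)) ≤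
      M * ((w ^ 2 * d) * (w * w + w * w + w * w)) :=
    (mul_le_mul_of_nonneg_left h2 ha0).trans (mul_le_mul_of_nonneg_right ha (by positivity))
  have h4 : (a' - a) * u' ^ 3 ≤ d * w ^ 3 :=
    mul_le_mul haa (pow_le_pow_left₀ hu0' hu' 3) (by positivity) hd
  nlinarith

theorem pi_KerG : 0 < 3 / Real.pi ∧ 3 / Real.pi ≤ 1 :=
  ⟨div_pos three_pos Real.pi_pos, (div_le_one Real.pi_pos).2 Real.pi_gt_three.le⟩

theorem ker_le_KerG {x : ℂ} {m : ℝ} (hm : 0 < m) (hx : m ≤ P.r x) (y : ℂ) :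
    P.ker x y ≤ m⁻¹ ^ 2 := by
  have hr := hm.trans_le hx
  rw [ker_eq_KerG y hr]
  have h1 : max 0 (1 - dist x y * (P.r x)⁻¹) ≤ 1 :=
    max_le zero_le_one (sub_le_self _ (by positivity))
  have h2 : (P.r x)⁻¹ ^ 2 ≤ m⁻¹ ^ 2 := pow_le_pow_left₀ (by positivity) (inv_anti₀ hm hx) 2
  have h3 : max 0 (1 - dist x y * (P.r x)⁻¹) * (P.r x)⁻¹ ^ 2 ≤ 1 * m⁻¹ ^ 2 :=
    mul_le_mul h1 h2 (by positivity) zero_le_one
  have h4 := mul_le_mul pi_KerG.2 h3 (by positivity) zero_le_one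
  linarith

theorem ker_lip_KerG {x x' y : ℂ} {m : ℝ} (hm : 0 < m) (hx : m ≤ P.r x) (hx' : m ≤ P.r x')
    (hy : dist x y < P.r x) : P.ker x y ≤ P.ker x' y +
      (3 * m⁻¹ ^ 3 + 3 * (P.ε * P.δ) * m⁻¹ ^ 4) * dist x x' := by
  have hr := hm.trans_le hx
  have hr' := hm.trans_le hx'
  have hM : 0 ≤ P.ε * P.δ := (mul_pos P.ε0 P.δ0).le
  have i1 := inv_anti₀ hm hx
  have i2 := inv_anti₀ hm hx'
  have h0 : |P.r x - P.r x'| ≤ dist x x' :=
    (P.r_lip x x').trans (mul_le_of_le_one_left dist_nonneg (by linarith [P.ε1]))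
  have h1 : |(P.r x)⁻¹ - (P.r x')⁻¹| ≤ m⁻¹ ^ 2 * dist x x' := by
    have e : (P.r x)⁻¹ - (P.r x')⁻¹ = ((P.r x)⁻¹ * (P.r x')⁻¹) * (P.r x' - P.r x) := by
      field_simp
    rw [e, abs_mul, abs_of_nonneg (by positivity), abs_sub_comm, sq]
    exact mul_le_mul (mul_le_mul i1 i2 (by positivity) (by positivity)) h0 (abs_nonneg _)
      (by positivity)
  have h2 := poly_KerG (a := dist x y) (a' := dist x' y) (M := P.ε * P.δ) (by positivity) i1
    (by positivity) i2 h1 dist_nonneg (hy.le.trans (P.r_le x).1)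
    (by linarith [dist_triangle x' x y, dist_comm x' x]) dist_nonneg
  have h3 : 0 ≤ 1 - dist x y * (P.r x)⁻¹ := by
    rw [← div_eq_mul_inv, sub_nonneg, div_le_one hr]
    exact hy.le
  have h4 : (1 - dist x' y * (P.r x')⁻¹) * (P.r x')⁻¹ ^ 2 ≤
      max 0 (1 - dist x' y * (P.r x')⁻¹) * (P.r x')⁻¹ ^ 2 :=
    mul_le_mul_of_nonneg_right (le_max_right _ _) (by positivity)
  have h5 : 3 / Real.pi * ((3 * m⁻¹ ^ 3 + 3 * (P.ε * P.δ) * m⁻¹ ^ 4) * dist x x') ≤
      (3 * m⁻¹ ^ 3 + 3 * (P.ε * P.δ) * m⁻¹ ^ 4) * dist x x' :=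
    mul_le_of_le_one_left (by positivity) pi_KerG.2
  have h6 := mul_le_mul_of_nonneg_left (h2.trans (add_le_add_left h4 _)) pi_KerG.1.le
  rw [ker_eq_KerG y hr, ker_eq_KerG y hr', max_eq_right h3]
  linarith

theorem ker_low_KerG {x y z : ℂ} {m : ℝ} (hm : 0 < m) (hx : m ≤ P.r x) (hy : dist x y < P.r x)
    (hz : dist z y < m / 8) : 3 / Real.pi * (1 / 2 * (P.ε * P.δ)⁻¹ ^ 2) ≤ P.ker z y := by
  have e1 := P.ε1
  have e0 := P.ε0
  have h1 := (abs_le.1 (P.r_lip x y)).2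
  have h2 := (abs_le.1 (P.r_lip z y)).1
  have h3 : P.ε * dist x y ≤ 1 / 100 * P.r x := mul_le_mul e1 hy.le dist_nonneg (by norm_num)
  have h4 : P.ε * dist z y ≤ 1 / 100 * (m / 8) := mul_le_mul e1 hz.le dist_nonneg (by norm_num)
  have h5 : m / 4 ≤ P.r z := by linarith
  have hr : 0 < P.r z := by linarith
  rw [ker_eq_KerG y hr]
  refine mul_le_mul_of_nonneg_left (mul_le_mul (le_max_of_le_right ?_)
    (pow_le_pow_left₀ (inv_pos.2 (mul_pos e0 P.δ0)).le (inv_anti₀ hr (P.r_le z).1) 2)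
    (by positivity) (le_max_left _ _)) pi_KerG.1.le
  have h6 : dist z y * (P.r z)⁻¹ ≤ 1 / 2 := by
    rw [← div_eq_mul_inv, div_le_iff₀ hr]
    linarith
  linarith

theorem ms_low_KerG {S : Set ℂ} (hS : IsCompact S) {m : ℝ} (hm : 0 < m) (h : ∀ x ∈ S, m ≤ P.r x)
    {K : ℝ} (hK : 0 ≤ K) : ∃ g : ℂ → ℝ, MemLp g 2 volume ∧ (∀ z, 0 ≤ g z) ∧
      ∀ x ∈ S, ∀ y, dist x y < P.r x → K ≤ P.ms g y := by
  obtain ⟨ρ, hρ⟩ := hS.isBounded.subset_closedBall (0 : ℂ)
  have hM : 0 < P.ε * P.δ := mul_pos P.ε0 P.δ0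
  set κ : ℝ := 3 / Real.pi * (1 / 2 * (P.ε * P.δ)⁻¹ ^ 2) with hκ
  have κ0 : 0 < κ := mul_pos pi_KerG.1 (by positivity)
  set v : ℝ := volume.real (ball (0 : ℂ) (m / 8)) with hv
  have v0 : 0 < v := ENNReal.toReal_pos (measure_ball_pos _ _ (by linarith)).ne'
    measure_ball_lt_top.ne
  have C0 : 0 ≤ K / (κ * v) := by positivity
  refine ⟨(closedBall (0 : ℂ) (ρ + P.ε * P.δ + m)).indicator fun _ => K / (κ * v),
    memLp_indicator_const 2 measurableSet_closedBall _ (Or.inr measure_closedBall_lt_top.ne),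
    fun z => indicator_nonneg (fun _ _ => C0) z, fun x hx y hy => ?_⟩
  have e1 : ∫ z, (ball y (m / 8)).indicator (fun _ => κ * (K / (κ * v))) z = K := by
    rw [integral_indicator_const _ measurableSet_ball, Measure.real, Measure.addHaar_ball_center,
      smul_eq_mul]
    change v * _ = K
    field_simp
  rw [ms]
  refine e1.symm.trans_le <| integral_mono ((integrable_indicator_iff measurableSet_ball).2
    (integrableOn_const measure_ball_lt_top.ne)) ?_ fun z => ?_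
  · refine (((P.ker_int_x y).1.mul_const (K / (κ * v))).indicator
      (measurableSet_closedBall (x := (0 : ℂ)) (ε := ρ + P.ε * P.δ + m))).congr
      (Eventually.of_forall fun z => ?_)
    exact indicator_mul_right _ (fun x => P.ker x y) (fun _ => K / (κ * v))
  · by_cases hz : z ∈ ball y (m / 8)
    · have h1 : z ∈ closedBall (0 : ℂ) (ρ + P.ε * P.δ + m) := by
        have a1 := mem_closedBall.1 (hρ hx)
        have a2 := mem_ball.1 hz
        have a3 := (P.r_le x).1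
        have a4 := dist_triangle4 z y x 0
        rw [dist_comm y x] at a4
        rw [mem_closedBall]
        linarith
      simp only [indicator_of_mem hz, indicator_of_mem h1]
      exact mul_le_mul_of_nonneg_right (ker_low_KerG hm (h x hx) hy (mem_ball.1 hz)) C0
    · simp only [indicator_of_notMem hz]
      exact mul_nonneg (P.ker_nn z y) (indicator_nonneg (fun _ _ => C0) z)

theorem len_le_KerG {n : ℕ} {O : Set ℂ} {s : Stp P.E} (hs : P.Ok n O s) {ρ₁ ρ₂ ρ₃ : ℂ → ℝ}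
    (h1 : ContinuousOn ρ₁ P.Eᶜ) (h2 : ContinuousOn ρ₂ P.Eᶜ) (h3 : ContinuousOn ρ₃ P.Eᶜ) {d : ℝ}
    (h : ∀ y ∉ P.E, ρ₁ y ≤ ρ₂ y + d * ρ₃ y) : s.len ρ₁ ≤ s.len ρ₂ + d * s.len ρ₃ := by
  cases s with
  | jmp => simp [Stp.len]
  | seg x y =>
    have hm : ∀ t ∈ Icc (0 : ℝ) 1, x + t • (y - x) ∈ P.Eᶜ := fun t ht =>
      (hs (by rw [segment_eq_image']; exact ⟨t, ht, rfl⟩)).2
    have hi : ∀ ρ : ℂ → ℝ, ContinuousOn ρ P.Eᶜ →
        IntervalIntegrable (fun t : ℝ => ρ (x + t • (y - x))) volume 0 1 := fun ρ hρ =>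
      ContinuousOn.intervalIntegrable_of_Icc zero_le_one (hρ.comp (by fun_prop) hm)
    simp only [Stp.len]
    rw [← mul_assoc, ← add_mul, ← intervalIntegral.integral_const_mul,
      ← intervalIntegral.integral_add (hi _ h2) ((hi _ h3).const_mul d)]
    exact mul_le_mul_of_nonneg_right (intervalIntegral.integral_mono_on zero_le_one (hi _ h1)
      ((hi _ h2).add ((hi _ h3).const_mul d)) fun t ht => h _ (hm t ht)) dist_nonneg

theorem ex_le_KerG {n : ℕ} {θ : Set ℂ →₀ ℝ} {π : P.It →₀ ℝ} (hπ : P.Plan n θ π)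
    {ρ₁ ρ₂ ρ₃ : ℂ → ℝ} (h1 : ContinuousOn ρ₁ P.Eᶜ) (h2 : ContinuousOn ρ₂ P.Eᶜ)
    (h3 : ContinuousOn ρ₃ P.Eᶜ) {d : ℝ} (h : ∀ y ∉ P.E, ρ₁ y ≤ ρ₂ y + d * ρ₃ y) :
    P.ex π (fun i => (i.2.2.map (Stp.len ρ₁)).sum) ≤ P.ex π (fun i => (i.2.2.map (Stp.len ρ₂)).sum) +
      d * P.ex π fun i => (i.2.2.map (Stp.len ρ₃)).sum := by
  have hl : ∀ (O : Set ℂ) (l : List (Stp P.E)), (∀ s ∈ l, P.Ok n O s) →
      (l.map (Stp.len ρ₁)).sum ≤ (l.map (Stp.len ρ₂)).sum + d * (l.map (Stp.len ρ₃)).sum := by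
    intro O l hl
    induction l with
    | nil => simp
    | cons s l ih =>
      have a1 := len_le_KerG (hl s List.mem_cons_self) h1 h2 h3 h
      have a2 := ih fun s hs => hl s (List.mem_cons_of_mem _ hs)
      simp only [List.map_cons, List.sum_cons]
      linarith
  refine (hπ.ex_mono (G := fun i => (i.2.2.map (Stp.len ρ₂)).sum +
    d * (i.2.2.map (Stp.len ρ₃)).sum) fun i hi => ?_).trans (le_of_eq ?_)
  · obtain ⟨-, y, -, h4⟩ := hπ.crs i hi
    exact hl _ _ h4.2.2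
  · simp only [ex, Finsupp.sum, mul_add, Finset.sum_add_distrib, Finset.mul_sum]
    congr 1
    exact Finset.sum_congr rfl fun i _ => by ring

/-- Densities of plans with bounded norm are locally equi-Lipschitz off `E`. -/
theorem den_equi {S : Set ℂ} (hS : IsCompact S) (hd : Disjoint S P.E) (c : ℝ) : ∃ L : ℝ,
    ∀ n θ π, P.Plan n θ π → P.n1 π ≤ c → ∀ x ∈ S, P.den π x ≤ L ∧
      ∀ y ∈ S, |P.den π x - P.den π y| ≤ L * dist x y := by
  have hrc : Continuous P.r := by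
    refine (LipschitzWith.of_dist_le_mul (K := ⟨P.ε, P.ε0.le⟩) fun x y => ?_).continuous
    exact P.r_lip x y
  obtain ⟨m, hm, h⟩ : ∃ m : ℝ, 0 < m ∧ ∀ x ∈ S, m ≤ P.r x :=
    hS.exists_forall_le' hrc.continuousOn fun x hx => P.r_pos (disjoint_left.1 hd hx)
  have hM : 0 ≤ P.ε * P.δ := (mul_pos P.ε0 P.δ0).le
  have K1 : 0 ≤ 3 * m⁻¹ ^ 3 + 3 * (P.ε * P.δ) * m⁻¹ ^ 4 := by positivity
  have K2 : 0 ≤ m⁻¹ ^ 2 := by positivity
  obtain ⟨g, g2, g0, hg⟩ := ms_low_KerG hS hm h (add_nonneg K1 K2)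
  have kc : ∀ x, ContinuousOn (P.ker x) P.Eᶜ := fun x =>
    P.ker_cont.comp (f := fun y => (x, y)) (by fun_prop) fun y hy => Or.inr hy
  refine ⟨((∫ x, g x ^ 2) + c) / 2, fun n θ π hπ hc => ?_⟩
  have hL : P.ex π (fun i => (i.2.2.map (Stp.len (P.ms g))).sum) ≤ ((∫ x, g x ^ 2) + c) / 2 := by
    have d2 := (den_cont hπ).2.2
    have i1 := g2.integrable_sq
    have i2 := d2.integrable_sq
    rw [← den_pair hπ g2]
    calc ∫ x, g x * P.den π x ≤ ∫ x, (g x ^ 2 + P.den π x ^ 2) / 2 :=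
          integral_mono (g2.integrable_mul d2) ((i1.add i2).div_const 2) fun x => by
            have := sq_nonneg (g x - P.den π x)
            simp only
            nlinarith
      _ = ((∫ x, g x ^ 2) + P.n1 π) / 2 := by rw [integral_div, integral_add i1 i2, n1]
      _ ≤ _ := by linarith
  have key : ∀ x ∈ S, ∀ y ∈ S, P.den π x ≤ P.den π y + ((∫ x, g x ^ 2) + c) / 2 * dist x y := by
    intro x hx y hy
    have h1 := ex_le_KerG hπ (kc x) (kc y) (ms_cont g2) (d := dist x y) fun z _ => by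
      rcases le_or_gt (P.r x) (dist x z) with h2 | h2
      · rw [P.ker_zero h2]
        exact add_nonneg (P.ker_nn _ _) (mul_nonneg dist_nonneg (ms_nn g0 z))
      · have a1 := ker_lip_KerG hm (h x hx) (h y hy) h2
        have a2 := mul_le_mul_of_nonneg_right ((le_add_of_nonneg_right K2).trans (hg x hx z h2))
          (dist_nonneg (x := x) (y := y))
        linarith
    have h2 := mul_le_mul_of_nonneg_left hL (dist_nonneg (x := x) (y := y))
    change P.den π x ≤ P.den π y + _ at h1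
    linarith
  refine fun x hx => ⟨?_, fun y hy => abs_le.2 ⟨?_, ?_⟩⟩
  · have h1 := ex_le_KerG hπ (kc x) (ms_cont g2) (ms_cont g2) (d := 0) fun z _ => by
      rw [zero_mul, add_zero]
      rcases le_or_gt (P.r x) (dist x z) with h2 | h2
      · rw [P.ker_zero h2]
        exact ms_nn g0 z
      · exact (ker_le_KerG hm (h x hx) z).trans ((le_add_of_nonneg_left K1).trans (hg x hx z h2))
    rw [zero_mul, add_zero] at h1
    exact le_trans h1 hL
  · have := key y hy x hx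
    rw [dist_comm] at this
    linarith
  · linarith [key x hx y hy]

end Par

end Vale.Agent.P116.K
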