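import Vale.Agent.P116.K.Rf
import Vale.Agent.P116.K.Ax26B

/-! P116 K/Plans (owner helper30). -/

open MeasureTheory Set Metric Filter Topology Complex
open scoped ENNReal

noncomputable section

namespace Vale.Agent.P116.K

open Vale.Agent.P128

theorem plans {P : Par} {A : List (TF P.E)} (hA : Fam A) {c : ℝ} (hc : 0 < c)
    (h : P.Bs A (Finsupp.single ∅ 1) c) {b : ℕ → TF P.E} (hb : ∀ i, Aux A (b i)) {η : ℝ}
    (hη : 0 < η) : ∃ π τ k, P.Pls b (c + η) π τ k := by
  have h0 : P.Sys (Finsupp.single ∅ 1) := by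
    classical
    refine ⟨fun Z => ?_, by simp, fun Z hZ => ?_⟩
    · rw [Finsupp.single_apply]
      split_ifs
      · exact zero_le_one
      · exact le_rfl
    · rw [Finset.mem_singleton.1 (Finsupp.support_single_subset hZ)]
      exact Par.Tube.empty
  have hs : ∀ θ c', P.Sys θ → 0 ≤ c' → P.Bs A θ c' → P.BV A θ c' :=
    fun θ c' h1 _ h2 b' hb' g lam ht ν hν => bs_charge26 hA h1 h2 hb' ht ν
  exact Par.exists_pls h0 hc.le (hs _ _ h0 hc.le h) hs hb hη

end Vale.Agent.P116.K
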