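import Vale.Agent.P116.K.ZZ

/-! P116 K/Str (owner helper20). -/

open MeasureTheory Set Metric Filter Topology Complex
open scoped ENNReal

noncomputable section

namespace Vale.Agent.P116.K

open Vale.Agent.P128

theorem stream {P : Par} {A : List (TF P.E)} (hA : Fam A) {b : ℕ → TF P.E}
    (hb : ∀ i, Aux A (b i)) (hab : ∀ a ∈ A, ∃ i, b i = a) {c : ℝ} (hc : 0 ≤ c)
    {π : ℕ → P.It →₀ ℝ} {τ : ℕ → ℂ → ℝ} {k : ℕ → ℕ} (h : P.Pls b c π τ k) :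
    ∃ s : TF P.E, Mem s ∧ s.H ∧ (∀ a ∈ A, a.Cmp s) ∧ s.en ≤ ((1 + P.ε) * c) ^ 2 := by
  obtain ⟨s, h1, h2, h3⟩ := Par.stream hA hab (fun i => (hb i).bd) h
  exact ⟨s, h2.1 s List.mem_cons_self, h1, fun a ha => h2.2 a (List.mem_cons_of_mem _ ha) s
    List.mem_cons_self, by rwa [mul_pow]⟩

end Vale.Agent.P116.K
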