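import Vale.Agent.P116.K.Init
import Vale.Agent.P116.K.Plans
import Vale.Agent.P116.K.Str

/-! P116 K/Klem. Choose eps small, delta = eps * (distance of E to the complement of Q), b i = A.getD i (head); init, plans, stream, Mem.aux. -/

open MeasureTheory Set Metric Filter Topology Complex
open scoped ENNReal

noncomputable section

namespace Vale.Agent.P116.K

open Vale.Agent.P128

theorem eps_Klem {m η : ℝ} (hm : 0 < m) (hη : 0 < η) : ∃ ε : ℝ, 0 < ε ∧ ε ≤ 1 / 100 ∧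
    ((1 + ε) * ((1 + 10 * ε) / √m + ε)) ^ 2 ≤ 1 / m + η := by
  have h1 : Continuous fun ε : ℝ => ((1 + ε) * ((1 + 10 * ε) / √m + ε)) ^ 2 := by fun_prop
  have h2 : ((1 + 0) * ((1 + 10 * 0) / √m + 0)) ^ 2 < 1 / m + η := by
    rw [add_zero, one_mul, add_zero, mul_zero, add_zero, div_pow, one_pow, Real.sq_sqrt hm.le]
    linarith
  have h3 := ((h1.tendsto 0).eventually (ge_mem_nhds h2)).and
    (ge_mem_nhds (show (0 : ℝ) < 1 / 100 by norm_num))
  obtain ⟨ε, h4, h5⟩ := ((h3.filter_mono nhdsWithin_le_nhds).and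
    (self_mem_nhdsWithin (s := Ioi (0 : ℝ)))).exists
  exact ⟨ε, h5, h4.2, h4.1⟩

theorem klem {E : Set ℂ} (hE : Dom E) (hne : E.Nonempty) {A : List (TF E)} (hA : Fam A)
    (hA0 : A ≠ []) {m : ℝ} (hm : 0 < m)
    (h : ∀ w : TF E, Mem w → w.V → (∀ a ∈ A, a.Cmp w) → m ≤ w.en) {η : ℝ} (hη : 0 < η) :
    ∃ s : TF E, Mem s ∧ s.H ∧ (∀ a ∈ A, a.Cmp s) ∧ s.en ≤ 1 / m + η := by
  obtain ⟨ε, e0, e1, e2⟩ := eps_Klem hm hη
  obtain ⟨r, hr, h1⟩ := hE.cpt.exists_thickening_subset_open isOpen_Q hE.sub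
  obtain ⟨a₀, ha₀⟩ := List.exists_mem_of_ne_nil A hA0
  let P : Par := ⟨E, hE, hne, ε, ε * r, e0, e1, mul_pos e0 hr, fun z hz w hw => by
    rw [mul_div_cancel_left₀ _ e0.ne']
    exact not_lt.1 fun h2 => hw (h1 (mem_thickening_iff.2 ⟨z, hz, by rwa [dist_comm]⟩))⟩
  have hb : ∀ i, A.getD i a₀ ∈ A := fun i => by
    by_cases hi : i < A.length
    · rw [List.getD_eq_getElem _ _ hi]
      exact List.getElem_mem hi
    · rwa [List.getD_eq_default _ _ (not_lt.1 hi)]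
  have hx : ∀ i, Aux A (A.getD i a₀) := fun i => Mem.aux hA (hb i)
  have hc : 0 < (1 + 10 * ε) / √m := div_pos (by linarith) (Real.sqrt_pos.2 hm)
  obtain ⟨π, τ, k, h2⟩ := plans (P := P) hA hc (init P hA hm h) hx e0
  obtain ⟨s, s1, s2, s3, s4⟩ := stream (P := P) hA hx (fun a ha => by
    obtain ⟨i, hi, rfl⟩ := List.getElem_of_mem ha
    exact ⟨i, List.getD_eq_getElem _ _ hi⟩) (add_pos hc e0).le h2
  exact ⟨s, s1, s2, s3, s4.trans e2⟩

end Vale.Agent.P116.K
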