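import Vale.Agent.P116.S.Area
import Vale.Agent.P116.S.Arg
import Vale.Agent.P116.S.Sat

/-! P116 K/LevA (TASK, owner helper41). Level sets. Helper names end with `_LevA`.
`lev_cpt`: `S` minus the open sets `TF.open_hi`, `TF.open_lo`. `ivt`: otherwise the two open sets cover `J`, both meet it (`TF.le`), and they are disjoint.
`lev_sat`: `Cp.in_or`, `TF.cst`, `IsPreconnected.subset_connectedComponentIn`, `connectedComponentIn_eq`.
`lev_reach`: if `z ∉ U` take `z`. Otherwise suppose not; `Cp.sat` for the compact set `L = lev` and the component `Cp.mk z hz` with `V = U` (the component lies in `closure U` minus the frontier) gives `U₁`; `Yp = U₁`, `Ym = (closure U₁)ᶜ`,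
`Xp = U ∩ {t < lo}`, `Xm = U ∩ {hi < t}` cover the plane (a point of `frontier U₁` is in `U` and not in `L`). `exists_arg`. `exists_inner` gives a square `R ⊇ closure U`; `P = Rᶜ` is preconnected (`ext_Icc`) and `sin θ < 0` on it, `sin (θ z) > 0`.
Shift `θ` by a multiple of `2 π` so that `θ z ∈ (0, π)`. On `P`, `θ ∉ {0, π}` and not in `(0, π)`, so (`IsPreconnected.intermediate_value`) `θ < 0` on `P` or `π < θ` on `P`. Take `W = {0 < θ}` (frontier in `{θ = 0} ⊆ Xp`) or `W = {θ < π}` (frontier in `Xm`); `W ⊆ R`.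
On the compact frontier the semicontinuous function attains its extremum (`LowerSemicontinuousOn.exists_isMinOn`, or cover by the increasing open sets `{t + 1 / (n + 1) < lo}`; the empty case is trivial), so `Mono` gives `t < lo z` or `hi z < t`. -/

open MeasureTheory Set Metric Filter Topology Complex
open scoped ENNReal ComplexConjugate

noncomputable section

namespace Vale.Agent.P116

open Vale.Agent.P128

variable {E U S J : Set ℂ} {a b w : TF E} {t y : ℝ} {z z₀ p q : ℂ}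

/-- The level set of `a` in `S`. -/
def TF.lev (a : TF E) (S : Set ℂ) (t : ℝ) : Set ℂ := {z | z ∈ S ∧ a.lo z ≤ t ∧ t ≤ a.hi z}

theorem TF.lev_cpt (a : TF E) (hS : IsCompact S) (hQ : S ⊆ Q) (t : ℝ) : IsCompact (a.lev S t) := by
  have e : a.lev S t = S \ ({z | z ∈ Q ∧ a.hi z < t} ∪ {z | z ∈ Q ∧ t < a.lo z}) := by
    ext z
    constructor
    · rintro ⟨h1, h2, h3⟩
      exact ⟨h1, fun h => h.elim (fun h => h.2.not_ge h3) fun h => h.2.not_ge h2⟩
    · rintro ⟨h1, h2⟩
      exact ⟨h1, not_lt.1 fun h => h2 (Or.inr ⟨hQ h1, h⟩), not_lt.1 fun h => h2 (Or.inl ⟨hQ h1, h⟩)⟩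
  rw [e]
  exact hS.diff ((a.open_hi t).union (a.open_lo t))

theorem TF.ivt (b : TF E) (hJ : IsPreconnected J) (hQ : J ⊆ Q) (hp : p ∈ J) (hq : q ∈ J)
    (h1 : b.lo q ≤ y) (h2 : y ≤ b.hi p) : ∃ z ∈ J, b.lo z ≤ y ∧ y ≤ b.hi z := by
  by_contra hc
  have cov : J ⊆ {z | z ∈ Q ∧ b.hi z < y} ∪ {z | z ∈ Q ∧ y < b.lo z} := fun z hz => by
    by_contra h
    exact hc ⟨z, hz, not_lt.1 fun h' => h (Or.inr ⟨hQ hz, h'⟩),
      not_lt.1 fun h' => h (Or.inl ⟨hQ hz, h'⟩)⟩
  obtain ⟨z, -, h3, h4⟩ := hJ _ _ (b.open_hi y) (b.open_lo y) cov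
    ⟨q, hq, (cov hq).resolve_right fun h => h.2.not_ge h1⟩
    ⟨p, hp, (cov hp).resolve_left fun h => h.2.not_ge h2⟩
  exact (h3.2.trans h4.2).not_ge (b.le z)

theorem lev_sat (hU : IsOpen U) (hf : Disjoint (frontier U) E)
    (hz : z ∈ connectedComponentIn (a.lev (closure U) t) z₀) :
    connectedComponentIn E z ⊆ connectedComponentIn (a.lev (closure U) t) z₀ := by
  by_cases hE : z ∈ E
  · have hL := connectedComponentIn_subset _ _ hz
    have hm := mem_connectedComponentIn hE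
    have h1 : connectedComponentIn E z ⊆ U :=
      ((Cp.mk z hE).in_or hU hf).resolve_right fun h => disjoint_left.1 h hm hL.1
    rw [connectedComponentIn_eq hz]
    refine isPreconnected_connectedComponentIn.subset_connectedComponentIn hm fun x hx => ?_
    obtain ⟨h2, h3⟩ := a.cst z hE x hx
    exact ⟨subset_closure (h1 hx), h2.trans_le hL.2.1, hL.2.2.trans_eq h3.symm⟩
  · rw [connectedComponentIn_eq_empty hE]
    exact empty_subset _

theorem min_LevA {W : Set ℂ} (hm : a.Mono) (hW : IsOpen W) (hc : closure W ⊆ Q)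
    (hf : ∀ x ∈ frontier W, t < a.lo x) : ∀ x ∈ W, t < a.lo x := by
  have hs : frontier W ⊆ Qc := (frontier_subset_closure.trans hc).trans Q_sub
  obtain ⟨s, h1, h2⟩ : ∃ s, t < s ∧ ∀ x ∈ frontier W, s ≤ a.lo x := by
    rcases (frontier W).eq_empty_or_nonempty with h | h
    · exact ⟨t + 1, lt_add_one t, fun x hx => absurd (h ▸ hx) (notMem_empty x)⟩
    · obtain ⟨x, hx, hmin⟩ := LowerSemicontinuousOn.exists_isMinOn h
        (isCompact_Qc.of_isClosed_subset isClosed_frontier hs) (a.lsc.mono hs)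
      exact ⟨a.lo x, hf x hx, fun y hy => hmin hy⟩
  exact fun x hx => h1.trans_le ((hm W hW hc s).2 h2 x hx)

theorem max_LevA {W : Set ℂ} (hm : a.Mono) (hW : IsOpen W) (hc : closure W ⊆ Q)
    (hf : ∀ x ∈ frontier W, a.hi x < t) : ∀ x ∈ W, a.hi x < t := fun x hx =>
  neg_lt_neg_iff.1 (min_LevA (t := -t) hm.neg hW hc (fun y hy => neg_lt_neg (hf y hy)) x hx)

theorem shift_LevA {x : ℝ} (h : 0 < Real.sin x) :
    ∃ k : ℤ, x + k * (2 * Real.pi) ∈ Ioo 0 Real.pi := by
  obtain ⟨k, hk, -⟩ := existsUnique_add_zsmul_mem_Ioc Real.two_pi_pos x (-Real.pi)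
  rw [zsmul_eq_mul] at hk
  rw [← Real.sin_add_int_mul_two_pi x k] at h
  refine ⟨k, ?_, lt_of_le_of_ne (by linarith [hk.2]) fun e => ?_⟩
  · by_contra hc
    exact (Real.sin_nonpos_of_nonpos_of_neg_pi_le (not_lt.1 hc) hk.1.le).not_gt h
  · rw [e, Real.sin_pi] at h
    exact lt_irrefl _ h

theorem lev_reach (hm : a.Mono) (hU : IsOpen U) (hc : closure U ⊆ Q)
    (hz : z ∈ a.lev (closure U) t) :
    (connectedComponentIn (a.lev (closure U) t) z ∩ frontier U).Nonempty := by
  have hK : IsCompact (closure U) :=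
    isCompact_Qc.of_isClosed_subset isClosed_closure (hc.trans Q_sub)
  by_contra hn
  have h1 : (Cp.mk z hz).1 ⊆ U := fun x hx => by
    by_contra h
    exact hn ⟨x, hx, hU.frontier_eq ▸ ⟨(connectedComponentIn_subset _ _ hx).1, h⟩⟩
  obtain ⟨U₁, o1, s1, c1, -, d1⟩ := Cp.sat (a.lev_cpt hK hc t) (Cp.mk z hz) hU h1
  obtain ⟨θ₀, hθ₀, H₀⟩ := exists_arg (a.open_lo t) (a.open_hi t) o1
    (isClosed_closure (s := U₁)).isOpen_compl
    (disjoint_left.2 fun x h2 h3 => (h3.2.trans h2.2).not_ge (a.le x))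
    (disjoint_compl_right.mono_left subset_closure) fun x => by
      by_cases h2 : x ∈ U₁
      · exact Or.inr (Or.inr (Or.inl h2))
      by_cases h3 : x ∈ closure U₁
      · have h4 : x ∉ a.lev (closure U) t := disjoint_left.1 d1 (o1.frontier_eq ▸ ⟨h3, h2⟩)
        have h5 := subset_closure (c1 h3)
        by_contra h
        exact h4 ⟨h5, not_lt.1 fun h' => h (Or.inl ⟨hc h5, h'⟩),
          not_lt.1 fun h' => h (Or.inr (Or.inl ⟨hc h5, h'⟩))⟩
      · exact Or.inr (Or.inr (Or.inr h3))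
  obtain ⟨k, hk⟩ := shift_LevA ((H₀ z).2.2.1.2 (s1 (Cp.mem_mk z hz)))
  obtain ⟨θ, hθ, hk, hs, hp, hq⟩ : ∃ θ : ℂ → ℝ, Continuous θ ∧ θ z ∈ Ioo 0 Real.pi ∧
      (∀ x, x ∉ closure U₁ → Real.sin (θ x) < 0) ∧ (∀ x, 0 < Real.cos (θ x) → t < a.lo x) ∧
      ∀ x, Real.cos (θ x) < 0 → a.hi x < t := by
    refine ⟨fun x => θ₀ x + k * (2 * Real.pi), hθ₀.add continuous_const, hk, fun x hx => ?_,
      fun x hx => ?_, fun x hx => ?_⟩
    · rw [Real.sin_add_int_mul_two_pi]
      exact (H₀ x).2.2.2.2 hx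
    · rw [Real.cos_add_int_mul_two_pi] at hx
      exact ((H₀ x).1.1 hx).2
    · rw [Real.cos_add_int_mul_two_pi] at hx
      exact ((H₀ x).2.1.1 hx).2
  obtain ⟨δ, hδ, hR⟩ := exists_inner hK hc
  have cov : (Icc δ (1 - δ) ×ℂ Icc δ (1 - δ))ᶜ ⊆ {x | θ x < 0} ∪ {x | Real.pi < θ x} := by
    intro x hx
    by_contra h
    exact (Real.sin_nonneg_of_nonneg_of_le_pi (not_lt.1 fun h' => h (Or.inl h'))
      (not_lt.1 fun h' => h (Or.inr h'))).not_gt
      (hs x fun h' => hx (hR (subset_closure (c1 h'))))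
  rcases (ext_Icc δ (1 - δ) δ (1 - δ)).subset_or_subset (isOpen_lt hθ continuous_const)
    (isOpen_lt continuous_const hθ)
    (disjoint_left.2 fun x (h2 : θ x < 0) (h3 : Real.pi < θ x) =>
      (h3.trans h2).not_gt Real.pi_pos) cov with h | h
  · refine (min_LevA hm (isOpen_lt continuous_const hθ) (fun x hx => inner_sub hδ ?_)
      (fun x hx => hp x ?_) z hk.1).not_ge hz.2.1
    · by_contra h2
      have h3 : θ x < 0 := h h2
      have h4 : 0 ≤ θ x := closure_lt_subset_le continuous_const hθ hx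
      exact h3.not_ge h4
    · rw [← (frontier_lt_subset_eq continuous_const hθ hx : 0 = θ x), Real.cos_zero]
      exact one_pos
  · refine (max_LevA hm (isOpen_lt hθ continuous_const) (fun x hx => inner_sub hδ ?_)
      (fun x hx => hq x ?_) z hk.2).not_ge hz.2.2
    · by_contra h2
      have h3 : Real.pi < θ x := h h2
      have h4 : θ x ≤ Real.pi := closure_lt_subset_le hθ continuous_const hx
      exact h3.not_ge h4
    · rw [(frontier_lt_subset_eq hθ continuous_const hx : θ x = Real.pi), Real.cos_pi]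
      exact neg_one_lt_zero

end Vale.Agent.P116
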