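import Vale.Agent.P116.S.Area

/-! P116 K/LevB (TASK, owner helper41). Multiplicity. Helper names end with `_LevB`.
Grid cells `P k m = {z | ⌊(k + 1) * z.re⌋ = m.1 ∧ ⌊(k + 1) * z.im⌋ = m.2}`, `m : ℤ × ℤ` (measurable, pairwise disjoint, fibres of a map `g k : ℂ → ℤ × ℤ`). `M k y = ∑' m, indicator (toMeasurable volume (f '' (A ∩ P k m))) 1 y`;
`∫⁻ M k ≤ ∑' m, ∫⁻ in A ∩ P k m ≤ ∫⁻ in A` (`lintegral_tsum`, `vol_pair_le`, `lintegral_iUnion`). `M = liminf M k`, `lintegral_liminf_le`. For large `k` the map `g k` is injective on the finset `S` (`eventually_all_finset`; two reals with the same floor of `(k + 1) * x` differ by less than `1 / (k + 1)`),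
so `card S ≤ M k y` (`ENNReal.sum_le_tsum` for `S.image (g k)`), `le_liminf_of_le`. -/

open MeasureTheory Set Metric Filter Topology Complex
open scoped ENNReal ComplexConjugate

noncomputable section

namespace Vale.Agent.P116

open Vale.Agent.P128

variable {E U S J : Set ℂ} {a b w : TF E} {t y : ℝ} {z z₀ p q : ℂ}

/-- The grid cell of a point. -/
def cell_LevB (k : ℕ) (z : ℂ) : ℤ × ℤ := (⌊((k : ℝ) + 1) * z.re⌋, ⌊((k : ℝ) + 1) * z.im⌋)

theorem meas_LevB (k : ℕ) : Measurable (cell_LevB k) :=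
  (measurable_const.mul measurable_re).floor.prodMk (measurable_const.mul measurable_im).floor

theorem fl_LevB {x x' : ℝ} (h : x ≠ x') :
    ∀ᶠ k : ℕ in atTop, ⌊((k : ℝ) + 1) * x⌋ ≠ ⌊((k : ℝ) + 1) * x'⌋ := by
  have h0 : 0 < |x - x'| := abs_pos.2 (sub_ne_zero.2 h)
  obtain ⟨N, hN⟩ := exists_nat_ge (1 / |x - x'|)
  filter_upwards [eventually_ge_atTop N] with k hk e
  have h1 := Int.abs_sub_lt_one_of_floor_eq_floor e
  have h2 : (N : ℝ) ≤ k := Nat.cast_le.2 hk
  have h3 : (0 : ℝ) < k + 1 := by positivity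
  rw [← mul_sub, abs_mul, abs_of_pos h3] at h1
  rw [div_le_iff₀ h0] at hN
  nlinarith

theorem inj_LevB {z z' : ℂ} (h : z ≠ z') : ∀ᶠ k : ℕ in atTop, cell_LevB k z ≠ cell_LevB k z' := by
  by_cases h1 : z.re = z'.re
  · have h2 : z.im ≠ z'.im := fun h2 => h (Complex.ext h1 h2)
    filter_upwards [fl_LevB h2] with k hk e using hk (congrArg Prod.snd e)
  · filter_upwards [fl_LevB h1] with k hk e using hk (congrArg Prod.fst e)

theorem mult_pair {O A : Set ℂ} {u v : ℂ → ℝ} (hO : IsOpen O) (hu : LocallyLipschitzOn O u)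
    (hv : LocallyLipschitzOn O v) (hA : MeasurableSet A) (hAO : A ⊆ O) :
    ∃ M : ℂ → ℝ≥0∞, Measurable M ∧ ∫⁻ y, M y ≤ ∫⁻ z in A, ENNReal.ofReal |jac u v z| ∧
      ∀ (y : ℂ) (T : Finset ℂ), (∀ z ∈ T, z ∈ A ∧ (⟨u z, v z⟩ : ℂ) = y) →
        (T.card : ℝ≥0∞) ≤ M y := by
  set f : ℂ → ℂ := fun z => ⟨u z, v z⟩ with hf
  set B : ℕ → ℤ × ℤ → Set ℂ := fun k m => A ∩ cell_LevB k ⁻¹' {m} with hB
  have mB : ∀ k m, MeasurableSet (B k m) := fun k m =>
    hA.inter (meas_LevB k (measurableSet_singleton m))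
  set N : ℕ → ℂ → ℝ≥0∞ := fun k y =>
    ∑' m, (toMeasurable volume (f '' B k m)).indicator (fun _ => 1) y with hN
  have mi : ∀ k m, Measurable ((toMeasurable volume (f '' B k m)).indicator fun _ => (1 : ℝ≥0∞)) :=
    fun k m => measurable_const.indicator (measurableSet_toMeasurable _ _)
  have mN : ∀ k, Measurable (N k) := fun k => Measurable.ennreal_tsum (mi k)
  have iN : ∀ k, ∫⁻ y, N k y ≤ ∫⁻ z in A, ENNReal.ofReal |jac u v z| := by
    intro k
    have e : A = ⋃ m, B k m := by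
      ext z
      simp [hB]
    have hd : Pairwise (Function.onFun Disjoint (B k)) := fun m m' h =>
      disjoint_left.2 fun z h1 h2 => h (h1.2.symm.trans h2.2)
    calc ∫⁻ y, N k y = ∑' m, ∫⁻ y, (toMeasurable volume (f '' B k m)).indicator (fun _ => 1) y :=
          lintegral_tsum fun m => (mi k m).aemeasurable
      _ ≤ ∑' m, ∫⁻ z in B k m, ENNReal.ofReal |jac u v z| := by
          refine ENNReal.tsum_le_tsum fun m => ?_
          rw [lintegral_indicator_const (measurableSet_toMeasurable _ _), one_mul,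
            measure_toMeasurable]
          exact vol_pair_le hO hu hv (mB k m) (inter_subset_left.trans hAO)
      _ = ∫⁻ z in ⋃ m, B k m, ENNReal.ofReal |jac u v z| := (lintegral_iUnion (mB k) hd _).symm
      _ = _ := by rw [← e]
  refine ⟨fun y => liminf (fun k => N k y) atTop, Measurable.liminf mN,
    (lintegral_liminf_le mN).trans (liminf_le_of_frequently_le' (Frequently.of_forall iN)),
    fun y T hT => le_liminf_of_le (h := ?_)⟩
  have ev : ∀ᶠ k : ℕ in atTop, ∀ z ∈ T, ∀ z' ∈ T, cell_LevB k z = cell_LevB k z' → z = z' := by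
    refine (eventually_all_finset T).2 fun z _ => (eventually_all_finset T).2 fun z' _ => ?_
    by_cases h : z = z'
    · exact Eventually.of_forall fun k _ => h
    · filter_upwards [inj_LevB h] with k hk e using (hk e).elim
  filter_upwards [ev] with k hk
  refine le_trans ?_ (ENNReal.sum_le_tsum (T.image (cell_LevB k)))
  rw [← Finset.card_image_of_injOn (f := cell_LevB k) fun z hz z' hz' => hk z hz z' hz',
    Finset.card_eq_sum_ones, Nat.cast_sum]
  refine Finset.sum_le_sum fun m hm => ?_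
  obtain ⟨z, hz, rfl⟩ := Finset.mem_image.1 hm
  have hy : y ∈ f '' B k (cell_LevB k z) := ⟨z, ⟨(hT z hz).1, rfl⟩, (hT z hz).2⟩
  rw [indicator_of_mem (subset_toMeasurable _ _ hy), Nat.cast_one]

end Vale.Agent.P116
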