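import Vale.Agent.P116.K.LevA
import Vale.Agent.P116.K.LevB

/-! P116 K/LevC (TASK, owner helper41). Ranges along level continua. Helper names end with `_LevC`.
`M` from `mult_pair` for `A = U \ E`; `Z = toMeasurable` of the null set of `Cmp`; `T` the countable set of the `c` meeting `U` with `0 < a.osc c` or `0 < b.osc c`;
`M' y = M y + ∑' c : T, indicator (box a b c.pt) 1 y + indicator Z ⊤ y`, `N t = ∫⁻ s, M' ⟨t, s⟩` (Tonelli: `Complex.volume_preserving_equiv_real_prod`, `lintegral_prod`, `Measurable.lintegral_prod_right'`; `vol_Icc`, compare with the proof of `area` in S/Area).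
`∑ i, ofReal (hi - lo) = ∫⁻ s, ∑ i, indicator (Icc (b.lo (q i)) (b.hi (p i))) 1 s`. Pointwise in `s`: if `⟨t, s⟩ ∈ Z` trivial; otherwise choose `z i ∈ J i` by `TF.ivt` for the `i` with `s` in the interval; `z i ∉ E` (counted by `M`, the `z i` are distinct) or `z i` lies in an atom
`Cp.mk (z i) _ ∈ T` (distinct for distinct `i`), since non atoms have `pr a b (z i) = ⟨t, s⟩ ∈ Z` (`box_Area`). -/

open MeasureTheory Set Metric Filter Topology Complex
open scoped ENNReal ComplexConjugate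

noncomputable section

namespace Vale.Agent.P116

open Vale.Agent.P128

variable {E U S J : Set ℂ} {a b w : TF E} {t y : ℝ} {z z₀ p q : ℂ}

theorem ton_LevC {M : ℂ → ℝ≥0∞} (hM : Measurable M) :
    (Measurable fun t : ℝ => ∫⁻ s : ℝ, M ⟨t, s⟩) ∧ ∫⁻ t : ℝ, ∫⁻ s : ℝ, M ⟨t, s⟩ = ∫⁻ y, M y := by
  have hg : Measurable fun x : ℝ × ℝ => M (measurableEquivRealProd.symm x) :=
    hM.comp measurableEquivRealProd.symm.measurable
  refine ⟨hg.lintegral_prod_right', ?_⟩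
  rw [← (volume_preserving_equiv_real_prod.symm _).lintegral_comp hM, Measure.volume_eq_prod,
    lintegral_prod _ hg.aemeasurable]
  rfl

theorem atom_LevC {x : ℂ} (hzE : z ∈ E) (hz : z ∈ U) (hy : x ∈ TF.box a b z)
    (hx : x ∉ TF.pr a b '' {z | z ∈ E ∧ a.lo z = a.hi z ∧ b.lo z = b.hi z}) :
    Cp.mk z hzE ∈ {c : Cp E | (c.1 ∩ U).Nonempty ∧ (0 < a.osc c ∨ 0 < b.osc c)} ∧
      x ∈ TF.box a b (Cp.mk z hzE).pt := by
  have he : ¬ (a.lo z = a.hi z ∧ b.lo z = b.hi z) := fun he =>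
    hx ⟨z, ⟨hzE, he⟩, box_Area he.1 he.2 hy⟩
  have hm := Cp.mem_mk z hzE
  have e1 := a.at_pt hm
  have e2 := b.at_pt hm
  refine ⟨⟨⟨z, hm, hz⟩, ?_⟩, ?_⟩
  · rw [TF.osc, TF.osc, ← e1.1, ← e1.2, ← e2.1, ← e2.2]
    rcases not_and_or.1 he with h1 | h1
    · exact Or.inl (sub_pos.2 ((a.le z).lt_of_ne h1))
    · exact Or.inr (sub_pos.2 ((b.le z).lt_of_ne h1))
  · rw [TF.box, ← e1.1, ← e1.2, ← e2.1, ← e2.2]
    exact hy

theorem cnt_LevC {x : ℂ} {m : ℝ≥0∞}
    (hm : ∀ T : Finset ℂ, (∀ z ∈ T, z ∈ U \ E ∧ (⟨a.hi z, b.hi z⟩ : ℂ) = x) → (T.card : ℝ≥0∞) ≤ m)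
    (hx : x ∉ TF.pr a b '' {z | z ∈ E ∧ a.lo z = a.hi z ∧ b.lo z = b.hi z}) {ι : Type}
    {I : Finset ι} {v : ι → ℂ} (h1 : ∀ i ∈ I, v i ∈ U ∧ x ∈ TF.box a b (v i))
    (h2 : ∀ i ∈ I, ∀ j ∈ I, i ≠ j → v i ≠ v j ∧ v j ∉ connectedComponentIn E (v i)) :
    (I.card : ℝ≥0∞) ≤ m + ∑' c : {c : Cp E | (c.1 ∩ U).Nonempty ∧ (0 < a.osc c ∨ 0 < b.osc c)},
      (TF.box a b c.1.pt).indicator 1 x := by
  classical
  rw [← Finset.card_filter_add_card_filter_not (s := I) (fun i => v i ∈ E), Nat.cast_add, add_comm]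
  refine add_le_add ?_ ?_
  · rw [← Finset.card_image_of_injOn (f := v) fun i hi j hj he => by_contra fun hne =>
      (h2 i (Finset.mem_filter.1 hi).1 j (Finset.mem_filter.1 hj).1 hne).1 he]
    refine hm _ fun z hz => ?_
    obtain ⟨i, hi, rfl⟩ := Finset.mem_image.1 hz
    obtain ⟨k1, k2⟩ := Finset.mem_filter.1 hi
    exact ⟨⟨(h1 i k1).1, k2⟩, box_Area (a.eq _ k2) (b.eq _ k2) (h1 i k1).2⟩
  · have k : ∀ i : I.filter fun i => v i ∈ E, i.1 ∈ I ∧ v i ∈ E := fun i => Finset.mem_filter.1 i.2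
    have hinj : Function.Injective fun i : I.filter fun i => v i ∈ E =>
        (⟨Cp.mk (v i) (k i).2, (atom_LevC (k i).2 (h1 i (k i).1).1 (h1 i (k i).1).2 hx).1⟩ :
          {c : Cp E | (c.1 ∩ U).Nonempty ∧ (0 < a.osc c ∨ 0 < b.osc c)}) := by
      intro i j hij
      by_contra hne
      have e : connectedComponentIn E (v i) = connectedComponentIn E (v j) :=
        congrArg (fun c => c.1.1) hij
      refine (h2 i (k i).1 j (k j).1 fun e' => hne (Subtype.ext e')).2 ?_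
      rw [e]
      exact mem_connectedComponentIn (k j).2
    refine le_trans (le_of_eq ?_) (ENNReal.tsum_comp_le_tsum_of_injective hinj _)
    rw [tsum_fintype, Finset.sum_congr rfl fun i _ => indicator_of_mem
      (atom_LevC (k i).2 (h1 i (k i).1).1 (h1 i (k i).1).2 hx).2 (1 : ℂ → ℝ≥0∞)]
    simp

theorem lev_sum (hE : Dom E) (ha : a.Fn) (hb : b.Fn) (h : a.Cmp b) (hU : MeasurableSet U)
    (hUQ : U ⊆ Q) : ∃ N : ℝ → ℝ≥0∞, Measurable N ∧
      ∫⁻ t, N t ≤ (∫⁻ z in U \ E, ENNReal.ofReal |jac a.hi b.hi z|) +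
        ∑' c : {c : Cp E // (c.1 ∩ U).Nonempty}, ENNReal.ofReal (a.osc c * b.osc c) ∧
      ∀ (t : ℝ) (ι : Type) (I : Finset ι) (J : ι → Set ℂ) (p q : ι → ℂ),
        (∀ i ∈ I, IsPreconnected (J i) ∧ J i ⊆ a.lev U t ∧ p i ∈ J i ∧ q i ∈ J i) →
        (∀ i ∈ I, ∀ j ∈ I, i ≠ j → ∀ z ∈ J i, ∀ z' ∈ J j,
          z ≠ z' ∧ z' ∉ connectedComponentIn E z) →
        ∑ i ∈ I, ENNReal.ofReal (b.hi (p i) - b.lo (q i)) ≤ N t := by
  classical
  have hS : {c : Cp E | (c.1 ∩ U).Nonempty ∧ (0 < a.osc c ∨ 0 < b.osc c)}.Countable :=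
    (ha.countable.union hb.countable).mono fun c hc => hc.2
  have := hS.to_subtype
  obtain ⟨M, hM, hMi, hMc⟩ := mult_pair hE.op a.lip b.lip (hU.diff hE.cpt.measurableSet)
    (sdiff_subset_sdiff_left hUQ)
  obtain ⟨Z, hZ, hZm, hZ0⟩ := exists_measurable_superset_of_null h
  have mb : ∀ c : Cp E, MeasurableSet (TF.box a b c.pt) := fun c =>
    (cpt_rect _ _ _ _).measurableSet
  have m1 : ∀ c : {c : Cp E | (c.1 ∩ U).Nonempty ∧ (0 < a.osc c ∨ 0 < b.osc c)},
      Measurable ((TF.box a b c.1.pt).indicator (1 : ℂ → ℝ≥0∞)) := fun c =>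
    measurable_one.indicator (mb c)
  have m2 := Measurable.tsum (L := SummationFilter.unconditional _) m1
  have m3 : Measurable (Z.indicator fun _ => (∞ : ℝ≥0∞)) := measurable_const.indicator hZm
  obtain ⟨n1, n2⟩ := ton_LevC ((hM.fun_add m2).fun_add m3)
  refine ⟨_, n1, n2.le.trans ?_, fun t ι I J p q h1 h2 => ?_⟩
  · rw [lintegral_add_right _ m3, lintegral_add_left hM, lintegral_indicator_const hZm, hZ0,
      mul_zero, add_zero, lintegral_tsum fun c => (m1 c).aemeasurable]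
    refine add_le_add hMi ?_
    have e : ∀ c : Cp E, ∫⁻ x, (TF.box a b c.pt).indicator (1 : ℂ → ℝ≥0∞) x =
        ENNReal.ofReal (a.osc c * b.osc c) := fun c => by
      rw [lintegral_indicator_one (mb c), TF.box, vol_Icc, ENNReal.ofReal_mul (a.osc_nonneg c)]
      rfl
    simp only [e]
    exact ENNReal.tsum_mono_subtype (fun c => ENNReal.ofReal (a.osc c * b.osc c))
      (t := {c : Cp E | (c.1 ∩ U).Nonempty}) fun c hc => hc.1
  · have e : ∀ i, ENNReal.ofReal (b.hi (p i) - b.lo (q i)) =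
        ∫⁻ s, (Icc (b.lo (q i)) (b.hi (p i))).indicator (1 : ℝ → ℝ≥0∞) s := fun i => by
      rw [lintegral_indicator_one measurableSet_Icc, Real.volume_Icc]
    simp only [e]
    rw [← lintegral_finsetSum _ fun i _ => measurable_one.indicator measurableSet_Icc]
    refine lintegral_mono fun s => ?_
    by_cases hs : (⟨t, s⟩ : ℂ) ∈ Z
    · simp only [indicator_of_mem hs, add_top, le_top]
    refine le_trans ?_ le_self_add
    have k : ∀ i ∈ I.filter fun i => s ∈ Icc (b.lo (q i)) (b.hi (p i)),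
        ∃ z ∈ J i, b.lo z ≤ s ∧ s ≤ b.hi z := fun i hi => by
      obtain ⟨k1, k2⟩ := Finset.mem_filter.1 hi
      obtain ⟨l1, l2, l3, l4⟩ := h1 i k1
      exact b.ivt l1 (fun z hz => hUQ (l2 hz).1) l3 l4 k2.1 k2.2
    choose! v hv hv' using k
    refine le_trans (le_of_eq ?_) (cnt_LevC (I := I.filter fun i =>
      s ∈ Icc (b.lo (q i)) (b.hi (p i))) (v := v) (hMc _) (fun hx => hs (hZ hx))
      (fun i hi => ?_) fun i hi j hj hne =>
        h2 i (Finset.mem_filter.1 hi).1 j (Finset.mem_filter.1 hj).1 hne _ (hv i hi) _ (hv j hj))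
    · simp only [indicator_apply, Pi.one_apply]
      exact Finset.sum_boole _ _
    · have l := (h1 i (Finset.mem_filter.1 hi).1).2.1 (hv i hi)
      exact ⟨l.1, l.2, hv' i hi⟩

end Vale.Agent.P116
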