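import Vale.Agent.P116.K.Klem
import Vale.Agent.P116.K.Base
import Vale.Agent.P116.K.Top

/-! P116 K/Main. Greedy: A 0 = [s0, w0]; v A, h A = infima of en over V resp. H members compatible with A; add w n with en ≤ v (A n) + 1/(n+1), then s n with en ≤ h (w n :: A n) + 1/(n+1). v and h increase along the lists and are bounded by en w0, en s0; v A ≥ 1 / en s0 > 0 by area_ineq; klem gives h A ≤ 1 / v A; area_ineq gives 1 ≤ en (s n) * en (w n). So the limits have product 1. cmp_self, cmp_symm. -/

open MeasureTheory Set Metric Filter Topology Complex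
open scoped ENNReal

noncomputable section

namespace Vale.Agent.P116.K

open Vale.Agent.P128

theorem seq_exists {E : Set ℂ} (hE : Dom E) (hne : E.Nonempty) : ∃ μ s w, Seq E μ s w := by
  refine seq_of_dual hE hne fun A hA c hc h η hη => ?_
  obtain ⟨s₀, h0, -, h1⟩ := exists_s0 hE
  have h2 : 0 < c ^ 2 := by positivity
  obtain ⟨s, a1, a2, a3, a4⟩ := klem hE hne (fam_cons hA h0 fun d _ => cmp_symm (h1 d))
    (List.cons_ne_nil _ _) (m := 1 / c ^ 2) (by positivity) (fun w hw hV hc' => by
      rw [div_le_iff₀' h2]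
      exact h w hV (fam_cons hA hw fun d hd => cmp_symm (hc' d (List.mem_cons_of_mem _ hd)))) hη
  refine ⟨s, a2, fam_cons hA a1 fun d hd => cmp_symm (a3 d (List.mem_cons_of_mem _ hd)), ?_⟩
  rwa [one_div_one_div] at a4

end Vale.Agent.P116.K
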