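import Vale.Agent.P116.S.Tst

/-! P116 K/MolC (TASK, owner helper20). Helper names end with `_MolC`.
Layers. `d z = infDist z Oᶜ` (positive on `O`, `Oᶜ` is nonempty and closed), `χ j z = max 0 (1 - |1 / d z - j|)` on `O`, `0` elsewhere; for `j = 0` too (`1 / d > 0`). The support lies in the compact set `{1 / (j + 1) ≤ d} ⊆ O`
(bounded); Lipschitz by `Tst.mul` with a cutoff equal to one there (`exists_cut`) or directly. `∑ j ∈ range N, max 0 (1 - |x - j|) = 1` for `0 ≤ x ≤ N - 1`. `W N = {z ∈ O | 1 / d z < N}`. -/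

open MeasureTheory Set Metric Filter Topology Complex
open scoped ENNReal ComplexConjugate

set_option linter.unusedVariables false

noncomputable section

namespace Vale.Agent.P116

open Vale.Agent.P128

variable {O : Set ℂ} {u : ℂ → ℝ} {G : ℂ → ℂ}

/-- The cutoffs whose differences are the layers. -/
def th_MolC (O : Set ℂ) (N : ℕ) (z : ℂ) : ℝ := max 0 (min 1 (N * infDist z Oᶜ - 1))

theorem lip_MolC (O : Set ℂ) (N : ℕ) : ∃ K, LipschitzWith K (th_MolC O N) :=
  ⟨_, ((((lipschitzWith_smul (N : ℝ)).comp (lipschitz_infDist_pt Oᶜ)).sub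
    (LipschitzWith.const 1)).const_min 1).const_max 0⟩

theorem mono_MolC (O : Set ℂ) (N : ℕ) (z : ℂ) : th_MolC O N z ≤ th_MolC O (N + 1) z := by
  refine max_le_max le_rfl (min_le_min le_rfl ?_)
  have := infDist_nonneg (x := z) (s := Oᶜ)
  push_cast
  linarith

theorem zero_MolC {N : ℕ} {z : ℂ} (h : N * infDist z Oᶜ < 1) : th_MolC O N z = 0 :=
  max_eq_left ((min_le_right _ _).trans (by linarith))

theorem one_MolC {N M : ℕ} {z : ℂ} (h : 2 < N * infDist z Oᶜ) (hM : N ≤ M) :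
    th_MolC O M z = 1 := by
  have h1 : (N : ℝ) * infDist z Oᶜ ≤ M * infDist z Oᶜ :=
    mul_le_mul_of_nonneg_right (Nat.cast_le.2 hM) infDist_nonneg
  rw [th_MolC, min_eq_left (by linarith), max_eq_right zero_le_one]

theorem tst_MolC (hb : Bornology.IsBounded O) (j : ℕ) :
    Tst O fun z => th_MolC O (j + 1) z - th_MolC O j z := by
  obtain ⟨K₁, h1⟩ := lip_MolC O (j + 1)
  obtain ⟨K₂, h2⟩ := lip_MolC O j
  have hc : IsClosed {z : ℂ | 1 ≤ ((j + 1 : ℕ) : ℝ) * infDist z Oᶜ} :=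
    isClosed_le continuous_const (continuous_const.mul (continuous_infDist_pt _))
  have hs : {z : ℂ | 1 ≤ ((j + 1 : ℕ) : ℝ) * infDist z Oᶜ} ⊆ O := fun z hz => by
    by_contra h
    rw [mem_ofPred_eq, infDist_zero_of_mem (mem_compl h), mul_zero] at hz
    linarith
  have ht : tsupport (fun z => th_MolC O (j + 1) z - th_MolC O j z) ⊆
      {z : ℂ | 1 ≤ ((j + 1 : ℕ) : ℝ) * infDist z Oᶜ} := by
    refine closure_minimal (fun z hz => ?_) hc
    by_contra h
    rw [mem_ofPred_eq, not_le] at h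
    have h3 : (j : ℝ) * infDist z Oᶜ < 1 :=
      (mul_le_mul_of_nonneg_right (Nat.cast_le.2 j.le_succ) infDist_nonneg).trans_lt h
    exact hz (by simp only [zero_MolC h, zero_MolC h3, sub_self])
  exact ⟨⟨_, h1.sub h2⟩, (isCompact_of_isClosed_isBounded hc (hb.subset hs)).of_isClosed_subset
    (isClosed_tsupport _) ht, ht.trans hs⟩

theorem sum_MolC (O : Set ℂ) (N : ℕ) (z : ℂ) :
    ∑ j ∈ Finset.range N, (th_MolC O (j + 1) z - th_MolC O j z) = th_MolC O N z := by
  rw [Finset.sum_range_sub fun j => th_MolC O j z, zero_MolC (N := 0) (by simp), sub_zero]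

theorem exists_layers (hO : IsOpen O) (hb : Bornology.IsBounded O) :
    ∃ (χ : ℕ → ℂ → ℝ) (W : ℕ → Set ℂ), (∀ j, Tst O (χ j)) ∧ (∀ j z, 0 ≤ χ j z) ∧
      (∀ N, IsOpen (W N)) ∧ Monotone W ∧ ⋃ N, W N = O ∧
      (∀ N, ∀ z ∈ W N, ∑ j ∈ Finset.range (N + 1), χ j z = 1) ∧
      (∀ N z, ∑ j ∈ Finset.range N, χ j z ≤ 1) ∧ ∀ N j, N < j → ∀ z ∈ W N, χ j z = 0 := by
  have hne : Oᶜ.Nonempty := nonempty_compl.2 fun h => NormedSpace.unbounded_univ ℝ ℂ (h ▸ hb)
  refine ⟨fun j z => th_MolC O (j + 1) z - th_MolC O j z, fun N => {z | 2 < N * infDist z Oᶜ},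
    tst_MolC hb, fun j z => sub_nonneg.2 (mono_MolC O j z), fun N => ?_, fun N M h z hz => ?_, ?_,
    fun N z hz => ?_, fun N z => ?_, fun N j h z hz => ?_⟩
  · exact isOpen_lt continuous_const (continuous_const.mul (continuous_infDist_pt _))
  · exact lt_of_lt_of_le hz (mul_le_mul_of_nonneg_right (Nat.cast_le.2 h) infDist_nonneg)
  · refine Subset.antisymm (iUnion_subset fun N z hz => ?_) fun z hz => ?_
    · by_contra h
      rw [mem_ofPred_eq, infDist_zero_of_mem (mem_compl h), mul_zero] at hz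
      linarith
    · have h1 := (hO.isClosed_compl.notMem_iff_infDist_pos hne).1 (notMem_compl_iff.2 hz)
      obtain ⟨N, hN⟩ := exists_nat_gt (2 / infDist z Oᶜ)
      exact mem_iUnion.2 ⟨N, (div_lt_iff₀ h1).1 hN⟩
  · rw [sum_MolC, one_MolC hz N.le_succ]
  · rw [sum_MolC]
    exact max_le zero_le_one (min_le_left _ _)
  · simp only [one_MolC hz h.le, one_MolC hz (h.le.trans j.le_succ), sub_self]

end Vale.Agent.P116
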