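import Vale.Agent.P116.K.MolB
import Vale.Agent.P116.K.MolC

/-! P116 K/Mol (TASK, owner helper20). Helper names end with `_Mol`.
`χ j`, `W N` from `exists_layers`; `‖gr (χ j)‖ ≤ C j` (`Tst.bd`); `r j > 0` below the minimum of `δ` on `tsupport (χ j)`; `v j` from `mol_one` with a tiny `ε j`; `v z = ∑' j, χ j z * v j z`, a finite sum on `W N`.
Almost everywhere on `W N`: `gr v = ∑ χ j gr (v j) + ∑ (v j - u) gr (χ j)` (the sum of the `gr (χ j)` vanishes on the open set `W N`). `‖∑ χ j g j‖² ≤ ∑ χ j ‖g j‖²`; `‖a + b‖² ≤ (1 + t) ‖a‖² + (1 + 1 / t) ‖b‖²`;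
`‖∑ b j‖² ≤ 2 ∑ 2 ^ j ‖b j‖²`. So `∫_{W N} ‖gr v‖² ≤ ∫_O ‖G‖² + ε` for all `N`; `integrableOn_iUnion_of_summable` is not needed: use `lintegral` and `setLIntegral_iUnion_of_directed`, or `integrable_of_monotone`. -/

open MeasureTheory Set Metric Filter Topology Complex
open scoped ENNReal ComplexConjugate

set_option linter.unusedVariables false

noncomputable section

namespace Vale.Agent.P116

open Vale.Agent.P128

variable {O : Set ℂ} {u : ℂ → ℝ} {G : ℂ → ℂ}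

theorem cs_Mol (s : Finset ℕ) {w : ℕ → ℝ} (x : ℕ → ℂ) (hw : ∀ j, 0 ≤ w j)
    (h1 : ∑ j ∈ s, w j ≤ 1) :
    ‖∑ j ∈ s, (w j : ℂ) * x j‖ ^ 2 ≤ ∑ j ∈ s, w j * ‖x j‖ ^ 2 := by
  have h2 : ‖∑ j ∈ s, (w j : ℂ) * x j‖ ≤ ∑ j ∈ s, w j * ‖x j‖ :=
    (norm_sum_le _ _).trans (Finset.sum_le_sum fun j _ => by
      rw [norm_mul, norm_real, Real.norm_of_nonneg (hw j)])
  have h3 := Finset.sum_sq_le_sum_mul_sum_of_sq_le_mul s (r := fun j => w j * ‖x j‖) (f := w)
    (g := fun j => w j * ‖x j‖ ^ 2) (fun j _ => hw j)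
    (fun j _ => mul_nonneg (hw j) (sq_nonneg _)) (fun j _ => le_of_eq (by ring))
  have h4 : 0 ≤ ∑ j ∈ s, w j * ‖x j‖ ^ 2 :=
    Finset.sum_nonneg fun j _ => mul_nonneg (hw j) (sq_nonneg _)
  exact (pow_le_pow_left₀ (norm_nonneg _) h2 2).trans (h3.trans (mul_le_of_le_one_left h4 h1))

theorem geo_Mol (n : ℕ) : ∑ j ∈ Finset.range n, (1 / 2 : ℝ) ^ (j + 1) ≤ 1 := by
  have h : ∑ j ∈ Finset.range n, (1 / 2 : ℝ) ^ (j + 1) = 1 - (1 / 2) ^ n := by
    induction n with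
    | zero => simp
    | succ n ih =>
      rw [Finset.sum_range_succ, ih]
      ring
  have h1 : 0 ≤ (1 / 2 : ℝ) ^ n := by positivity
  linarith

theorem pt_Mol (n : ℕ) {w : ℕ → ℝ} (x b : ℕ → ℂ) (hw : ∀ j, 0 ≤ w j)
    (h1 : ∑ j ∈ Finset.range n, w j ≤ 1) {t : ℝ} (ht : 0 < t) :
    ‖∑ j ∈ Finset.range n, (w j : ℂ) * x j + ∑ j ∈ Finset.range n, b j‖ ^ 2 ≤
      (1 + t) * ∑ j ∈ Finset.range n, w j * ‖x j‖ ^ 2 +
        (1 + 1 / t) * ∑ j ∈ Finset.range n, 2 ^ (j + 1) * ‖b j‖ ^ 2 := by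
  have h2 := cs_Mol (Finset.range n) x hw h1
  have h3 := cs_Mol (Finset.range n) (w := fun j => (1 / 2) ^ (j + 1))
    (fun j => 2 ^ (j + 1) * b j) (fun j => by positivity) (geo_Mol n)
  have e1 : ∀ j, (((1 / 2 : ℝ) ^ (j + 1) : ℝ) : ℂ) * (2 ^ (j + 1) * b j) = b j := fun j => by
    push_cast
    rw [← mul_assoc, ← mul_pow]
    norm_num
  have e2 : ∀ j, (1 / 2 : ℝ) ^ (j + 1) * ‖(2 : ℂ) ^ (j + 1) * b j‖ ^ 2 =
      2 ^ (j + 1) * ‖b j‖ ^ 2 := fun j => by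
    rw [norm_mul, norm_pow, Complex.norm_two, mul_pow, sq ((2 : ℝ) ^ (j + 1)), ← mul_assoc,
      ← mul_assoc, ← mul_pow]
    norm_num
  simp only [e1, e2] at h3
  generalize ∑ j ∈ Finset.range n, (w j : ℂ) * x j = A at h2 ⊢
  generalize ∑ j ∈ Finset.range n, b j = B at h3 ⊢
  have h4 := pow_le_pow_left₀ (norm_nonneg _) (norm_add_le A B) 2
  have h5 : (1 + t) * ‖A‖ ^ 2 + (1 + 1 / t) * ‖B‖ ^ 2 - (‖A‖ + ‖B‖) ^ 2 =
      (t * ‖A‖ - ‖B‖) ^ 2 / t := by
    field_simp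
    ring
  have h6 : 0 ≤ (t * ‖A‖ - ‖B‖) ^ 2 / t := by positivity
  have h7 := mul_le_mul_of_nonneg_left h2 (show 0 ≤ 1 + t by positivity)
  have h8 := mul_le_mul_of_nonneg_left h3 (show 0 ≤ 1 + 1 / t by positivity)
  linarith

theorem lim_Mol {W : ℕ → Set ℂ} (hW : ∀ N, IsOpen (W N)) (hm : Monotone W) {f : ℂ → ℝ}
    (hf : Measurable f) (h0 : ∀ z, 0 ≤ f z) {c : ℝ} (hc : 0 ≤ c)
    (h : ∀ N, ∃ F : ℂ → ℝ, Integrable F ∧ (∀ z, 0 ≤ F z) ∧ ∫ z, F z ≤ c ∧
      ∀ᵐ z, z ∈ W N → f z ≤ F z) :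
    IntegrableOn f (⋃ N, W N) ∧ ∫ z in ⋃ N, W N, f z ≤ c := by
  have h1 : ∫⁻ z in ⋃ N, W N, ENNReal.ofReal (f z) ≤ ENNReal.ofReal c := by
    rw [setLIntegral_iUnion_of_directed _ hm.directed_le]
    refine iSup_le fun N => ?_
    obtain ⟨F, f1, f2, f3, f4⟩ := h N
    calc ∫⁻ z in W N, ENNReal.ofReal (f z) ≤ ∫⁻ z in W N, ENNReal.ofReal (F z) :=
          lintegral_mono_ae (((ae_restrict_iff' (hW N).measurableSet).2 f4).mono
            fun z hz => ENNReal.ofReal_le_ofReal hz)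
      _ ≤ ∫⁻ z, ENNReal.ofReal (F z) := setLIntegral_le_lintegral _ _
      _ = ENNReal.ofReal (∫ z, F z) :=
          (ofReal_integral_eq_lintegral_ofReal f1 (ae_of_all _ f2)).symm
      _ ≤ _ := ENNReal.ofReal_le_ofReal f3
  refine ⟨⟨hf.aestronglyMeasurable, (hasFiniteIntegral_iff_ofReal (ae_of_all _ h0)).2
    (h1.trans_lt ENNReal.ofReal_lt_top)⟩, ?_⟩
  rw [integral_eq_lintegral_of_nonneg_ae (ae_of_all _ h0) hf.aestronglyMeasurable]
  exact ENNReal.toReal_le_of_le_ofReal hc h1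

theorem grs_Mol (s : Finset ℕ) {f : ℕ → ℂ → ℝ} {z : ℂ} (h : ∀ j, DifferentiableAt ℝ (f j) z) :
    gr (fun w => ∑ j ∈ s, f j w) z = ∑ j ∈ s, gr (f j) z := by
  simp only [gr, fderiv_fun_sum fun j _ => h j, _root_.sum_apply, ofReal_sum,
    Finset.mul_sum, Finset.sum_add_distrib]

theorem lips_Mol {f : ℕ → ℂ → ℝ} (h : ∀ j, ∃ K, LipschitzWith K (f j)) (n : ℕ) :
    ∃ K, LipschitzWith K fun w => ∑ j ∈ Finset.range n, f j w := by
  induction n with
  | zero => exact ⟨0, by simp⟩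
  | succ n ih =>
    obtain ⟨K, hK⟩ := ih
    obtain ⟨K', hK'⟩ := h n
    simp only [Finset.sum_range_succ]
    exact ⟨_, hK.add hK'⟩

theorem grv_Mol {χ v : ℕ → ℂ → ℝ} {V : ℂ → ℝ} {W : Set ℂ} (hW : IsOpen W) (s : Finset ℕ)
    (h1 : ∀ w ∈ W, ∑ j ∈ s, χ j w = 1) (h2 : ∀ w ∈ W, V w = ∑ j ∈ s, χ j w * v j w) {z : ℂ}
    (hz : z ∈ W) (d1 : ∀ j, DifferentiableAt ℝ (χ j) z) (d2 : ∀ j, DifferentiableAt ℝ (v j) z)
    (c : ℝ) : gr V z = ∑ j ∈ s, (χ j z : ℂ) * gr (v j) z +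
      ∑ j ∈ s, ((v j z - c : ℝ) : ℂ) * gr (χ j) z := by
  have e1 : ∑ j ∈ s, gr (χ j) z = 0 := by
    rw [← grs_Mol s d1, (EARN.gr_congr (ψ := fun _ => 1)
      (eventually_of_mem (hW.mem_nhds hz) h1)).1]
    simp [gr]
  rw [(EARN.gr_congr (ψ := fun w => ∑ j ∈ s, χ j w * v j w)
    (eventually_of_mem (hW.mem_nhds hz) h2)).1,
    grs_Mol s (f := fun j w => χ j w * v j w) fun j => (d1 j).mul (d2 j)]
  simp only [fun j => (EARN.gr_add (d1 j) (d2 j)).2.2.2.2, ofReal_sub, sub_mul,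
    Finset.sum_add_distrib, Finset.sum_sub_distrib, ← Finset.mul_sum, e1, mul_zero, sub_zero]

theorem mol (hO : IsOpen O) (hbd : Bornology.IsBounded O) (hu : Measurable u)
    (hb : ∀ z, u z ∈ Icc (0 : ℝ) 1) (hG : WG O u G) {δ : ℂ → ℝ} (hδ : ContinuousOn δ O)
    (hp : ∀ z ∈ O, 0 < δ z) {ε : ℝ} (hε : 0 < ε) :
    ∃ v : ℂ → ℝ, LocallyLipschitzOn O v ∧ IntegrableOn (fun z => ‖gr v z‖ ^ 2) O ∧
      ∫ z in O, ‖gr v z‖ ^ 2 ≤ (∫ z in O, ‖G z‖ ^ 2) + ε ∧
      ∀ z ∈ O, ∀ a b, (∀ y ∈ ball z (δ z), u y ∈ Icc a b) → v z ∈ Icc a b := by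
  obtain ⟨χ, W, t1, t2, w1, w2, w3, w4, w5, w6⟩ := exists_layers hO hbd
  choose C c0 c1 c2 c3 c4 using fun j => (t1 j).bd
  have hr : ∀ j, ∃ r, 0 < r ∧ ∀ z ∈ tsupport (χ j), r ≤ δ z := fun j =>
    IsCompact.exists_forall_le' (t1 j).2.1 (hδ.mono (t1 j).2.2) fun z hz => hp z ((t1 j).2.2 hz)
  choose r r0 r1 using hr
  have hM : 0 ≤ ∫ z in O, ‖G z‖ ^ 2 := integral_nonneg fun z => sq_nonneg _
  obtain ⟨t, ht, ht'⟩ : ∃ t : ℝ, 0 < t ∧ t * ∫ z in O, ‖G z‖ ^ 2 ≤ ε / 2 :=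
    ⟨ε / 2 / ((∫ z in O, ‖G z‖ ^ 2) + 1), by positivity, by
      rw [div_mul_eq_mul_div, div_le_iff₀ (by positivity)]
      nlinarith⟩
  have he : ∀ j : ℕ, ∃ e : ℝ, 0 < e ∧
      ((1 + t) + (1 + 1 / t) * (2 ^ (j + 1) * C j ^ 2)) * e = ε / 2 * (1 / 2) ^ (j + 1) := fun j =>
    ⟨ε / 2 * (1 / 2) ^ (j + 1) / ((1 + t) + (1 + 1 / t) * (2 ^ (j + 1) * C j ^ 2)), by positivity,
      mul_div_cancel₀ _ (by positivity)⟩
  choose e e0 e1 using he
  choose v v1 v2 v3 v4 using fun j => mol_one hO hu hb hG (t1 j) (t2 j) (r0 j) (e0 j)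
  have hs : ∀ N, ∀ z ∈ W N, ∑' j, χ j z * v j z = ∑ j ∈ Finset.range (N + 1), χ j z * v j z :=
    fun N z hz => tsum_eq_sum fun j hj => by
      rw [Finset.mem_range] at hj
      rw [w6 N j (by omega) z hz, zero_mul]
  have hW : ∀ z ∈ O, ∃ N, z ∈ W N := fun z hz => by
    rw [← w3] at hz
    exact mem_iUnion.1 hz
  have x1 : ∀ j, Continuous (χ j) := fun j => (t1 j).1.choose_spec.continuous
  have i1 : ∀ j, Integrable fun z => χ j z * ‖gr (v j) z‖ ^ 2 := fun j =>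
    EARN.int_Calc (t1 j).2.1 (x1 j) (fun z hz => image_eq_zero_of_notMem_tsupport hz)
      ((((EARN.contDiffOn_gr isOpen_univ (v1 j).contDiffOn).1.continuousOn.mono
        (subset_univ _)).norm).pow 2)
  have m1 : ∀ j, MeasurableSet (tsupport (χ j)) := fun j => (isClosed_tsupport _).measurableSet
  have i2 : ∀ j, Integrable (indicator (tsupport (χ j)) fun z => (v j z - u z) ^ 2) := fun j => by
    refine (integrable_indicator_iff (m1 j)).2 (Measure.integrableOn_of_bounded (M := 1)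
      (t1 j).2.1.isCompact.measure_lt_top.ne
      (((v1 j).continuous.measurable.sub hu).pow_const 2).aestronglyMeasurable
      (ae_of_all _ fun z => ?_))
    have h1 := v2 j z 0 1 fun y _ => hb y
    have h2 := hb z
    rw [Real.norm_of_nonneg (sq_nonneg _)]
    nlinarith [h1.1, h1.2, h2.1, h2.2]
  have i3 : ∀ j, Integrable (fun z => χ j z * ‖G z‖ ^ 2) (volume.restrict O) := fun j =>
    Integrable.bdd_mul hG.2.1 (x1 j).aestronglyMeasurable (ae_of_all _ (c2 j))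
  have key := lim_Mol w1 w2 (f := fun z => ‖gr (fun z => ∑' j, χ j z * v j z) z‖ ^ 2)
    ((EARN.measurable_gr _).1.norm.pow_const 2) (fun z => sq_nonneg _)
    (c := (∫ z in O, ‖G z‖ ^ 2) + ε) (by positivity) fun N => by
      have j1 := integrable_finsetSum (Finset.range (N + 1)) fun j _ => i1 j
      have j2 := integrable_finsetSum (Finset.range (N + 1))
        fun j _ => ((i2 j).const_mul (C j ^ 2)).const_mul (2 ^ (j + 1))
      refine ⟨fun z => (1 + t) * ∑ j ∈ Finset.range (N + 1), χ j z * ‖gr (v j) z‖ ^ 2 +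
        (1 + 1 / t) * ∑ j ∈ Finset.range (N + 1), 2 ^ (j + 1) * (C j ^ 2 *
          indicator (tsupport (χ j)) (fun z => (v j z - u z) ^ 2) z),
        (j1.const_mul _).add (j2.const_mul _), fun z => ?_, ?_, ?_⟩
      · refine add_nonneg (mul_nonneg (by positivity) (Finset.sum_nonneg fun j _ =>
          mul_nonneg (t2 j z) (sq_nonneg _))) (mul_nonneg (by positivity)
            (Finset.sum_nonneg fun j _ => mul_nonneg (by positivity) (mul_nonneg (sq_nonneg _)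
              (indicator_nonneg (fun _ _ => sq_nonneg _) _))))
      · rw [integral_add (j1.const_mul _) (j2.const_mul _), integral_const_mul,
          integral_const_mul, integral_finsetSum _ fun j _ => i1 j, integral_finsetSum _
            fun j _ => ((i2 j).const_mul (C j ^ 2)).const_mul (2 ^ (j + 1))]
        simp only [integral_const_mul, integral_indicator (m1 _)]
        have s1 : ∑ j ∈ Finset.range (N + 1), ∫ z in O, χ j z * ‖G z‖ ^ 2 ≤
            ∫ z in O, ‖G z‖ ^ 2 := by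
          rw [← integral_finsetSum _ fun j _ => i3 j]
          refine integral_mono (integrable_finsetSum _ fun j _ => i3 j) hG.2.1 fun z => ?_
          show ∑ j ∈ Finset.range (N + 1), χ j z * ‖G z‖ ^ 2 ≤ ‖G z‖ ^ 2
          rw [← Finset.sum_mul]
          exact mul_le_of_le_one_left (sq_nonneg _) (w5 _ z)
        have s2 := mul_le_mul_of_nonneg_left (geo_Mol (N + 1)) (half_pos hε).le
        have s3 := mul_le_mul_of_nonneg_left s1 (show 0 ≤ 1 + t by positivity)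
        rw [Finset.mul_sum] at s2 s3
        rw [Finset.mul_sum, Finset.mul_sum, ← Finset.sum_add_distrib]
        refine le_trans (Finset.sum_le_sum (g := fun j => (1 + t) *
          (∫ z in O, χ j z * ‖G z‖ ^ 2) + ε / 2 * (1 / 2) ^ (j + 1)) fun j _ => ?_) ?_
        · have p1 := mul_le_mul_of_nonneg_left (v3 j) (show 0 ≤ 1 + t by positivity)
          have p2 := mul_le_mul_of_nonneg_left (v4 j)
            (show 0 ≤ (1 + 1 / t) * (2 ^ (j + 1) * C j ^ 2) by positivity)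
          have p3 := e1 j
          linarith
        · rw [Finset.sum_add_distrib]
          linarith
      · filter_upwards [ae_all_iff.2 fun j => (t1 j).1.choose_spec.ae_differentiableAt] with z d1 hz
        rw [grv_Mol (w1 N) _ (w4 N) (hs N) hz d1
          (fun j => (v1 j).differentiable (by simp) z) (u z)]
        refine (pt_Mol _ _ _ (fun j => t2 j z) (w5 _ z) ht).trans (add_le_add le_rfl
          (mul_le_mul_of_nonneg_left (Finset.sum_le_sum fun j _ =>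
            mul_le_mul_of_nonneg_left ?_ (by positivity)) (by positivity)))
        by_cases h : z ∈ tsupport (χ j)
        · rw [indicator_of_mem h, norm_mul, mul_pow, norm_real, Real.norm_eq_abs, sq_abs, mul_comm]
          exact mul_le_mul_of_nonneg_right (pow_le_pow_left₀ (norm_nonneg _) (c1 j z) 2)
            (sq_nonneg _)
        · rw [indicator_of_notMem h, c3 j z h]
          simp
  rw [w3] at key
  refine ⟨_, fun z hz => ?_, key.1, key.2, fun z hz a b h => ?_⟩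
  · obtain ⟨N, hN⟩ := hW z hz
    obtain ⟨K, hK⟩ := lips_Mol (f := fun j z => χ j z * v j z) (fun j => ((t1 j).mul hO
      ((v1 j).of_le (by simp)).locallyLipschitz.locallyLipschitzOn).1) (N + 1)
    refine ⟨K, W N, mem_nhdsWithin_of_mem_nhds ((w1 N).mem_nhds hN), fun x hx y hy => ?_⟩
    simp only [hs N x hx, hs N y hy]
    exact hK x y
  · obtain ⟨N, hN⟩ := hW z hz
    have h1 : ∀ j, χ j z * a ≤ χ j z * v j z ∧ χ j z * v j z ≤ χ j z * b := fun j => by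
      by_cases h2 : z ∈ tsupport (χ j)
      · have h3 := v2 j z a b fun y hy => h y (ball_subset_ball (r1 j z h2) hy)
        exact ⟨mul_le_mul_of_nonneg_left h3.1 (t2 j z), mul_le_mul_of_nonneg_left h3.2 (t2 j z)⟩
      · rw [image_eq_zero_of_notMem_tsupport h2, zero_mul, zero_mul, zero_mul]
        exact ⟨le_rfl, le_rfl⟩
    have h2 := Finset.sum_le_sum fun j (_ : j ∈ Finset.range (N + 1)) => (h1 j).1
    have h3 := Finset.sum_le_sum fun j (_ : j ∈ Finset.range (N + 1)) => (h1 j).2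
    rw [← Finset.sum_mul, w4 N z hN, one_mul, ← hs N z hN] at h2 h3
    exact ⟨h2, h3⟩

end Vale.Agent.P116
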