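import Vale.Agent.P116.S.Tst
import Vale.Agent.P116.S.L2

/-! P116 K/MolA (TASK, owner helper20). Helper names end with `_MolA`.
Weak gradient by Riesz. In the real Hilbert space `H = Lp ℂ 2 (volume.restrict O)` the classes of the fields `φ + i ψ` (`φ`, `ψ` smooth test functions) form a submodule `S` (or use the span / the range of a linear map from the submodule of pairs);
`Λ (φ, ψ) = -∫ u (φ_x + ψ_y)` is bounded by `M ‖φ + i ψ‖`. Hahn-Banach in the sublinear form `exists_extension_of_le_sublinear` for the `LinearPMap` (well defined since the bound forces `Λ = 0` on the kernel: `LinearPMap.mkSpanSingleton` is not needed, use `Submodule.liftQ` / `LinearMap.exists_extend`, or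
`LinearMap.quotKerEquivRange`), `LinearMap.mkContinuous`, `InnerProductSpace.toDual`; `G` is the representing vector, `‖G‖ ≤ M`; take a measurable representative. -/

open MeasureTheory Set Metric Filter Topology Complex
open scoped ENNReal ComplexConjugate

set_option linter.unusedVariables false

noncomputable section

namespace Vale.Agent.P116

open Vale.Agent.P128

variable {O : Set ℂ} {u : ℂ → ℝ} {G : ℂ → ℂ}

/-- Smooth test functions. -/
def STst (O : Set ℂ) (φ : ℂ → ℝ) : Prop :=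
  ContDiff ℝ (⊤ : ℕ∞) φ ∧ HasCompactSupport φ ∧ tsupport φ ⊆ O

/-- `G` is the weak gradient of `u` on `O`. -/
def WG (O : Set ℂ) (u : ℂ → ℝ) (G : ℂ → ℂ) : Prop :=
  Measurable G ∧ IntegrableOn (fun z => ‖G z‖ ^ 2) O ∧
    ∀ φ, STst O φ → ∫ z in O, (u z : ℂ) * gr φ z = -∫ z in O, (φ z : ℂ) * G z

theorem riesz_MolA {H : Type} [NormedAddCommGroup H] [InnerProductSpace ℝ H] [CompleteSpace H]
    (S : Submodule ℝ (H × ℝ)) {M : ℝ} (hM : 0 ≤ M) (h : ∀ p ∈ S, |p.2| ≤ M * ‖p.1‖) :
    ∃ g : H, ‖g‖ ≤ M ∧ ∀ p ∈ S, p.2 = inner ℝ g p.1 := by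
  let T : S →ₗ[ℝ] H := (LinearMap.fst ℝ H ℝ).comp S.subtype
  let L : S →ₗ[ℝ] ℝ := (LinearMap.snd ℝ H ℝ).comp S.subtype
  have hk : LinearMap.ker T ≤ LinearMap.ker L := by
    intro p hp
    have h1 : p.1.1 = 0 := hp
    have h2 := h p.1 p.2
    rw [h1, norm_zero, mul_zero] at h2
    exact abs_nonpos_iff.1 h2
  let f : LinearMap.range T →ₗ[ℝ] ℝ :=
    ((LinearMap.ker T).liftQ L hk).comp T.quotKerEquivRange.symm.toLinearMap
  have hf : ∀ p : S, f ⟨T p, LinearMap.mem_range_self T p⟩ = L p := fun p => by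
    simp only [f, LinearMap.comp_apply, LinearEquiv.coe_coe,
      LinearMap.quotKerEquivRange_symm_apply_image, Submodule.mkQ_apply, Submodule.liftQ_apply]
  have hb : ∀ x, ‖f x‖ ≤ M * ‖x‖ := by
    rintro ⟨_, p, rfl⟩
    rw [hf p]
    exact h p.1 p.2
  obtain ⟨g, g1, g2⟩ := exists_extension_norm_eq (LinearMap.range T) (f.mkContinuous M hb)
  refine ⟨(InnerProductSpace.toDual ℝ H).symm g, ?_, fun p hp => ?_⟩
  · rw [LinearIsometryEquiv.norm_map, g2]
    exact f.mkContinuous_norm_le hM hb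
  · rw [InnerProductSpace.toDual_symm_apply]
    have e := g1 ⟨T ⟨p, hp⟩, LinearMap.mem_range_self T _⟩
    rw [LinearMap.mkContinuous_apply, hf] at e
    exact e.symm

theorem zero_MolA : STst O fun _ => 0 :=
  ⟨contDiff_const, HasCompactSupport.zero, by simp [tsupport]⟩

theorem add_MolA {φ ψ : ℂ → ℝ} (h1 : STst O φ) (h2 : STst O ψ) : STst O fun z => φ z + ψ z :=
  ⟨h1.1.add h2.1, h1.2.1.add h2.2.1, (tsupport_add φ ψ).trans (union_subset h1.2.2 h2.2.2)⟩

theorem mul_MolA {φ : ℂ → ℝ} (c : ℝ) (h1 : STst O φ) : STst O fun z => c * φ z :=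
  ⟨contDiff_const.mul h1.1, h1.2.1.mul_left,
    (tsupport_mul_subset_right (f := fun _ => c) (g := φ)).trans h1.2.2⟩

theorem int_MolA (hu : Measurable u) (hb : ∀ z, u z ∈ Icc (0 : ℝ) 1) {φ : ℂ → ℝ} (h1 : STst O φ)
    (v : ℂ) : IntegrableOn (fun z => u z * fderiv ℝ φ z v) O := by
  have c : Continuous fun z => fderiv ℝ φ z v :=
    (h1.1.continuous_fderiv (by simp)).clm_apply continuous_const
  refine Integrable.integrableOn (Integrable.bdd_mul (c := 1)
    (c.integrable_of_hasCompactSupport (h1.2.1.fderiv_apply ℝ v)) hu.aestronglyMeasurable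
    (ae_of_all _ fun z => ?_))
  rw [Real.norm_of_nonneg (hb z).1]
  exact (hb z).2

theorem mem_MolA {φ ψ : ℂ → ℝ} (h1 : STst O φ) (h2 : STst O ψ) :
    MemLp (fun z => (φ z : ℂ) + I * ψ z) 2 (volume.restrict O) := by
  have c1 := h1.1.continuous
  have c2 := h2.1.continuous
  have s1 : HasCompactSupport fun z => (φ z : ℂ) := h1.2.1.comp_left (g := Complex.ofReal) rfl
  have s2 : HasCompactSupport fun z => (ψ z : ℂ) := h2.2.1.comp_left (g := Complex.ofReal) rfl
  have c : Continuous fun z => (φ z : ℂ) + I * ψ z := by fun_prop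
  exact (c.memLp_of_hasCompactSupport (μ := volume) (s1.add s2.mul_left)).restrict O

theorem split_MolA {ν : Measure ℂ} {a b : ℂ → ℝ} (ha : Integrable a ν) (hb : Integrable b ν) :
    ∫ z, ((a z : ℂ) + I * b z) ∂ν = ((∫ z, a z ∂ν : ℝ) : ℂ) + I * ((∫ z, b z ∂ν : ℝ) : ℂ) := by
  rw [← integral_complex_ofReal, ← integral_complex_ofReal, ← integral_const_mul]
  exact integral_add ha.ofReal (hb.ofReal.const_mul I)

/-- The graph of the functional. -/
def S_MolA (O : Set ℂ) (hu : Measurable u) (hb : ∀ z, u z ∈ Icc (0 : ℝ) 1) :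
    Submodule ℝ (Lp ℂ 2 (volume.restrict O) × ℝ) where
  carrier := {p | ∃ φ ψ, STst O φ ∧ STst O ψ ∧
    (p.1 : ℂ → ℂ) =ᵐ[volume.restrict O] (fun z => (φ z : ℂ) + I * ψ z) ∧
      p.2 = (∫ z in O, u z * fderiv ℝ φ z 1) + ∫ z in O, u z * fderiv ℝ ψ z I}
  zero_mem' := by
    refine ⟨fun _ => 0, fun _ => 0, zero_MolA, zero_MolA, ?_, by simp⟩
    filter_upwards [Lp.coeFn_zero ℂ 2 (volume.restrict O)] with z hz
    rw [Prod.fst_zero, hz]
    simp
  add_mem' := by
    rintro p q ⟨φ, ψ, a1, a2, a3, a4⟩ ⟨φ', ψ', b1, b2, b3, b4⟩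
    refine ⟨_, _, add_MolA a1 b1, add_MolA a2 b2, ?_, ?_⟩
    · filter_upwards [Lp.coeFn_add p.1 q.1, a3, b3] with z h1 h2 h3
      rw [Prod.fst_add, h1, Pi.add_apply, h2, h3]
      push_cast
      ring
    · have e : ∀ {f g : ℂ → ℝ}, STst O f → STst O g → ∀ v : ℂ,
          ∫ z in O, u z * fderiv ℝ (fun z => f z + g z) z v =
            (∫ z in O, u z * fderiv ℝ f z v) + ∫ z in O, u z * fderiv ℝ g z v := by
        intro f g hf hg v
        rw [← integral_add (int_MolA hu hb hf v) (int_MolA hu hb hg v)]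
        refine integral_congr_ae (ae_of_all _ fun z => ?_)
        simp only
        rw [fderiv_fun_add (hf.1.differentiable (by simp) z) (hg.1.differentiable (by simp) z),
          ContinuousLinearMap.add_apply, mul_add]
      rw [Prod.snd_add, a4, b4, e a1 b1, e a2 b2]
      ring
  smul_mem' := by
    rintro c p ⟨φ, ψ, a1, a2, a3, a4⟩
    refine ⟨_, _, mul_MolA c a1, mul_MolA c a2, ?_, ?_⟩
    · filter_upwards [Lp.coeFn_smul c p.1, a3] with z h1 h2
      rw [Prod.smul_fst, h1, Pi.smul_apply, h2, Complex.real_smul]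
      push_cast
      ring
    · have e : ∀ {f : ℂ → ℝ}, STst O f → ∀ v : ℂ,
          ∫ z in O, u z * fderiv ℝ (fun z => c * f z) z v = c * ∫ z in O, u z * fderiv ℝ f z v := by
        intro f hf v
        rw [← integral_const_mul]
        refine integral_congr_ae (ae_of_all _ fun z => ?_)
        simp only
        rw [fderiv_const_mul (hf.1.differentiable (by simp) z), ContinuousLinearMap.smul_apply,
          smul_eq_mul]
        ring
      rw [Prod.smul_snd, a4, e a1, e a2, smul_eq_mul]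
      ring

theorem exists_WG (hO : IsOpen O) (hu : Measurable u) (hb : ∀ z, u z ∈ Icc (0 : ℝ) 1) {M : ℝ}
    (hM : 0 ≤ M) (h : ∀ φ ψ, STst O φ → STst O ψ →
      |∫ z in O, u z * ((gr φ z).re + (gr ψ z).im)| ≤ M * √(∫ z in O, (φ z ^ 2 + ψ z ^ 2))) :
    ∃ G, WG O u G ∧ ∫ z in O, ‖G z‖ ^ 2 ≤ M ^ 2 := by
  have nsq : ∀ x : Lp ℂ 2 (volume.restrict O), ‖x‖ ^ 2 = ∫ z in O, ‖x z‖ ^ 2 := fun x => by
    have := nsq_L2 (Lp.memLp x)
    rwa [Lp.toLp_coeFn] at this
  obtain ⟨g, g1, g2⟩ := riesz_MolA (S_MolA O hu hb) hM (by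
    rintro p ⟨φ, ψ, a1, a2, a3, a4⟩
    have e1 : ∫ z in O, (φ z ^ 2 + ψ z ^ 2) = ‖p.1‖ ^ 2 := by
      rw [nsq]
      refine integral_congr_ae ?_
      filter_upwards [a3] with z hz
      rw [hz, Complex.sq_norm, Complex.normSq_apply]
      simp
      ring
    have e2 : ∫ z in O, u z * ((gr φ z).re + (gr ψ z).im) = p.2 := by
      rw [a4, ← integral_add (int_MolA hu hb a1 1) (int_MolA hu hb a2 I)]
      refine integral_congr_ae (ae_of_all _ fun z => ?_)
      simp [gr]
      ring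
    have := h φ ψ a1 a2
    rwa [e1, e2, Real.sqrt_sq (norm_nonneg _)] at this)
  have key : ∀ φ ψ, STst O φ → STst O ψ →
      (∫ z in O, u z * fderiv ℝ φ z 1) + ∫ z in O, u z * fderiv ℝ ψ z I =
        ∫ z in O, (φ z * (g z).re + ψ z * (g z).im) := by
    intro φ ψ a1 a2
    have m := mem_MolA a1 a2
    have e := g2 (m.toLp _, _) ⟨φ, ψ, a1, a2, m.coeFn_toLp, rfl⟩
    refine e.trans ?_
    rw [L2.inner_def]
    refine integral_congr_ae ?_
    filter_upwards [m.coeFn_toLp] with z hz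
    rw [hz, Complex.inner]
    simp
  have gm : MemLp g 2 (volume.restrict O) := Lp.memLp g
  refine ⟨fun z => -g z, ⟨(Lp.stronglyMeasurable g).measurable.neg, ?_, fun φ a1 => ?_⟩, ?_⟩
  · simp only [norm_neg]
    exact gm.norm.integrable_sq
  · have k1 := key φ _ a1 zero_MolA
    have k2 := key _ φ zero_MolA a1
    simp only [fderiv_fun_const, Pi.zero_apply, ContinuousLinearMap.zero_apply, mul_zero,
      integral_zero, add_zero, zero_add, zero_mul] at k1 k2
    have pm : MemLp φ 2 (volume.restrict O) :=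
      (a1.1.continuous.memLp_of_hasCompactSupport (μ := volume) a1.2.1).restrict O
    have i1 : IntegrableOn (fun z => φ z * (g z).re) O := pm.integrable_mul gm.re
    have i2 : IntegrableOn (fun z => φ z * (g z).im) O := pm.integrable_mul gm.im
    have s1 := split_MolA (int_MolA hu hb a1 1) (int_MolA hu hb a1 I)
    have s2 := split_MolA i1 i2
    rw [k1, k2, ← s2] at s1
    rw [← integral_neg]
    refine (integral_congr_ae (ae_of_all _ fun z => ?_)).trans
      (s1.trans (integral_congr_ae (ae_of_all _ fun z => ?_)))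
    · simp only [gr]
      push_cast
      ring
    · apply Complex.ext <;> simp
  · simp only [norm_neg]
    rw [← nsq]
    exact pow_le_pow_left₀ (norm_nonneg _) g1 2

end Vale.Agent.P116
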