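import Vale.Agent.P116.K.MolA

/-! P116 K/MolB (TASK, owner helper20). Helper names end with `_MolB`.
One scale. `η = (β : ContDiffBump (0 : ℂ)).normed volume` with `β.rOut ≤ r`; `v = η ⋆ u` (`lsmul`), smooth (`HasCompactSupport.contDiff_convolution_left`), an average of `u` over `ball z r`. For `ball z r` compactly inside `O` the derivative is
`gr v z = ∫ η (z - y) G y` (`HasCompactSupport.hasFDerivAt_convolution_left`, `WG` with `φ y = η (z - y)`); Jensen or Cauchy-Schwarz: `‖gr v z‖² ≤ ∫ η (z - y) ‖G y‖²`; Fubini: `∫ χ ‖gr v‖² ≤ ∫ (η ⋆ χ) ‖G‖²`, and `η ⋆ χ ≤ χ + C r` for Lipschitz `χ`.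
`ContDiffBump.ae_convolution_tendsto_right_of_locallyIntegrable` and bounded convergence give `∫_K (v - u)² → 0`. -/

open MeasureTheory Set Metric Filter Topology Complex
open scoped ENNReal ComplexConjugate

set_option linter.unusedVariables false

noncomputable section

namespace Vale.Agent.P116

open Vale.Agent.P128

variable {O : Set ℂ} {u : ℂ → ℝ} {G : ℂ → ℂ}

open ContinuousLinearMap in
/-- The mollified function. -/
def mv_MolB (β : ContDiffBump (0 : ℂ)) (u : ℂ → ℝ) : ℂ → ℝ :=
  convolution (β.normed volume) u (lsmul ℝ ℝ) volume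

theorem near_MolB (β : ContDiffBump (0 : ℂ)) {z y : ℂ} (h : β.normed volume (z - y) ≠ 0) :
    dist z y < β.rOut := by
  have h1 : z - y ∈ Function.support (β.normed volume) := h
  rwa [β.support_normed_eq, mem_ball_zero_iff, ← dist_eq_norm] at h1

theorem avg_MolB (hu : Measurable u) (β : ContDiffBump (0 : ℂ)) {z : ℂ} {a b : ℝ}
    (h : ∀ y ∈ ball z β.rOut, u y ∈ Icc a b) : mv_MolB β u z ∈ Icc a b := by
  have h1 := h z (mem_ball_self β.rOut_pos)
  rw [Real.Icc_eq_closedBall] at h ⊢
  exact dist_convolution_le (by linarith [h1.1, h1.2]) β.support_normed_eq.subset β.nonneg_normed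
    β.integral_normed hu.aestronglyMeasurable h

theorem grad_MolB (hu : LocallyIntegrable u) (hG : WG O u G) (β : ContDiffBump (0 : ℂ)) {z : ℂ}
    (hz : closedBall z β.rOut ⊆ O) :
    gr (mv_MolB β u) z = ∫ y in O, (β.normed volume (z - y) : ℂ) * G y := by
  have hη : ContDiff ℝ (⊤ : ℕ∞) (β.normed volume) := β.contDiff_normed
  have hc := β.hasCompactSupport_normed (μ := volume)
  have h1 : tsupport (fun y => β.normed volume (z - y)) ⊆ closedBall z β.rOut :=
    closure_minimal (fun y hy => mem_closedBall'.2 (near_MolB β hy).le) isClosed_closedBall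
  have h2 := hG.2.2 (fun y => β.normed volume (z - y)) ⟨hη.comp (contDiff_const.sub contDiff_id),
    (isCompact_closedBall _ _).of_isClosed_subset (isClosed_tsupport _) h1, h1.trans hz⟩
  rw [setIntegral_eq_integral_of_forall_compl_eq_zero fun y hy => by
    have h3 : fderiv ℝ (fun y => β.normed volume (z - y)) y = 0 :=
      by_contra fun h => hy (hz (h1 (support_fderiv_subset ℝ h)))
    simp [gr, h3]] at h2
  have h3 : ∀ y e, fderiv ℝ (fun y => β.normed volume (z - y)) y e =
      -fderiv ℝ (β.normed volume) (z - y) e := fun y e => by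
    have h4 : HasFDerivAt (fun y => β.normed volume (z - y)) _ y :=
      (hη.differentiable (by simp) (z - y)).hasFDerivAt.comp y ((hasFDerivAt_id y).const_sub z)
    rw [h4.fderiv]
    simp
  have h4 : Continuous (fderiv ℝ (β.normed volume)) := hη.continuous_fderiv (by simp)
  have h5 : ∀ e, fderiv ℝ (mv_MolB β u) z e =
      ∫ y, fderiv ℝ (β.normed volume) (z - y) e * u y := fun e => by
    rw [mv_MolB, ← convolution_flip,
      (hc.hasFDerivAt_convolution_right _ hu (hη.of_le (by simp)) z).fderiv,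
      convolution_precompR_apply _ hu (hc.fderiv ℝ) h4]
    rfl
  have h6 : ∀ e, Integrable fun y => ((fderiv ℝ (β.normed volume) (z - y) e * u y : ℝ) : ℂ) :=
    fun e => Integrable.ofReal ((hc.fderiv_apply ℝ e).convolutionExists_right
      (ContinuousLinearMap.lsmul ℝ ℝ).flip hu (h4.clm_apply continuous_const) z)
  rw [← neg_inj, ← h2, gr, h5, h5, ← integral_complex_ofReal, ← integral_complex_ofReal,
    ← integral_const_mul, ← integral_add (h6 1) ((h6 I).const_mul I), ← integral_neg]
  refine integral_congr_ae (Eventually.of_forall fun y => ?_)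
  simp only [gr, h3]
  push_cast
  ring

theorem jen_MolB {η X : ℂ → ℝ} (h0 : ∀ y, 0 ≤ η y) (hη : Integrable η) (h1 : ∫ y, η y = 1)
    (hX : ∀ y, 0 ≤ X y) (hi : Integrable fun y => X y ^ 2 * η y) :
    (∫ y, η y * X y) ^ 2 ≤ ∫ y, X y ^ 2 * η y := by
  obtain ⟨A, hA⟩ : ∃ A, A = ∫ y, η y * X y := ⟨_, rfl⟩
  have hA0 : 0 ≤ A := hA ▸ integral_nonneg fun y => mul_nonneg (h0 y) (hX y)
  have h2 : ∫ y, 2 * A * (η y * X y) ≤ ∫ y, (X y ^ 2 * η y + A ^ 2 * η y) :=
    integral_mono_of_nonneg (Eventually.of_forall fun y =>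
      mul_nonneg (by positivity) (mul_nonneg (h0 y) (hX y))) (hi.add (hη.const_mul _))
      (Eventually.of_forall fun y => by nlinarith [mul_nonneg (h0 y) (sq_nonneg (X y - A))])
  rw [integral_const_mul, integral_add hi (hη.const_mul _), integral_const_mul, h1, ← hA] at h2
  rw [← hA]
  linarith

theorem fub_MolB {g χ : ℂ → ℝ} (hg : Integrable g) (g0 : ∀ y, 0 ≤ g y) {L : NNReal}
    (hL : LipschitzWith L χ) (hc : HasCompactSupport χ) (h0 : ∀ z, 0 ≤ χ z)
    (β : ContDiffBump (0 : ℂ)) :
    Integrable (fun z => ∫ y, χ z * (g y * β.normed volume (z - y))) ∧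
      ∫ z, ∫ y, χ z * (g y * β.normed volume (z - y)) ≤
        (∫ y, χ y * g y) + L * β.rOut * ∫ y, g y := by
  obtain ⟨C, hC⟩ := hc.exists_bound_of_continuous hL.continuous
  have h1 : Integrable (fun p : ℂ × ℂ => χ p.1 * (g p.2 * β.normed volume (p.1 - p.2)))
      (volume.prod volume) :=
    (hg.convolution_integrand (ContinuousLinearMap.lsmul ℝ ℝ) β.integrable_normed).bdd_mul
      (hL.continuous.comp continuous_fst).aestronglyMeasurable
      (Eventually.of_forall fun p => hC p.1)
  have h2 : Integrable fun y => χ y * g y :=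
    hg.bdd_mul hL.continuous.aestronglyMeasurable (Eventually.of_forall hC)
  refine ⟨h1.integral_prod_left, ?_⟩
  rw [integral_integral_swap h1, ← integral_const_mul, ← integral_add h2 (hg.const_mul _)]
  refine integral_mono h1.integral_prod_right (h2.add (hg.const_mul _)) fun y => ?_
  have h3 : ∫ z, χ z * (g y * β.normed volume (z - y)) ≤
      ∫ z, (χ y * g y + L * β.rOut * g y) * β.normed volume (z - y) :=
    integral_mono_of_nonneg (Eventually.of_forall fun z =>
      mul_nonneg (h0 z) (mul_nonneg (g0 y) (β.nonneg_normed _)))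
      ((β.integrable_normed.comp_sub_right y).const_mul _) (Eventually.of_forall fun z => by
        by_cases h : β.normed volume (z - y) = 0
        · simp [h]
        have h4 := (hL.dist_le_mul z y).trans (mul_le_mul_of_nonneg_left (near_MolB β h).le L.2)
        have h5 := mul_le_mul_of_nonneg_right ((le_abs_self _).trans h4)
          (mul_nonneg (g0 y) (β.nonneg_normed (μ := volume) (z - y)))
        linarith)
  rwa [integral_const_mul, integral_sub_right_eq_self (β.normed volume), β.integral_normed,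
    mul_one] at h3

theorem en_MolB (hO : IsOpen O) (hu : LocallyIntegrable u) (hG : WG O u G) {χ : ℂ → ℝ} {L : NNReal}
    (hL : LipschitzWith L χ) (hc : HasCompactSupport χ) (h0 : ∀ z, 0 ≤ χ z)
    (β : ContDiffBump (0 : ℂ)) (hβ : cthickening β.rOut (tsupport χ) ⊆ O) :
    ∫ z, χ z * ‖gr (mv_MolB β u) z‖ ^ 2 ≤
      (∫ z in O, χ z * ‖G z‖ ^ 2) + L * β.rOut * ∫ z in O, ‖G z‖ ^ 2 := by
  have e : (fun y => ‖O.indicator G y‖ ^ 2) = O.indicator fun y => ‖G y‖ ^ 2 := funext fun y => by
    by_cases h : y ∈ O <;> simp [h]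
  have hg : Integrable fun y => ‖O.indicator G y‖ ^ 2 :=
    e ▸ (integrable_indicator_iff hO.measurableSet).2 hG.2.1
  obtain ⟨h1, h2⟩ := fub_MolB hg (fun _ => sq_nonneg _) hL hc h0 β
  have e2 : (fun y => χ y * ‖O.indicator G y‖ ^ 2) = O.indicator fun y => χ y * ‖G y‖ ^ 2 :=
    funext fun y => by by_cases h : y ∈ O <;> simp [h]
  rw [e2, e, integral_indicator hO.measurableSet, integral_indicator hO.measurableSet] at h2
  refine (integral_mono_of_nonneg (Eventually.of_forall fun z => mul_nonneg (h0 z) (sq_nonneg _)) h1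
    (Eventually.of_forall fun z => ?_)).trans h2
  by_cases hz : χ z = 0
  · simp [hz]
  obtain ⟨C, hC⟩ := (β.hasCompactSupport_normed (μ := volume)).exists_bound_of_continuous
    β.continuous_normed
  have h3 := jen_MolB (η := fun y => β.normed volume (z - y)) (X := fun y => ‖O.indicator G y‖)
    (fun _ => β.nonneg_normed _) (β.integrable_normed.comp_sub_left z)
    ((integral_sub_left_eq_self (β.normed volume) volume z).trans β.integral_normed)
    (fun _ => norm_nonneg _) (hg.mul_bdd
      (β.continuous_normed.comp (continuous_const.sub continuous_id)).aestronglyMeasurable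
      (Eventually.of_forall fun y => hC _))
  simp only [integral_const_mul]
  refine mul_le_mul_of_nonneg_left (le_trans (pow_le_pow_left₀ (norm_nonneg _) ?_ 2) h3) (h0 z)
  rw [grad_MolB hu hG β ((closedBall_subset_cthickening (subset_tsupport _ hz) _).trans hβ),
    ← integral_indicator hO.measurableSet]
  refine (norm_integral_le_integral_norm _).trans (le_of_eq (integral_congr_ae
    (Eventually.of_forall fun y => ?_)))
  by_cases h : y ∈ O <;> simp [h, abs_of_nonneg (β.nonneg_normed (μ := volume) (z - y))]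

theorem mol_one (hO : IsOpen O) (hu : Measurable u) (hb : ∀ z, u z ∈ Icc (0 : ℝ) 1) (hG : WG O u G)
    {χ : ℂ → ℝ} (hχ : Tst O χ) (h0 : ∀ z, 0 ≤ χ z) {r ε : ℝ} (hr : 0 < r) (hε : 0 < ε) :
    ∃ v : ℂ → ℝ, ContDiff ℝ (⊤ : ℕ∞) v ∧
      (∀ z a b, (∀ y ∈ ball z r, u y ∈ Icc a b) → v z ∈ Icc a b) ∧
      ∫ z, χ z * ‖gr v z‖ ^ 2 ≤ (∫ z in O, χ z * ‖G z‖ ^ 2) + ε ∧
      ∫ z in tsupport χ, (v z - u z) ^ 2 ≤ ε := by
  obtain ⟨⟨L, hL⟩, hc, hs⟩ := hχ
  have hl : LocallyIntegrable u := (locallyIntegrable_const (1 : ℝ)).mono hu.aestronglyMeasurable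
    (Eventually.of_forall fun z => by simpa [abs_of_nonneg (hb z).1] using (hb z).2)
  obtain ⟨δ, hδ, hs'⟩ := hc.isCompact.exists_cthickening_subset_open hO hs
  obtain ⟨β, hβ, hβ'⟩ : ∃ β : ℕ → ContDiffBump (0 : ℂ),
      (∀ n, (β n).rOut = 1 / ((n : ℝ) + 1)) ∧ ∀ n, (β n).rOut ≤ 2 * (β n).rIn :=
    ⟨fun n => ⟨1 / ((n : ℝ) + 1) / 2, 1 / ((n : ℝ) + 1), by positivity,
      half_lt_self (by positivity)⟩, fun _ => rfl, fun n => by simp only; linarith⟩
  have h1 : Tendsto (fun n => (β n).rOut) atTop (𝓝 0) := by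
    simpa only [hβ] using tendsto_one_div_add_atTop_nhds_zero_nat
  have hs : ∀ n, ContDiff ℝ (⊤ : ℕ∞) (mv_MolB (β n) u) := fun n =>
    (β n).hasCompactSupport_normed.contDiff_convolution_left _ (β n).contDiff_normed hl
  have h2 := tendsto_integral_of_dominated_convergence (μ := volume.restrict (tsupport χ))
    (F := fun n z => (mv_MolB (β n) u z - u z) ^ 2) (f := fun _ => (0 : ℝ)) (fun _ => 1)
    (fun n => (((hs n).continuous.measurable.sub hu).pow_const 2).aestronglyMeasurable)
    (integrableOn_const hc.isCompact.measure_lt_top.ne)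
    (fun n => Eventually.of_forall fun z => by
      have h3 := avg_MolB hu (β n) (z := z) fun y _ => hb y
      rw [Real.norm_eq_abs, abs_sq]
      nlinarith [h3.1, h3.2, (hb z).1, (hb z).2])
    (ae_restrict_of_ae ((ContDiffBump.ae_convolution_tendsto_right_of_locallyIntegrable h1
      (Eventually.of_forall hβ') hl).mono fun z hz => by
        simpa [mv_MolB] using (hz.sub_const (u z)).pow 2))
  rw [integral_zero] at h2
  have h3 := (h1.const_mul (L : ℝ)).mul_const (∫ z in O, ‖G z‖ ^ 2)
  rw [mul_zero, zero_mul] at h3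
  obtain ⟨n, ⟨a1, a2⟩, a3, a4⟩ := (((h1.eventually (ge_mem_nhds hr)).and
    (h1.eventually (ge_mem_nhds hδ))).and ((h2.eventually (ge_mem_nhds hε)).and
      (h3.eventually (ge_mem_nhds hε)))).exists
  exact ⟨_, hs n, fun z a b h => avg_MolB hu _ fun y hy => h y (ball_subset_ball a1 hy),
    (en_MolB hO hl hG hL hc h0 _ ((cthickening_mono a2 _).trans hs')).trans (by linarith), a3⟩

end Vale.Agent.P116
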