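import Vale.Agent.P116.S.Bas
import Vale.Agent.P116.S.Lip

/-! P116 K/MonoA (helper26): removal of local maxima. Helper names end with `_mn`. -/

open MeasureTheory Set Metric Filter Topology Complex
open scoped ENNReal ComplexConjugate NNReal

noncomputable section

namespace Vale.Agent.P116

open Vale.Agent.P128

variable {E : Set ℂ}

/-- Points below the level `t` or enclosed by a curve below the level `t`. -/
def GG (a : TF E) (t : ℝ) : Set ℂ :=
  {z | a.hi z < t ∨ ∃ W, IsOpen W ∧ closure W ⊆ Q ∧ z ∈ W ∧ ∀ y ∈ frontier W, a.hi y < t}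

/-- The function with the local maxima removed. -/
def uu (a : TF E) (z : ℂ) : ℝ := sInf {t | z ∈ GG a t}

variable {a : TF E} {s t : ℝ} {y y' z : ℂ} {W B : Set ℂ}

theorem fr_mn (hW : closure W ⊆ Q) (hz : z ∈ W) : (frontier W).Nonempty := by
  refine nonempty_iff_ne_empty.2 fun h => ?_
  rcases frontier_eq_empty_iff.1 h with h | h
  · rw [h] at hz
    exact hz
  · exact lt_irrefl (0 : ℝ) (hW (subset_closure (h ▸ mem_univ (0 : ℂ)))).1.1

theorem sub_mn (hB : IsPreconnected B) (hW : IsOpen W) (hy : y ∈ B) (hyW : y ∈ W)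
    (h : ∀ x ∈ B, x ∉ frontier W) : B ⊆ W := by
  refine hB.subset_of_closure_inter_subset hW ⟨y, hy, hyW⟩ fun x hx => ?_
  have h1 := hx.1
  rw [closure_eq_self_union_frontier] at h1
  exact h1.resolve_right (h x hx.2)

theorem GG_mono (h : s ≤ t) (hz : z ∈ GG a s) : z ∈ GG a t := by
  rcases hz with hz | ⟨W, h1, h2, h3, h4⟩
  · exact Or.inl (hz.trans_le h)
  · exact Or.inr ⟨W, h1, h2, h3, fun y hy => (h4 y hy).trans_le h⟩

theorem low_mn {m : ℝ} (hm : ∀ x ∈ Qc, m ≤ a.lo x) (hz : z ∈ GG a t) : min (a.hi z) m ≤ t := by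
  rcases hz with h | ⟨W, -, h2, h3, h4⟩
  · exact (min_le_left _ _).trans h.le
  · obtain ⟨y, hy⟩ := fr_mn h2 h3
    exact (min_le_right _ _).trans ((hm y (Q_sub (h2 (frontier_subset_closure hy)))).trans
      ((a.le y).trans (h4 y hy).le))

theorem bdd_mn (a : TF E) (z : ℂ) : BddBelow {t | z ∈ GG a t} := by
  obtain ⟨m, hm⟩ := a.lsc.bddBelow_of_isCompact isCompact_Qc
  exact ⟨min (a.hi z) m, fun t ht => low_mn (fun x hx => hm ⟨x, hx, rfl⟩) ht⟩

theorem ne_mn (a : TF E) (z : ℂ) : {t | z ∈ GG a t}.Nonempty := ⟨a.hi z + 1, Or.inl (lt_add_one _)⟩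

theorem uu_le_of (hz : z ∈ GG a t) : uu a z ≤ t := csInf_le (bdd_mn a z) hz

theorem mem_GG (h : uu a z < t) : z ∈ GG a t := by
  obtain ⟨s, hs, h1⟩ := exists_lt_of_csInf_lt (ne_mn a z) h
  exact GG_mono h1.le hs

theorem uu_le (a : TF E) (z : ℂ) : uu a z ≤ a.hi z :=
  le_of_forall_gt_imp_ge_of_dense fun _ ht => uu_le_of (Or.inl ht)

theorem uu_out (hz : z ∉ Q) : uu a z = a.hi z := by
  refine le_antisymm (uu_le a z) (le_csInf (ne_mn a z) fun t ht => ?_)
  rcases ht with h | ⟨W, -, h2, h3, -⟩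
  · exact h.le
  · exact absurd (h2 (subset_closure h3)) hz

theorem uu_min (hB : IsPreconnected B) (h : ∀ x ∈ B, s ≤ a.hi x) (hy : y ∈ B) (hy' : y' ∈ B) :
    min (uu a y') s ≤ uu a y := by
  refine le_of_forall_gt_imp_ge_of_dense fun t ht => ?_
  rcases le_or_gt s t with k | k
  · exact (min_le_right _ _).trans k
  rcases mem_GG ht with h1 | ⟨W, h1, h2, h3, h4⟩
  · exact absurd (h1.trans k) (not_lt.2 (h y hy))
  · exact (min_le_left _ _).trans (uu_le_of (Or.inr ⟨W, h1, h2, sub_mn hB h1 hy h3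
      (fun x hx hf => absurd ((h4 x hf).trans k) (not_lt.2 (h x hx))) hy', h4⟩))

theorem uu_usc (a : TF E) : UpperSemicontinuousOn (uu a) Qc := by
  intro z hz t ht
  obtain ⟨s, h1, h2⟩ := exists_between ht
  rcases mem_GG h1 with h | ⟨W, h3, h4, h5, h6⟩
  · filter_upwards [a.usc z hz s h] with x hx using (uu_le_of (Or.inl hx)).trans_lt h2
  · filter_upwards [mem_nhdsWithin_of_mem_nhds (h3.mem_nhds h5)] with x hx
      using (uu_le_of (Or.inr ⟨W, h3, h4, hx, h6⟩)).trans_lt h2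

theorem cvx_mn : Convex ℝ Qc :=
  ((convex_Icc 0 1).is_linear_preimage reLm.isLinear).inter
    ((convex_Icc 0 1).is_linear_preimage imLm.isLinear)

theorem near_mn (hz : z ∈ Qc) (h : s < a.lo z) : ∃ r > 0, ∀ x ∈ ball z r ∩ Qc, s < a.lo x := by
  obtain ⟨r, hr, h1⟩ := Metric.mem_nhdsWithin_iff.1 (a.lsc z hz s h)
  exact ⟨r, hr, h1⟩

theorem uu_lsc (a : TF E) : LowerSemicontinuousOn (fun z => min (a.lo z) (uu a z)) Qc := by
  intro z hz t ht
  obtain ⟨s, h1, h2⟩ := exists_between ht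
  obtain ⟨h2, h3⟩ := lt_min_iff.1 h2
  obtain ⟨r, hr, h4⟩ := near_mn hz h2
  refine Metric.mem_nhdsWithin_iff.2 ⟨r, hr, fun x hx => lt_min (h1.trans (h4 x hx)) ?_⟩
  exact (lt_min (h1.trans h3) h1).trans_le (uu_min ((convex_ball z r).inter cvx_mn).isPreconnected
    (fun x hx => (h4 x hx).le.trans (a.le x)) hx ⟨mem_ball_self hr, hz⟩)

theorem uu_cst (hz : z ∈ E) (hy : y ∈ connectedComponentIn E z) : uu a y = uu a z := by
  have k : ∀ x ∈ connectedComponentIn E z, ∀ x' ∈ connectedComponentIn E z, uu a x' ≤ uu a x :=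
    fun x hx x' hx' => by
      have h1 := uu_min (a := a) (s := a.hi z) isPreconnected_connectedComponentIn
        (fun w hw => (a.cst z hz w hw).2.ge) hx hx'
      rwa [min_eq_left ((uu_le a x').trans (a.cst z hz x' hx').2.le)] at h1
  exact le_antisymm (k z (mem_connectedComponentIn hz) y hy) (k y hy z (mem_connectedComponentIn hz))

theorem uu_lip {K : ℝ≥0} (hB : Convex ℝ B) (h : LipschitzOnWith K a.hi B) :
    LipschitzOnWith K (uu a) B := by
  refine LipschitzOnWith.of_le_add_mul K fun y' hy' y hy => ?_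
  have h1 := uu_min (a := a) (s := a.hi y' - K * dist y' y) (convex_segment y' y).isPreconnected
    (fun x hx => by
      have h2 := h.le_add_mul hy' (hB.segment_subset hy' hy hx)
      have h3 : dist y' x ≤ dist y' y := by
        linarith [dist_add_dist_of_mem_segment hx, dist_nonneg (x := x) (y := y)]
      linarith [mul_le_mul_of_nonneg_left h3 K.coe_nonneg])
    (right_mem_segment ℝ y' y) (left_mem_segment ℝ y' y)
  have h4 : 0 ≤ K * dist y' y := by positivity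
  have h5 := uu_le a y'
  rcases min_le_iff.1 h1 with k | k <;> linarith

theorem uu_loc (hz : z ∈ Q) (h : uu a z < a.lo z) : ∀ᶠ x in 𝓝 z, uu a x = uu a z := by
  obtain ⟨s, h1, h2⟩ := exists_between h
  obtain ⟨r, hr, h4⟩ := near_mn (Q_sub hz) h2
  have hB := ((convex_ball z r).inter cvx_mn).isPreconnected
  have h5 : ∀ x ∈ ball z r ∩ Qc, s ≤ a.hi x := fun x hx => (h4 x hx).le.trans (a.le x)
  have hz' : z ∈ ball z r ∩ Qc := ⟨mem_ball_self hr, Q_sub hz⟩
  filter_upwards [ball_mem_nhds z hr, isOpen_Q.mem_nhds hz] with x h6 h7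
  have h8 := uu_min hB h5 hz' ⟨h6, Q_sub h7⟩
  have h9 := uu_min hB h5 ⟨h6, Q_sub h7⟩ hz'
  rw [min_eq_left h1.le] at h9
  exact le_antisymm ((min_le_iff.1 h8).resolve_right (not_le.2 h1)) h9

theorem uu_max (hW : IsOpen W) (hc : closure W ⊆ Q) (h : ∀ y ∈ frontier W, uu a y ≤ t)
    (hz : z ∈ W) : uu a z ≤ t := by
  refine le_of_forall_gt_imp_ge_of_dense fun s hs => uu_le_of (Or.inr ?_)
  have hf : frontier W ⊆ Qc := fun x hx => Q_sub (hc (frontier_subset_closure hx))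
  have h1 := (a.usc.mono hf).isCompact_inter_preimage_Ici
    (isCompact_Qc.of_isClosed_subset isClosed_frontier hf) s
  have h2 : ∀ y ∈ frontier W ∩ a.hi ⁻¹' Ici s, ∃ V, IsOpen V ∧ closure V ⊆ Q ∧ y ∈ V ∧
      ∀ x ∈ frontier V, a.hi x < s := fun y hy =>
    (mem_GG ((h y hy.1).trans_lt hs)).resolve_left (not_lt.2 hy.2)
  choose! V h3 h4 h5 h6 using h2
  obtain ⟨F, h7, h8⟩ := h1.elim_nhds_subcover V fun y hy => (h3 y hy).mem_nhds (h5 y hy)
  have h9 : IsOpen (W ∪ ⋃ y ∈ F, V y) := hW.union (isOpen_biUnion fun y hy => h3 y (h7 y hy))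
  refine ⟨W ∪ ⋃ y ∈ F, V y, h9, ?_, Or.inl hz, fun x hx => ?_⟩
  · rw [closure_union, F.closure_biUnion]
    exact union_subset hc (iUnion₂_subset fun y hy => h4 y (h7 y hy))
  · rw [h9.frontier_eq, closure_union, F.closure_biUnion] at hx
    rcases hx.1 with k | k
    · by_contra k'
      exact hx.2 (Or.inr (h8 ⟨hW.frontier_eq ▸ ⟨k, fun k2 => hx.2 (Or.inl k2)⟩, not_lt.1 k'⟩))
    · obtain ⟨y, hy, k⟩ := mem_iUnion₂.1 k
      exact h6 y (h7 y hy) x ((h3 y (h7 y hy)).frontier_eq ▸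
        ⟨k, fun k2 => hx.2 (Or.inr (mem_biUnion hy k2))⟩)

/-- The function with the local maxima removed. -/
def TF.dn (a : TF E) (hE : Dom E) : TF E where
  lo z := min (a.lo z) (uu a z)
  hi := uu a
  le _ := min_le_right _ _
  eq z hz := min_eq_right ((uu_le a z).trans (a.eq z hz).ge)
  lsc := uu_lsc a
  usc := uu_usc a
  cst z hz y hy := by rw [(a.cst z hz y hy).1, uu_cst hz hy]; exact ⟨rfl, rfl⟩
  lip := by
    intro z hz
    obtain ⟨K, U, hU, h⟩ := a.lip hz
    rw [hE.op.nhdsWithin_eq hz] at hU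
    obtain ⟨r, hr, h1⟩ := Metric.mem_nhds_iff.1 hU
    exact ⟨K, ball z r, mem_nhdsWithin_of_mem_nhds (ball_mem_nhds z hr),
      uu_lip (convex_ball z r) (h.mono h1)⟩

end Vale.Agent.P116
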