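import Vale.Agent.P116.S.Sat

/-! P116 K/OfFun (TASK, owner helper20). Helper names end with `_OfFun`.
For `z ∈ E` put `hi z = limsup v (𝓝ˢ (connectedComponentIn E z) ⊓ 𝓟 (Q \ E))`, `lo z = liminf ..` (the filter is nontrivial by `Cp.meets`, `v` is bounded along it), and `hi z = lo z = v z` off `E`.
Semicontinuity at `z ∈ E`: if `hi z < t` then `v < t' < t` on `U ∩ Q \ E` for an open `U ⊇` component; shrink `U` by `Cp.sat` inside `U ∩ Q`; components meeting `U` lie in `U` (`Cp.in_or`), so `hi ≤ t'` on `U`. Off `E`: `E` is closed, continuity.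
`eventually_lt_of_limsup_lt`, `limsup_le_of_le`, `frequently_lt_of_lt_limsup`, `liminf_le_limsup`. -/

open MeasureTheory Set Metric Filter Topology Complex
open scoped ENNReal ComplexConjugate

set_option linter.unusedVariables false

noncomputable section

namespace Vale.Agent.P116

open Vale.Agent.P128

variable {E : Set ℂ}

open Classical in
/-- The upper value of `v` at the components of `E`. -/
def hi_OfFun (E : Set ℂ) (v : ℂ → ℝ) (z : ℂ) : ℝ :=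
  if z ∈ E then limsup v (𝓝ˢ (connectedComponentIn E z) ⊓ 𝓟 (Q \ E)) else v z

theorem off_OfFun {v : ℂ → ℝ} {z : ℂ} (hz : z ∉ E) : hi_OfFun E v z = v z := if_neg hz

theorem at_OfFun {v : ℂ → ℝ} (c : Cp E) {z : ℂ} (hz : z ∈ c.1) :
    hi_OfFun E v z = limsup v (𝓝ˢ c.1 ⊓ 𝓟 (Q \ E)) := by
  have h : connectedComponentIn E z = c.1 :=
    congrArg Subtype.val (Cp.ext_mem (Cp.mem_mk z (c.sub hz)) hz)
  rw [hi_OfFun, if_pos (c.sub hz), h]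

theorem ev_OfFun {c : Set ℂ} {p : ℂ → Prop} : (∀ᶠ y in 𝓝ˢ c ⊓ 𝓟 (Q \ E), p y) ↔
    ∃ U, IsOpen U ∧ c ⊆ U ∧ ∀ y ∈ (U ∩ Q) \ E, p y := by
  rw [eventually_inf_principal, eventually_nhdsSet_iff_exists]
  exact exists_congr fun U => and_congr_right fun _ => and_congr_right fun _ =>
    ⟨fun h y hy => h y hy.1.1 ⟨hy.1.2, hy.2⟩, fun h y h1 h2 => h y ⟨⟨h1, h2.1⟩, h2.2⟩⟩

theorem ne_OfFun (hE : Dom E) (c : Cp E) : (𝓝ˢ c.1 ⊓ 𝓟 (Q \ E)).NeBot := by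
  refine ⟨fun h => ?_⟩
  have h1 : ∀ᶠ y in 𝓝ˢ c.1 ⊓ 𝓟 (Q \ E), False := by
    rw [h]
    exact eventually_bot
  obtain ⟨U, u1, u2, u3⟩ := ev_OfFun.1 h1
  obtain ⟨y, hy⟩ := c.meets hE u1 u2
  exact u3 y hy

theorem up_OfFun (hE : Dom E) {v : ℂ → ℝ} {m : ℝ} (hb : ∀ z ∈ Q \ E, m ≤ v z) (c : Cp E) {z : ℂ}
    (hz : z ∈ c.1) {U : Set ℂ} (hU : IsOpen U) (hc : c.1 ⊆ U) {β : ℝ}
    (h : ∀ y ∈ (U ∩ Q) \ E, v y ≤ β) : hi_OfFun E v z ≤ β := by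
  have := ne_OfFun hE c
  rw [at_OfFun c hz]
  exact limsup_le_of_le (isCoboundedUnder_le_of_eventually_le _ (x := m)
    (ev_OfFun.2 ⟨univ, isOpen_univ, subset_univ _, fun y hy => hb y ⟨hy.1.2, hy.2⟩⟩))
    (ev_OfFun.2 ⟨U, hU, hc, h⟩)

theorem lt_OfFun {v : ℂ → ℝ} {M : ℝ} (hb : ∀ z ∈ Q \ E, v z ≤ M) (c : Cp E) {z : ℂ}
    (hz : z ∈ c.1) {t : ℝ} (h : hi_OfFun E v z < t) :
    ∃ U, IsOpen U ∧ c.1 ⊆ U ∧ ∀ y ∈ (U ∩ Q) \ E, v y < t := by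
  rw [at_OfFun c hz] at h
  exact ev_OfFun.1 (eventually_lt_of_limsup_lt h (isBoundedUnder_of_eventually_le (a := M)
    (ev_OfFun.2 ⟨univ, isOpen_univ, subset_univ _, fun y hy => hb y ⟨hy.1.2, hy.2⟩⟩)))

theorem fr_OfFun (hE : Dom E) {v : ℂ → ℝ} {m : ℝ} (hb : ∀ z ∈ Q \ E, m ≤ v z) (c : Cp E) {z : ℂ}
    (hz : z ∈ c.1) {U : Set ℂ} (hU : IsOpen U) (hc : c.1 ⊆ U) {t : ℝ}
    (h : t < hi_OfFun E v z) : ∃ y ∈ (U ∩ Q) \ E, t < v y := by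
  by_contra hn
  exact h.not_ge (up_OfFun hE hb c hz hU hc fun y hy => not_lt.1 fun h1 => hn ⟨y, hy, h1⟩)

theorem usc_OfFun (hE : Dom E) {v : ℂ → ℝ} (hc : ContinuousOn v (Qc \ E)) {m M : ℝ}
    (hm : ∀ z ∈ Q \ E, m ≤ v z) (hM : ∀ z ∈ Q \ E, v z ≤ M) :
    UpperSemicontinuousOn (hi_OfFun E v) Qc := by
  refine upperSemicontinuousOn_iff.2 fun z hz => upperSemicontinuousWithinAt_iff.2 fun t ht => ?_
  by_cases hzE : z ∈ E
  · obtain ⟨t', h1, h2⟩ := exists_between ht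
    obtain ⟨U, u1, u2, u3⟩ := lt_OfFun hM (Cp.mk z hzE) (Cp.mem_mk z hzE) h1
    obtain ⟨W, w1, w2, w3, w4, w5⟩ := (Cp.mk z hzE).sat hE.cpt (u1.inter isOpen_Q)
      (subset_inter u2 ((Cp.sub _).trans hE.sub))
    refine mem_nhdsWithin_of_mem_nhds ?_
    filter_upwards [w1.mem_nhds (w2 (Cp.mem_mk z hzE))] with x hx
    refine lt_of_le_of_lt ?_ h2
    by_cases hxE : x ∈ E
    · rcases (Cp.mk x hxE).in_or w1 w5 with h | h
      · exact up_OfFun hE hm (Cp.mk x hxE) (Cp.mem_mk x hxE) w1 h fun y hy =>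
          (u3 y ⟨w3 (subset_closure hy.1.1), hy.2⟩).le
      · exact (disjoint_left.1 h (Cp.mem_mk x hxE) (subset_closure hx)).elim
    · rw [off_OfFun hxE]
      exact (u3 x ⟨w3 (subset_closure hx), hxE⟩).le
  · rw [off_OfFun hzE] at ht
    have h1 : Eᶜ ∈ 𝓝[Qc] z := mem_nhdsWithin_of_mem_nhds (hE.cpt.isClosed.isOpen_compl.mem_nhds hzE)
    have h2 : ContinuousWithinAt v Qc z :=
      (hc z ⟨hz, hzE⟩).mono_of_mem_nhdsWithin (inter_mem self_mem_nhdsWithin h1)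
    filter_upwards [h1, h2.tendsto.eventually (gt_mem_nhds ht)] with x hx hx'
    rwa [off_OfFun hx]

theorem cst_OfFun {v : ℂ → ℝ} {z z' : ℂ} (hz : z ∈ E) (h : z' ∈ connectedComponentIn E z) :
    hi_OfFun E v z' = hi_OfFun E v z := by
  rw [at_OfFun (Cp.mk z hz) h, at_OfFun (Cp.mk z hz) (Cp.mem_mk z hz)]

theorem exists_TF (hE : Dom E) {v : ℂ → ℝ} (hc : ContinuousOn v (Qc \ E))
    (hl : LocallyLipschitzOn (Q \ E) v) {m M : ℝ} (hb : ∀ z ∈ Q \ E, v z ∈ Icc m M) :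
    ∃ a : TF E, (∀ z, z ∉ E → a.hi z = v z) ∧ (∀ z ∈ Q \ E, gr a.hi z = gr v z) ∧
      (∀ (c : Cp E) (U : Set ℂ) (α β : ℝ), IsOpen U → c.1 ⊆ U →
        (∀ y ∈ (U ∩ Q) \ E, v y ∈ Icc α β) → α ≤ a.lo c.pt ∧ a.hi c.pt ≤ β) ∧
      ∀ (c : Cp E) (U : Set ℂ) (η : ℝ), IsOpen U → c.1 ⊆ U → 0 < η →
        (∃ y ∈ (U ∩ Q) \ E, a.hi c.pt - η < v y) ∧ ∃ y ∈ (U ∩ Q) \ E, v y < a.lo c.pt + η := by
  have p1 : ∀ z ∈ Q \ E, m ≤ v z := fun z hz => (hb z hz).1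
  have p2 : ∀ z ∈ Q \ E, v z ≤ M := fun z hz => (hb z hz).2
  have n1 : ∀ z ∈ Q \ E, -M ≤ -v z := fun z hz => neg_le_neg (p2 z hz)
  have n2 : ∀ z ∈ Q \ E, -v z ≤ -m := fun z hz => neg_le_neg (p1 z hz)
  have hoff : ∀ z, z ∉ E → -hi_OfFun E (fun y => -v y) z = hi_OfFun E v z := fun z hz => by
    rw [off_OfFun hz, off_OfFun hz, neg_neg]
  have hle : ∀ z, -hi_OfFun E (fun y => -v y) z ≤ hi_OfFun E v z := fun z => by
    by_cases hz : z ∈ E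
    · by_contra hn
      obtain ⟨t, h1, h2⟩ := exists_between (not_le.1 hn)
      obtain ⟨U, u1, u2, u3⟩ := lt_OfFun p2 (Cp.mk z hz) (Cp.mem_mk z hz) h1
      obtain ⟨W, w1, w2, w3⟩ := lt_OfFun n2 (Cp.mk z hz) (Cp.mem_mk z hz) (lt_neg.1 h2)
      obtain ⟨y, hy⟩ := (Cp.mk z hz).meets hE (u1.inter w1) (subset_inter u2 w2)
      have a1 := u3 y ⟨⟨hy.1.1.1, hy.1.2⟩, hy.2⟩
      have a2 := w3 y ⟨⟨hy.1.1.2, hy.1.2⟩, hy.2⟩
      linarith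
    · exact (hoff z hz).le
  have hlip : LocallyLipschitzOn (Q \ E) (hi_OfFun E v) := by
    intro z hz
    obtain ⟨K, t, ht, h⟩ := hl hz
    refine ⟨K, t ∩ (Q \ E), inter_mem ht self_mem_nhdsWithin, fun x hx y hy => ?_⟩
    rw [off_OfFun hx.2.2, off_OfFun hy.2.2]
    exact h hx.1 hy.1
  refine ⟨⟨fun z => -hi_OfFun E (fun y => -v y) z, hi_OfFun E v, hle, hoff,
    (usc_OfFun hE hc.neg n1 n2).neg, usc_OfFun hE hc p1 p2,
    fun z hz z' hz' => ⟨congrArg Neg.neg (cst_OfFun hz hz'), cst_OfFun hz hz'⟩, hlip⟩,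
    fun z hz => off_OfFun hz, fun z hz => ?_, fun c U α β hU hcU h => ⟨?_, ?_⟩,
    fun c U η hU hcU hη => ⟨?_, ?_⟩⟩
  · have h : hi_OfFun E v =ᶠ[𝓝 z] v := by
      filter_upwards [hE.cpt.isClosed.isOpen_compl.mem_nhds hz.2] with x hx using off_OfFun hx
    show gr (hi_OfFun E v) z = gr v z
    rw [gr, gr, h.fderiv_eq]
  · exact le_neg.1 (up_OfFun hE n1 c c.pt_in hU hcU fun y hy => neg_le_neg (h y hy).1)
  · exact up_OfFun hE p1 c c.pt_in hU hcU fun y hy => (h y hy).2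
  · exact fr_OfFun hE p1 c c.pt_in hU hcU (sub_lt_self _ hη)
  · obtain ⟨y, hy, h⟩ := fr_OfFun hE n1 c c.pt_in hU hcU (sub_lt_self _ hη)
    refine ⟨y, hy, ?_⟩
    show v y < -hi_OfFun E (fun y => -v y) c.pt + η
    linarith

end Vale.Agent.P116
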