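import Vale.Agent.P116.K.Chain
import Vale.Agent.P116.K.Ker

/-! P116 K/Pl11 (helper11): from the refinement step to the sequence of plans. -/

open MeasureTheory Set Metric Filter Topology Complex
open scoped ENNReal

noncomputable section

namespace Vale.Agent.P116.K

open Vale.Agent.P128

namespace Par
variable {P : Par}

/-- `θ'` refines `θ`. -/
def Rf (θ θ' : Set ℂ →₀ ℝ) : Prop := ∀ S, tau θ' S ≤ tau θ S

theorem tau_nn_Pl11 {θ : Set ℂ →₀ ℝ} (h : P.Sys θ) (S : Set ℂ) : 0 ≤ tau θ S :=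
  Finset.sum_nonneg fun Z _ => by
    beta_reduce
    split_ifs
    · exact le_rfl
    · exact h.nn Z

theorem tau_mono_Pl11 {θ : Set ℂ →₀ ℝ} (h : P.Sys θ) {S S' : Set ℂ} (hS : S ⊆ S') :
    tau θ S ≤ tau θ S' :=
  Finset.sum_le_sum fun Z _ => by
    beta_reduce
    split_ifs with h1 h2 h2
    · exact le_rfl
    · exact h.nn Z
    · exact absurd (hS.trans h2) h1
    · exact le_rfl

theorem tch_le_Pl11 {n : ℕ} {θ : Set ℂ →₀ ℝ} {π : P.It →₀ ℝ} (h : P.Plan n θ π) {U S : Set ℂ}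
    (hU : U ⊆ S) :
    P.ex π (fun it => {it : P.It | (U ∩ trc it.2.1 it.2.2).Nonempty}.indicator 1 it) ≤
      tau θ S := by
  classical
  have e : tau θ S = P.ex π fun i => if S ⊆ i.1 then 0 else 1 := by
    rw [h.ex_fst fun Z => if S ⊆ Z then 0 else 1, tau]
    exact Finsupp.sum_congr fun Z _ => by split_ifs <;> simp
  rw [e]
  refine h.ex_mono fun i hi => ?_
  obtain ⟨-, y, -, hc⟩ := h.crs i hi
  split_ifs with h1
  · refine (indicator_of_notMem ?_ _).le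
    rintro ⟨z, hz, hz'⟩
    exact (hc.trc.1 hz').2 (h1 (hU hz))
  · exact indicator_le_self' (fun _ _ => zero_le_one) i

theorem pls_of_ref {A : List (TF P.E)} {b : ℕ → TF P.E}
    (H : ∀ (θ : Set ℂ →₀ ℝ) (c : ℝ) (j k₀ : ℕ) (η : ℝ), P.Sys θ → P.Bs A θ c → 0 ≤ c → 0 < η →
      ∃ (θ' : Set ℂ →₀ ℝ) (k : ℕ), k₀ ≤ k ∧ P.Sys θ' ∧ Rf θ θ' ∧ P.Bs A θ' (c + η) ∧
        P.Cert b j k θ' (c + η))
    {θ₀ : Set ℂ →₀ ℝ} {c η : ℝ} (h0 : P.Sys θ₀) (hB : P.Bs A θ₀ c) (hc : 0 ≤ c) (hη : 0 < η) :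
    ∃ π τ k, P.Pls b (c + η) π τ k := by
  let St := {s : (Set ℂ →₀ ℝ) × ℕ × ℝ //
    P.Sys s.1 ∧ P.Bs A s.1 s.2.2 ∧ 0 ≤ s.2.2 ∧ s.2.2 < c + η}
  have key : ∀ (j : ℕ) (s : St), ∃ s' : St, s.1.2.1 ≤ s'.1.2.1 ∧ Rf s.1.1 s'.1.1 ∧
      ∃ π, P.Plan j s'.1.1 π ∧ P.ex π (fun i => hopn b j i.2.2) ≤ 1 ∧
        P.n1 π + P.n2 π ≤ (c + η) ^ 2 ∧ ∀ F, P.Sep j F →
          P.n1 π + ∑ p ∈ F, tau s'.1.1 (closure (P.cl s'.1.2.1 p)) ^ 2 ≤ (c + η) ^ 2 := by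
    rintro j ⟨⟨θ, k₀, c'⟩, h1, h2, h3, h4⟩
    have h5 : 0 < (c + η - c') / 2 := by simp only at h4; linarith
    obtain ⟨θ', k, a1, a2, a3, a4, a5⟩ := H θ c' j k₀ _ h1 h2 h3 h5
    obtain ⟨π, b1, b2, b3, b4⟩ := a5 j (min 1 ((c + η - c') / 2)) (lt_min one_pos h5)
    have h6 : (c' + (c + η - c') / 2 + min 1 ((c + η - c') / 2)) ^ 2 ≤ (c + η) ^ 2 := by
      have := min_le_right 1 ((c + η - c') / 2)
      have := lt_min one_pos h5
      simp only at h3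
      exact pow_le_pow_left₀ (by linarith) (by linarith) 2
    exact ⟨⟨⟨θ', k, c' + (c + η - c') / 2⟩, a2, a4, by simp only at h3 ⊢; linarith,
      by simp only; linarith⟩, a1, a3, π, b1, b2.trans (min_le_left _ _), b3.trans h6,
      fun F hF => (b4 F hF).trans h6⟩
  choose st k1 k2 π k3 k4 k5 k6 using key
  let S : ℕ → St := fun j => Nat.rec ⟨⟨θ₀, 0, c⟩, h0, hB, hc, by simp only; linarith⟩
    (fun j s => st j s) j
  have hS : ∀ j, S (j + 1) = st j (S j) := fun _ => rfl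
  have m1 : Monotone fun j => (S j).1.2.1 := monotone_nat_of_le_succ fun j => k1 j (S j)
  have m2 : ∀ T, Antitone fun j => tau (S j).1.1 T := fun T =>
    antitone_nat_of_succ_le fun j => k2 j (S j) T
  refine ⟨fun j => π j (S j), fun j p => tau (S (j + 1)).1.1 (closure (P.cl (S (j + 1)).1.2.1 p)),
    fun j => (S (j + 1)).1.2.1, fun j => ⟨_, (S (j + 1)).2.1, k3 j (S j)⟩, fun j => k4 j (S j),
    fun j => k5 j (S j), fun j p => tau_nn_Pl11 (S (j + 1)).2.1 _, fun j => k6 j (S j),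
    fun i j hij p _ => ?_, fun i j hij p _ => ?_⟩
  · exact (tau_mono_Pl11 (S (j + 1)).2.1 (closure_mono (P.cl_anti
      (m1 (Nat.succ_le_succ hij)) p))).trans (m2 _ (Nat.succ_le_succ hij))
  · exact (tch_le_Pl11 (k3 j (S j)) subset_closure).trans (m2 _ (Nat.succ_le_succ hij))

end Par

end Vale.Agent.P116.K
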