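import Vale.Agent.P116.K.Chain
import Vale.Agent.P116.K.Ker

/-! P116 K/ZA (TASK, owner helper20, stream block). Helper names end with `_ZA`.
Definitions and expectation calculus. `ex π F` is a finite sum over `π.support` with weights `≥ 0`. `z_cs`: `tele_pair`, `tele_fin`, exchange of the finite sum with the `tsum` (finite support), Cauchy-Schwarz (`Real.inner_le_Lp_mul_Lq_tsum_of_nonneg` or finite `Finset.inner_mul_le_norm_mul_norm` on the finite support).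
`z_δ`: `far` with `w = ⟨0, z.im⟩`. `z_step`: the list is not empty since the end points have different imaginary parts, and the start lies in the trace of the first step. -/

open MeasureTheory Set Metric Filter Topology Complex
open scoped ENNReal

set_option linter.unusedVariables false

noncomputable section

namespace Vale.Agent.P116.K

open Vale.Agent.P128

namespace Par

variable {P : Par} {n : ℕ} {θ : Set ℂ →₀ ℝ} {π : P.It →₀ ℝ} {i : P.It}

/-- The trace of an item. -/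
def T (i : P.It) : Set ℂ := trc i.2.1 i.2.2

/-- The indicator of the items that meet `V`. -/
def mt (V : Set ℂ) (i : P.It) : ℝ :=
  {it : P.It | (V ∩ trc it.2.1 it.2.2).Nonempty}.indicator 1 i

/-- The smoothed side of an item. -/
def sm (i : P.It) (x : ℂ) : ℝ := ∫ h, φ h * P.chi i (x + (P.r x : ℂ) * h)

/-- The limit of the streams and of the densities along a subsequence. -/
structure Lim (π : ℕ → P.It →₀ ℝ) (ψ : ℕ → ℕ) (u ρ : ℂ → ℝ) : Prop where
  mono : StrictMono ψ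
  uc : ContinuousOn u (Qc \ P.E)
  ut : ∀ x ∈ Qc \ P.E, Tendsto (fun j => P.str (π (ψ j)) x) atTop (𝓝 (u x))
  rc : ContinuousOn ρ P.Eᶜ
  r0 : ∀ z, 0 ≤ ρ z
  rE : ∀ z ∈ P.E, ρ z = 0
  rt : ∀ K, IsCompact K → K ⊆ P.Eᶜ → ∀ η : ℝ, 0 < η →
    ∀ᶠ j in atTop, ∀ x ∈ K, |P.den (π (ψ j)) x - ρ x| ≤ η

theorem z_δ (P : Par) : P.δ ≤ 1 / 100 := by
  obtain ⟨z, hz⟩ := P.ne
  have h1 := (mem_reProdIm.1 (P.dom.sub hz)).1
  have h2 := P.far z hz ⟨0, z.im⟩ fun h => lt_irrefl _ (mem_reProdIm.1 h).1.1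
  rw [dist_of_im_eq (z := z) (w := ⟨0, z.im⟩) rfl, Real.dist_eq, sub_zero, abs_of_pos h1.1,
    div_le_iff₀ P.ε0] at h2
  nlinarith [P.ε0, P.ε1, h1.1, h1.2]

theorem z_add (π : P.It →₀ ℝ) (F G : P.It → ℝ) :
    P.ex π (fun i => F i + G i) = P.ex π F + P.ex π G := by
  simp only [ex, Finsupp.sum, mul_add, Finset.sum_add_distrib]

theorem z_sub (π : P.It →₀ ℝ) (F G : P.It → ℝ) :
    P.ex π (fun i => F i - G i) = P.ex π F - P.ex π G := by
  simp only [ex, Finsupp.sum, mul_sub, Finset.sum_sub_distrib]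

theorem z_mul (π : P.It →₀ ℝ) (t : ℝ) (F : P.It → ℝ) : P.ex π (fun i => t * F i) = t * P.ex π F := by
  simp only [ex, Finsupp.sum, Finset.mul_sum, mul_left_comm]

theorem z_sum {ι : Type*} (π : P.It →₀ ℝ) (I : Finset ι) (F : ι → P.It → ℝ) :
    P.ex π (fun i => ∑ J ∈ I, F J i) = ∑ J ∈ I, P.ex π (F J) := by
  simp only [ex, Finsupp.sum, Finset.mul_sum]
  exact Finset.sum_comm

theorem z_abs (h : P.Plan n θ π) {F G : P.It → ℝ} (hl : ∀ i ∈ π.support, |F i| ≤ G i) :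
    |P.ex π F| ≤ P.ex π G := by
  refine (Finset.abs_sum_le_sum_abs _ _).trans (Finset.sum_le_sum fun i hi => ?_)
  rw [abs_mul, abs_of_nonneg (h.nn i)]
  exact mul_le_mul_of_nonneg_left (hl i hi) (h.nn i)

theorem z_mt_nn (V : Set ℂ) (i : P.It) : 0 ≤ mt V i ∧ mt V i ≤ 1 := by
  by_cases h : i ∈ {it : P.It | (V ∩ trc it.2.1 it.2.2).Nonempty}
  · rw [mt, indicator_of_mem h]
    exact ⟨zero_le_one, le_rfl⟩
  · rw [mt, indicator_of_notMem h]
    exact ⟨le_rfl, zero_le_one⟩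

theorem z_mt_mono {V W : Set ℂ} (h : V ⊆ W) (i : P.It) : mt V i ≤ mt W i := by
  have h1 : {it : P.It | (V ∩ trc it.2.1 it.2.2).Nonempty} ⊆
      {it : P.It | (W ∩ trc it.2.1 it.2.2).Nonempty} :=
    fun it hi => Nonempty.mono (inter_subset_inter_left _ h) hi
  exact indicator_le_indicator_of_subset h1 (fun _ => zero_le_one) i

theorem z_mt_union (V W : Set ℂ) (i : P.It) : mt (V ∪ W) i ≤ mt V i + mt W i := by
  by_cases h : i ∈ {it : P.It | ((V ∪ W) ∩ trc it.2.1 it.2.2).Nonempty}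
  · have h1 := z_mt_nn (V ∪ W) i
    obtain ⟨z, hz | hz, h2⟩ := h
    · have h3 : mt V i = 1 := indicator_of_mem
        (show i ∈ {it : P.It | (V ∩ trc it.2.1 it.2.2).Nonempty} from ⟨z, hz, h2⟩) _
      linarith [(z_mt_nn W i).1]
    · have h3 : mt W i = 1 := indicator_of_mem
        (show i ∈ {it : P.It | (W ∩ trc it.2.1 it.2.2).Nonempty} from ⟨z, hz, h2⟩) _
      linarith [(z_mt_nn V i).1]
  · rw [mt, indicator_of_notMem h]
    exact add_nonneg (z_mt_nn V i).1 (z_mt_nn W i).1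

theorem z_T (h : P.Crs n i) : T i ⊆ P.R ∧ IsCompact (T i) ∧ IsPreconnected (T i) ∧
    (∃ p ∈ T i, p.im = -P.δ) ∧ ∃ p ∈ T i, p.im = 1 + P.δ := by
  obtain ⟨h1, y, h2, h3⟩ := h
  exact ⟨h3.trc.1.trans diff_subset, h3.trc.2.1, h3.trc.2.2, ⟨_, Or.inl rfl, h1⟩, y, h3.tgt.2, h2⟩

theorem z_step (h : P.Crs n i) {z : ℂ} (hz : z ∈ T i) (hn : z ∉ P.nb n) :
    ∃ a b, Stp.seg a b ∈ i.2.2 ∧ z ∈ segment ℝ a b ∧ segment ℝ a b ⊆ P.R \ P.E := by
  obtain ⟨Z, x, l⟩ := i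
  obtain ⟨h1, y, h2, h3⟩ := h
  have h4 : ∃ s ∈ l, z ∈ s.tr := by
    rcases mem_trc_ChainD.1 hz with rfl | h4
    · rcases l with _ | ⟨s, l⟩
      · have h5 : z = y := h3.2.1
        rw [← h5] at h2
        have h6 : z.im = -P.δ := h1
        linarith [P.δ0]
      · exact ⟨s, List.mem_cons_self, (cons_ChainA h3).2.2.1⟩
    · exact h4
  obtain ⟨s, hs, h5⟩ := h4
  have h6 := h3.2.2 s hs
  rcases s with ⟨a, b⟩ | ⟨a, b, J, c⟩
  · exact ⟨a, b, hs, h5, Subset.trans h6 (diff_subset_diff_left diff_subset)⟩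
  · exact absurd (h6.2.2.2.2.1 h5).2 hn

theorem z_cs (π : P.It →₀ ℝ) (h : P.Plan n θ π) {lam : Cp P.E → ℝ} (h0 : ∀ c, 0 ≤ lam c)
    (h2 : Summable fun c => lam c ^ 2) :
    P.ex π (fun i => (i.2.2.map (Stp.tel lam)).sum) ≤ √(P.n2 π) * √(∑' c, lam c ^ 2) := by
  have hf : (⋃ i ∈ π.support, Function.support (P.tele i.2.2)).Finite :=
    π.support.finite_toSet.biUnion fun i _ => tele_fin i.2.2
  have h1 : ∀ i ∈ π.support, ∀ c ∉ hf.toFinset, P.tele i.2.2 c = 0 := fun i hi c hc => by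
    by_contra h3
    exact hc (hf.mem_toFinset.2 (mem_iUnion₂.2 ⟨i, hi, h3⟩))
  have h3 : P.ex π (fun i => (i.2.2.map (Stp.tel lam)).sum) =
      ∑ c ∈ hf.toFinset, (P.ex π fun i => P.tele i.2.2 c) * lam c := by
    simp only [mul_comm _ (lam _), ← z_mul, ← z_sum]
    refine Finset.sum_congr rfl fun i hi => congrArg _ ?_
    beta_reduce
    rw [← tele_pair, tsum_eq_sum fun c hc => by rw [h1 i hi c hc, mul_zero]]
  have h4 : P.n2 π = ∑ c ∈ hf.toFinset, (P.ex π fun i => P.tele i.2.2 c) ^ 2 :=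
    tsum_eq_sum fun c hc => by
      rw [ex, Finsupp.sum, Finset.sum_eq_zero fun i hi => by rw [h1 i hi c hc, mul_zero],
        zero_pow two_ne_zero]
  rw [h3, h4]
  exact (Real.sum_mul_le_sqrt_mul_sqrt _ _ _).trans (mul_le_mul_of_nonneg_left
    (Real.sqrt_le_sqrt (h2.sum_le_tsum _ fun c _ => sq_nonneg _)) (Real.sqrt_nonneg _))

end Par

end Vale.Agent.P116.K
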