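import Vale.Agent.P116.K.Pl11
import Vale.Agent.P116.K.ZA

/-! P116 K/Pl11B (helper11): certificates give the bound. -/

open MeasureTheory Set Metric Filter Topology Complex
open scoped ENNReal

noncomputable section

namespace Vale.Agent.P116.K

open Vale.Agent.P128

namespace Par
variable {P : Par}

theorem cs_Pl11 {f g : ℂ → ℝ} (hf : MemLp f 2 volume) (hg : MemLp g 2 volume)
    (f0 : ∀ x, 0 ≤ f x) (g0 : ∀ x, 0 ≤ g x) :
    ∫ x, f x * g x ≤ √(∫ x, f x ^ 2) * √(∫ x, g x ^ 2) := by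
  have h := integral_mul_le_Lp_mul_Lq_of_nonneg (μ := (volume : Measure ℂ)) Real.HolderConjugate.two_two
    (Eventually.of_forall f0) (Eventually.of_forall g0) (by simpa using hf) (by simpa using hg)
  simpa only [Real.sqrt_eq_rpow, Real.rpow_two] using h

theorem cs2_Pl11 {a b x y : ℝ} (ha : 0 ≤ a) (hb : 0 ≤ b) (hx : 0 ≤ x) (hy : 0 ≤ y) :
    √a * √x + √b * √y ≤ √(a + b) * √(x + y) := by
  rw [← Real.sqrt_mul (add_nonneg ha hb)]
  refine Real.le_sqrt_of_sq_le ?_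
  have h1 := Real.sq_sqrt ha
  have h2 := Real.sq_sqrt hb
  have h3 := Real.sq_sqrt hx
  have h4 := Real.sq_sqrt hy
  nlinarith [sq_nonneg (√a * √y - √b * √x)]

theorem cost_le_Pl11 {n : ℕ} {θ : Set ℂ →₀ ℝ} {π : P.It →₀ ℝ} (h : P.Plan n θ π)
    (b : ℕ → TF P.E) {g : ℂ → ℝ} {lam : Cp P.E → ℝ} (ht : P.Tv g lam) (m : ℕ) :
    P.ex π (fun i => cost b (P.ms g) lam m i.2.2) ≤
      √(P.n1 π + P.n2 π) * P.nv g lam + P.ex π fun i => hopn b m i.2.2 := by
  unfold cost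
  rw [z_add, z_add, ← den_pair h ht.g2]
  refine add_le_add ?_ le_rfl
  have h1 := cs_Pl11 ht.g2 (den_cont h).2.2 ht.g0 (den_nn h)
  have h2 := z_cs π h ht.l0 ht.l2
  have h3 := cs2_Pl11 (a := P.n1 π) (b := P.n2 π) (x := ∫ x, g x ^ 2) (y := ∑' c, lam c ^ 2)
    (integral_nonneg fun _ => sq_nonneg _) (tsum_nonneg fun _ => sq_nonneg _)
    (integral_nonneg fun _ => sq_nonneg _) (tsum_nonneg fun _ => sq_nonneg _)
  rw [mul_comm] at h1
  exact (add_le_add h1 h2).trans h3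

theorem cert_bs11 {A : List (TF P.E)} {j k : ℕ} {θ : Set ℂ →₀ ℝ} {c : ℝ} (hc : 0 ≤ c)
    (h : ∀ b : ℕ → TF P.E, (∀ i, Aux A (b i)) → P.Cert b j k θ c) : P.Bs A θ c := by
  intro b hb n g lam ht η hη
  have h0 : 0 ≤ P.nv g lam := Real.sqrt_nonneg _
  have h1 : 0 < η / (P.nv g lam + 1) := by positivity
  obtain ⟨π, a1, a2, a3, -⟩ := h b hb n _ h1
  refine ⟨π, a1, (cost_le_Pl11 a1 b ht n).trans ?_⟩
  have h2 := Real.sqrt_le_iff.2 ⟨by positivity, a3⟩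
  calc _ ≤ (c + η / (P.nv g lam + 1)) * P.nv g lam + η / (P.nv g lam + 1) := by gcongr
    _ = _ := by field_simp; ring

end Par

end Vale.Agent.P116.K
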