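import Vale.Agent.P116.K.Defs

/-! P116 K/PlA: abstract lemmas. -/

open MeasureTheory Set Metric Filter Topology Complex
open scoped ENNReal

noncomputable section

namespace Vale.Agent.P116.K

open Vale.Agent.P128


/-- Separation from a product of balls (`geometric_hahn_banach_open`, Riesz in each factor). -/
theorem hb_prod {ι H : Type} [Fintype ι] [NormedAddCommGroup H] [InnerProductSpace ℝ H]
    [CompleteSpace H] {C : Set ((ι → H) × ℝ)} (hC : Convex ℝ C) {c : ℝ} (hc : 0 ≤ c)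
    (h : ∀ (y : ι → H) (s ε : ℝ), 0 < ε →
      ∃ x ∈ C, ∑ i, inner ℝ (y i) (x.1 i) + s * x.2 ≤ c * ∑ i, ‖y i‖ + ε) {η : ℝ} (hη : 0 < η) :
    ∃ x ∈ C, (∀ i, ‖x.1 i‖ < c + η) ∧ |x.2| < η := by
  classical
  by_contra hn
  obtain ⟨U, hU⟩ : ∃ U : Set ((ι → H) × ℝ),
      U = (univ.pi fun _ => ball (0 : H) (c + η)) ×ˢ ball (0 : ℝ) η := ⟨_, rfl⟩
  have h1 : ∀ x, x ∈ U ↔ (∀ i, ‖x.1 i‖ < c + η) ∧ |x.2| < η := fun x => by
    simp only [hU, mem_prod, mem_univ_pi, mem_ball_zero_iff, Real.norm_eq_abs]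
  obtain ⟨f, u, h2, h3⟩ := geometric_hahn_banach_open (s := U) (t := C)
    (hU ▸ (convex_pi fun _ _ => convex_ball (0 : H) (c + η)).prod (convex_ball (0 : ℝ) η))
    (hU ▸ (isOpen_set_pi finite_univ fun _ _ => isOpen_ball).prod isOpen_ball) hC
    (disjoint_left.2 fun x hx hx' => hn ⟨x, hx', (h1 x).1 hx⟩)
  obtain ⟨y, hy⟩ : ∃ y : ι → H, ∀ i v, inner ℝ (y i) v = f (Pi.single i v, 0) :=
    ⟨fun i => (InnerProductSpace.toDual ℝ H).symm ((f.comp (ContinuousLinearMap.inl ℝ _ _)).comp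
      (ContinuousLinearMap.single ℝ (fun _ : ι => H) i)),
      fun i v => InnerProductSpace.toDual_symm_apply⟩
  have h4 : ∀ x : (ι → H) × ℝ, f x = ∑ i, inner ℝ (y i) (x.1 i) + f (0, 1) * x.2 := fun x => by
    have e : x = ∑ i, (Pi.single i (x.1 i), (0 : ℝ)) + x.2 • ((0 : ι → H), (1 : ℝ)) := by
      refine Prod.ext ?_ ?_
      · simp [Prod.fst_sum, Finset.univ_sum_single]
      · simp [Prod.snd_sum]
    conv_lhs => rw [e]
    rw [map_add, map_sum, map_smul, smul_eq_mul, mul_comm]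
    simp only [hy]
  have h5 : ∀ i, c / ‖y i‖ * ‖y i‖ ≤ c ∧ c / ‖y i‖ * ‖y i‖ ^ 2 = c * ‖y i‖ := fun i => by
    rcases eq_or_ne ‖y i‖ 0 with e | e
    · simp [e, hc]
    · exact ⟨(div_mul_cancel₀ c e).le, by field_simp⟩
  have h6 := h2 (fun i => (c / ‖y i‖) • y i, 0) ((h1 _).2 ⟨fun i => by
    rw [norm_smul, Real.norm_of_nonneg (by positivity)]
    linarith [(h5 i).1], by simpa using hη⟩)
  rw [h4] at h6
  simp only [inner_smul_right, real_inner_self_eq_norm_sq, fun i => (h5 i).2, mul_zero, add_zero,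
    ← Finset.mul_sum] at h6
  obtain ⟨x, hx, h7⟩ := h y (f (0, 1)) ((u - c * ∑ i, ‖y i‖) / 2) (by linarith)
  have h8 := h3 x hx
  rw [h4] at h8
  linarith

end Vale.Agent.P116.K
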