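import Vale.Agent.P116.K.PlAA

/-! P116 K/PlA: abstract lemmas. -/

open MeasureTheory Set Metric Filter Topology Complex
open scoped ENNReal

noncomputable section

namespace Vale.Agent.P116.K

open Vale.Agent.P128


/-- Convex weights on a tail. -/
def W_PlAB (k : ℕ) : Set (ℕ →₀ ℝ) :=
  {w | (∀ m, 0 ≤ w m) ∧ w.sum (fun _ a => a) = 1 ∧ ∀ m ∈ w.support, k ≤ m}

theorem anti_PlAB {k k' : ℕ} (h : k ≤ k') : W_PlAB k' ⊆ W_PlAB k :=
  fun _ hw => ⟨hw.1, hw.2.1, fun m hm => h.trans (hw.2.2 m hm)⟩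

theorem one_PlAB (k : ℕ) : Finsupp.single k (1 : ℝ) ∈ W_PlAB k := by
  refine ⟨fun m => ?_, Finsupp.sum_single_index rfl, fun m hm => ?_⟩
  · rw [Finsupp.single_apply]
    split_ifs
    exacts [zero_le_one, le_rfl]
  · exact (Finset.mem_singleton.1 (Finsupp.support_single_subset hm)).ge

theorem mid_PlAB {k : ℕ} {w w' : ℕ →₀ ℝ} (hw : w ∈ W_PlAB k) (hw' : w' ∈ W_PlAB k) :
    (1 / 2 : ℝ) • (w + w') ∈ W_PlAB k := by
  have e : ∀ v : ℕ →₀ ℝ, v.sum (fun _ a => a) = Finsupp.linearCombination ℝ (fun _ => (1 : ℝ)) v :=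
    fun v => by simp only [Finsupp.linearCombination_apply, smul_eq_mul, mul_one]
  refine ⟨fun m => ?_, ?_, fun m hm => ?_⟩
  · rw [Finsupp.smul_apply, Finsupp.add_apply, smul_eq_mul]
    exact mul_nonneg (by norm_num) (add_nonneg (hw.1 m) (hw'.1 m))
  · rw [e, map_smul, map_add, ← e, ← e, hw.2.1, hw'.2.1, smul_eq_mul]
    norm_num
  · rcases Finset.mem_union.1 (Finsupp.support_add (Finsupp.support_smul hm)) with h | h
    exacts [hw.2.2 m h, hw'.2.2 m h]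

/-- Convex combinations of tails with almost minimal norm form a Cauchy sequence
(parallelogram law); pass to a subsequence. -/
theorem tails {H : Type} [NormedAddCommGroup H] [InnerProductSpace ℝ H] {y : ℕ → H} {M : ℝ}
    (hM : ∀ k, ‖y k‖ ≤ M) {ε : ℝ} (hε : 0 < ε) : ∃ w : ℕ → (ℕ →₀ ℝ),
      (∀ k m, 0 ≤ w k m) ∧ (∀ k, (w k).sum (fun _ a => a) = 1) ∧ (∀ k, ∀ m ∈ (w k).support, k ≤ m) ∧
      ∀ k, ‖(w (k + 1)).sum (fun m a => a • y m) - (w k).sum (fun m a => a • y m)‖ ≤ ε / 2 ^ k := by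
  obtain ⟨v, hv⟩ : ∃ v : (ℕ →₀ ℝ) →ₗ[ℝ] H, v = Finsupp.linearCombination ℝ y := ⟨_, rfl⟩
  obtain ⟨d, hd⟩ : ∃ d : ℕ → ℝ, d = fun k => sInf ((fun w => ‖v w‖ ^ 2) '' W_PlAB k) := ⟨_, rfl⟩
  have hb : ∀ k, BddBelow ((fun w => ‖v w‖ ^ 2) '' W_PlAB k) := fun k =>
    ⟨0, by rintro _ ⟨w, -, rfl⟩; exact sq_nonneg _⟩
  have h1 : ∀ k, ∀ w ∈ W_PlAB k, d k ≤ ‖v w‖ ^ 2 := fun k w hw => by
    rw [hd]
    exact csInf_le (hb k) ⟨w, hw, rfl⟩
  have h2 : BddAbove (range d) := by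
    refine ⟨M ^ 2, ?_⟩
    rintro _ ⟨k, rfl⟩
    refine (h1 k _ (one_PlAB k)).trans ?_
    rw [hv, Finsupp.linearCombination_single, one_smul]
    exact pow_le_pow_left₀ (norm_nonneg _) (hM k) 2
  have h3 : ∀ k, ∀ δ : ℝ, 0 < δ → ∃ w ∈ W_PlAB k, ‖v w‖ ^ 2 ≤ iSup d + δ := fun k δ hδ => by
    have h4 : d k < iSup d + δ := (le_ciSup h2 k).trans_lt (lt_add_of_pos_right _ hδ)
    generalize iSup d + δ = t at h4 ⊢
    rw [hd] at h4
    obtain ⟨_, ⟨w, hw, rfl⟩, h5⟩ := exists_lt_of_csInf_lt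
      (Set.Nonempty.image _ ⟨_, one_PlAB k⟩) h4
    exact ⟨w, hw, h5.le⟩
  have h4 : ∀ k : ℕ, ∃ K, iSup d - (ε / 2 ^ k) ^ 2 / 8 < d K := fun k =>
    exists_lt_of_lt_ciSup (sub_lt_self _ (by positivity))
  choose K hK using h4
  choose w hw hn using fun k : ℕ => h3 (k + K k + K (k - 1)) ((ε / 2 ^ k) ^ 2 / 8) (by positivity)
  refine ⟨w, fun k => (hw k).1, fun k => (hw k).2.1,
    fun k => (anti_PlAB (by omega) (hw k)).2.2, fun k => ?_⟩
  rw [← Finsupp.linearCombination_apply, ← Finsupp.linearCombination_apply, ← hv]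
  have a1 : w (k + 1) ∈ W_PlAB (K k) :=
    anti_PlAB (by rw [Nat.add_sub_cancel]; omega) (hw (k + 1))
  have a2 : w k ∈ W_PlAB (K k) := anti_PlAB (by omega) (hw k)
  have a3 := h1 _ _ (mid_PlAB a1 a2)
  rw [map_smul, map_add, norm_smul, mul_pow, Real.norm_of_nonneg (by norm_num)] at a3
  have a4 := parallelogram_law_with_norm ℝ (v (w (k + 1))) (v (w k))
  have a5 := hn (k + 1)
  have a6 := hn k
  have a7 := hK k
  have a8 : (ε / 2 ^ (k + 1)) ^ 2 ≤ (ε / 2 ^ k) ^ 2 :=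
    pow_le_pow_left₀ (by positivity) (div_le_div_of_nonneg_left hε.le (by positivity)
      (pow_le_pow_right₀ one_le_two (Nat.le_succ k))) 2
  refine (abs_le_of_sq_le_sq' ?_ (by positivity)).2
  linarith

end Vale.Agent.P116.K
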