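import Vale.Agent.P116.K.PlAB

/-! P116 K/PlA: abstract lemmas. -/

open MeasureTheory Set Metric Filter Topology Complex
open scoped ENNReal

noncomputable section

namespace Vale.Agent.P116.K

open Vale.Agent.P128


/-- Domination of a fast Cauchy sequence. -/
theorem dom_seq {H : Type} [NormedAddCommGroup H] [CompleteSpace H] {Pos : Set H}
    (hc : IsClosed Pos) (h0 : (0 : H) ∈ Pos) (ha : ∀ x ∈ Pos, ∀ y ∈ Pos, x + y ∈ Pos)
    (hab : ∀ x : H, ∃ x' ∈ Pos, x' - x ∈ Pos ∧ ‖x'‖ ≤ ‖x‖) {z : ℕ → H} {ε : ℝ}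
    (hz : ∀ k, ‖z (k + 1) - z k‖ ≤ ε / 2 ^ k) :
    ∃ y : H, ∀ k, y - z k ∈ Pos ∧ ‖y - z k‖ ≤ 4 * ε := by
  choose d hd hd' hn using fun k => hab (z (k + 1) - z k)
  set e : ℕ → ℕ → H := fun k j => if j < k then d j - (z (j + 1) - z j) else d j with he
  have hg : HasSum (fun j : ℕ => 4 * ε / 2 / 2 ^ j) (4 * ε) := hasSum_geometric_two' _
  have hb : ∀ k j, ‖e k j‖ ≤ 4 * ε / 2 / 2 ^ j := by
    intro k j
    have h1 := (hn j).trans (hz j)
    have h2 : 4 * ε / 2 / 2 ^ j = ε / 2 ^ j + ε / 2 ^ j := by ring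
    simp only [he]
    split_ifs
    · linarith [norm_sub_le (d j) (z (j + 1) - z j), hz j]
    · linarith [norm_nonneg (d j)]
  have hs : ∀ k, Summable (e k) := fun k => .of_norm_bounded hg.summable (hb k)
  have hP : ∀ k j, e k j ∈ Pos := fun k j => by
    simp only [he]
    split_ifs
    exacts [hd' j, hd j]
  have hS : ∀ k m, ∑ j ∈ Finset.range m, e k j ∈ Pos := fun k m => by
    induction m with
    | zero => simpa using h0
    | succ m ih => rw [Finset.sum_range_succ]; exact ha _ ih _ (hP k m)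
  have hstep : ∀ k, ∑' j, e (k + 1) j = ∑' j, e k j - (z (k + 1) - z k) := by
    intro k
    have h1 : e (k + 1) = fun j => e k j - if j = k then z (k + 1) - z k else 0 := by
      funext j
      simp only [he]
      rcases lt_trichotomy j k with h | h | h
      · rw [if_pos (by omega), if_pos h, if_neg h.ne, sub_zero]
      · subst h
        rw [if_pos (by omega), if_neg (lt_irrefl _), if_pos rfl]
      · rw [if_neg (by omega), if_neg (by omega), if_neg h.ne', sub_zero]
    rw [h1]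
    exact ((hs k).hasSum.sub (hasSum_ite_eq k _)).tsum_eq
  have hy : ∀ k, z 0 + ∑' j, e 0 j - z k = ∑' j, e k j := fun k => by
    induction k with
    | zero => abel
    | succ k ih => rw [hstep, ← ih]; abel
  refine ⟨z 0 + ∑' j, e 0 j, fun k => ?_⟩
  rw [hy]
  exact ⟨hc.mem_of_tendsto (hs k).hasSum.tendsto_sum_nat (Eventually.of_forall (hS k)),
    tsum_of_norm_bounded hg (hb k)⟩

end Vale.Agent.P116.K
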