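import Vale.Agent.P116.K.PlU

/-! P116 K/PlC: certificates by separation, refinement of tube systems. -/

open MeasureTheory Set Metric Filter Topology Complex
open scoped ENNReal

noncomputable section

namespace Vale.Agent.P116.K

open Vale.Agent.P128


/-- The probability of meeting a cluster. -/
def tp (P : Par) (π : P.It →₀ ℝ) (k : ℕ) (p : ℂ) : ℝ :=
  P.ex π fun it => {it : P.It | (P.cl k p ∩ trc it.2.1 it.2.2).Nonempty}.indicator 1 it

/-- Refinement. -/
def Ref (θ θ' : Set ℂ →₀ ℝ) : Prop := ∀ S, Par.tau θ' S ≤ Par.tau θ S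

open Classical in
/-- The finitely many refined tubes. -/
def zz (P : Par) (θ : Set ℂ →₀ ℝ) (k : ℕ) (G : Finset ℂ) : Finset (Set ℂ) :=
  (θ.support ×ˢ G.powerset).image fun q => q.1 ∪ ⋃ p ∈ q.2, closure (P.cl k p)

/-- One instance of the certificate. -/
def Cn (P : Par) (b : ℕ → TF P.E) (j k : ℕ) (θ : Set ℂ →₀ ℝ) (c : ℝ) (n : ℕ) (η : ℝ) : Prop :=
  ∃ π, P.Plan n θ π ∧ P.ex π (fun i => hopn b n i.2.2) ≤ η ∧ P.n1 π + P.n2 π ≤ (c + η) ^ 2 ∧
    ∀ F, P.Sep j F → P.n1 π + ∑ p ∈ F, Par.tau θ (closure (P.cl k p)) ^ 2 ≤ (c + η) ^ 2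

variable {P : Par} {A : List (TF P.E)} {θ θ' : Set ℂ →₀ ℝ} {c η : ℝ} {j k n : ℕ} {F : Finset ℂ}
  {b : ℕ → TF P.E} {π π' : P.It →₀ ℝ}

theorem plan_cvx (h : P.Plan n θ π) (h' : P.Plan n θ π') {s t : ℝ} (hs : 0 ≤ s) (ht : 0 ≤ t)
    (hst : s + t = 1) : P.Plan n θ (s • π + t • π') := by
  classical
  refine ⟨fun i => ?_, fun i hi => ?_, ?_⟩
  · simp only [Finsupp.coe_add, Finsupp.coe_smul, Pi.add_apply, Pi.smul_apply, smul_eq_mul]
    exact add_nonneg (mul_nonneg hs (h.nn i)) (mul_nonneg ht (h'.nn i))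
  · by_cases h1 : i ∈ π.support
    · exact h.crs i h1
    · by_cases h2 : i ∈ π'.support
      · exact h'.crs i h2
      · exfalso
        rw [Finsupp.notMem_support_iff] at h1 h2
        rw [Finsupp.mem_support_iff] at hi
        apply hi
        simp only [Finsupp.coe_add, Finsupp.coe_smul, Pi.add_apply, Pi.smul_apply, smul_eq_mul,
          h1, h2, mul_zero, add_zero]
  · rw [Finsupp.mapDomain_add, Finsupp.mapDomain_smul, Finsupp.mapDomain_smul, h.mar, h'.mar,
      ← add_smul, hst, one_smul]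
theorem ex_add (π π' : P.It →₀ ℝ) (s t : ℝ) (G : P.It → ℝ) :
    P.ex (s • π + t • π') G = s * P.ex π G + t * P.ex π' G := by
  have key : ∀ (r : ℝ) (σ : P.It →₀ ℝ), P.ex (r • σ) G = r * P.ex σ G := by
    intro r σ
    unfold Par.ex
    rw [Finsupp.sum_smul_index' (fun i => zero_mul _), Finsupp.mul_sum]
    refine Finsupp.sum_congr fun i _ => ?_
    rw [smul_eq_mul, mul_assoc]
  rw [← key, ← key]
  unfold Par.ex
  exact Finsupp.sum_add_index' (fun i => zero_mul _) (fun i a a' => add_mul _ _ _)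
theorem tp_nn (h : P.Plan n θ π) (k : ℕ) (p : ℂ) : 0 ≤ tp P π k p := by
  unfold tp Par.ex
  exact Finset.sum_nonneg fun i _ =>
    mul_nonneg (h.nn i) (Set.indicator_nonneg (fun _ _ => zero_le_one) _)
theorem tau_nn (hθ : P.Sys θ) (S : Set ℂ) : 0 ≤ Par.tau θ S := by
  unfold Par.tau
  refine Finset.sum_nonneg fun Z _ => ?_
  dsimp only
  split_ifs
  · exact le_rfl
  · exact hθ.nn Z
theorem tau_mono (hθ : P.Sys θ) {S S' : Set ℂ} (h : S ⊆ S') : Par.tau θ S ≤ Par.tau θ S' := by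
  unfold Par.tau
  refine Finset.sum_le_sum fun Z _ => ?_
  dsimp only
  by_cases h1 : S' ⊆ Z
  · rw [if_pos h1, if_pos (h.trans h1)]
  · rw [if_neg h1]
    split_ifs
    · exact hθ.nn Z
    · exact le_rfl
theorem trc_sub_PlCA {O : Set ℂ} {x y : ℂ} {l : List (Stp P.E)} (h : P.Chn n O x y l) :
    trc x l ⊆ O := by
  rintro z (hz | hz)
  · rw [mem_singleton_iff.1 hz]
    exact h.1.1
  · simp only [mem_iUnion] at hz
    obtain ⟨s, hs, hz⟩ := hz
    have := h.2.2 s hs
    cases s with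
    | seg a c => exact (this hz).1
    | jmp a c J o => exact (this.2.2.2.2.1 hz).1
theorem tp_le_tau (h : P.Plan n θ π) (k : ℕ) (p : ℂ) :
    tp P π k p ≤ Par.tau θ (closure (P.cl k p)) := by
  classical
  rw [← h.mar]
  unfold tp Par.ex Par.tau
  rw [Finsupp.sum_mapDomain_index (fun Z => by split_ifs <;> rfl)
    (fun Z a a' => by split_ifs <;> simp only [add_zero])]
  refine Finset.sum_le_sum fun i hi => ?_
  dsimp only
  by_cases h1 : closure (P.cl k p) ⊆ i.1
  · rw [if_pos h1]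
    have hn : i ∉ {it : P.It | (P.cl k p ∩ trc it.2.1 it.2.2).Nonempty} := by
      rintro ⟨z, hz1, hz2⟩
      obtain ⟨-, y, -, hc⟩ := h.crs i hi
      exact (trc_sub_PlCA hc hz2).2 (h1 (subset_closure hz1))
    rw [Set.indicator_of_notMem hn, mul_zero]
  · rw [if_neg h1]
    have : {it : P.It | (P.cl k p ∩ trc it.2.1 it.2.2).Nonempty}.indicator
        (1 : P.It → ℝ) i ≤ 1 := Set.indicator_le_self' (fun _ _ => zero_le_one) i
    calc _ ≤ π i * 1 := mul_le_mul_of_nonneg_left this (h.nn i)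
      _ = π i := mul_one _

end Vale.Agent.P116.K
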