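import Vale.Agent.P116.K.PlCA

/-! P116 K/PlC: certificates by separation, refinement of tube systems. -/

open MeasureTheory Set Metric Filter Topology Complex
open scoped ENNReal

noncomputable section

namespace Vale.Agent.P116.K

open Vale.Agent.P128

variable {P : Par} {A : List (TF P.E)} {θ θ' : Set ℂ →₀ ℝ} {c η : ℝ} {j k n : ℕ} {F : Finset ℂ}
  {b : ℕ → TF P.E} {π π' : P.It →₀ ℝ}


/-- Test data from finitely many test vectors: `g'` is the sum of the `g i`, `ν` the sum of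
`lam i (mk q)` times the Dirac mass at `q`, for `q ∈ S i`. -/
theorem td_sum (hF : Reps P j F) {ι : Type} [Fintype ι] {S : ι → Finset ℂ}
    (hS : ∀ i, P.Sep j (S i)) {g : ι → ℂ → ℝ} {lam : ι → Cp P.E → ℝ} (hv : ∀ i, P.Tv (g i) (lam i))
    {g₀ : ℂ → ℝ} {l₀ : Cp P.E → ℝ} (h₀ : P.Tv g₀ l₀) : ∃ y : Td P j F,
      y.nm ≤ P.nv g₀ l₀ + ∑ i, P.nv (g i) (lam i) ∧ ∀ b n k r θ π, P.Plan r θ π →
        y.cs b n k π = P.ex π (fun i => cost b (P.ms g₀) l₀ n i.2.2) +
          ∑ i, ((∫ x, g i x * P.den π x) +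
            ∑ q ∈ (S i).attach, lam i (Cp.mk q ((hS i).1 q q.2)) * tp P π k q) := by
  sorry

end Vale.Agent.P116.K
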