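import Vale.Agent.P116.K.PlCB

/-! P116 K/PlC: certificates by separation, refinement of tube systems. -/

open MeasureTheory Set Metric Filter Topology Complex
open scoped ENNReal

noncomputable section

namespace Vale.Agent.P116.K

open Vale.Agent.P128

variable {P : Par} {A : List (TF P.E)} {θ θ' : Set ℂ →₀ ℝ} {c η : ℝ} {j k n : ℕ} {F : Finset ℂ}
  {b : ℕ → TF P.E} {π π' : P.It →₀ ℝ}


/-- The vector `(den, tp on S)`. -/
theorem sel_rep {S : Finset ℂ} (hS : P.Sep j S) (k : ℕ) : ∃ X : (P.It →₀ ℝ) → HH P.E,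
    (∀ n θ π π' s t, P.Plan n θ π → P.Plan n θ π' → 0 ≤ s → 0 ≤ t → s + t = 1 →
      X (s • π + t • π') = s • X π + t • X π') ∧
    ∀ n θ π, P.Plan n θ π → X π ∈ Pos P.E ∧ ‖X π‖ ^ 2 = P.n1 π + ∑ q ∈ S, tp P π k q ^ 2 ∧
      ∀ y g lam, Rep y g lam → inner ℝ y (X π) = (∫ x, g x * P.den π x) +
        ∑ q ∈ S.attach, lam (Cp.mk q (hS.1 q q.2)) * tp P π k q := by
  sorry

end Vale.Agent.P116.K
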