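import Vale.Agent.P116.K.PlCC

/-! P116 K/PlC: certificates by separation, refinement of tube systems. -/

open MeasureTheory Set Metric Filter Topology Complex
open scoped ENNReal

noncomputable section

namespace Vale.Agent.P116.K

open Vale.Agent.P128

variable {P : Par} {A : List (TF P.E)} {θ θ' : Set ℂ →₀ ℝ} {c η : ℝ} {j k n : ℕ} {F : Finset ℂ}
  {b : ℕ → TF P.E} {π π' : P.It →₀ ℝ}


/-- `hb_prod` with `ι = Option` of the `Sep j` subsets of representatives of level `k`;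
`pos_abs`, `pos_inner`, `pos_tv`, `plan_rep`, `sel_rep`, `td_sum`, `hop_scale`, `Plan.anti`. -/
theorem pre_cert (hc : 0 ≤ c) (hF : Reps P j F) (hk : j ≤ k) (h : Ub P A θ c j F k)
    (hb : ∀ i, Aux A (b i)) (n : ℕ) (hη : 0 < η) : ∃ π, P.Plan n θ π ∧
      P.ex π (fun i => hopn b n i.2.2) ≤ η ∧ P.n1 π + P.n2 π ≤ (c + η) ^ 2 ∧
      ∀ G, P.Sep j G → P.n1 π + ∑ p ∈ G, tp P π k p ^ 2 ≤ (c + η) ^ 2 := by
  sorry

end Vale.Agent.P116.K
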