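import Vale.Agent.P116.K.PlCD

/-! P116 K/PlC: certificates by separation, refinement of tube systems. -/

open MeasureTheory Set Metric Filter Topology Complex
open scoped ENNReal

noncomputable section

namespace Vale.Agent.P116.K

open Vale.Agent.P128

variable {P : Par} {A : List (TF P.E)} {θ θ' : Set ℂ →₀ ℝ} {c η : ℝ} {j k n : ℕ} {F : Finset ℂ}
  {b : ℕ → TF P.E} {π π' : P.It →₀ ℝ}


theorem nn_PlCE {α β : Type} {π : α →₀ ℝ} (h : ∀ i, 0 ≤ π i) (f : α → β) (y : β) :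
    0 ≤ π.mapDomain f y := by
  classical
  rw [Finsupp.mapDomain, Finsupp.sum_apply]
  refine Finset.sum_nonneg fun i _ => ?_
  show 0 ≤ Finsupp.single (f i) (π i) y
  rw [Finsupp.single_apply]
  split_ifs
  exacts [h i, le_rfl]

theorem sup_PlCE {α β : Type} {π : α →₀ ℝ} (h : ∀ i, 0 ≤ π i) (f : α → β) {i : α}
    (hi : i ∈ π.support) : f i ∈ (π.mapDomain f).support := by
  classical
  have h0 : 0 < π i := lt_of_le_of_ne (h i) (Finsupp.mem_support_iff.1 hi).symm
  refine Finsupp.mem_support_iff.2 (ne_of_gt (h0.trans_le ?_))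
  rw [Finsupp.mapDomain, Finsupp.sum_apply]
  refine le_trans (le_of_eq ?_) (Finset.single_le_sum
    (f := fun j => (Finsupp.single (f j) (π j)) (f i)) (fun j _ => ?_) hi)
  · rw [Finsupp.single_eq_same]
  · rw [Finsupp.single_apply]
    split_ifs
    exacts [h j, le_rfl]

theorem pre_PlCE {α β : Type} {π : α →₀ ℝ} {f : α → β} {y : β}
    (hy : y ∈ (π.mapDomain f).support) : ∃ i ∈ π.support, f i = y := by
  classical
  exact Finset.mem_image.1 (Finsupp.mapDomain_support hy)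

open Classical in
theorem tau_PlCE {α : Type} (π : α →₀ ℝ) (f : α → Set ℂ) (S : Set ℂ) :
    Par.tau (π.mapDomain f) S = π.sum fun i a => if S ⊆ f i then 0 else a := by
  rw [Par.tau, Finsupp.sum_mapDomain_index]
  · intro Z
    split_ifs <;> rfl
  · intro Z a a'
    split_ifs
    exacts [(add_zero _).symm, rfl]

theorem cls_PlCE (m : ℕ) {T : Finset ℂ} (hT : ∀ p ∈ T, p ∈ P.E) :
    P.Tube (⋃ p ∈ T, closure (P.cl m p)) := by
  classical
  refine ⟨T.image fun p => (m, p), fun q hq => ?_, ?_⟩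
  · obtain ⟨p, hp, rfl⟩ := Finset.mem_image.1 hq
    exact hT p hp
  · rw [Finset.set_biUnion_finset_image]

/-- Add to the tube of each chain the closures of the clusters of level `k + 1` it avoids
(`Finsupp.mapDomain`, `Chn.restrict`, `clos_cl`). -/
theorem lift (hθ : P.Sys θ) (h : P.Plan n θ π) {G : Finset ℂ} (hG : Reps P (k + 1) G) :
    ∃ θ' π', P.Sys θ' ∧ θ'.support ⊆ zz P θ (k + 1) G ∧ Ref θ θ' ∧ P.Plan n θ' π' ∧
      (∀ φ : List (Stp P.E) → ℝ, P.ex π' (fun i => φ i.2.2) = P.ex π fun i => φ i.2.2) ∧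
      ∀ p ∈ P.E, Par.tau θ' (closure (P.cl (k + 1) p)) ≤ tp P π k p := by
  classical
  let T : P.It → Finset ℂ := fun i =>
    G.filter fun q => Disjoint (closure (P.cl (k + 1) q)) (trc i.2.1 i.2.2)
  let z : P.It → Set ℂ := fun i => i.1 ∪ ⋃ p ∈ T i, closure (P.cl (k + 1) p)
  let f : P.It → P.It := fun i => (z i, i.2)
  have hs : ∀ i ∈ π.support, i.1 ∈ θ.support := fun i hi => by
    rw [← h.mar]
    exact sup_PlCE h.nn Prod.fst hi
  refine ⟨π.mapDomain z, π.mapDomain f, ⟨nn_PlCE h.nn z, ?_, fun Z hZ => ?_⟩, fun Z hZ => ?_,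
    fun S => ?_, ⟨nn_PlCE h.nn f, fun i' hi' => ?_, ?_⟩, fun φ => ?_, fun p hp => ?_⟩
  · have e := hθ.one
    rw [← h.mar, Finsupp.sum_mapDomain_index (fun _ => rfl) fun _ _ _ => rfl] at e
    rw [Finsupp.sum_mapDomain_index (fun _ => rfl) fun _ _ _ => rfl]
    exact e
  · obtain ⟨i, hi, rfl⟩ := pre_PlCE hZ
    exact (hθ.tube _ (hs i hi)).union
      (cls_PlCE (k + 1) fun p hp => hG.1.1 p (Finset.mem_filter.1 hp).1)
  · obtain ⟨i, hi, rfl⟩ := pre_PlCE hZ
    exact Finset.mem_image.2 ⟨(i.1, T i), Finset.mem_product.2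
      ⟨hs i hi, Finset.mem_powerset.2 (Finset.filter_subset _ _)⟩, rfl⟩
  · rw [← h.mar, tau_PlCE, tau_PlCE]
    refine Finset.sum_le_sum fun i _ => ?_
    by_cases h1 : S ⊆ i.1
    · have h2 : S ⊆ z i := h1.trans subset_union_left
      simp only [if_pos h1, if_pos h2, le_refl]
    · simp only [if_neg h1]
      split_ifs
      exacts [h.nn i, le_rfl]
  · obtain ⟨i, hi, rfl⟩ := pre_PlCE hi'
    obtain ⟨h1, y, h2, h3⟩ := h.crs i hi
    refine ⟨h1, y, h2, h3.restrict fun w hw => ?_⟩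
    have h4 := h3.trc.1 hw
    refine ⟨h4.1, ?_⟩
    rintro (h5 | h5)
    · exact h4.2 h5
    · obtain ⟨q, hq, h6⟩ := mem_iUnion₂.1 h5
      exact disjoint_left.1 (Finset.mem_filter.1 hq).2 h6 hw
  · rw [← Finsupp.mapDomain_comp]
    rfl
  · simp only [Par.ex]
    rw [Finsupp.sum_mapDomain_index (fun _ => zero_mul _) fun _ _ _ => add_mul _ _ _]
  · obtain ⟨q, hq, h1⟩ := hG.2 p hp
    rw [tau_PlCE]
    refine Finset.sum_le_sum fun i _ => ?_
    by_cases h2 : closure (P.cl (k + 1) p) ⊆ z i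
    · simp only [if_pos h2]
      exact mul_nonneg (h.nn i) (indicator_nonneg (fun _ _ => zero_le_one) _)
    · have h3 : i ∈ {it : P.It | (P.cl k p ∩ trc it.2.1 it.2.2).Nonempty} := by
        by_contra h4
        refine h2 fun w hw => Or.inr (mem_iUnion₂.2 ⟨q, Finset.mem_filter.2 ⟨hq, ?_⟩, ?_⟩)
        · rw [← P.cl_eq h1]
          exact disjoint_left.2 fun u hu hu' => h4 ⟨u, P.clos_cl (Nat.lt_succ_self k) hp hu, hu'⟩
        · rwa [← P.cl_eq h1]
      simp only [if_neg h2, indicator_of_mem h3, Pi.one_apply, mul_one, le_refl]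

end Vale.Agent.P116.K
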