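import Vale.Agent.P116.K.PlCE

/-! P116 K/PlC: certificates by separation, refinement of tube systems. -/

open MeasureTheory Set Metric Filter Topology Complex
open scoped ENNReal

noncomputable section

namespace Vale.Agent.P116.K

open Vale.Agent.P128

variable {P : Par} {A : List (TF P.E)} {θ θ' : Set ℂ →₀ ℝ} {c η : ℝ} {j k n : ℕ} {F : Finset ℂ}
  {b : ℕ → TF P.E} {π π' : P.It →₀ ℝ}


/-- Multiply the weight of a chain in the tube `Z` by `θ Z / θ'' Z ≤ 1 + small`. -/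
theorem reweight (hc : 0 ≤ c) (hθ : P.Sys θ) (hb : ∀ i, Aux A (b i)) (hη : 0 < η)
    (h : ∀ ε : ℝ, 0 < ε → ∃ θ'', P.Sys θ'' ∧ (∀ Z, |θ'' Z - θ Z| ≤ ε) ∧
      Cn P b j k θ'' c n (η / 2)) : Cn P b j k θ c n η := by
  sorry

end Vale.Agent.P116.K
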