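import Vale.Agent.P116.K.PlCF

/-! P116 K/PlC: certificates by separation, refinement of tube systems. -/

open MeasureTheory Set Metric Filter Topology Complex
open scoped ENNReal

noncomputable section

namespace Vale.Agent.P116.K

open Vale.Agent.P128

variable {P : Par} {A : List (TF P.E)} {θ θ' : Set ℂ →₀ ℝ} {c η : ℝ} {j k n : ℕ} {F : Finset ℂ}
  {b : ℕ → TF P.E} {π π' : P.It →₀ ℝ}


theorem ult_PlCG {ι α : Type} [Nonempty ι] (G : ι → Set α) (hne : ∀ i, (G i).Nonempty)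
    (hd : ∀ i i', ∃ i'', G i'' ⊆ G i ∩ G i') : ∃ U : Ultrafilter α, ∀ i, G i ∈ (U : Filter α) := by
  have hF : NeBot (⨅ i, 𝓟 (G i)) := by
    refine iInf_neBot_of_directed' (fun i i' => ?_) fun i => principal_neBot_iff.2 (hne i)
    obtain ⟨k, hk⟩ := hd i i'
    exact ⟨k, principal_mono.2 (hk.trans inter_subset_left),
      principal_mono.2 (hk.trans inter_subset_right)⟩
  exact ⟨Ultrafilter.of (⨅ i, 𝓟 (G i)), fun i =>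
    le_principal_iff.1 ((Ultrafilter.of_le _).trans (iInf_le _ i))⟩

open Classical in
theorem tau_PlCG {𝒵 : Finset (Set ℂ)} {θ : Set ℂ →₀ ℝ} (h : θ.support ⊆ 𝒵) (S : Set ℂ) :
    Par.tau θ S = ∑ Z ∈ 𝒵, if S ⊆ Z then 0 else θ Z :=
  Finsupp.sum_of_support_subset θ h (fun Z a => if S ⊆ Z then 0 else a) fun _ _ => ite_self 0

/-- Compactness of the simplex. -/
theorem fip {D : Type} [Nonempty D] {Y : Finset (Set ℂ)} {S : D → Set (Set ℂ →₀ ℝ)}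
    (h1 : ∀ d, (S d).Nonempty) (h2 : ∀ d, ∀ x ∈ S d, P.Sys x ∧ x.support ⊆ Y ∧ Ref θ x)
    (h3 : ∀ d d', ∃ e, S e ⊆ S d ∧ S e ⊆ S d') : ∃ x, P.Sys x ∧ Ref θ x ∧
      ∀ (d : D) (ε : ℝ), 0 < ε → ∃ x' ∈ S d, ∀ Z, |x' Z - x Z| ≤ ε := by
  classical
  obtain ⟨G, hG⟩ : ∃ G, G = S := ⟨S, rfl⟩
  subst hG
  obtain ⟨U, hU⟩ := ult_PlCG G h1 fun d d' => (h3 d d').imp fun e he => subset_inter he.1 he.2
  obtain ⟨i₀⟩ := ‹Nonempty D›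
  have hE : ∀ᶠ θ₁ in (U : Filter (Set ℂ →₀ ℝ)),
      P.Sys θ₁ ∧ θ₁.support ⊆ Y ∧ ∀ S, Par.tau θ₁ S ≤ Par.tau θ S := mem_of_superset (hU i₀) (h2 i₀)
  have hone : ∀ θ₁ : Set ℂ →₀ ℝ, P.Sys θ₁ → θ₁.support ⊆ Y → ∑ Z ∈ Y, θ₁ Z = 1 := fun θ₁ h1 h2 =>
    (Finsupp.sum_of_support_subset θ₁ h2 (fun _ a => a) fun _ _ => rfl).symm.trans h1.one
  have hI : ∀ θ₁ : Set ℂ →₀ ℝ, P.Sys θ₁ → ∀ Z, θ₁ Z ∈ Icc (0 : ℝ) 1 := fun θ₁ h1 Z => by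
    refine ⟨h1.nn Z, ?_⟩
    by_cases hZ : Z ∈ θ₁.support
    · rw [← h1.one]
      exact Finset.single_le_sum (f := fun Z => θ₁ Z) (fun Z _ => h1.nn Z) hZ
    · rw [Finsupp.notMem_support_iff.1 hZ]
      exact zero_le_one
  have hlim : ∀ Z, ∃ a ∈ Icc (0 : ℝ) 1, Tendsto (fun θ₁ : Set ℂ →₀ ℝ => θ₁ Z) U (𝓝 a) := fun Z =>
    isCompact_Icc.ultrafilter_le_nhds (U.map fun θ₁ : Set ℂ →₀ ℝ => θ₁ Z)
      (le_principal_iff.2 (hE.mono fun θ₁ h1 => hI θ₁ h1.1 Z))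
  choose f hf0 hf using hlim
  have hz : ∀ Z, f Z ≠ 0 → Z ∈ Y ∧ P.Tube Z := fun Z hZ => by
    obtain ⟨θ₁, h1, h2⟩ := (hE.and ((hf Z).eventually_ne hZ)).exists
    have h3 := Finsupp.mem_support_iff.2 h2
    exact ⟨h1.2.1 h3, h1.1.tube Z h3⟩
  obtain ⟨θ', hθ⟩ : ∃ θ' : Set ℂ →₀ ℝ, ∀ Z, θ' Z = f Z :=
    ⟨Finsupp.onFinset Y f fun Z hZ => (hz Z hZ).1, fun _ => rfl⟩
  have hs : θ'.support ⊆ Y := fun Z hZ => (hz Z (hθ Z ▸ Finsupp.mem_support_iff.1 hZ)).1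
  refine ⟨θ', ⟨fun Z => hθ Z ▸ (hf0 Z).1, ?_,
    fun Z hZ => (hz Z (hθ Z ▸ Finsupp.mem_support_iff.1 hZ)).2⟩, fun S => ?_, fun i s h0 => ?_⟩
  · rw [Finsupp.sum_of_support_subset θ' hs (fun _ a => a) fun _ _ => rfl]
    simp only [hθ]
    exact tendsto_nhds_unique (tendsto_finsetSum Y fun Z _ => hf Z)
      (tendsto_const_nhds.congr' (hE.mono fun θ₁ h1 => (hone θ₁ h1.1 h1.2.1).symm))
  · rw [tau_PlCG hs]
    simp only [hθ]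
    refine le_of_tendsto (f := fun θ₁ : Set ℂ →₀ ℝ => ∑ Z ∈ Y, if S ⊆ Z then 0 else θ₁ Z)
      (x := (U : Filter (Set ℂ →₀ ℝ))) (tendsto_finsetSum Y fun Z _ => ?_)
      (hE.mono fun θ₁ h1 => (tau_PlCG h1.2.1 S).symm.le.trans (h1.2.2 S))
    split_ifs
    · exact tendsto_const_nhds
    · exact hf Z
  · have h4 : ∀ᶠ θ₁ in (U : Filter (Set ℂ →₀ ℝ)), ∀ Z ∈ Y, |θ₁ Z - f Z| ≤ s := by
      refine (eventually_all_finset Y).2 fun Z _ => ?_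
      exact ((hf Z).eventually (closedBall_mem_nhds (f Z) h0)).mono fun θ₁ h5 => by
        rwa [Real.dist_eq] at h5
    obtain ⟨θ₁, h5, h6, h7⟩ := ((show ∀ᶠ θ₁ in (U : Filter (Set ℂ →₀ ℝ)), θ₁ ∈ G i from
      hU i).and (hE.and h4)).exists
    refine ⟨θ₁, h5, fun Z => ?_⟩
    rw [hθ]
    by_cases hZ : Z ∈ Y
    · exact h7 Z hZ
    · have e1 : θ₁ Z = 0 := Finsupp.notMem_support_iff.1 fun h8 => hZ (h6.2.1 h8)
      have e2 : f Z = 0 := by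
        by_contra h8
        exact hZ (hz Z h8).1
      rw [e1, e2, sub_zero, abs_zero]
      exact h0.le

end Vale.Agent.P116.K
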