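import Vale.Agent.P116.K.PlCG

/-! P116 K/PlC: certificates by separation, refinement of tube systems. -/

open MeasureTheory Set Metric Filter Topology Complex
open scoped ENNReal

noncomputable section

namespace Vale.Agent.P116.K

open Vale.Agent.P128

variable {P : Par} {A : List (TF P.E)} {θ θ' : Set ℂ →₀ ℝ} {c η : ℝ} {j k n : ℕ} {F : Finset ℂ}
  {b : ℕ → TF P.E} {π π' : P.It →₀ ℝ}


theorem mono_PlCH (hc : 0 ≤ c) {b' : ℕ → TF P.E} {n' : ℕ} {η' : ℝ} (hn : n' ≤ n) (h0 : 0 < η)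
    (h1 : η ≤ η') (h : ∀ (O : Set ℂ) (l : List (Stp P.E)), (∀ t ∈ l, P.Ok n O t) →
      1 * hopn b' n' l ≤ hopn b n l) (hC : Cn P b j k θ c n η) : Cn P b' j k θ c n' η' := by
  obtain ⟨π, hπ, a1, a2, a3⟩ := hC
  have h2 : (c + η) ^ 2 ≤ (c + η') ^ 2 := pow_le_pow_left₀ (by linarith) (by linarith) 2
  refine ⟨π, hπ.anti hn, le_trans ?_ (a1.trans h1), a2.trans h2, fun F hF => (a3 F hF).trans h2⟩
  refine Finset.sum_le_sum fun i hi => mul_le_mul_of_nonneg_left ?_ (hπ.nn i)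
  obtain ⟨-, x, -, h3⟩ := hπ.crs i hi
  have h4 := h _ _ h3.2.2
  rwa [one_mul] at h4

theorem cn_mrg (hc : 0 ≤ c) {b₁ b₂ : ℕ → TF P.E} (h1 : ∀ i, Aux A (b₁ i)) (h2 : ∀ i, Aux A (b₂ i))
    (n₁ n₂ : ℕ) {η₁ η₂ : ℝ} (e1 : 0 < η₁) (e2 : 0 < η₂) : ∃ (b : ℕ → TF P.E) (n : ℕ) (η : ℝ),
      (∀ i, Aux A (b i)) ∧ 0 < η ∧ ∀ θ, Cn P b j k θ c n η →
        Cn P b₁ j k θ c n₁ η₁ ∧ Cn P b₂ j k θ c n₂ η₂ := by
  have hB : ∀ k i, Aux A ((fun k : ℕ => if k = 0 then b₁ else b₂) k i) := fun k i => by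
    by_cases hk : k = 0
    · simp only [if_pos hk]
      exact h1 i
    · simp only [if_neg hk]
      exact h2 i
  obtain ⟨N₁, a1, a2⟩ := mrg_hop (P := P) (fun k i => (hB k i).bd) 0 n₁ 1
  obtain ⟨N₂, a3, a4⟩ := mrg_hop (P := P) (fun k i => (hB k i).bd) 1 n₂ 1
  refine ⟨mrg fun k : ℕ => if k = 0 then b₁ else b₂, max N₁ N₂, min η₁ η₂, fun i => hB _ _,
    lt_min e1 e2, fun θ hθ => ⟨?_, ?_⟩⟩
  · exact mono_PlCH hc (a1.trans (le_max_left _ _)) (lt_min e1 e2) (min_le_left _ _)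
      (a2 _ (le_max_left _ _) _) hθ
  · exact mono_PlCH hc (a3.trans (le_max_right _ _)) (lt_min e1 e2) (min_le_right _ _)
      (a4 _ (le_max_right _ _) _) hθ

/-- Cauchy-Schwarz with `plan_rep`. -/
theorem bs_of_cert (h : ∀ b : ℕ → TF P.E, (∀ i, Aux A (b i)) → P.Cert b j k θ c) (hc : 0 ≤ c) :
    P.Bs A θ c := by
  intro b hb n g lam hv η hη
  have h0 : 0 ≤ P.nv g lam := Real.sqrt_nonneg _
  obtain ⟨ε, hε, he⟩ : ∃ ε : ℝ, 0 < ε ∧ (P.nv g lam + 1) * ε = η :=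
    ⟨η / (P.nv g lam + 1), by positivity, mul_div_cancel₀ _ (by positivity)⟩
  obtain ⟨π, hπ, a1, a2, -⟩ := h b hb n ε hε
  obtain ⟨x, -, -, a3, a4⟩ := plan_rep hπ
  obtain ⟨y, hy⟩ := exists_rep hv.g2 hv.l2
  refine ⟨π, hπ, ?_⟩
  have a5 : ‖x‖ ≤ c + ε := (abs_le_of_sq_le_sq' (a3.le.trans a2) (by positivity)).2
  have a6 := real_inner_le_norm y x
  rw [hy.norm] at a6
  have a7 := mul_le_mul_of_nonneg_left a5 h0
  rw [a4 y g lam hy b n]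
  linarith

end Vale.Agent.P116.K
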