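import Vale.Agent.P116.K.PlCH

/-! P116 K/PlC: certificates by separation, refinement of tube systems. -/

open MeasureTheory Set Metric Filter Topology Complex
open scoped ENNReal

noncomputable section

namespace Vale.Agent.P116.K

open Vale.Agent.P128

variable {P : Par} {A : List (TF P.E)} {θ θ' : Set ℂ →₀ ℝ} {c η : ℝ} {j k n : ℕ} {F : Finset ℂ}
  {b : ℕ → TF P.E} {π π' : P.It →₀ ℝ}


/-- `exists_reps`, `unif`, `pre_cert`, `lift`, `fip` over triples `(b, n, η)`, `cn_mrg`,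
`reweight`, `bs_of_cert`. -/
theorem refine (hA : Fam A) (hθ : P.Sys θ) (hc : 0 < c) (h : P.Bs A θ c) (hb : ∀ i, Aux A (b i))
    (j K : ℕ) (hη : 0 < η) : ∃ k θ', K ≤ k ∧ P.Sys θ' ∧ Ref θ θ' ∧ P.Bs A θ' (c + η) ∧
      P.Cert b j k θ' (c + η) := by
  sorry

end Vale.Agent.P116.K
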