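import Vale.Agent.P116.K.Ker

/-! P116 K/PlH: the Hilbert space of test vectors. -/

open MeasureTheory Set Metric Filter Topology Complex
open scoped ENNReal

noncomputable section

namespace Vale.Agent.P116.K

open Vale.Agent.P128


/-- The Hilbert space. -/
abbrev HH (E : Set ℂ) : Type :=
  WithLp 2 (Lp ℝ 2 (volume : Measure ℂ) × lp (fun _ : Cp E => ℝ) 2)

variable {E : Set ℂ}

/-- `x` represents `(g, lam)`. -/
def Rep (x : HH E) (g : ℂ → ℝ) (lam : Cp E → ℝ) : Prop :=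
  (x.fst : ℂ → ℝ) =ᵐ[volume] g ∧ ∀ c, (x.snd : Cp E → ℝ) c = lam c

/-- The positive cone. -/
def Pos (E : Set ℂ) : Set (HH E) :=
  {x | (∀ᵐ z, 0 ≤ (x.fst : ℂ → ℝ) z) ∧ ∀ c, 0 ≤ (x.snd : Cp E → ℝ) c}

theorem mem_PlHA {ι : Type} {lam : ι → ℝ} : Memℓp lam 2 ↔ Summable fun c => lam c ^ 2 := by
  rw [memℓp_gen_iff (by norm_num)]
  simp only [ENNReal.toReal_ofNat, Real.rpow_ofNat, Real.norm_eq_abs, sq_abs]

theorem inner_PlHA {x y : HH E} {g g' : ℂ → ℝ} {lam lam' : Cp E → ℝ} (h : Rep x g lam)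
    (h' : Rep y g' lam') : inner ℝ x y = (∫ z, g z * g' z) + ∑' c, lam c * lam' c := by
  rw [WithLp.prod_inner_apply, L2.inner_def, lp.inner_eq_tsum]
  refine congrArg₂ _ (integral_congr_ae ?_) (tsum_congr fun c => ?_)
  · filter_upwards [h.1, h'.1] with z h1 h2
    rw [← h1, ← h2]
    exact mul_comm _ _
  · rw [← h.2, ← h'.2]
    exact mul_comm _ _

theorem exists_rep {g : ℂ → ℝ} {lam : Cp E → ℝ} (hg : MemLp g 2 volume)
    (hl : Summable fun c => lam c ^ 2) : ∃ x : HH E, Rep x g lam := by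
  exact ⟨WithLp.toLp 2 (hg.toLp g, ⟨lam, mem_PlHA.2 hl⟩), hg.coeFn_toLp, fun _ => rfl⟩
theorem Rep.mem {x : HH E} {g : ℂ → ℝ} {lam : Cp E → ℝ} (h : Rep x g lam) :
    MemLp g 2 volume ∧ Summable fun c => lam c ^ 2 := by
  refine ⟨(Lp.memLp x.fst).ae_eq h.1, ?_⟩
  rw [← funext h.2]
  exact mem_PlHA.1 (lp.memℓp x.snd)
theorem Rep.norm_sq {x : HH E} {g : ℂ → ℝ} {lam : Cp E → ℝ} (h : Rep x g lam) :
    ‖x‖ ^ 2 = (∫ z, g z ^ 2) + ∑' c, lam c ^ 2 := by
  rw [← real_inner_self_eq_norm_sq, inner_PlHA h h]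
  simp only [pow_two]
theorem Rep.norm {P : Par} {x : HH P.E} {g : ℂ → ℝ} {lam : Cp P.E → ℝ} (h : Rep x g lam) :
    ‖x‖ = P.nv g lam := by
  rw [Par.nv, ← h.norm_sq, Real.sqrt_sq (norm_nonneg _)]
theorem Rep.inner {x y : HH E} {g g' : ℂ → ℝ} {lam lam' : Cp E → ℝ} (h : Rep x g lam)
    (h' : Rep y g' lam') : inner ℝ x y = (∫ z, g z * g' z) + ∑' c, lam c * lam' c := by
  exact inner_PlHA h h'
theorem Rep.add {x y : HH E} {g g' : ℂ → ℝ} {lam lam' : Cp E → ℝ} (h : Rep x g lam)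
    (h' : Rep y g' lam') : Rep (x + y) (fun z => g z + g' z) fun c => lam c + lam' c := by
  refine ⟨?_, fun c => ?_⟩
  · filter_upwards [h.1, h'.1, Lp.coeFn_add x.fst y.fst] with z h1 h2 h3
    rw [← h1, ← h2]
    exact h3
  · exact congrArg₂ (· + ·) (h.2 c) (h'.2 c)
theorem Rep.smul {x : HH E} {g : ℂ → ℝ} {lam : Cp E → ℝ} (h : Rep x g lam) (a : ℝ) :
    Rep (a • x) (fun z => a * g z) fun c => a * lam c := by
  refine ⟨?_, fun c => ?_⟩
  · filter_upwards [h.1, Lp.coeFn_smul a x.fst] with z h1 h3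
    rw [← h1]
    exact h3
  · exact congrArg (a * ·) (h.2 c)
theorem Rep.sum {ι : Type} (s : Finset ι) {x : ι → HH E} {g : ι → ℂ → ℝ} {lam : ι → Cp E → ℝ}
    (h : ∀ i ∈ s, Rep (x i) (g i) (lam i)) :
    Rep (∑ i ∈ s, x i) (fun z => ∑ i ∈ s, g i z) fun c => ∑ i ∈ s, lam i c := by
  classical
  induction s using Finset.induction_on with
  | empty =>
    simp only [Finset.sum_empty]
    exact ⟨Lp.coeFn_zero ℝ 2 volume, fun _ => rfl⟩
  | insert a s ha ih =>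
    simp only [Finset.sum_insert ha]
    exact (h a (Finset.mem_insert_self _ _)).add (ih fun i hi => h i (Finset.mem_insert_of_mem hi))
theorem Rep.uniq {x y : HH E} {g : ℂ → ℝ} {lam : Cp E → ℝ} (h : Rep x g lam) (h' : Rep y g lam) :
    x = y := by
  refine WithLp.ofLp_injective 2 (Prod.ext (Lp.ext (h.1.trans h'.1.symm)) (lp.ext (funext fun c => ?_)))
  exact (h.2 c).trans (h'.2 c).symm

end Vale.Agent.P116.K
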