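import Vale.Agent.P116.K.PlHA

/-! P116 K/PlH: the Hilbert space of test vectors. -/

open MeasureTheory Set Metric Filter Topology Complex
open scoped ENNReal

noncomputable section

namespace Vale.Agent.P116.K

open Vale.Agent.P128

variable {E : Set ℂ}


theorem self_PlHB (x : HH E) : Rep x (x.fst : ℂ → ℝ) (x.snd : Cp E → ℝ) :=
  ⟨ae_eq_refl _, fun _ => rfl⟩

theorem pos_PlHB {x : HH E} {g : ℂ → ℝ} {lam : Cp E → ℝ} (h : Rep x g lam) :
    x ∈ Pos E ↔ (∀ᵐ z, 0 ≤ g z) ∧ ∀ c, 0 ≤ lam c := by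
  refine and_congr (eventually_congr (h.1.mono fun z hz => ?_)) (forall_congr' fun c => ?_)
  · rw [hz]
  · rw [h.2 c]

theorem sub_PlHB {x y : HH E} {g g' : ℂ → ℝ} {lam lam' : Cp E → ℝ} (h : Rep x g lam)
    (h' : Rep y g' lam') : Rep (x - y) (fun z => g z - g' z) fun c => lam c - lam' c := by
  have h1 := h.add (h'.smul (-1))
  simp only [neg_one_smul, neg_one_mul, ← sub_eq_add_neg] at h1
  exact h1

theorem pos_closed : IsClosed (Pos E) := by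
  have h1 : IsClosed {x : HH E | 0 ≤ x.fst} :=
    isClosed_le continuous_const (WithLp.continuous_fst 2 _ _)
  have h2 : IsClosed {x : HH E | ∀ c, 0 ≤ (x.snd : Cp E → ℝ) c} := by
    rw [ofPred_forall]
    exact isClosed_iInter fun c => isClosed_le continuous_const
      ((lp.lipschitzWith_one_eval 2 c).continuous.comp (WithLp.continuous_snd 2 _ _))
  have e : Pos E = {x : HH E | 0 ≤ x.fst} ∩ {x : HH E | ∀ c, 0 ≤ (x.snd : Cp E → ℝ) c} :=
    Set.ext fun x => and_congr_left' (Lp.coeFn_nonneg x.fst)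
  rw [e]
  exact h1.inter h2

theorem pos_add : ∀ x ∈ Pos E, ∀ y ∈ Pos E, x + y ∈ Pos E := by
  intro x hx y hy
  refine (pos_PlHB ((self_PlHB x).add (self_PlHB y))).2 ⟨?_, fun c => add_nonneg (hx.2 c) (hy.2 c)⟩
  filter_upwards [hx.1, hy.1] with z h1 h2
  exact add_nonneg h1 h2

theorem pos_zero : (0 : HH E) ∈ Pos E := by
  refine ⟨?_, fun c => le_rfl⟩
  filter_upwards [Lp.coeFn_zero ℝ 2 (volume : Measure ℂ)] with z hz
  exact hz.ge

theorem pos_abs (x : HH E) : ∃ x' ∈ Pos E, x' - x ∈ Pos E ∧ ‖x'‖ ≤ ‖x‖ := by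
  obtain ⟨m1, m2⟩ := (self_PlHB x).mem
  obtain ⟨y, hy⟩ := exists_rep (E := E) (g := fun z => |(x.fst : ℂ → ℝ) z|)
    (lam := fun c => |(x.snd : Cp E → ℝ) c|) m1.abs (by simpa only [sq_abs] using m2)
  refine ⟨y, (pos_PlHB hy).2 ⟨ae_of_all _ fun z => abs_nonneg _, fun c => abs_nonneg _⟩,
    (pos_PlHB (sub_PlHB hy (self_PlHB x))).2 ⟨ae_of_all _ fun z => sub_nonneg.2 (le_abs_self _),
      fun c => sub_nonneg.2 (le_abs_self _)⟩, le_of_eq ?_⟩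
  rw [← sq_eq_sq₀ (norm_nonneg _) (norm_nonneg _), hy.norm_sq, (self_PlHB x).norm_sq]
  simp only [sq_abs]

theorem pos_inner {x y : HH E} (hx : x ∈ Pos E) (hy : y ∈ Pos E) : 0 ≤ inner ℝ x y := by
  rw [(self_PlHB x).inner (self_PlHB y)]
  refine add_nonneg (integral_nonneg_of_ae ?_) (tsum_nonneg fun c => mul_nonneg (hx.2 c) (hy.2 c))
  filter_upwards [hx.1, hy.1] with z h1 h2
  exact mul_nonneg h1 h2

theorem Rep.pos {x : HH E} {g : ℂ → ℝ} {lam : Cp E → ℝ} (h : Rep x g lam) :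
    x ∈ Pos E ↔ (∀ᵐ z, 0 ≤ g z) ∧ ∀ c, 0 ≤ lam c :=
  pos_PlHB h

theorem Rep.le {x y : HH E} {g g' : ℂ → ℝ} {lam lam' : Cp E → ℝ} (h : Rep x g lam)
    (h' : Rep y g' lam') (hp : y - x ∈ Pos E) : (∀ᵐ z, g z ≤ g' z) ∧ ∀ c, lam c ≤ lam' c := by
  obtain ⟨h1, h2⟩ := (pos_PlHB (sub_PlHB h' h)).1 hp
  exact ⟨h1.mono fun z hz => sub_nonneg.1 hz, fun c => sub_nonneg.1 (h2 c)⟩

/-- A positive vector has an everywhere nonnegative representative. -/
theorem pos_tv {P : Par} {x : HH P.E} (hx : x ∈ Pos P.E) : ∃ g lam, P.Tv g lam ∧ Rep x g lam := by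
  have h : Rep x (fun z => |(x.fst : ℂ → ℝ) z|) (x.snd : Cp P.E → ℝ) :=
    ⟨hx.1.mono fun z hz => (abs_of_nonneg hz).symm, fun _ => rfl⟩
  exact ⟨_, _, ⟨h.mem.1, fun z => abs_nonneg _, hx.2, h.mem.2⟩, h⟩


end Vale.Agent.P116.K
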