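import Vale.Agent.P116.K.PlHB

/-! P116 K/PlH: the Hilbert space of test vectors. -/

open MeasureTheory Set Metric Filter Topology Complex
open scoped ENNReal

noncomputable section

namespace Vale.Agent.P116.K

open Vale.Agent.P128

variable {E : Set ℂ}


/-- The linear part of the cost is an inner product. -/
theorem plan_rep {P : Par} {n : ℕ} {θ : Set ℂ →₀ ℝ} {π : P.It →₀ ℝ} (h : P.Plan n θ π) :
    ∃ x ∈ Pos P.E, Rep x (P.den π) (fun c => P.ex π fun i => P.tele i.2.2 c) ∧
      ‖x‖ ^ 2 = P.n1 π + P.n2 π ∧ ∀ (y : HH P.E) g lam, Rep y g lam → ∀ b m,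
        P.ex π (fun i => cost b (P.ms g) lam m i.2.2) =
          inner ℝ y x + P.ex π fun i => hopn b m i.2.2 := by
  sorry

end Vale.Agent.P116.K
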