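import Vale.Agent.P116.K.Chain

/-! P116 K/PlM: limits of measures on clusters, merged sequences. -/

open MeasureTheory Set Metric Filter Topology Complex
open scoped ENNReal

noncomputable section

namespace Vale.Agent.P116.K

open Vale.Agent.P128


theorem clop_PlMA (P : Par) (l : ℕ) (p : ℂ) : IsClopen (Subtype.val ⁻¹' P.cl l p : Set P.E) := by
  refine ⟨?_, (P.cl_open l p).preimage continuous_subtype_val⟩
  have : (Subtype.val ⁻¹' P.cl l p : Set P.E) = Subtype.val ⁻¹' closure (P.cl l p) := by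
    refine subset_antisymm (preimage_mono subset_closure) fun z hz => by_contra fun h => ?_
    refine disjoint_left.1 (P.fr_cl_disj l p) ?_ z.2
    rw [(P.cl_open l p).frontier_eq]
    exact ⟨hz, h⟩
  rw [this]
  exact isClosed_closure.preimage continuous_subtype_val

theorem lim_PlMA {Y : Type} [MetricSpace Y] [MeasurableSpace Y] [BorelSpace Y] {F : Filter ℕ}
    {m : ℕ → FiniteMeasure Y} {μ : FiniteMeasure Y} (h : Tendsto m F (𝓝 μ)) {S : Set Y}
    (hS : IsClopen S) :
    Tendsto (fun k => ((m k : Measure Y) S).toReal) F (𝓝 ((μ : Measure Y) S).toReal) := by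
  have h1 := FiniteMeasure.tendsto_iff_forall_integral_tendsto.1 h
    (BoundedContinuousFunction.indicator S hS)
  have e : ∀ ρ : Measure Y, ∫ x, BoundedContinuousFunction.indicator S hS x ∂ρ = (ρ S).toReal :=
    fun ρ => integral_indicator_one hS.2.measurableSet
  simpa only [e] using h1

/-- A cluster point of a bounded sequence of measures (compactness of measures on the compact
space `E`; the sets `E ∩ cl k p` are clopen in `E`, finitely many per level). -/
theorem meas_clu (P : Par) (ν : ℕ → Measure ℂ) {M : ℝ} (hM : ∀ k, ν k P.E ≤ ENNReal.ofReal M) :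
    ∃ μ : Measure ℂ, IsFiniteMeasure μ ∧ ∀ (L K : ℕ) (ε : ℝ), 0 < ε → ∃ k, K ≤ k ∧ ∀ l ≤ L, ∀ p,
      |(ν k (P.E ∩ P.cl l p)).toReal - (μ (P.E ∩ P.cl l p)).toReal| ≤ ε := by
  have : CompactSpace P.E := isCompact_iff_compactSpace.1 P.dom.cpt
  have hm := MeasurableEmbedding.subtype_coe P.dom.cpt.isClosed.measurableSet
  have ap : ∀ k (S : Set ℂ), (ν k).comap (Subtype.val : P.E → ℂ) (Subtype.val ⁻¹' S) =
      ν k (P.E ∩ S) := fun k S => by rw [hm.comap_apply, Subtype.image_preimage_coe]
  have au : ∀ k, (ν k).comap (Subtype.val : P.E → ℂ) univ ≤ ENNReal.ofReal M := fun k => by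
    have := ap k univ
    rw [preimage_univ, inter_univ] at this
    exact this.le.trans (hM k)
  let m : ℕ → FiniteMeasure P.E := fun k =>
    ⟨(ν k).comap Subtype.val, ⟨(au k).trans_lt ENNReal.ofReal_lt_top⟩⟩
  obtain ⟨μ, -, hμ⟩ := (isCompact_setOfPred_finiteMeasure_le_of_compactSpace P.E
    M.toNNReal).ultrafilter_le_nhds ((Ultrafilter.of atTop).map m)
    (le_principal_iff.2 (mem_map.2 (univ_mem' fun k => by
      change (m k).mass ≤ M.toNNReal
      rw [← ENNReal.coe_le_coe, FiniteMeasure.ennreal_mass]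
      exact au k)))
  have hμ' : Tendsto m UF (𝓝 μ) := hμ
  refine ⟨(μ : Measure P.E).map Subtype.val, inferInstance, fun L K ε hε => ?_⟩
  choose F _ hF using P.exists_reps
  have key : ∀ l p, ∀ᶠ k in UF, |(ν k (P.E ∩ P.cl l p)).toReal -
      (((μ : Measure P.E).map Subtype.val) (P.E ∩ P.cl l p)).toReal| ≤ ε := by
    intro l p
    have e : ((μ : Measure P.E).map Subtype.val) (P.E ∩ P.cl l p) =
        (μ : Measure P.E) (Subtype.val ⁻¹' P.cl l p) := by
      rw [hm.map_apply, Subtype.preimage_coe_self_inter]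
    filter_upwards [(lim_PlMA hμ' (clop_PlMA P l p)).eventually (closedBall_mem_nhds _ hε)]
      with k hk
    rw [e, ← ap]
    exact hk
  have ev := ((eventually_all_finite (finite_le_nat L)).2 fun l _ =>
    (eventually_all_finset (F l)).2 fun q _ => key l q).and (UF_le (eventually_ge_atTop K))
  have := UF_ne
  obtain ⟨k, h1, h2⟩ := ev.exists
  refine ⟨k, h2, fun l hl p => ?_⟩
  rcases (P.E ∩ P.cl l p).eq_empty_or_nonempty with h | ⟨x, hx, hx'⟩
  · simp [h, hε.le]
  · obtain ⟨q, hq, hq'⟩ := hF l x hx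
    rw [← P.cl_eq hx', P.cl_eq hq']
    exact h1 l hl q hq

end Vale.Agent.P116.K
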