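import Vale.Agent.P116.K.PlMA

/-! P116 K/PlM: limits of measures on clusters, merged sequences. -/

open MeasureTheory Set Metric Filter Topology Complex
open scoped ENNReal

noncomputable section

namespace Vale.Agent.P116.K

open Vale.Agent.P128


open Classical in
theorem tch_sum_PlMB (P : Par) {l : ℕ} {F : Finset ℂ} (hF : P.Sep l F)
    (hc : ∀ p ∈ P.E, ∃ q ∈ F, p ∈ P.cl l q) (ν : Measure ℂ) (hν : ν P.E ≠ ∞) (T : Set ℂ) :
    (P.tch ν l T).toReal =
      ∑ q ∈ F.filter fun q => (P.cl l q ∩ T).Nonempty, (ν (P.E ∩ P.cl l q)).toReal := by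
  have h1 : {p | p ∈ P.E ∧ (P.cl l p ∩ T).Nonempty} =
      ⋃ q ∈ F.filter fun q => (P.cl l q ∩ T).Nonempty, P.E ∩ P.cl l q := by
    refine subset_antisymm ?_ (iUnion₂_subset fun q hq p hp => ⟨hp.1, ?_⟩)
    · rintro p ⟨hp, hT⟩
      obtain ⟨q, hq, hpq⟩ := hc p hp
      rw [P.cl_eq hpq] at hT
      exact mem_iUnion₂.2 ⟨q, Finset.mem_filter.2 ⟨hq, hT⟩, hp, hpq⟩
    · rw [P.cl_eq hp.2]
      exact (Finset.mem_filter.1 hq).2
  rw [Par.tch, h1]
  refine measureReal_biUnion_finset (fun p hp q hq hpq => ?_)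
    (fun q _ => P.dom.cpt.measurableSet.inter (P.cl_open l q).measurableSet)
    (fun q _ => ne_top_of_le_ne_top hν (measure_mono inter_subset_left))
  have hp' := (Finset.mem_filter.1 hp).1
  have hq' := (Finset.mem_filter.1 hq).1
  refine Set.disjoint_left.2 fun z h2 h3 => hF.2 p hp' q hq' hpq ?_
  rw [← P.cl_eq h2.2, P.cl_eq h3.2]
  exact P.mem_cl l (hF.1 q hq')

/-- The charge is a finite sum of masses of clusters. -/
theorem tch_close (P : Par) (l : ℕ) : ∃ C : ℝ, 0 ≤ C ∧ ∀ (ν μ : Measure ℂ) (ε : ℝ), ν P.E ≠ ∞ →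
    μ P.E ≠ ∞ → (∀ p, |(ν (P.E ∩ P.cl l p)).toReal - (μ (P.E ∩ P.cl l p)).toReal| ≤ ε) →
      ∀ T, (P.tch ν l T).toReal ≤ (P.tch μ l T).toReal + C * ε := by
  classical
  obtain ⟨F, hF, hc⟩ := P.exists_reps l
  refine ⟨F.card, Nat.cast_nonneg _, fun ν μ ε hν hμ h T => ?_⟩
  have hε : 0 ≤ ε := (abs_nonneg _).trans (h 0)
  rw [tch_sum_PlMB P hF hc ν hν, tch_sum_PlMB P hF hc μ hμ]
  refine (Finset.sum_le_sum fun q _ => sub_le_iff_le_add'.1 (abs_le.1 (h q)).2).trans ?_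
  rw [Finset.sum_add_distrib, Finset.sum_const, nsmul_eq_mul]
  exact add_le_add le_rfl
    (mul_le_mul_of_nonneg_right (Nat.cast_le.2 (Finset.card_filter_le _ _)) hε)

/-- Atoms are bounded by the masses of clusters. -/
theorem atoms_le (P : Par) (μ : Measure ℂ) [IsFiniteMeasure μ] {j : ℕ} {F : Finset ℂ}
    (hF : ∀ p ∈ P.E, ∃ q ∈ F, p ∈ P.cl j q) :
    (Summable fun c : Cp P.E => (μ c.1).toReal ^ 2) ∧
      ∑' c : Cp P.E, (μ c.1).toReal ^ 2 ≤ ∑ q ∈ F, (μ (P.E ∩ P.cl j q)).toReal ^ 2 := by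
  classical
  choose k hk1 hk2 using fun c : Cp P.E => hF c.pt c.pt_mem
  have hsub : ∀ c : Cp P.E, c.1 ⊆ P.E ∩ P.cl j (k c) := fun c => by
    refine subset_inter c.sub ?_
    rw [← P.cl_eq (hk2 c), c.eq]
    exact P.cmp_sub_cl j c.pt_mem
  have key : ∀ s : Finset (Cp P.E),
      ∑ c ∈ s, (μ c.1).toReal ^ 2 ≤ ∑ q ∈ F, (μ (P.E ∩ P.cl j q)).toReal ^ 2 := fun s => by
    rw [← Finset.sum_fiberwise_of_maps_to (s := s) (t := F) (g := k) fun c _ => hk1 c]
    refine Finset.sum_le_sum fun q _ => ?_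
    refine (Finset.sum_sq_le_sq_sum_of_nonneg fun c _ => ENNReal.toReal_nonneg).trans ?_
    refine pow_le_pow_left₀ (Finset.sum_nonneg fun c _ => ENNReal.toReal_nonneg) ?_ 2
    have h1 : μ.real (⋃ c ∈ s.filter fun c => k c = q, c.1) =
        ∑ c ∈ s.filter fun c => k c = q, μ.real c.1 :=
      measureReal_biUnion_finset
        (fun c _ c' _ hcc => Set.disjoint_left.2 fun z h2 h3 => hcc (Cp.ext_mem h2 h3))
        (fun c _ => (c.cpt P.dom.cpt).measurableSet) (fun c _ => measure_ne_top _ _)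
    refine h1.symm.le.trans (measureReal_mono (iUnion₂_subset fun c hc => ?_) (measure_ne_top _ _))
    rw [← (Finset.mem_filter.1 hc).2]
    exact hsub c
  have hs := summable_of_sum_le (fun c => sq_nonneg _) key
  exact ⟨hs, hs.tsum_le_of_sum_le key⟩

end Vale.Agent.P116.K
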