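import Vale.Agent.P116.K.PlMB

/-! P116 K/PlM: limits of measures on clusters, merged sequences. -/

open MeasureTheory Set Metric Filter Topology Complex
open scoped ENNReal

noncomputable section

namespace Vale.Agent.P116.K

open Vale.Agent.P128


/-- The merged sequence. -/
def mrg {E : Set ℂ} (b : ℕ → ℕ → TF E) (i : ℕ) : TF E := b i.unpair.1 i.unpair.2

theorem gen_PlMC {P : Par} {b : ℕ → TF P.E}
    (hb : ∀ i, ∃ M : ℝ, ∀ z ∈ Qc, -M ≤ (b i).lo z ∧ (b i).hi z ≤ M) {e : ℕ → ℕ}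
    (he : Function.Injective e) (n : ℕ) (s : ℝ) :
    ∃ N, n ≤ N ∧ ∀ m, N ≤ m → ∀ (r : ℕ) (O : Set ℂ) (l : List (Stp P.E)), (∀ t ∈ l, P.Ok r O t) →
      s * hopn (fun i => b (e i)) n l ≤ hopn b m l := by
  refine ⟨n + ⌈s * n⌉₊ + (Finset.range n).sup fun i => e i + 1, by omega,
    fun m hm r O l hl => ?_⟩
  have h1 : ∀ i, 0 ≤ (l.map (Stp.hop (b i))).sum := fun i => List.sum_nonneg fun a ha => by
    obtain ⟨t, ht, rfl⟩ := List.mem_map.1 ha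
    exact Par.hop_nn (hl t ht) (hb i)
  have h2 : s * n ≤ m := (Nat.le_ceil _).trans (Nat.cast_le.2 (by omega))
  have h3 : ∑ i ∈ Finset.range n, (l.map (Stp.hop (b (e i)))).sum ≤
      ∑ i ∈ Finset.range m, (l.map (Stp.hop (b i))).sum := by
    rw [← Finset.sum_image (f := fun i => (l.map (Stp.hop (b i))).sum) he.injOn]
    refine Finset.sum_le_sum_of_subset_of_nonneg (fun j hj => ?_) fun i _ _ => h1 i
    obtain ⟨i, hi, rfl⟩ := Finset.mem_image.1 hj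
    have h4 : e i + 1 ≤ (Finset.range n).sup fun i => e i + 1 :=
      Finset.le_sup (f := fun i => e i + 1) hi
    exact Finset.mem_range.2 (by omega)
  rw [hopn, hopn, ← mul_assoc]
  exact mul_le_mul h2 h3 (Finset.sum_nonneg fun i _ => h1 _) (Nat.cast_nonneg m)

theorem mrg_hop {P : Par} {b : ℕ → ℕ → TF P.E}
    (hb : ∀ k i, ∃ M : ℝ, ∀ z ∈ Qc, -M ≤ (b k i).lo z ∧ (b k i).hi z ≤ M) (k n : ℕ) (s : ℝ) :
    ∃ N, n ≤ N ∧ ∀ m, N ≤ m → ∀ (r : ℕ) (O : Set ℂ) (l : List (Stp P.E)), (∀ t ∈ l, P.Ok r O t) →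
      s * hopn (b k) n l ≤ hopn (mrg b) m l := by
  have h1 : (fun i => mrg b (Nat.pair k i)) = b k := funext fun i => by rw [mrg, Nat.unpair_pair]
  have h2 := gen_PlMC (b := mrg b) (fun i => hb _ _) (e := Nat.pair k)
    (fun i j h => (Nat.pair_eq_pair.1 h).2) n s
  rwa [h1] at h2

theorem hop_scale {P : Par} {b : ℕ → TF P.E}
    (hb : ∀ i, ∃ M : ℝ, ∀ z ∈ Qc, -M ≤ (b i).lo z ∧ (b i).hi z ≤ M) (n : ℕ) (s : ℝ) :
    ∃ N, n ≤ N ∧ ∀ m, N ≤ m → ∀ (r : ℕ) (O : Set ℂ) (l : List (Stp P.E)), (∀ t ∈ l, P.Ok r O t) →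
      s * hopn b n l ≤ hopn b m l :=
  gen_PlMC hb Function.injective_id n s

end Vale.Agent.P116.K
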