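import Vale.Agent.P116.K.Touch
import Vale.Agent.P116.K.PlA
import Vale.Agent.P116.K.PlH
import Vale.Agent.P116.K.PlM

/-! P116 K/PlU: the level k of the clusters is uniform. -/

open MeasureTheory Set Metric Filter Topology Complex
open scoped ENNReal

noncomputable section

namespace Vale.Agent.P116.K

open Vale.Agent.P128


/-- Representatives of the clusters of level `j`. -/
def Reps (P : Par) (j : ℕ) (F : Finset ℂ) : Prop := P.Sep j F ∧ ∀ p ∈ P.E, ∃ q ∈ F, p ∈ P.cl j q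

/-- The norm of the second test vector. -/
def nw (P : Par) (j : ℕ) (F : Finset ℂ) (g : ℂ → ℝ) (ν : Measure ℂ) : ℝ :=
  √((∫ x, g x ^ 2) + ∑ q ∈ F, (ν (P.E ∩ P.cl j q)).toReal ^ 2)

/-- The charged cost of a plan. -/
def cst (P : Par) (b : ℕ → TF P.E) (g : ℂ → ℝ) (lam : Cp P.E → ℝ) (ν : Measure ℂ) (n k : ℕ)
    (π : P.It →₀ ℝ) : ℝ :=
  P.ex π fun i => cost b (P.ms g) lam n i.2.2 + (P.tch ν k (trc i.2.1 i.2.2)).toReal

/-- Normalised test data. -/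
structure Td (P : Par) (j : ℕ) (F : Finset ℂ) where
  g : ℂ → ℝ
  lam : Cp P.E → ℝ
  g' : ℂ → ℝ
  ν : Measure ℂ
  tv : P.Tv g lam
  tv' : P.Tv g' 0
  fin : IsFiniteMeasure ν

/-- The norm of test data. -/
def Td.nm {P : Par} {j : ℕ} {F : Finset ℂ} (y : Td P j F) : ℝ :=
  P.nv y.g y.lam + nw P j F y.g' y.ν

/-- The cost for test data. -/
def Td.cs {P : Par} {j : ℕ} {F : Finset ℂ} (y : Td P j F) (b : ℕ → TF P.E) (n k : ℕ)
    (π : P.It →₀ ℝ) : ℝ := cst P b (fun x => y.g x + y.g' x) y.lam y.ν n k π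

/-- The uniform bound. -/
def Ub (P : Par) (A : List (TF P.E)) (θ : Set ℂ →₀ ℝ) (c : ℝ) (j : ℕ) (F : Finset ℂ) (k : ℕ) :
    Prop := ∀ b : ℕ → TF P.E, (∀ i, Aux A (b i)) → ∀ (n : ℕ) (y : Td P j F) (η : ℝ), 0 < η →
  ∃ π, P.Plan n θ π ∧ y.cs b n k π ≤ c * y.nm + η

variable {P : Par} {A : List (TF P.E)} {θ : Set ℂ →₀ ℝ} {c : ℝ} {j : ℕ} {F : Finset ℂ}

/-- `touch` in terms of test data (triangle inequality in `HH`, `atoms_le`). -/
theorem touch_td (hA : Fam A) (hθ : P.Sys θ) (hc : 0 ≤ c) (h : P.Bs A θ c) (hF : Reps P j F)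
    {b : ℕ → TF P.E} (hb : ∀ i, Aux A (b i)) (y : Td P j F) {η : ℝ} (hη : 0 < η) :
    ∃ k, ∀ n, ∃ π, P.Plan n θ π ∧ y.cs b n k π ≤ c * y.nm + η := by
  have := y.fin
  have hv : P.Tv (fun x => y.g x + y.g' x) y.lam :=
    ⟨y.tv.g2.add y.tv'.g2, fun x => add_nonneg (y.tv.g0 x) (y.tv'.g0 x), y.tv.l0, y.tv.l2⟩
  obtain ⟨k, hk⟩ := touch hA hθ h hb hv y.ν hη
  obtain ⟨h1, h2⟩ := atoms_le P y.ν hF.2
  obtain ⟨x, hx⟩ := exists_rep y.tv.g2 y.tv.l2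
  obtain ⟨x', hx'⟩ := exists_rep y.tv'.g2 h1
  have h3 : P.nv (fun x => y.g x + y.g' x) (fun q => y.lam q + (y.ν q.1).toReal) ≤ y.nm := by
    rw [← (hx.add hx').norm]
    refine (norm_add_le x x').trans (add_le_add hx.norm.le (hx'.norm.le.trans ?_))
    exact Real.sqrt_le_sqrt (add_le_add le_rfl h2)
  refine ⟨k, fun n => ?_⟩
  obtain ⟨π, h4, h5⟩ := hk n
  exact ⟨π, h4, h5.trans (add_le_add (mul_le_mul_of_nonneg_left h3 hc) le_rfl)⟩

end Vale.Agent.P116.K
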