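import Vale.Agent.P116.K.PlUA

/-! P116 K/PlU: the level k of the clusters is uniform. -/

open MeasureTheory Set Metric Filter Topology Complex
open scoped ENNReal

noncomputable section

namespace Vale.Agent.P116.K

open Vale.Agent.P128

variable {P : Par} {A : List (TF P.E)} {θ : Set ℂ →₀ ℝ} {c : ℝ} {j : ℕ} {F : Finset ℂ}


theorem sqrt_PlUB {t : ℝ} (ht : 0 ≤ t) (g : ℂ → ℝ) (a : ℝ) :
    √((∫ x, (t * g x) ^ 2) + t ^ 2 * a) = t * √((∫ x, g x ^ 2) + a) := by
  simp only [mul_pow]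
  rw [integral_const_mul, ← mul_add, Real.sqrt_mul (sq_nonneg t), Real.sqrt_sq ht]

theorem tv_PlUB {g : ℂ → ℝ} {lam : Cp P.E → ℝ} (h : P.Tv g lam) {t : ℝ} (ht : 0 ≤ t) :
    P.Tv (fun x => t * g x) fun q => t * lam q :=
  ⟨h.g2.const_mul t, fun x => mul_nonneg ht (h.g0 x), fun q => mul_nonneg ht (h.l0 q), by
    simpa only [mul_pow] using h.l2.mul_left (t ^ 2)⟩

theorem cost_PlUB (g g' : ℂ → ℝ) (lam : Cp P.E → ℝ) (t : ℝ) (l : List (Stp P.E)) :
    (l.map (Stp.len (P.ms fun x => t * g x + t * g' x))).sum +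
      (l.map (Stp.tel fun q => t * lam q)).sum =
    t * ((l.map (Stp.len (P.ms fun x => g x + g' x))).sum + (l.map (Stp.tel lam)).sum) := by
  have h1 : (P.ms fun x => t * g x + t * g' x) = fun y => t * P.ms (fun x => g x + g' x) y := by
    funext y
    rw [Par.ms, Par.ms, ← integral_const_mul]
    exact integral_congr_ae (Eventually.of_forall fun x => by ring)
  have h2 : ∀ (ρ : ℂ → ℝ) (s : Stp P.E), s.len (fun y => t * ρ y) = t * s.len ρ := fun ρ s => by
    cases s with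
    | seg x y => simp only [Stp.len, intervalIntegral.integral_const_mul, mul_assoc]
    | jmp x y J c => simp only [Stp.len, mul_zero]
  have h3 : ∀ s : Stp P.E, s.tel (fun q => t * lam q) = t * s.tel lam := fun s => by
    rcases s with _ | ⟨x, y, J, _ | c⟩ <;> simp only [Stp.tel, mul_zero]
  rw [h1, funext (h2 _), funext h3, List.sum_map_mul_left, List.sum_map_mul_left, mul_add]

theorem meas_PlUB (ν : Measure ℂ) {t : ℝ} (ht : 0 ≤ t) (S : Set ℂ) :
    ((ENNReal.ofReal t • ν) S).toReal = t * (ν S).toReal := by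
  rw [Measure.smul_apply, smul_eq_mul, ENNReal.toReal_mul, ENNReal.toReal_ofReal ht]

/-- Scaling: divide the data by `nm + small` (positive), `hop_scale`, `Plan.anti`. -/
theorem ub_of_unit (hc : 0 < c) {k : ℕ}
    (h : ∀ b : ℕ → TF P.E, (∀ i, Aux A (b i)) → ∀ (n : ℕ) (y : Td P j F), y.nm ≤ 1 →
      ∃ π, P.Plan n θ π ∧ y.cs b n k π ≤ c) : Ub P A θ c j F k := by
  intro b hb n y η hη
  have h0 : 0 ≤ y.nm := add_nonneg (Real.sqrt_nonneg _) (Real.sqrt_nonneg _)
  have hs : 0 < y.nm + η / c := add_pos_of_nonneg_of_pos h0 (div_pos hη hc)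
  obtain ⟨t, ht⟩ : ∃ t, t = (y.nm + η / c)⁻¹ := ⟨_, rfl⟩
  have t0 : 0 < t := ht ▸ inv_pos.2 hs
  have := y.fin
  obtain ⟨N, hN, hsc⟩ := hop_scale (fun i => (hb i).bd) n t
  let y' : Td P j F := ⟨fun x => t * y.g x, fun q => t * y.lam q, fun x => t * y.g' x,
    ENNReal.ofReal t • y.ν, tv_PlUB y.tv t0.le, by
      have h1 := tv_PlUB y.tv' t0.le
      exact ⟨h1.g2, h1.g0, y.tv'.l0, y.tv'.l2⟩, Measure.smul_finite _ ENNReal.ofReal_ne_top⟩
  have hnm : y'.nm = t * y.nm := by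
    simp only [Td.nm, Par.nv, nw, y', meas_PlUB _ t0.le]
    rw [mul_add, ← sqrt_PlUB t0.le, ← sqrt_PlUB t0.le, ← tsum_mul_left, Finset.mul_sum]
    simp only [mul_pow]
  obtain ⟨π, hπ, hc'⟩ := h b hb N y' (by
    rw [hnm, ht, inv_mul_le_iff₀ hs, mul_one]
    exact le_add_of_nonneg_right (div_pos hη hc).le)
  refine ⟨π, hπ.anti hN, ?_⟩
  have key : t * y.cs b n k π ≤ y'.cs b N k π := by
    have e : ∀ G : P.It → ℝ, t * P.ex π G = P.ex π fun i => t * G i := fun G => by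
      rw [Par.ex, Par.ex, Finsupp.mul_sum]
      exact Finsupp.sum_congr fun i _ => mul_left_comm _ _ _
    rw [Td.cs, cst, e]
    refine hπ.ex_mono fun i hi => ?_
    have h1 := hsc N le_rfl _ _ _ (Par.ok_KerF hπ hi)
    have h2 := cost_PlUB y.g y.g' y.lam t i.2.2
    have h3 := meas_PlUB y.ν t0.le {p | p ∈ P.E ∧ (P.cl k p ∩ trc i.2.1 i.2.2).Nonempty}
    simp only [cost, Par.tch, y']
    linarith
  have h4 : y.cs b n k π ≤ (y.nm + η / c) * c := by
    rw [← inv_mul_le_iff₀ hs, ← ht]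
    exact key.trans hc'
  refine h4.trans (le_of_eq ?_)
  field_simp

/-- The cost is monotone in the levels. -/
theorem cs_mono (y : Td P j F) {b : ℕ → TF P.E} (hb : ∀ i, Aux A (b i)) {n m r k k' : ℕ}
    (hn : n ≤ m) (hk : k' ≤ k) {π : P.It →₀ ℝ} (hπ : P.Plan r θ π) :
    y.cs b n k π ≤ y.cs b m k' π := by
  have := y.fin
  refine hπ.ex_mono fun i hi => add_le_add (add_le_add_right
    (Par.hopn_mono hn (Par.ok_KerF hπ hi) fun i => (hb i).bd).2.1 _) ?_
  exact ENNReal.toReal_mono (measure_ne_top _ _) (Par.tch_anti y.ν hk subset_rfl)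

end Vale.Agent.P116.K
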