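import Vale.Agent.P116.K.PlUB

/-! P116 K/PlU: the level k of the clusters is uniform. -/

open MeasureTheory Set Metric Filter Topology Complex
open scoped ENNReal

noncomputable section

namespace Vale.Agent.P116.K

open Vale.Agent.P128

variable {P : Par} {A : List (TF P.E)} {θ : Set ℂ →₀ ℝ} {c : ℝ} {j : ℕ} {F : Finset ℂ}


theorem mink_PlUC {H : Type} [NormedAddCommGroup H] [NormedSpace ℝ H] (S : Finset ℕ) {w : ℕ → ℝ}
    (h0 : ∀ m, 0 ≤ w m) (v : ℕ → H) (F : Finset ℂ) (a : ℕ → ℂ → ℝ) :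
    √(‖∑ m ∈ S, w m • v m‖ ^ 2 + ∑ q ∈ F, (∑ m ∈ S, w m * a m q) ^ 2) ≤
      ∑ m ∈ S, w m * √(‖v m‖ ^ 2 + ∑ q ∈ F, a m q ^ 2) := by
  let V : H → (ℂ → ℝ) → WithLp 2 (H × EuclideanSpace ℝ F) := fun x f =>
    WithLp.toLp 2 (x, WithLp.toLp 2 fun q => f q)
  have nV : ∀ x f, √(‖x‖ ^ 2 + ∑ q ∈ F, f q ^ 2) = ‖V x f‖ := fun x f => by
    rw [WithLp.prod_norm_eq_of_L2, EuclideanSpace.real_norm_sq_eq,
      ← Finset.sum_coe_sort F fun q => f q ^ 2]
    rfl
  have e : V (∑ m ∈ S, w m • v m) (fun q => ∑ m ∈ S, w m * a m q) =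
      ∑ m ∈ S, w m • V (v m) (a m) := by
    induction S using Finset.induction_on with
    | empty => rfl
    | insert m S hm ih =>
      simp only [Finset.sum_insert hm, ← ih]
      rfl
  simp only [nV]
  rw [e]
  refine (norm_sum_le _ _).trans_eq (Finset.sum_congr rfl fun m _ => ?_)
  rw [norm_smul, Real.norm_of_nonneg (h0 m)]

theorem meas_PlUC (S : Finset ℕ) {w : ℕ → ℝ} (h0 : ∀ m, 0 ≤ w m) {ν : ℕ → Measure ℂ}
    (hν : ∀ m, IsFiniteMeasure (ν m)) :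
    IsFiniteMeasure (∑ m ∈ S, ENNReal.ofReal (w m) • ν m) ∧
      ∀ T, ((∑ m ∈ S, ENNReal.ofReal (w m) • ν m) T).toReal = ∑ m ∈ S, w m * (ν m T).toReal := by
  have f : ∀ T, ∀ m ∈ S, (ENNReal.ofReal (w m) • ν m) T ≠ ∞ := fun T m _ =>
    ENNReal.mul_ne_top ENNReal.ofReal_ne_top (measure_ne_top _ _)
  refine ⟨⟨?_⟩, fun T => ?_⟩
  · rw [Measure.finsetSum_apply]
    exact ENNReal.sum_lt_top.2 fun m hm => (f _ m hm).lt_top
  · rw [Measure.finsetSum_apply, ENNReal.toReal_sum (f T)]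
    refine Finset.sum_congr rfl fun m _ => ?_
    rw [Measure.smul_apply, smul_eq_mul, ENNReal.toReal_mul, ENNReal.toReal_ofReal (h0 m)]

theorem nw_PlUC {v : HH P.E} {g : ℂ → ℝ} (h : Rep v g 0) (ν : Measure ℂ) :
    nw P j F g ν = √(‖v‖ ^ 2 + ∑ q ∈ F, (ν (P.E ∩ P.cl j q)).toReal ^ 2) := by
  rw [nw, h.norm_sq]
  simp

theorem cs_PlUC {r : ℕ} {π : P.It →₀ ℝ} (h : P.Plan r θ π) : ∃ x : HH P.E,
    ∀ (y : Td P j F) (u v : HH P.E), Rep u y.g y.lam → Rep v y.g' 0 → ∀ b n k,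
      y.cs b n k π = inner ℝ u x + inner ℝ v x + P.ex π (fun i => hopn b n i.2.2) +
        ∑ i ∈ π.support, π i * (P.tch y.ν k (trc i.2.1 i.2.2)).toReal := by
  obtain ⟨x, -, -, -, hx⟩ := plan_rep h
  refine ⟨x, fun y u v hu hv b n k => ?_⟩
  have h1 : Rep (u + v) (fun z => y.g z + y.g' z) y.lam := by
    simpa only [Pi.zero_apply, add_zero] using hu.add hv
  rw [← inner_add_left, ← hx _ _ _ h1 b n]
  simp only [Td.cs, cst, Par.ex, Finsupp.sum, mul_add, Finset.sum_add_distrib]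

/-- Convex combinations of test data. -/
theorem td_cvx (y : ℕ → Td P j F) (w : ℕ →₀ ℝ) (h0 : ∀ m, 0 ≤ w m) (h1 : w.sum (fun _ a => a) = 1)
    (hn : ∀ m, (y m).nm ≤ 1) {u v : ℕ → HH P.E} (hu : ∀ m, Rep (u m) (y m).g (y m).lam)
    (hv : ∀ m, Rep (v m) (y m).g' 0) : ∃ z : Td P j F, z.nm ≤ 1 ∧
      Rep (w.sum fun m a => a • u m) z.g z.lam ∧ Rep (w.sum fun m a => a • v m) z.g' 0 ∧
      ∀ b n k r π, P.Plan r θ π → P.Sys θ → z.cs b n k π = w.sum fun m a => a * (y m).cs b n k π := by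
  have ru : Rep (∑ m ∈ w.support, w m • u m) (fun z => ∑ m ∈ w.support, w m * (y m).g z)
      fun c => ∑ m ∈ w.support, w m * (y m).lam c :=
    Rep.sum w.support fun m _ => (hu m).smul (w m)
  have rv : Rep (∑ m ∈ w.support, w m • v m) (fun z => ∑ m ∈ w.support, w m * (y m).g' z) 0 := by
    have := Rep.sum w.support fun m _ => (hv m).smul (w m)
    simp only [Pi.zero_apply, mul_zero, Finset.sum_const_zero] at this
    exact this
  obtain ⟨fin, hν⟩ := meas_PlUC w.support h0 fun m => (y m).fin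
  have w1 : ∑ m ∈ w.support, w m = 1 := h1
  let z : Td P j F :=
    { g := _, lam := _, g' := _, ν := _, fin := fin
      tv := ⟨ru.mem.1, fun x => Finset.sum_nonneg fun m _ => mul_nonneg (h0 m) ((y m).tv.g0 x),
        fun x => Finset.sum_nonneg fun m _ => mul_nonneg (h0 m) ((y m).tv.l0 x), ru.mem.2⟩
      tv' := ⟨rv.mem.1, fun x => Finset.sum_nonneg fun m _ => mul_nonneg (h0 m) ((y m).tv'.g0 x),
        fun _ => le_rfl, rv.mem.2⟩ }
  refine ⟨z, ?_, ru, rv, fun b n k r π hπ _ => ?_⟩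
  · have a1 : P.nv z.g z.lam ≤ ∑ m ∈ w.support, w m * P.nv (y m).g (y m).lam := by
      refine ru.norm.symm.trans_le ((norm_sum_le _ _).trans_eq (Finset.sum_congr rfl fun m _ => ?_))
      rw [norm_smul, Real.norm_of_nonneg (h0 m), (hu m).norm]
    have a2 : nw P j F z.g' z.ν ≤ ∑ m ∈ w.support, w m * nw P j F (y m).g' (y m).ν := by
      rw [nw_PlUC rv]
      simp only [z, hν, fun m => nw_PlUC (j := j) (F := F) (hv m)]
      exact mink_PlUC _ h0 _ _ _
    refine (add_le_add a1 a2).trans ?_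
    rw [← Finset.sum_add_distrib, ← w1]
    refine Finset.sum_le_sum fun m _ => ?_
    rw [← mul_add]
    exact mul_le_of_le_one_right (h0 m) (hn m)
  · obtain ⟨x, hx⟩ := cs_PlUC (j := j) (F := F) hπ
    rw [hx z _ _ ru rv, Finsupp.sum]
    simp only [fun m => hx (y m) _ _ (hu m) (hv m), mul_add, Finset.sum_add_distrib, sum_inner,
      real_inner_smul_left, ← Finset.sum_mul, w1, one_mul, z, Par.tch, hν, Finset.mul_sum]
    rw [Finset.sum_comm]
    simp only [mul_left_comm]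

end Vale.Agent.P116.K
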