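import Vale.Agent.P116.K.PlUC

/-! P116 K/PlU: the level k of the clusters is uniform. -/

open MeasureTheory Set Metric Filter Topology Complex
open scoped ENNReal

noncomputable section

namespace Vale.Agent.P116.K

open Vale.Agent.P128

variable {P : Par} {A : List (TF P.E)} {θ : Set ℂ →₀ ℝ} {c : ℝ} {j : ℕ} {F : Finset ℂ}


theorem sq_PlUD {a b δ e : ℝ} {p r : ℂ → ℝ} (F : Finset ℂ) (hδ : 0 ≤ δ) (he : 0 ≤ e)
    (ha : a ≤ (b + δ) ^ 2) (hp : ∀ q, 0 ≤ p q) (h : ∀ q, p q ≤ r q + e) :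
    √(a + ∑ q ∈ F, p q ^ 2) ≤ √(b ^ 2 + ∑ q ∈ F, r q ^ 2) + δ + F.card * e := by
  have h0 : 0 ≤ ∑ q ∈ F, r q ^ 2 := Finset.sum_nonneg fun q _ => sq_nonneg _
  obtain ⟨S, hS⟩ : ∃ S, S = √(b ^ 2 + ∑ q ∈ F, r q ^ 2) := ⟨_, rfl⟩
  have h1 : S ^ 2 = b ^ 2 + ∑ q ∈ F, r q ^ 2 := by
    rw [hS]
    exact Real.sq_sqrt (by positivity)
  have h2 : 0 ≤ S := hS ▸ Real.sqrt_nonneg _
  have h3 : b ≤ S := abs_le_of_sq_le_sq' (by linarith) h2 |>.2
  have h4 : ∑ q ∈ F, p q ^ 2 ≤ ∑ q ∈ F, (r q ^ 2 + (2 * S * e + e ^ 2)) :=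
    Finset.sum_le_sum fun q hq => by
      have a1 := Finset.single_le_sum (f := fun q => r q ^ 2) (fun q _ => sq_nonneg _) hq
      have a2 : r q ≤ S := abs_le_of_sq_le_sq' (by linarith [sq_nonneg b]) h2 |>.2
      have a3 := pow_le_pow_left₀ (hp q) (h q) 2
      nlinarith [mul_le_mul_of_nonneg_right a2 he]
  rw [Finset.sum_add_distrib, Finset.sum_const, nsmul_eq_mul] at h4
  have h5 : (F.card : ℝ) ≤ F.card ^ 2 := by exact_mod_cast Nat.le_self_pow two_ne_zero F.card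
  have h6 : (0 : ℝ) ≤ F.card := Nat.cast_nonneg _
  rw [← hS]
  refine Real.sqrt_le_iff.2 ⟨by positivity, ?_⟩
  nlinarith [mul_le_mul_of_nonneg_right h3 hδ, mul_le_mul_of_nonneg_right h5 (sq_nonneg e),
    mul_nonneg hδ (mul_nonneg h6 he)]

theorem add_PlUD (π : P.It →₀ ℝ) (F G : P.It → ℝ) :
    P.ex π (fun i => F i + G i) = P.ex π F + P.ex π G := by
  simp only [Par.ex, Finsupp.sum, mul_add, Finset.sum_add_distrib]

theorem mul_PlUD (π : P.It →₀ ℝ) (s : ℝ) (F : P.It → ℝ) :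
    P.ex π (fun i => s * F i) = s * P.ex π F := by
  simp only [Par.ex, Finsupp.sum, Finset.mul_sum, mul_left_comm]

theorem mass_PlUD (hF : Reps P j F) (z : Td P j F) (hn : z.nm ≤ 1) :
    z.ν P.E ≤ ENNReal.ofReal F.card := by
  have := z.fin
  have h1 : P.E ⊆ ⋃ q ∈ F, P.E ∩ P.cl j q := fun p hp =>
    (hF.2 p hp).elim fun q hq => mem_biUnion hq.1 ⟨hp, hq.2⟩
  refine (measure_mono h1).trans ((measure_biUnion_finset_le F _).trans ?_)
  rw [ENNReal.ofReal_natCast, ← mul_one (F.card : ℝ≥0∞), ← nsmul_eq_mul]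
  refine Finset.sum_le_card_nsmul _ _ _ fun q hq => ?_
  have h2 : nw P j F z.g' z.ν ≤ 1 := le_trans (le_add_of_nonneg_left (Real.sqrt_nonneg _)) hn
  have h3 := (Real.sqrt_le_iff.1 h2).2
  have h4 := Finset.single_le_sum (f := fun q => (z.ν (P.E ∩ P.cl j q)).toReal ^ 2)
    (fun q _ => sq_nonneg _) hq
  have h5 : 0 ≤ ∫ x, z.g' x ^ 2 := integral_nonneg fun _ => sq_nonneg _
  rw [← ENNReal.toReal_le_toReal (measure_ne_top _ _) ENNReal.one_ne_top, ENNReal.toReal_one]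
  exact (sq_le_one_iff₀ ENNReal.toReal_nonneg).1 (by linarith)

/-- The limit data: `dom_seq` twice, `meas_clu`, `tch_close`, `plan_rep` or `ms_mono`. -/
theorem td_lim (hθ : P.Sys θ) (hF : Reps P j F) (z : ℕ → Td P j F) (hn : ∀ m, (z m).nm ≤ 1)
    {u v : ℕ → HH P.E} (hu : ∀ m, Rep (u m) (z m).g (z m).lam) (hv : ∀ m, Rep (v m) (z m).g' 0)
    {ε : ℝ} (hε : 0 < ε) (h1 : ∀ k, ‖u (k + 1) - u k‖ ≤ ε / 2 ^ k)
    (h2 : ∀ k, ‖v (k + 1) - v k‖ ≤ ε / 2 ^ k) : ∃ y : Td P j F, y.nm ≤ 1 + 9 * ε ∧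
      ∀ k K, ∃ m, K ≤ m ∧ ∀ b n r π, P.Plan r θ π → (z m).cs b n k π ≤ y.cs b n k π + ε := by
  obtain ⟨U, hU⟩ := dom_seq pos_closed pos_zero pos_add pos_abs h1
  obtain ⟨V, hV⟩ := dom_seq pos_closed pos_zero pos_add pos_abs h2
  obtain ⟨g, lam, tv, rU⟩ := pos_tv (x := U) (by
    simpa using pos_add _ (hU 0).1 _ ((hu 0).pos.2 ⟨ae_of_all _ (z 0).tv.g0, (z 0).tv.l0⟩))
  obtain ⟨g', lam', tv', rV⟩ := pos_tv (x := V) (by
    simpa using pos_add _ (hV 0).1 _ ((hv 0).pos.2 ⟨ae_of_all _ (z 0).tv'.g0, (z 0).tv'.l0⟩))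
  obtain ⟨X, rX⟩ := exists_rep (lam := (0 : Cp P.E → ℝ)) tv'.g2 (z 0).tv'.l2
  obtain ⟨μ, hμ, hl⟩ := meas_clu P (fun m => (z m).ν) fun m => mass_PlUD hF (z m) (hn m)
  refine ⟨⟨g, lam, g', μ, tv, ⟨tv'.g2, tv'.g0, (z 0).tv'.l0, (z 0).tv'.l2⟩, hμ⟩, ?_,
    fun k K => ?_⟩
  · obtain ⟨m, -, hm⟩ := hl j 0 (ε / (F.card + 1)) (by positivity)
    have a1 : ‖U‖ ≤ ‖u m‖ + 4 * ε := (norm_le_norm_add_norm_sub' U (u m)).trans (by
      linarith [(hU m).2])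
    have a2 : ‖V‖ ≤ ‖v m‖ + 4 * ε := (norm_le_norm_add_norm_sub' V (v m)).trans (by
      linarith [(hV m).2])
    have a3 : ∫ x, g' x ^ 2 ≤ (‖v m‖ + 4 * ε) ^ 2 := by
      refine le_trans ?_ (pow_le_pow_left₀ (norm_nonneg _) a2 2)
      rw [rV.norm_sq]
      exact le_add_of_nonneg_right (tsum_nonneg fun c => sq_nonneg _)
    have a4 := sq_PlUD (p := fun q => (μ (P.E ∩ P.cl j q)).toReal)
      (r := fun q => ((z m).ν (P.E ∩ P.cl j q)).toReal) (e := ε / (F.card + 1)) F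
      (by positivity) (by positivity) a3 (fun _ => ENNReal.toReal_nonneg) fun q => by linarith [(abs_le.1 (hm j le_rfl q)).1]
    have a5 : ‖v m‖ ^ 2 = ∫ x, (z m).g' x ^ 2 := by simpa using (hv m).norm_sq
    have a6 : F.card * (ε / (F.card + 1)) ≤ ε := by
      rw [← mul_div_assoc, div_le_iff₀ (by positivity)]
      linarith
    have a7 := hn m
    rw [a5] at a4
    rw [rU.norm, (hu m).norm] at a1
    change P.nv g lam + √_ ≤ _
    change P.nv _ _ + √_ ≤ _ at a7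
    linarith
  · obtain ⟨C, hC, ht⟩ := tch_close P k
    obtain ⟨m, hK, hm⟩ := hl k K (ε / (C + 1)) (by positivity)
    refine ⟨m, hK, fun b n r π hπ => ?_⟩
    have := (z m).fin
    obtain ⟨x, hx, -, -, hc⟩ := plan_rep hπ
    have a1 := hc _ _ _ ((hu m).add (hv m)) b n
    have a2 := hc _ _ _ (rU.add rX) b n
    simp only [Pi.zero_apply, add_zero] at a1 a2
    have a3 : X + (-1 : ℝ) • v m ∈ Pos P.E := (rX.add ((hv m).smul (-1))).pos.2
      ⟨((hv m).le rV (hV m).1).1.mono fun w hw => by linarith, fun c => by simp⟩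
    have a4 := pos_inner (pos_add _ (hU m).1 _ a3) hx
    rw [inner_add_left, inner_add_left, inner_sub_left, real_inner_smul_left] at a4
    rw [inner_add_left] at a1 a2
    have a5 := hπ.ex_mono (F := fun i => (P.tch (z m).ν k (trc i.2.1 i.2.2)).toReal)
      (G := fun i => (P.tch μ k (trc i.2.1 i.2.2)).toReal + ε * 1) fun i _ => by
        have b1 := ht _ _ _ (measure_ne_top _ _) (measure_ne_top _ _) (hm k le_rfl)
          (trc i.2.1 i.2.2)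
        have b2 : C * (ε / (C + 1)) ≤ ε := by
          rw [← mul_div_assoc, div_le_iff₀ (by positivity)]
          linarith
        linarith
    rw [add_PlUD, mul_PlUD, hπ.one hθ] at a5
    simp only [Td.cs, cst, add_PlUD]
    linarith

end Vale.Agent.P116.K
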