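import Vale.Agent.P116.K.PlUD

/-! P116 K/PlU: the level k of the clusters is uniform. -/

open MeasureTheory Set Metric Filter Topology Complex
open scoped ENNReal

noncomputable section

namespace Vale.Agent.P116.K

open Vale.Agent.P128

variable {P : Par} {A : List (TF P.E)} {θ : Set ℂ →₀ ℝ} {c : ℝ} {j : ℕ} {F : Finset ℂ}


theorem hop_PlUE (y : Td P j F) {b b' : ℕ → TF P.E} {n m r k : ℕ} {π : P.It →₀ ℝ}
    (hπ : P.Plan r θ π) (h : ∀ (O : Set ℂ) (l : List (Stp P.E)), (∀ t ∈ l, P.Ok r O t) →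
      1 * hopn b n l ≤ hopn b' m l) : y.cs b n k π ≤ y.cs b' m k π := by
  refine Finset.sum_le_sum fun i hi => mul_le_mul_of_nonneg_left ?_ (hπ.nn i)
  obtain ⟨-, x, -, h1⟩ := hπ.crs i hi
  have h2 := h _ _ h1.2.2
  rw [one_mul] at h2
  exact add_le_add (add_le_add le_rfl h2) le_rfl

theorem nrm_PlUE (y : Td P j F) (hn : y.nm ≤ 1) {u v : HH P.E} (hu : Rep u y.g y.lam)
    (hv : Rep v y.g' 0) : ‖(WithLp.toLp 2 (u, v) : WithLp 2 (HH P.E × HH P.E))‖ ≤ 2 := by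
  have h1 : 0 ≤ P.nv y.g y.lam := Real.sqrt_nonneg _
  have h2 : 0 ≤ nw P j F y.g' y.ν := Real.sqrt_nonneg _
  have h3 : P.nv y.g' 0 ≤ nw P j F y.g' y.ν := by
    refine Real.sqrt_le_sqrt (add_le_add le_rfl ?_)
    simp only [Pi.zero_apply, ne_eq, OfNat.ofNat_ne_zero, not_false_eq_true, zero_pow, tsum_zero]
    exact Finset.sum_nonneg fun _ _ => sq_nonneg _
  have h4 : P.nv y.g y.lam + nw P j F y.g' y.ν ≤ 1 := hn
  have h5 : ‖u‖ ≤ 1 := by rw [hu.norm]; linarith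
  have h6 : ‖v‖ ≤ 1 := by rw [hv.norm]; linarith
  refine abs_le_of_sq_le_sq' ?_ (by norm_num) |>.2
  rw [WithLp.prod_norm_sq_eq_of_L2]
  show ‖u‖ ^ 2 + ‖v‖ ^ 2 ≤ 2 ^ 2
  have := norm_nonneg u
  have := norm_nonneg v
  nlinarith

theorem sum_PlUE {H : Type} [NormedAddCommGroup H] [InnerProductSpace ℝ H] (u v : ℕ → H)
    (w : ℕ →₀ ℝ) : w.sum (fun m a => a • (WithLp.toLp 2 (u m, v m) : WithLp 2 (H × H))) =
      WithLp.toLp 2 (w.sum (fun m a => a • u m), w.sum fun m a => a • v m) := by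
  apply (WithLp.linearEquiv 2 ℝ (H × H)).injective
  rw [map_finsuppSum]
  refine Prod.ext ?_ ?_
  · simp [Finsupp.sum, Prod.fst_sum]
  · simp [Finsupp.sum, Prod.snd_sum]

/-- Otherwise pick violations `(b k, n k, y k)` of `ub_of_unit` for all `k`, merge the `b k`
(`mrg_hop`), take `tails` in `WithLp 2 (HH × HH)`, `td_cvx`, `td_lim`, and contradict `touch_td`. -/
theorem unif (hA : Fam A) (hθ : P.Sys θ) (hc : 0 < c) (h : P.Bs A θ c) (hF : Reps P j F) {η : ℝ}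
    (hη : 0 < η) (K : ℕ) : ∃ k, K ≤ k ∧ Ub P A θ (c + η) j F k := by
  by_contra hn
  have h1 : ∀ m : ℕ, ∃ b : ℕ → TF P.E, (∀ i, Aux A (b i)) ∧ ∃ (n : ℕ) (y : Td P j F), y.nm ≤ 1 ∧
      ∀ π, P.Plan n θ π → c + η < y.cs b n (m + K) π := by
    intro m
    by_contra h2
    refine hn ⟨m + K, Nat.le_add_left _ _, ub_of_unit (by linarith) fun b hb n y hy => ?_⟩
    by_contra h3
    exact h2 ⟨b, hb, n, y, hy, fun π hπ => not_le.1 fun h4 => h3 ⟨π, hπ, h4⟩⟩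
  choose b hb n y hy hv using h1
  choose u hu using fun m => exists_rep (y m).tv.g2 (y m).tv.l2
  choose v hv' using fun m => exists_rep (y m).tv'.g2 (y m).tv'.l2
  obtain ⟨ε, hε, hε'⟩ : ∃ ε : ℝ, 0 < ε ∧ (9 * c + 3) * ε = η :=
    ⟨η / (9 * c + 3), by positivity, mul_div_cancel₀ _ (by positivity)⟩
  obtain ⟨w, w0, w1, w2, w3⟩ := tails
    (y := fun m => (WithLp.toLp 2 (u m, v m) : WithLp 2 (HH P.E × HH P.E)))
    (fun m => nrm_PlUE (y m) (hy m) (hu m) (hv' m)) hε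
  simp only [sum_PlUE] at w3
  choose z z1 z2 z3 z4 using fun k => td_cvx y (w k) (w0 k) (w1 k) hy hu hv'
  obtain ⟨Y, Y1, Y2⟩ := td_lim hθ hF z z1 z2 z3 hε
    (fun k => (WithLp.norm_fst_le _ _).trans (w3 k)) fun k => (WithLp.norm_snd_le _ _).trans (w3 k)
  have hB : ∀ i, Aux A (mrg b i) := fun i => hb _ _
  obtain ⟨k, hk⟩ := touch_td hA hθ hc.le h hF hB Y hε
  obtain ⟨m, hm, hm'⟩ := Y2 k k
  choose N N1 N2 using fun i => mrg_hop (P := P) (b := b) (fun k i => (hb k i).bd) i (n i) 1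
  obtain ⟨π, hπ, h2⟩ := hk ((w m).support.sup N)
  have h3 := hm' (mrg b) ((w m).support.sup N) _ π hπ
  rw [z4 m _ _ _ _ π hπ hθ] at h3
  have h4 : (w m).sum (fun _ a => a * (c + η)) ≤
      (w m).sum fun i a => a * (y i).cs (mrg b) ((w m).support.sup N) k π := by
    refine Finset.sum_le_sum fun i hi => mul_le_mul_of_nonneg_left ?_ (w0 m i)
    have a1 : N i ≤ (w m).support.sup N := Finset.le_sup hi
    refine (hv i π (hπ.anti ((N1 i).trans a1))).le.trans ?_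
    exact (hop_PlUE (y i) hπ (N2 i _ a1 _)).trans
      (cs_mono (y i) hB le_rfl ((hm.trans (w2 m i hi)).trans (Nat.le_add_right _ _)) hπ)
  rw [← Finsupp.sum_mul, w1, one_mul] at h4
  have h5 : c * Y.nm ≤ c * (1 + 9 * ε) := mul_le_mul_of_nonneg_left Y1 hc.le
  nlinarith

end Vale.Agent.P116.K
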