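import Vale.Agent.P116.K.Ker
import Vale.Agent.P116.K.Chain
import Vale.Agent.P116.K.BarV
import Vale.Agent.P116.K.Mm18
import Vale.Agent.P116.K.Dm18

/-! P116 K/Rf0 (owner helper18). Definitions of the refinement block (no task).
Helper names end with `_Rf0`. -/

open MeasureTheory Set Metric Filter Topology Complex
open scoped ENNReal

noncomputable section

namespace Vale.Agent.P116.K

open Vale.Agent.P128

namespace Par
variable (P : Par)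

/-- The barrier bound for the system `θ`. -/
def BV (A : List (TF P.E)) (θ : Set ℂ →₀ ℝ) (c : ℝ) : Prop :=
  ∀ b : ℕ → TF P.E, (∀ i, Aux A (b i)) → ∀ g lam, P.Tv g lam → ∀ ν : Measure ℂ,
    IsFiniteMeasure ν →
    θ.sum (fun Z a => ENNReal.ofReal a * ⨅ k, ⨆ n, P.val b (P.ms g) lam ν Z n k) ≤
      ENNReal.ofReal (c * P.nv g fun c' => lam c' + (ν c'.1).toReal)

/-- The average value. -/
def av (θ : Set ℂ →₀ ℝ) (b : ℕ → TF P.E) (g : ℂ → ℝ) (lam : Cp P.E → ℝ) (ν : Measure ℂ)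
    (n k : ℕ) : ℝ≥0∞ := θ.sum fun Z a => ENNReal.ofReal a * P.val b (P.ms g) lam ν Z n k

/-- Normalised tests. -/
structure Kc (j : ℕ) (g : ℂ → ℝ) (lam : Cp P.E → ℝ) (ν : Measure ℂ) : Prop where
  tv : P.Tv g lam
  fin : IsFiniteMeasure ν
  off : ν P.Eᶜ = 0
  le : ∀ l, j ≤ l → ∀ G : Finset (Cp P.E),
    (∀ c ∈ G, ∀ c' ∈ G, c ≠ c' → c'.pt ∉ P.cl l c.pt) →
      (∫ x, g x ^ 2) + ∑ c ∈ G, (lam c + (ν (P.E ∩ P.cl l c.pt)).toReal) ^ 2 ≤ 1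

/-- No test fails at level `k`. -/
def Gd (A : List (TF P.E)) (θ : Set ℂ →₀ ℝ) (c : ℝ) (j k : ℕ) : Prop :=
  ∀ b : ℕ → TF P.E, (∀ i, Aux A (b i)) → ∀ g lam ν, P.Kc j g lam ν → ∀ n,
    P.av θ b g lam ν n k ≤ ENNReal.ofReal c

/-- The probability of meeting `S`. -/
def tcs (π : P.It →₀ ℝ) (S : Set ℂ) : ℝ :=
  P.ex π fun it => {it : P.It | (S ∩ trc it.2.1 it.2.2).Nonempty}.indicator 1 it

/-- The expected number of teleports. -/
def tl (π : P.It →₀ ℝ) (c : Cp P.E) : ℝ := P.ex π fun i => P.tele i.2.2 c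

/-- Bounded sequences. -/
def Bd (b : ℕ → TF P.E) : Prop := ∀ i, ∃ M : ℝ, ∀ z ∈ Qc, -M ≤ (b i).lo z ∧ (b i).hi z ≤ M

/-- All the sequences in one. -/
def mg (B : ℕ → ℕ → TF P.E) (m : ℕ) : TF P.E := B (Nat.unpair m).1 (Nat.unpair m).2

/-- Good plans. -/
structure Gp (b : ℕ → TF P.E) (j n : ℕ) (c η : ℝ) (t : ℂ → ℝ) (π : P.It →₀ ℝ) : Prop where
  hop : P.ex π (fun i => hopn b n i.2.2) ≤ η
  nrm : P.n1 π + P.n2 π ≤ (c + η) ^ 2
  sep : ∀ F, P.Sep j F → P.n1 π + ∑ p ∈ F, t p ^ 2 ≤ (c + η) ^ 2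

end Par

end Vale.Agent.P116.K
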