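import Vale.Agent.P116.K.Rf0

/-! P116 K/RfA (owner helper18). Merging. Plan: i -> Nat.pair k i is injective; N above n and above all pair k i, i < n;
the terms are nonnegative by hop_nn (Finset.sum_le_sum_of_subset_of_nonneg on the image).
exists_sep: exists_cl_sub or iInter_cl, cl_anti; distinct components are disjoint.
sep_fin: representatives of level max j k (exists_reps); cl j and cl k only depend on the
representative (cl_eq, cl_anti); Phi = the Sep j subsets of the set of representatives.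
Helper names end with `_RfA`. -/

open MeasureTheory Set Metric Filter Topology Complex
open scoped ENNReal

noncomputable section

namespace Vale.Agent.P116.K

open Vale.Agent.P128

namespace Par
variable {P : Par}

theorem nn_RfA {b : ℕ → TF P.E} (hb : P.Bd b) {n : ℕ} {O : Set ℂ} {l : List (Stp P.E)}
    (h : ∀ s ∈ l, P.Ok n O s) (i : ℕ) : 0 ≤ (l.map (Stp.hop (b i))).sum :=
  List.sum_nonneg fun a ha => by
    obtain ⟨s, hs, rfl⟩ := List.mem_map.1 ha
    exact hop_nn (h s hs) (hb i)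

theorem hopn_mg {B : ℕ → ℕ → TF P.E} (hB : ∀ k, P.Bd (B k)) (k n : ℕ) : ∃ N, n ≤ N ∧
    ∀ m, N ≤ m → ∀ (n' : ℕ) (O : Set ℂ) (l : List (Stp P.E)), (∀ s ∈ l, P.Ok n' O s) →
      hopn (B k) n l ≤ hopn (P.mg B) m l := by
  refine ⟨n + Nat.pair k n, Nat.le_add_right _ _, fun m hm n' O l h => ?_⟩
  have hb : P.Bd (P.mg B) := fun i => hB _ _
  have h1 : ∑ i ∈ Finset.range n, (l.map (Stp.hop (B k i))).sum =
      ∑ i ∈ (Finset.range n).image (Nat.pair k), (l.map (Stp.hop (P.mg B i))).sum := by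
    rw [Finset.sum_image fun i _ i' _ e => (Nat.pair_eq_pair.1 e).2]
    simp only [mg, Nat.unpair_pair]
  have h2 : (Finset.range n).image (Nat.pair k) ⊆ Finset.range m := fun i hi => by
    obtain ⟨i', hi', rfl⟩ := Finset.mem_image.1 hi
    have := Nat.pair_lt_pair_right k (Finset.mem_range.1 hi')
    exact Finset.mem_range.2 (by omega)
  unfold hopn
  rw [h1]
  exact mul_le_mul (Nat.cast_le.2 (by omega))
    (Finset.sum_le_sum_of_subset_of_nonneg h2 fun i _ _ => nn_RfA hb h i)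
    (Finset.sum_nonneg fun i _ => nn_RfA hb h i) (Nat.cast_nonneg _)

theorem hopn_mul {b : ℕ → TF P.E} (hb : P.Bd b) (n : ℕ) (s : ℝ) : ∃ m, n ≤ m ∧
    ∀ (n' : ℕ) (O : Set ℂ) (l : List (Stp P.E)), (∀ s ∈ l, P.Ok n' O s) →
      s * hopn b n l ≤ hopn b m l := by
  refine ⟨n + ⌈s⌉₊ * n, Nat.le_add_right _ _, fun n' O l h => ?_⟩
  have h1 : s * n ≤ ((n + ⌈s⌉₊ * n : ℕ) : ℝ) := by
    have h2 := mul_le_mul_of_nonneg_right (Nat.le_ceil s) (Nat.cast_nonneg (α := ℝ) n)
    have h3 := Nat.cast_nonneg (α := ℝ) n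
    push_cast
    linarith
  unfold hopn
  rw [← mul_assoc]
  exact mul_le_mul h1 (Finset.sum_le_sum_of_subset_of_nonneg
    (Finset.range_mono (Nat.le_add_right _ _)) fun i _ _ => nn_RfA hb h i)
    (Finset.sum_nonneg fun i _ => nn_RfA hb h i) (Nat.cast_nonneg _)

theorem exists_sep (G : Finset (Cp P.E)) (j : ℕ) : ∃ l, j ≤ l ∧
    ∀ c ∈ G, ∀ c' ∈ G, c ≠ c' → c'.pt ∉ P.cl l c.pt := by
  have h1 : ∀ c c' : Cp P.E, ∀ᶠ l in atTop, c ≠ c' → c'.pt ∉ P.cl l c.pt := fun c c' => by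
    by_cases hc : c = c'
    · exact Eventually.of_forall fun l h => absurd hc h
    have h2 : c'.pt ∉ ⋂ n, P.cl n c.pt := fun h => by
      rw [P.iInter_cl (p := c.pt) c.2.choose_spec.1] at h
      exact hc (Subtype.ext (c.2.choose_spec.2.trans
        ((connectedComponentIn_eq h).trans c'.2.choose_spec.2.symm)))
    obtain ⟨l, hl⟩ := not_forall.1 fun h => h2 (mem_iInter.2 h)
    exact (eventually_ge_atTop l).mono fun l' hl' _ h => hl (P.cl_anti hl' _ h)
  exact ((eventually_ge_atTop j).and ((eventually_all_finset G).2 fun c _ =>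
    (eventually_all_finset G).2 fun c' _ => h1 c c')).exists

theorem sep_fin (j k : ℕ) : ∃ Φ : Finset (Finset ℂ), (∀ F ∈ Φ, P.Sep j F) ∧ ∀ F, P.Sep j F →
    ∃ F' ∈ Φ, ∀ f : Set ℂ → ℝ, ∑ p ∈ F, f (P.cl k p) = ∑ p ∈ F', f (P.cl k p) := by
  classical
  obtain ⟨Rp, hRp, hR⟩ := P.exists_reps (max j k)
  choose! g g1 g2 using hR
  have hj : ∀ p ∈ P.E, P.cl j p = P.cl j (g p) := fun p hp =>
    P.cl_eq (P.cl_anti (le_max_left j k) _ (g2 p hp))
  have hk : ∀ p ∈ P.E, P.cl k p = P.cl k (g p) := fun p hp =>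
    P.cl_eq (P.cl_anti (le_max_right j k) _ (g2 p hp))
  refine ⟨Rp.powerset.filter (P.Sep j), fun F hF => (Finset.mem_filter.1 hF).2, fun F hF => ?_⟩
  have h1 : ∀ p ∈ F, ∀ q ∈ F, P.cl j (g q) = P.cl j (g p) → p = q := fun p hp q hq e => by
    by_contra hne
    refine hF.2 p hp q hq hne ?_
    rw [hj p (hF.1 p hp), ← e, ← hj q (hF.1 q hq)]
    exact P.mem_cl j (hF.1 q hq)
  have h2 : F.image g ⊆ Rp := fun q hq => by
    obtain ⟨p, hp, rfl⟩ := Finset.mem_image.1 hq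
    exact g1 p (hF.1 p hp)
  refine ⟨F.image g, Finset.mem_filter.2 ⟨Finset.mem_powerset.2 h2, fun p hp => hRp.1 p (h2 hp),
    fun p' hp' q' hq' hne h => ?_⟩, fun f => ?_⟩
  · obtain ⟨p, hp, rfl⟩ := Finset.mem_image.1 hp'
    obtain ⟨q, hq, rfl⟩ := Finset.mem_image.1 hq'
    exact hne (congrArg g (h1 p hp q hq (P.cl_eq h)))
  · rw [Finset.sum_image fun p hp q hq e => h1 p hp q hq (by rw [e])]
    exact Finset.sum_congr rfl fun p hp => by rw [hk p (hF.1 p hp)]

end Par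

end Vale.Agent.P116.K
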