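import Vale.Agent.P116.K.Rf0

/-! P116 K/RfB (owner helper18). Monotonicity and concavity of val. Plan: unfold val, W; for every y, x, l admissible on
the right side use Chn.mono; len is monotone and additive for weights continuous on the segment
(cont_ChainZ, interval integrable); all costs are nonnegative (len_nn, hopn_mono).
Helper names end with `_RfB`. -/

open MeasureTheory Set Metric Filter Topology Complex
open scoped ENNReal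

noncomputable section

namespace Vale.Agent.P116.K

open Vale.Agent.P128

namespace Par
variable {P : Par}

theorem le_RfB (b : ℕ → TF P.E) (ρ : ℂ → ℝ) (lam : Cp P.E → ℝ) (ν : Measure ℂ)
    {Z : Set ℂ} {n : ℕ} (k : ℕ) {x y : ℂ} {l : List (Stp P.E)} (hy : y.im = 1 + P.δ)
    (hx : x.im = -P.δ) (hc : P.Chn n (P.R \ Z) x y l) :
    P.val b ρ lam ν Z n k ≤ ENNReal.ofReal (cost b ρ lam n l) + P.tch ν k (trc x l) :=
  iInf₂_le_of_le y hy (iInf₂_le_of_le x hx (iInf₂_le_of_le l hc le_rfl))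

theorem len_RfB {n : ℕ} {O : Set ℂ} {s : Stp P.E} (hs : P.Ok n O s) {ρ₁ ρ₂ ρ₃ : ℂ → ℝ}
    (h1 : ContinuousOn ρ₁ P.Eᶜ) (h2 : ContinuousOn ρ₂ P.Eᶜ) (h3 : ContinuousOn ρ₃ P.Eᶜ) {d : ℝ}
    (h : ∀ y ∉ P.E, ρ₁ y ≤ ρ₂ y + d * ρ₃ y) : s.len ρ₁ ≤ s.len ρ₂ + d * s.len ρ₃ := by
  cases s with
  | jmp => simp [Stp.len]
  | seg x y =>
    have hm : ∀ t ∈ Icc (0 : ℝ) 1, x + t • (y - x) ∈ P.Eᶜ := fun t ht =>
      (hs (mem_ChainZ x y ht)).2
    have hi : ∀ ρ : ℂ → ℝ, ContinuousOn ρ P.Eᶜ →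
        IntervalIntegrable (fun t : ℝ => ρ (x + t • (y - x))) volume 0 1 := fun ρ hρ =>
      ContinuousOn.intervalIntegrable_of_Icc zero_le_one (hρ.comp (by fun_prop) hm)
    simp only [Stp.len]
    rw [← mul_assoc, ← add_mul, ← intervalIntegral.integral_const_mul,
      ← intervalIntegral.integral_add (hi _ h2) ((hi _ h3).const_mul d)]
    exact mul_le_mul_of_nonneg_right (intervalIntegral.integral_mono_on zero_le_one (hi _ h1)
      ((hi _ h2).add ((hi _ h3).const_mul d)) fun t ht => h _ (hm t ht)) dist_nonneg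

theorem nn_RfB {b : ℕ → TF P.E} {ρ : ℂ → ℝ} {lam : Cp P.E → ℝ} (hb : P.Bd b) (p : ∀ z, 0 ≤ ρ z)
    (q : ∀ c, 0 ≤ lam c) (n : ℕ) {k : ℕ} {O : Set ℂ} {l : List (Stp P.E)}
    (h : ∀ s ∈ l, P.Ok k O s) : 0 ≤ cost b ρ lam n l := by
  refine add_nonneg (add_nonneg (List.sum_nonneg fun a ha => ?_) (List.sum_nonneg fun a ha => ?_))
    (hopn_mono (le_refl n) h hb).1
  · obtain ⟨s, -, rfl⟩ := List.mem_map.1 ha
    exact len_nn p s
  · obtain ⟨s, -, rfl⟩ := List.mem_map.1 ha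
    rcases s with ⟨x, y⟩ | ⟨x, y, J, _ | c⟩
    · exact le_rfl
    · exact le_rfl
    · exact q c

theorem val_le {b b' : ℕ → TF P.E} {ρ ρ' : ℂ → ℝ} {lam lam' : Cp P.E → ℝ} {ν ν' : Measure ℂ}
    {Z : Set ℂ} {n n' k k' : ℕ} {e : ℝ≥0∞} (hn : n ≤ n')
    (hb : ∀ l, (∀ s ∈ l, P.Ok n' (P.R \ Z) s) → hopn b n l ≤ hopn b' n' l)
    (hρ : ContinuousOn ρ P.Eᶜ) (hρ' : ContinuousOn ρ' P.Eᶜ) (h : ∀ z, z ∉ P.E → ρ z ≤ ρ' z)
    (hl : ∀ c, lam c ≤ lam' c) (hν : ∀ T, P.tch ν k T ≤ P.tch ν' k' T + e) :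
    P.val b ρ lam ν Z n k ≤ P.val b' ρ' lam' ν' Z n' k' + e := by
  have key : ∀ (y : ℂ) (_ : y.im = 1 + P.δ) (x : ℂ) (_ : x.im = -P.δ) (l : List (Stp P.E))
      (_ : P.Chn n' (P.R \ Z) x y l), P.val b ρ lam ν Z n k ≤
        ENNReal.ofReal (cost b' ρ' lam' n' l) + P.tch ν' k' (trc x l) + e := by
    intro y hy x hx l hc
    refine (le_RfB b ρ lam ν k hy hx (hc.mono hn subset_rfl)).trans ?_
    rw [add_assoc]
    refine add_le_add (ENNReal.ofReal_le_ofReal ?_) (hν _)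
    refine add_le_add (add_le_add (List.sum_le_sum fun s hs => ?_)
      (List.sum_le_sum fun s _ => ?_)) (hb l hc.2.2)
    · have a := len_RfB (hc.2.2 s hs) hρ hρ' hρ' (d := 0) fun z hz => by
        rw [zero_mul, add_zero]
        exact h z hz
      rwa [zero_mul, add_zero] at a
    · rcases s with ⟨x, y⟩ | ⟨x, y, J, _ | c⟩
      · exact le_rfl
      · exact le_rfl
      · exact hl c
  have e1 : P.val b' ρ' lam' ν' Z n' k' + e = ⨅ (y : ℂ) (_ : y.im = 1 + P.δ) (x : ℂ)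
      (_ : x.im = -P.δ) (l : List (Stp P.E)) (_ : P.Chn n' (P.R \ Z) x y l),
        ENNReal.ofReal (cost b' ρ' lam' n' l) + P.tch ν' k' (trc x l) + e := by
    simp only [val, W, ENNReal.iInf_add]
  rw [e1]
  exact le_iInf₂ fun y hy => le_iInf₂ fun x hx => le_iInf₂ fun l hc => key y hy x hx l hc

theorem val_mid {b b₁ b₂ : ℕ → TF P.E} {ρ ρ₁ ρ₂ : ℂ → ℝ} {lam₁ lam₂ : Cp P.E → ℝ}
    {ν₁ ν₂ : Measure ℂ} {Z : Set ℂ} {n n₁ n₂ k : ℕ} (h1 : n₁ ≤ n) (h2 : n₂ ≤ n)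
    (hb₁ : P.Bd b₁) (hb₂ : P.Bd b₂)
    (hb : ∀ l, (∀ s ∈ l, P.Ok n (P.R \ Z) s) →
      hopn b₁ n₁ l ≤ hopn b n l ∧ hopn b₂ n₂ l ≤ hopn b n l)
    (c1 : ContinuousOn ρ₁ P.Eᶜ) (c2 : ContinuousOn ρ₂ P.Eᶜ) (p1 : ∀ z, 0 ≤ ρ₁ z)
    (p2 : ∀ z, 0 ≤ ρ₂ z) (h : ∀ z, z ∉ P.E → ρ z = (ρ₁ z + ρ₂ z) / 2)
    (l1 : ∀ c, 0 ≤ lam₁ c) (l2 : ∀ c, 0 ≤ lam₂ c) :
    P.val b₁ ρ₁ lam₁ ν₁ Z n₁ k + P.val b₂ ρ₂ lam₂ ν₂ Z n₂ k ≤
      2 * P.val b ρ (fun c => (lam₁ c + lam₂ c) / 2) ((2 : ℝ≥0∞)⁻¹ • (ν₁ + ν₂)) Z n k := by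
  have c0 : ContinuousOn ρ P.Eᶜ := ((c1.add c2).div_const 2).congr fun z hz => h z hz
  have c3 : ContinuousOn (fun z => (ρ₁ z - ρ₂ z) / 2) P.Eᶜ := (c1.sub c2).div_const 2
  have hs : ∀ l : List (Stp P.E), (∀ s ∈ l, P.Ok n (P.R \ Z) s) →
      (l.map (Stp.len ρ₁)).sum + (l.map (Stp.tel lam₁)).sum +
        ((l.map (Stp.len ρ₂)).sum + (l.map (Stp.tel lam₂)).sum) ≤
      2 * ((l.map (Stp.len ρ)).sum + (l.map (Stp.tel fun c => (lam₁ c + lam₂ c) / 2)).sum) := by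
    intro l hl
    induction l with
    | nil => simp
    | cons s l ih =>
      have a0 := ih fun s hs => hl s (List.mem_cons_of_mem _ hs)
      have a1 := len_RfB (hl s List.mem_cons_self) c1 c0 c3 (d := 1) fun z hz => by
        rw [h z hz]
        linarith
      have a2 := len_RfB (hl s List.mem_cons_self) c2 c0 c3 (d := -1) fun z hz => by
        rw [h z hz]
        linarith
      have a3 : s.tel lam₁ + s.tel lam₂ = 2 * s.tel fun c => (lam₁ c + lam₂ c) / 2 := by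
        rcases s with ⟨x, y⟩ | ⟨x, y, J, _ | c⟩
        · simp [Stp.tel]
        · simp [Stp.tel]
        · simp only [Stp.tel]
          ring
      simp only [List.map_cons, List.sum_cons]
      linarith
  have key : ∀ (y : ℂ) (_ : y.im = 1 + P.δ) (x : ℂ) (_ : x.im = -P.δ) (l : List (Stp P.E))
      (_ : P.Chn n (P.R \ Z) x y l),
      P.val b₁ ρ₁ lam₁ ν₁ Z n₁ k + P.val b₂ ρ₂ lam₂ ν₂ Z n₂ k ≤
        2 * (ENNReal.ofReal (cost b ρ (fun c => (lam₁ c + lam₂ c) / 2) n l) +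
          P.tch ((2 : ℝ≥0∞)⁻¹ • (ν₁ + ν₂)) k (trc x l)) := by
    intro y hy x hx l hc
    refine (add_le_add (le_RfB b₁ ρ₁ lam₁ ν₁ k hy hx (hc.mono h1 subset_rfl))
      (le_RfB b₂ ρ₂ lam₂ ν₂ k hy hx (hc.mono h2 subset_rfl))).trans ?_
    rw [add_add_add_comm, mul_add]
    refine add_le_add ?_ (le_of_eq ?_)
    · rw [← ENNReal.ofReal_add (nn_RfB hb₁ p1 l1 n₁ hc.2.2) (nn_RfB hb₂ p2 l2 n₂ hc.2.2),
        ← ENNReal.ofReal_ofNat 2, ← ENNReal.ofReal_mul (by norm_num)]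
      refine ENNReal.ofReal_le_ofReal ?_
      have a1 := hs l hc.2.2
      have a2 := hb l hc.2.2
      simp only [cost]
      linarith [a2.1, a2.2]
    · simp only [tch, Measure.smul_apply, Measure.add_apply, smul_eq_mul]
      rw [← mul_assoc, ENNReal.mul_inv_cancel (by norm_num) (by norm_num), one_mul]
  have e1 : 2 * P.val b ρ (fun c => (lam₁ c + lam₂ c) / 2) ((2 : ℝ≥0∞)⁻¹ • (ν₁ + ν₂)) Z n k =
      ⨅ (y : ℂ) (_ : y.im = 1 + P.δ) (x : ℂ)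
      (_ : x.im = -P.δ) (l : List (Stp P.E)) (_ : P.Chn n (P.R \ Z) x y l),
        2 * (ENNReal.ofReal (cost b ρ (fun c => (lam₁ c + lam₂ c) / 2) n l) +
          P.tch ((2 : ℝ≥0∞)⁻¹ • (ν₁ + ν₂)) k (trc x l)) := by
    simp only [val, W, ENNReal.mul_iInf_of_ne (a := 2) (by norm_num) (by norm_num)]
  rw [e1]
  exact le_iInf₂ fun y hy => le_iInf₂ fun x hx => le_iInf₂ fun l hc => key y hy x hx l hc

end Par

end Vale.Agent.P116.K
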