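import Vale.Agent.P116.K.RfA

/-! P116 K/RfC (owner helper18). The constraint. Plan: ((a+b)/2)^2 <= (a^2+b^2)/2 pointwise. ms_mid: ker x y * g x is
integrable in x for y off E (ker_dom with S = {y}, ker_meas). Kc.nrm: exists_sep and
Summable.tsum_le_of_sum_le. Kc.mass: exists_reps j, E is covered by the clusters, and each has
mass at most one (G a singleton, cl_pt).
Helper names end with `_RfC`. -/

open MeasureTheory Set Metric Filter Topology Complex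
open scoped ENNReal

noncomputable section

namespace Vale.Agent.P116.K

open Vale.Agent.P128

namespace Par
variable {P : Par}

theorem ms_mid {g₁ g₂ : ℂ → ℝ} (h1 : MemLp g₁ 2 volume) (h2 : MemLp g₂ 2 volume) {y : ℂ}
    (hy : y ∉ P.E) : P.ms (fun x => (g₁ x + g₂ x) / 2) y = (P.ms g₁ y + P.ms g₂ y) / 2 := by
  have e : (fun x => P.ker x y * ((g₁ x + g₂ x) / 2)) =
      fun x => (P.ker x y * g₁ x + P.ker x y * g₂ x) / 2 := by
    funext x; ring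
  unfold ms
  rw [e, integral_div, integral_add (int_KerC h1 hy) (int_KerC h2 hy)]

theorem ml_RfC {g₁ g₂ : ℂ → ℝ} (h1 : MemLp g₁ 2 volume) (h2 : MemLp g₂ 2 volume) :
    MemLp (fun x => (g₁ x + g₂ x) / 2) 2 volume := by
  have h := (h1.add h2).const_mul (1 / 2 : ℝ)
  have e : (fun x => (g₁ x + g₂ x) / 2) = fun x => (1 / 2 : ℝ) * (g₁ + g₂) x := by
    funext x; simp only [Pi.add_apply]; ring
  rw [e]; exact h

theorem sq_RfC (a b : ℝ) : ((a + b) / 2) ^ 2 ≤ (a ^ 2 + b ^ 2) / 2 := by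
  nlinarith [sq_nonneg (a - b)]

theorem int_RfC {g₁ g₂ : ℂ → ℝ} (h1 : MemLp g₁ 2 volume) (h2 : MemLp g₂ 2 volume) :
    ∫ x, ((g₁ x + g₂ x) / 2) ^ 2 ≤ ((∫ x, g₁ x ^ 2) + ∫ x, g₂ x ^ 2) / 2 := by
  rw [← integral_add h1.integrable_sq h2.integrable_sq, ← integral_div]
  exact integral_mono (ml_RfC h1 h2).integrable_sq
    ((h1.integrable_sq.add h2.integrable_sq).div_const 2) fun x => sq_RfC _ _

theorem mid_RfC (ν₁ ν₂ : Measure ℂ) [IsFiniteMeasure ν₁] [IsFiniteMeasure ν₂] (S : Set ℂ) :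
    (((2 : ℝ≥0∞)⁻¹ • (ν₁ + ν₂)) S).toReal = ((ν₁ S).toReal + (ν₂ S).toReal) / 2 := by
  rw [Measure.smul_apply, Measure.add_apply, smul_eq_mul, ENNReal.toReal_mul,
    ENNReal.toReal_add (measure_ne_top _ _) (measure_ne_top _ _), ENNReal.toReal_inv]
  norm_num
  ring

theorem Kc.mid {j : ℕ} {g₁ g₂ : ℂ → ℝ} {lam₁ lam₂ : Cp P.E → ℝ} {ν₁ ν₂ : Measure ℂ}
    (h1 : P.Kc j g₁ lam₁ ν₁) (h2 : P.Kc j g₂ lam₂ ν₂) :
    P.Kc j (fun x => (g₁ x + g₂ x) / 2) (fun c => (lam₁ c + lam₂ c) / 2)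
      ((2 : ℝ≥0∞)⁻¹ • (ν₁ + ν₂)) := by
  have := h1.fin
  have := h2.fin
  refine ⟨⟨ml_RfC h1.tv.g2 h2.tv.g2, fun x => ?_, fun c => ?_, ?_⟩, ?_, ?_, fun l hl G hG => ?_⟩
  · have := h1.tv.g0 x
    have := h2.tv.g0 x
    positivity
  · have := h1.tv.l0 c
    have := h2.tv.l0 c
    positivity
  · exact Summable.of_nonneg_of_le (fun c => sq_nonneg _) (fun c => sq_RfC _ _)
      ((h1.tv.l2.add h2.tv.l2).div_const 2)
  · refine ⟨?_⟩
    rw [Measure.smul_apply, smul_eq_mul]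
    exact ENNReal.mul_lt_top (by simp) (measure_lt_top _ _)
  · rw [Measure.smul_apply, Measure.add_apply, h1.off, h2.off]
    simp
  · have a1 := h1.le l hl G hG
    have a2 := h2.le l hl G hG
    have a3 := int_RfC h1.tv.g2 h2.tv.g2
    have a4 : ∑ c ∈ G, ((lam₁ c + lam₂ c) / 2 +
        (((2 : ℝ≥0∞)⁻¹ • (ν₁ + ν₂)) (P.E ∩ P.cl l c.pt)).toReal) ^ 2 ≤
        ((∑ c ∈ G, (lam₁ c + (ν₁ (P.E ∩ P.cl l c.pt)).toReal) ^ 2) +
          ∑ c ∈ G, (lam₂ c + (ν₂ (P.E ∩ P.cl l c.pt)).toReal) ^ 2) / 2 := by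
      rw [← Finset.sum_add_distrib, Finset.sum_div]
      refine Finset.sum_le_sum fun c _ => ?_
      rw [mid_RfC]
      refine le_trans (le_of_eq ?_) (sq_RfC _ _)
      ring
    linarith

theorem Kc.nrm {j : ℕ} {g : ℂ → ℝ} {lam : Cp P.E → ℝ} {ν : Measure ℂ} (h : P.Kc j g lam ν) :
    (∫ x, g x ^ 2) + ∑' c, lam c ^ 2 ≤ 1 := by
  have a : ∑' c, lam c ^ 2 ≤ 1 - ∫ x, g x ^ 2 := by
    refine h.tv.l2.tsum_le_of_sum_le fun G => ?_
    obtain ⟨l, hl, hG⟩ := exists_sep (P := P) G j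
    have a1 := h.le l hl G hG
    have a2 : ∑ c ∈ G, lam c ^ 2 ≤ ∑ c ∈ G, (lam c + (ν (P.E ∩ P.cl l c.pt)).toReal) ^ 2 := by
      refine Finset.sum_le_sum fun c _ => ?_
      exact pow_le_pow_left₀ (h.tv.l0 c) (le_add_of_nonneg_right ENNReal.toReal_nonneg) 2
    linarith
  linarith

theorem one_RfC {j : ℕ} {g : ℂ → ℝ} {lam : Cp P.E → ℝ} {ν : Measure ℂ} (h : P.Kc j g lam ν)
    {q : ℂ} (hq : q ∈ P.E) : ν (P.E ∩ P.cl j q) ≤ 1 := by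
  have := h.fin
  have a1 := h.le j le_rfl {Cp.mk q hq} (by
    intro c hc c' hc' hne
    rw [Finset.mem_singleton] at hc hc'
    exact absurd (hc.trans hc'.symm) hne)
  rw [Finset.sum_singleton, P.cl_pt j hq] at a1
  have a2 : 0 ≤ ∫ x, g x ^ 2 := integral_nonneg fun x => sq_nonneg _
  have a3 := h.tv.l0 (Cp.mk q hq)
  have a4 : 0 ≤ (ν (P.E ∩ P.cl j q)).toReal := ENNReal.toReal_nonneg
  have a5 : (ν (P.E ∩ P.cl j q)).toReal ≤ 1 := by nlinarith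
  rw [← ENNReal.ofReal_toReal (measure_ne_top ν (P.E ∩ P.cl j q))]
  exact ENNReal.ofReal_le_one.2 a5

theorem kc_mass (j : ℕ) : ∃ C : ℕ, ∀ g lam ν, P.Kc j g lam ν → ν univ ≤ C := by
  obtain ⟨F, hF, hc⟩ := P.exists_reps j
  refine ⟨F.card, fun g lam ν h => ?_⟩
  have a1 : (univ : Set ℂ) ⊆ (⋃ q ∈ F, P.E ∩ P.cl j q) ∪ P.Eᶜ := by
    intro p _
    by_cases hp : p ∈ P.E
    · obtain ⟨q, hq, hpq⟩ := hc p hp
      exact Or.inl (mem_iUnion₂.2 ⟨q, hq, hp, hpq⟩)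
    · exact Or.inr hp
  calc ν univ ≤ ν ((⋃ q ∈ F, P.E ∩ P.cl j q) ∪ P.Eᶜ) := measure_mono a1
    _ ≤ ν (⋃ q ∈ F, P.E ∩ P.cl j q) + ν P.Eᶜ := measure_union_le _ _
    _ = ν (⋃ q ∈ F, P.E ∩ P.cl j q) := by rw [h.off, add_zero]
    _ ≤ ∑ q ∈ F, ν (P.E ∩ P.cl j q) := measure_biUnion_finset_le _ _
    _ ≤ ∑ _q ∈ F, (1 : ℝ≥0∞) := Finset.sum_le_sum fun q hq => one_RfC h (hF.1 q hq)
    _ = F.card := by simp

end Par

end Vale.Agent.P116.K
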