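import Vale.Agent.P116.K.Rf0

/-! P116 K/RfD (owner helper18). Limits of measures. Plan: isCompact_setOfPred_finiteMeasure_le_of_isCompact, the limit along
Ultrafilter.of atTop (IsCompact.ultrafilter_le_nhds); E inter cl l p and E minus cl l p are
disjoint compact sets (fr_cl_disj), Urysohn function as BoundedContinuousFunction, whose integral
is the mass of E inter cl l p. tch_near: exists_reps; tch nu k T is the sum of the masses of
E inter cl k q over the representatives q whose cluster meets T.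
Helper names end with `_RfD`. -/

open MeasureTheory Set Metric Filter Topology Complex
open scoped ENNReal

noncomputable section

namespace Vale.Agent.P116.K

open Vale.Agent.P128

namespace Par
variable {P : Par}

theorem ury_RfD (l : ℕ) (p : ℂ) : ∃ f : BoundedContinuousFunction ℂ NNReal,
    ∀ m : Measure ℂ, m P.Eᶜ = 0 → ∫⁻ x, f x ∂m = m (P.E ∩ P.cl l p) := by
  have hE := P.dom.cpt.isClosed
  have hA : IsClosed (P.E ∩ P.cl l p) := by
    have e : P.E ∩ P.cl l p = P.E ∩ closure (P.cl l p) := by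
      refine Subset.antisymm (inter_subset_inter_right _ subset_closure) fun z hz => ⟨hz.1, ?_⟩
      by_contra hn
      refine disjoint_left.1 (P.fr_cl_disj l p) ?_ hz.1
      rw [(P.cl_open l p).frontier_eq]
      exact ⟨hz.2, hn⟩
    rw [e]
    exact hE.inter isClosed_closure
  obtain ⟨f, f0, f1, -⟩ := exists_bounded_zero_one_of_closed
    (hE.inter (P.cl_open l p).isClosed_compl) hA
    (disjoint_left.2 fun z h1 h2 => h1.2 h2.2)
  refine ⟨f.nnrealPart, fun m hm => ?_⟩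
  rw [← lintegral_indicator_one hA.measurableSet]
  have h1 : ∀ᵐ x ∂m, x ∈ P.E := hm
  refine lintegral_congr_ae (h1.mono fun x hx => ?_)
  have e : f.nnrealPart x = Real.toNNReal (f x) := rfl
  by_cases hc : x ∈ P.cl l p
  · have h2 : f x = 1 := f1 ⟨hx, hc⟩
    simp only [e, h2]
    rw [indicator_of_mem (show x ∈ P.E ∩ P.cl l p from ⟨hx, hc⟩)]
    simp
  · have h2 : f x = 0 := f0 ⟨hx, hc⟩
    simp only [e, h2]
    rw [indicator_of_notMem (fun h : x ∈ P.E ∩ P.cl l p => hc h.2)]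
    simp

theorem meas_lim {ν : ℕ → Measure ℂ} {C : ℕ} (h0 : ∀ k, ν k P.Eᶜ = 0) (h1 : ∀ k, ν k univ ≤ C) :
    ∃ (μ : Measure ℂ) (U : Filter ℕ), IsFiniteMeasure μ ∧ U.NeBot ∧ U ≤ atTop ∧ ∀ l p,
      Tendsto (fun k => ν k (P.E ∩ P.cl l p)) U (𝓝 (μ (P.E ∩ P.cl l p))) := by
  have hf : ∀ k, IsFiniteMeasure (ν k) := fun k => ⟨(h1 k).trans_lt (ENNReal.natCast_lt_top C)⟩
  let F : ℕ → FiniteMeasure ℂ := fun k => ⟨ν k, hf k⟩
  have hK := isCompact_setOfPred_finiteMeasure_le_of_isCompact (C : NNReal) P.dom.cpt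
  obtain ⟨μ, hμ, ht⟩ := hK.ultrafilter_le_nhds ((Ultrafilter.of (atTop : Filter ℕ)).map F) (by
    rw [le_principal_iff, Ultrafilter.coe_map, mem_map]
    refine univ_mem' fun k => ⟨?_, ?_⟩
    · rw [← ENNReal.coe_le_coe, FiniteMeasure.ennreal_mass]
      exact h1 k
    · exact (FiniteMeasure.null_iff_toMeasure_null _ _).2 (h0 k))
  have ht' : Tendsto F (Ultrafilter.of (atTop : Filter ℕ)) (𝓝 μ) := ht
  refine ⟨μ, (Ultrafilter.of (atTop : Filter ℕ) : Filter ℕ), inferInstance, inferInstance,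
    Ultrafilter.of_le _, fun l p => ?_⟩
  obtain ⟨f, hf⟩ := ury_RfD (P := P) l p
  have h2 := FiniteMeasure.tendsto_iff_forall_lintegral_tendsto.1 ht' f
  rw [hf _ ((FiniteMeasure.null_iff_toMeasure_null _ _).1 hμ.2)] at h2
  exact h2.congr fun k => hf (ν k) (h0 k)

open Classical in
theorem sum_RfD {l : ℕ} {F : Finset ℂ} (hF : P.Sep l F) (hc : ∀ p ∈ P.E, ∃ q ∈ F, p ∈ P.cl l q)
    (m : Measure ℂ) (T : Set ℂ) : P.tch m l T =
      ∑ q ∈ F.filter (fun q => (P.cl l q ∩ T).Nonempty), m (P.E ∩ P.cl l q) := by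
  rw [← measure_biUnion_finset]
  · refine congrArg m (Set.ext fun p => ⟨fun hp => ?_, fun hp => ?_⟩)
    · obtain ⟨q, hq, h2⟩ := hc p hp.1
      refine mem_iUnion₂.2 ⟨q, Finset.mem_filter.2 ⟨hq, ?_⟩, hp.1, h2⟩
      rw [← P.cl_eq h2]
      exact hp.2
    · obtain ⟨q, hq, h2⟩ := mem_iUnion₂.1 hp
      refine ⟨h2.1, ?_⟩
      rw [P.cl_eq h2.2]
      exact (Finset.mem_filter.1 hq).2
  · intro p hp q hq hne
    have hp' := (Finset.mem_filter.1 (Finset.mem_coe.1 hp)).1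
    have hq' := (Finset.mem_filter.1 (Finset.mem_coe.1 hq)).1
    refine disjoint_left.2 fun z h1 h2 => hF.2 p hp' q hq' hne ?_
    rw [← P.cl_eq h1.2, P.cl_eq h2.2]
    exact P.mem_cl l (hF.1 q hq')
  · exact fun q _ => P.dom.cpt.measurableSet.inter (P.cl_open l q).measurableSet

theorem tch_near {ν : ℕ → Measure ℂ} {μ : Measure ℂ} [IsFiniteMeasure μ] {U : Filter ℕ}
    (h : ∀ l p, Tendsto (fun k => ν k (P.E ∩ P.cl l p)) U (𝓝 (μ (P.E ∩ P.cl l p)))) (l : ℕ)
    {e : ℝ≥0∞} (he : 0 < e) : ∀ᶠ k in U, ∀ T, P.tch (ν k) l T ≤ P.tch μ l T + e := by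
  classical
  obtain ⟨F, hF, hc⟩ := P.exists_reps l
  have h1 : ∀ G ∈ F.powerset, ∀ᶠ k in U,
      ∑ q ∈ G, ν k (P.E ∩ P.cl l q) < ∑ q ∈ G, μ (P.E ∩ P.cl l q) + e := fun G _ =>
    (tendsto_finsetSum G fun q _ => h l q).eventually_lt_const
      (ENNReal.lt_add_right (ENNReal.sum_ne_top.2 fun q _ => measure_ne_top _ _) he.ne')
  filter_upwards [(eventually_all_finset _).2 h1] with k hk T
  rw [sum_RfD hF hc, sum_RfD hF hc]
  exact (hk _ (Finset.mem_powerset.2 (Finset.filter_subset _ _))).le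

end Par

end Vale.Agent.P116.K
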