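import Vale.Agent.P116.K.Rf0

/-! P116 K/RfE (owner helper18). Domination. Plan: domL by dom18 in Lp R 2 (MemLp.toLp; g = max 0 of the representative of
u 0 + G; norm (u 0 + G - u k) <= 4 eps). domS: the same in Lp over Measure.count with the top
sigma algebra, or in lp by hand: lam = u 0 + tsum |u (k+1) - u k|.
Helper names end with `_RfE`. -/

open MeasureTheory Set Metric Filter Topology Complex
open scoped ENNReal

noncomputable section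

namespace Vale.Agent.P116.K

open Vale.Agent.P128

namespace Par
variable {P : Par}

theorem nsq_RfE {α : Type} [MeasurableSpace α] {μ : Measure α} (f g : Lp ℝ 2 μ) {u v : α → ℝ}
    (hf : f =ᵐ[μ] u) (hg : g =ᵐ[μ] v) : ‖f - g‖ ^ 2 = ∫ x, (u x - v x) ^ 2 ∂μ := by
  rw [← real_inner_self_eq_norm_sq, L2.inner_def]
  refine integral_congr_ae ?_
  filter_upwards [Lp.coeFn_sub f g, hf, hg] with x h1 h2 h3
  rw [h1, Pi.sub_apply, h2, h3, real_inner_self_eq_norm_sq, Real.norm_eq_abs, sq_abs]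

theorem dom_RfE {α : Type} [MeasurableSpace α] {μ : Measure α} {u : ℕ → α → ℝ}
    (h : ∀ k, MemLp (u k) 2 μ) (h0 : ∀ k x, 0 ≤ u k x) {ε : ℝ}
    (hε : 0 < ε) (hd : ∀ k, ∫ x, (u (k + 1) x - u k x) ^ 2 ∂μ ≤ (ε / 2 ^ k) ^ 2) :
    ∃ g : α → ℝ, MemLp g 2 μ ∧ (∀ x, 0 ≤ g x) ∧
      ∀ k, (∀ᵐ x ∂μ, u k x ≤ g x) ∧ ∫ x, (g x - u k x) ^ 2 ∂μ ≤ (4 * ε) ^ 2 := by
  obtain ⟨U, e⟩ : ∃ U : ℕ → Lp ℝ 2 μ, ∀ k, U k =ᵐ[μ] u k :=
    ⟨fun k => (h k).toLp _, fun k => (h k).coeFn_toLp⟩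
  have h1 : ∀ k, ‖U (k + 1) - U k‖ ≤ ε / 2 ^ k := fun k =>
    (abs_le_of_sq_le_sq' ((nsq_RfE _ _ (e _) (e _)).trans_le (hd k)) (by positivity)).2
  obtain ⟨G, G0, G1, G2⟩ := dom18 U h1
  have h2 : ∀ k, ∀ᵐ x ∂μ, u k x ≤ (U 0 + G) x := fun k => by
    filter_upwards [(Lp.coeFn_le _ _).2 (G2 k), e k] with x a b
    rwa [b] at a
  have h3 : (U 0 + G : Lp ℝ 2 μ) =ᵐ[μ] fun x => max 0 ((U 0 + G) x) :=
    (h2 0).mono fun x hx => (max_eq_right ((h0 0 x).trans hx)).symm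
  have h4 : ∀ k, ‖U 0 - U k‖ ≤ 2 * ε - 2 * (ε / 2 ^ k) := fun k => by
    induction k with
    | zero => simp
    | succ k ih =>
      have h5 := norm_sub_le_norm_sub_add_norm_sub (U 0) (U k) (U (k + 1))
      have h6 : ε / 2 ^ (k + 1) = ε / 2 ^ k / 2 := by rw [pow_succ, div_div]
      rw [norm_sub_rev (U k)] at h5
      linarith [h1 k]
  refine ⟨fun x => max 0 ((U 0 + G) x), (Lp.memLp _).ae_eq h3, fun x => le_max_left _ _,
    fun k => ⟨(h2 k).mono fun x hx => hx.trans (le_max_right _ _), ?_⟩⟩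
  rw [← nsq_RfE _ _ h3 (e k), add_sub_right_comm]
  refine pow_le_pow_left₀ (norm_nonneg _) ((norm_add_le _ _).trans ?_) 2
  have h5 : 0 ≤ ε / 2 ^ k := by positivity
  linarith [h4 k]

theorem cnt_RfE {ι : Type} [MeasurableSpace ι] [MeasurableSingletonClass ι] {f g : ι → ℝ}
    (hf : MemLp f 2 Measure.count) (hg : MemLp g 2 Measure.count) :
    ∫ x, (f x - g x) ^ 2 ∂Measure.count = ∑' x, (f x - g x) ^ 2 := by
  have h : Integrable (fun x => (f x - g x) ^ 2) Measure.count := (hf.sub hg).integrable_sq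
  rw [Measure.count] at h ⊢
  rw [integral_sum_measure h]
  simp only [integral_dirac]

theorem domL {u : ℕ → ℂ → ℝ} (h : ∀ k, MemLp (u k) 2 volume) (h0 : ∀ k x, 0 ≤ u k x) {ε : ℝ}
    (hε : 0 < ε) (hd : ∀ k, ∫ x, (u (k + 1) x - u k x) ^ 2 ≤ (ε / 2 ^ k) ^ 2) :
    ∃ g : ℂ → ℝ, MemLp g 2 volume ∧ (∀ x, 0 ≤ g x) ∧
      ∀ k, (∀ᵐ x, u k x ≤ g x) ∧ ∫ x, (g x - u k x) ^ 2 ≤ (4 * ε) ^ 2 := by
  exact dom_RfE h h0 hε hd

theorem domS {ι : Type} {u : ℕ → ι → ℝ} (h : ∀ k, Summable fun c => u k c ^ 2)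
    (h0 : ∀ k c, 0 ≤ u k c) {ε : ℝ} (hε : 0 < ε)
    (hd : ∀ k, ∑' c, (u (k + 1) c - u k c) ^ 2 ≤ (ε / 2 ^ k) ^ 2) :
    ∃ g : ι → ℝ, (Summable fun c => g c ^ 2) ∧ (∀ c, 0 ≤ g c) ∧
      ∀ k, (∀ c, u k c ≤ g c) ∧ ∑' c, (g c - u k c) ^ 2 ≤ (4 * ε) ^ 2 := by
  let _ : MeasurableSpace ι := ⊤
  have key : ∀ f : ι → ℝ, MemLp f 2 Measure.count ↔ Summable fun c => f c ^ 2 := fun f => by
    rw [memLp_two_iff_integrable_sq measurable_from_top.aestronglyMeasurable, integrable_count_iff]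
    simp only [norm_pow, Real.norm_eq_abs, sq_abs]
  have h' := fun k => (key _).2 (h k)
  obtain ⟨g, h1, h2, h3⟩ := dom_RfE h' h0 hε fun k => (cnt_RfE (h' _) (h' _)).trans_le (hd k)
  exact ⟨g, (key _).1 h1, h2, fun k =>
    ⟨Measure.ae_count_iff.1 (h3 k).1, (cnt_RfE h1 (h' _)).symm.trans_le (h3 k).2⟩⟩

end Par

end Vale.Agent.P116.K
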