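import Vale.Agent.P116.K.RfE

/-! P116 K/RfF (owner helper18). Selection. Plan: cauchy18 on the subtype of the x with Tv (g x) (lam x), with values in
WithLp 2 (Lp R 2 volume x lp (fun _ => R) 2); then domL and domS with eps / 4.
Helper names end with `_RfF`. -/

open MeasureTheory Set Metric Filter Topology Complex
open scoped ENNReal

noncomputable section

namespace Vale.Agent.P116.K

open Vale.Agent.P128

theorem nrmL_RfF {g : ℂ → ℝ} (hg : MemLp g 2 volume) : ‖hg.toLp g‖ ^ 2 = ∫ z, g z ^ 2 := by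
  rw [← real_inner_self_eq_norm_sq, L2.inner_def]
  refine integral_congr_ae (hg.coeFn_toLp.mono fun z hz => ?_)
  simp only [hz, real_inner_self_eq_norm_sq, Real.norm_eq_abs, sq_abs]

theorem mem_RfF {ι : Type} {u : ι → ℝ} (h : Summable fun c => u c ^ 2) : Memℓp u 2 :=
  memℓp_gen (by simpa using h)

theorem nrmS_RfF {ι : Type} (u : lp (fun _ : ι => ℝ) 2) : ‖u‖ ^ 2 = ∑' c, u c ^ 2 := by
  simpa using lp.norm_rpow_eq_tsum (p := 2) (by simp) u

namespace Par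
variable {P : Par}

theorem sel {X : Type} (g : X → ℂ → ℝ) (lam : X → Cp P.E → ℝ) {T : ℕ → Set X} (ha : Antitone T)
    (hne : ∀ k, (T k).Nonempty)
    (hb : ∀ k, ∀ x ∈ T k, P.Tv (g x) (lam x) ∧ (∫ z, g x z ^ 2) + ∑' c, lam x c ^ 2 ≤ 1)
    (hc : ∀ k, ∀ x ∈ T k, ∀ y ∈ T k, ∃ z ∈ T k, (g z = fun w => (g x w + g y w) / 2) ∧
      lam z = fun c => (lam x c + lam y c) / 2) {ε : ℝ} (hε : 0 < ε) :
    ∃ (t : ℕ → X) (G : ℂ → ℝ) (L : Cp P.E → ℝ), P.Tv G L ∧ ∀ k, t k ∈ T k ∧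
      (∀ᵐ z, g (t k) z ≤ G z) ∧ (∀ c, lam (t k) c ≤ L c) ∧
      ∫ z, (G z - g (t k) z) ^ 2 ≤ ε ^ 2 ∧ ∑' c, (L c - lam (t k) c) ^ 2 ≤ ε ^ 2 := by
  let a : {x // P.Tv (g x) (lam x)} → Lp ℝ 2 (volume : Measure ℂ) := fun x => x.2.g2.toLp (g x)
  let b : {x // P.Tv (g x) (lam x)} → lp (fun _ : Cp P.E => ℝ) 2 := fun x =>
    ⟨lam x, mem_RfF x.2.l2⟩
  obtain ⟨t, ht, hd⟩ := cauchy18 (fun x => WithLp.toLp 2 (a x, b x))
    (T := fun k => Subtype.val ⁻¹' T k) (fun k l h => preimage_mono (ha h))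
    (fun k => (hne k).elim fun x hx => ⟨⟨x, (hb k x hx).1⟩, hx⟩) (M := 1)
    (fun k x hx => by
      refine (sq_le_one_iff₀ (norm_nonneg _)).1 ?_
      rw [WithLp.prod_norm_sq_eq_of_L2]
      exact (congrArg₂ (· + ·) (nrmL_RfF x.2.g2) (nrmS_RfF (b x))).trans_le (hb k x hx).2)
    (fun k x hx y hy => by
      obtain ⟨z, hz, e1, e2⟩ := hc k x hx y hy
      refine ⟨⟨z, (hb k z hz).1⟩, hz, ?_⟩
      rw [← WithLp.toLp_add, ← WithLp.toLp_smul]
      refine congrArg _ (Prod.ext ?_ (lp.ext (funext fun c => ?_)))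
      · refine MemLp.toLp_congr (hb k z hz).1.g2 ((x.2.g2.add y.2.g2).const_smul (1 / 2 : ℝ))
          (ae_of_all _ fun w => ?_)
        rw [e1]
        simp only [Pi.smul_apply, Pi.add_apply, smul_eq_mul]
        ring
      · change lam z c = 1 / 2 * (lam x c + lam y c)
        rw [e2]
        ring) (ε := ε / 4) (by positivity)
  have h1 : ∀ k, (∫ z, (g (t (k + 1)) z - g (t k) z) ^ 2) +
      ∑' c, (lam (t (k + 1)) c - lam (t k) c) ^ 2 ≤ (ε / 4 / 2 ^ k) ^ 2 := fun k => by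
    have h2 := pow_le_pow_left₀ (norm_nonneg _) (hd k) 2
    rw [← WithLp.toLp_sub, WithLp.prod_norm_sq_eq_of_L2] at h2
    exact (congrArg₂ (· + ·) (nrmL_RfF ((t (k + 1)).2.g2.sub (t k).2.g2))
      (nrmS_RfF (b (t (k + 1)) - b (t k)))).symm.trans_le h2
  obtain ⟨G, g1, g2, g3⟩ := domL (u := fun k => g (t k)) (fun k => (t k).2.g2)
    (fun k => (t k).2.g0) (ε := ε / 4) (by positivity) fun k =>
      le_trans (le_add_of_nonneg_right (tsum_nonneg fun c => sq_nonneg _)) (h1 k)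
  obtain ⟨L, l1, l2, l3⟩ := domS (u := fun k => lam (t k)) (fun k => (t k).2.l2)
    (fun k => (t k).2.l0) (ε := ε / 4) (by positivity) fun k =>
      le_trans (le_add_of_nonneg_left (integral_nonneg fun c => sq_nonneg _)) (h1 k)
  rw [mul_div_cancel₀ ε four_ne_zero] at g3 l3
  exact ⟨fun k => t k, G, L, ⟨g1, g2, l2, l1⟩, fun k =>
    ⟨ht k, (g3 k).1, (l3 k).1, (g3 k).2, (l3 k).2⟩⟩

end Par

end Vale.Agent.P116.K
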