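import Vale.Agent.P116.K.RfA

/-! P116 K/RfG (owner helper18). The norm of the limit test. Plan: (a+b)^2 <= (1+eps) a^2 + (1+1/eps) b^2. For a finite set F
of components take l from exists_sep; for every k the integral of G^2 plus the sum over F of
(L c + nu k (E inter cl l c))^2 is at most (1+eps) + (1+1/eps) * 2 eps^2 <= (1+2 eps)^2; pass to
the limit along U (toReal is continuous at finite values), mu c <= mu (E inter cl l c.pt) by
cmp_sub_cl; finally bound the tsum by the finite sums (Real.tsum_le_of_sum_le or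
tsum_le_of_sum_le').
Helper names end with `_RfG`. -/

open MeasureTheory Set Metric Filter Topology Complex
open scoped ENNReal

noncomputable section

namespace Vale.Agent.P116.K

open Vale.Agent.P128

namespace Par
variable {P : Par}

theorem sq_RfG (ε a b : ℝ) : ε * (a + b) ^ 2 ≤ ε * (1 + ε) * a ^ 2 + (1 + ε) * b ^ 2 := by
  linarith [sq_nonneg (ε * a - b)]

theorem nv_lim {j : ℕ} {g : ℕ → ℂ → ℝ} {lam : ℕ → Cp P.E → ℝ} {ν : ℕ → Measure ℂ}
    (h : ∀ k, P.Kc j (g k) (lam k) (ν k)) {μ : Measure ℂ} [IsFiniteMeasure μ] {U : Filter ℕ}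
    [U.NeBot] (hU : ∀ l p, Tendsto (fun k => ν k (P.E ∩ P.cl l p)) U (𝓝 (μ (P.E ∩ P.cl l p))))
    {G : ℂ → ℝ} {L : Cp P.E → ℝ} (hG : P.Tv G L) {ε : ℝ} (hε : 0 < ε)
    (h1 : ∀ k, ∫ z, (G z - g k z) ^ 2 ≤ ε ^ 2) (h2 : ∀ k, ∑' c, (L c - lam k c) ^ 2 ≤ ε ^ 2) :
    P.nv G (fun c => L c + (μ c.1).toReal) ≤ 1 + 2 * ε := by
  refine Real.sqrt_le_iff.2 ⟨by linarith, ?_⟩
  rw [← le_sub_iff_add_le']
  refine Real.tsum_le_of_sum_le (fun c => sq_nonneg _) fun F => ?_
  obtain ⟨l, hl, hF⟩ := exists_sep F j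
  have hk : ∀ k, ∑ c ∈ F, (L c + (ν k (P.E ∩ P.cl l c.pt)).toReal) ^ 2 ≤
      (1 + 2 * ε) ^ 2 - ∫ x, G x ^ 2 := fun k => by
    have a0 := (h k).le l hl F hF
    have i1 := hG.g2.integrable_sq
    have i2 := (h k).tv.g2.integrable_sq
    have i3 : Integrable fun z => (G z - g k z) ^ 2 := (hG.g2.sub (h k).tv.g2).integrable_sq
    have a1 : ε * ∫ x, G x ^ 2 ≤
        ε * (1 + ε) * (∫ x, g k x ^ 2) + (1 + ε) * ∫ z, (G z - g k z) ^ 2 := by
      rw [← integral_const_mul, ← integral_const_mul, ← integral_const_mul,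
        ← integral_add (i2.const_mul _) (i3.const_mul _)]
      refine integral_mono (i1.const_mul _) ((i2.const_mul _).add (i3.const_mul _)) fun z => ?_
      have := sq_RfG ε (g k z) (G z - g k z)
      rwa [add_sub_cancel] at this
    have s1 : Summable fun c => (L c - lam k c) ^ 2 := by
      refine Summable.of_nonneg_of_le (fun c => sq_nonneg _) (fun c => ?_) (hG.l2.add (h k).tv.l2)
      have := mul_nonneg (hG.l0 c) ((h k).tv.l0 c)
      linarith [sub_sq (L c) (lam k c)]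
    have a2 : ∑ c ∈ F, (L c - lam k c) ^ 2 ≤ ε ^ 2 :=
      (s1.sum_le_tsum F fun c _ => sq_nonneg _).trans (h2 k)
    have a3 : ε * ∑ c ∈ F, (L c + (ν k (P.E ∩ P.cl l c.pt)).toReal) ^ 2 ≤
        ε * (1 + ε) * ∑ c ∈ F, (lam k c + (ν k (P.E ∩ P.cl l c.pt)).toReal) ^ 2 +
          (1 + ε) * ∑ c ∈ F, (L c - lam k c) ^ 2 := by
      rw [Finset.mul_sum, Finset.mul_sum, Finset.mul_sum, ← Finset.sum_add_distrib]
      refine Finset.sum_le_sum fun c _ => ?_
      have := sq_RfG ε (lam k c + (ν k (P.E ∩ P.cl l c.pt)).toReal) (L c - lam k c)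
      rwa [show lam k c + (ν k (P.E ∩ P.cl l c.pt)).toReal + (L c - lam k c) =
        L c + (ν k (P.E ∩ P.cl l c.pt)).toReal by ring] at this
    have e1 : 0 < 1 + ε := by linarith
    have a4 := mul_le_mul_of_nonneg_left a0 (mul_pos hε e1).le
    have a5 := mul_le_mul_of_nonneg_left a2 e1.le
    have a6 := mul_le_mul_of_nonneg_left (h1 k) e1.le
    refine le_of_mul_le_mul_left ?_ hε
    have a7 : 0 ≤ ε * ε := by positivity
    have a8 : 0 ≤ ε * ε * ε := by positivity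
    rw [mul_add] at a4
    rw [mul_sub]
    linarith
  have ht : Tendsto (fun k => ∑ c ∈ F, (L c + (ν k (P.E ∩ P.cl l c.pt)).toReal) ^ 2) U
      (𝓝 (∑ c ∈ F, (L c + (μ (P.E ∩ P.cl l c.pt)).toReal) ^ 2)) :=
    tendsto_finsetSum _ fun c _ => (tendsto_const_nhds.add
      ((ENNReal.tendsto_toReal (measure_ne_top μ _)).comp (hU l c.pt))).pow 2
  refine le_trans (Finset.sum_le_sum fun c _ => ?_) (le_of_tendsto' ht hk)
  obtain ⟨b1, b2⟩ := c.2.choose_spec
  have b3 : c.1 ⊆ P.E ∩ P.cl l c.pt := fun z hz =>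
    ⟨connectedComponentIn_subset _ _ (b2 ▸ hz), P.cmp_sub_cl l b1 (b2 ▸ hz)⟩
  exact pow_le_pow_left₀ (add_nonneg (hG.l0 c) ENNReal.toReal_nonneg)
    (add_le_add le_rfl (ENNReal.toReal_mono (measure_ne_top μ _) (measure_mono b3))) 2

end Par

end Vale.Agent.P116.K
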