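import Vale.Agent.P116.K.RfB
import Vale.Agent.P116.K.RfC

/-! P116 K/RfH (owner helper18). Failing tests form a decreasing sequence of midpoint convex sets. Plan: val_le with
tch_anti; for the midpoint merge with mg (fun i => if i = 0 then b1 else b2), hopn_mg, val_mid,
ms_mid, Kc.mid, ms_cont, ms_nn. av_lim: av theta (B k) .. (N k) k <= av theta (B k) .. (N k) l
for l <= k; val_le with mg B, ms_mono, tch_near; the weights of theta add up to one;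
exchange of the finite sum with iInf (antitone in l, ENNReal.iInf_sum) and le_iSup.
Helper names end with `_RfH`. -/

open MeasureTheory Set Metric Filter Topology Complex
open scoped ENNReal

noncomputable section

namespace Vale.Agent.P116.K

open Vale.Agent.P128

namespace Par
variable {P : Par}

/-- Failing tests. -/
def Fl (P : Par) (A : List (TF P.E)) (θ : Set ℂ →₀ ℝ) (c : ℝ) (j k : ℕ) :
    Set ((ℕ → TF P.E) × (ℂ → ℝ) × (Cp P.E → ℝ) × Measure ℂ) :=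
  {x | (∀ i, Aux A (x.1 i)) ∧ P.Kc j x.2.1 x.2.2.1 x.2.2.2 ∧
    ∃ n, ENNReal.ofReal c < P.av θ x.1 x.2.1 x.2.2.1 x.2.2.2 n k}

theorem fl_anti (A : List (TF P.E)) (θ : Set ℂ →₀ ℝ) (c : ℝ) (j : ℕ) :
    Antitone (P.Fl A θ c j) := by
  rintro k k' hk ⟨b, g, lam, ν⟩ ⟨h1, h2, n, h3⟩
  refine ⟨h1, h2, n, h3.trans_le (Finset.sum_le_sum fun Z _ => mul_le_mul_right ?_ _)⟩
  have h := val_le (P := P) (b := b) (b' := b) (ρ := P.ms g) (ρ' := P.ms g) (lam := lam)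
    (lam' := lam) (ν := ν) (ν' := ν) (Z := Z) (n := n) (n' := n) (k := k') (k' := k) (e := 0)
    le_rfl (fun _ _ => le_rfl) (ms_cont h2.tv.g2) (ms_cont h2.tv.g2) (fun _ _ => le_rfl)
    (fun _ => le_rfl) fun T => by
      rw [add_zero]
      exact P.tch_anti ν hk Subset.rfl
  rwa [add_zero] at h

theorem fl_mid {A : List (TF P.E)} {θ : Set ℂ →₀ ℝ} {c : ℝ} {j k : ℕ} :
    ∀ x ∈ P.Fl A θ c j k, ∀ y ∈ P.Fl A θ c j k, ∃ z ∈ P.Fl A θ c j k,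
      (z.2.1 = fun w => (x.2.1 w + y.2.1 w) / 2) ∧
        z.2.2.1 = fun c => (x.2.2.1 c + y.2.2.1 c) / 2 := by
  rintro ⟨b₁, g₁, l₁, ν₁⟩ ⟨a1, a2, n₁, a3⟩ ⟨b₂, g₂, l₂, ν₂⟩ ⟨c1, c2, n₂, c3⟩
  obtain ⟨B, hB⟩ : ∃ B : ℕ → ℕ → TF P.E, B = fun i => if i = 0 then b₁ else b₂ := ⟨_, rfl⟩
  have B0 : B 0 = b₁ := by simp [hB]
  have B1 : B 1 = b₂ := by simp [hB]
  have hA : ∀ i m, Aux A (B i m) := fun i m => by
    rw [hB]
    beta_reduce
    split_ifs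
    · exact a1 m
    · exact c1 m
  have hd : ∀ i, P.Bd (B i) := fun i m => (hA i m).bd
  obtain ⟨N₁, p1, q1⟩ := hopn_mg hd 0 n₁
  obtain ⟨N₂, p2, q2⟩ := hopn_mg hd 1 n₂
  rw [B0] at q1
  rw [B1] at q2
  refine ⟨(P.mg B, fun w => (g₁ w + g₂ w) / 2, fun c => (l₁ c + l₂ c) / 2,
    (2 : ℝ≥0∞)⁻¹ • (ν₁ + ν₂)), ⟨fun i => hA _ _, a2.mid c2, max N₁ N₂, ?_⟩, rfl, rfl⟩
  have key : P.av θ b₁ g₁ l₁ ν₁ n₁ k + P.av θ b₂ g₂ l₂ ν₂ n₂ k ≤
      2 * P.av θ (P.mg B) (fun w => (g₁ w + g₂ w) / 2) (fun c => (l₁ c + l₂ c) / 2)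
        ((2 : ℝ≥0∞)⁻¹ • (ν₁ + ν₂)) (max N₁ N₂) k := by
    simp only [av, Finsupp.sum]
    rw [← Finset.sum_add_distrib, Finset.mul_sum]
    refine Finset.sum_le_sum fun Z _ => ?_
    rw [← mul_add, mul_left_comm]
    exact mul_le_mul_right (val_mid (p1.trans (le_max_left _ _)) (p2.trans (le_max_right _ _))
      (B0 ▸ hd 0) (B1 ▸ hd 1) (fun l hl => ⟨q1 _ (le_max_left _ _) _ _ l hl,
        q2 _ (le_max_right _ _) _ _ l hl⟩) (ms_cont a2.tv.g2) (ms_cont c2.tv.g2)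
      (ms_nn a2.tv.g0) (ms_nn c2.tv.g0) (fun z hz => ms_mid a2.tv.g2 c2.tv.g2 hz)
      a2.tv.l0 c2.tv.l0) _
  by_contra hn
  have h := (ENNReal.add_lt_add a3 c3).trans_le (key.trans (mul_le_mul_right (not_lt.1 hn) 2))
  rw [two_mul] at h
  exact lt_irrefl _ h

end Par

end Vale.Agent.P116.K
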