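import Vale.Agent.P116.K.RfH
import Vale.Agent.P116.K.RfD

/-! P116 K/RfI (owner helper18). The limit test fails at all levels. Plan: fix l and e > 0, take k in U with l <= k and
tch_near; fl_anti; val_le (k = k' = l) with mg B, hopn_mg, ms_mono, ms_cont; the weights of
theta add up to one, so ofReal c <= sum ofReal a * iSup n val + e; then e -> 0 and the exchange of
the finite sum with iInf over l (antitone in l by val_le and tch_anti; ENNReal.iInf_sum,
ENNReal.mul_iInf).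
Helper names end with `_RfI`. -/

open MeasureTheory Set Metric Filter Topology Complex
open scoped ENNReal

noncomputable section

namespace Vale.Agent.P116.K

open Vale.Agent.P128

namespace Par
variable {P : Par}

theorem av_lim {A : List (TF P.E)} {θ : Set ℂ →₀ ℝ} (hθ : P.Sys θ) {c : ℝ} {j : ℕ}
    {t : ℕ → (ℕ → TF P.E) × (ℂ → ℝ) × (Cp P.E → ℝ) × Measure ℂ} (ht : ∀ k, t k ∈ P.Fl A θ c j k)
    {μ : Measure ℂ} [IsFiniteMeasure μ] {U : Filter ℕ} [U.NeBot] (hU : U ≤ atTop)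
    (hμ : ∀ l p, Tendsto (fun k => (t k).2.2.2 (P.E ∩ P.cl l p)) U (𝓝 (μ (P.E ∩ P.cl l p))))
    {G : ℂ → ℝ} {L : Cp P.E → ℝ} (hG : P.Tv G L) (h1 : ∀ k, ∀ᵐ z, (t k).2.1 z ≤ G z)
    (h2 : ∀ k c, (t k).2.2.1 c ≤ L c) :
    ENNReal.ofReal c ≤ θ.sum fun Z a => ENNReal.ofReal a *
      ⨅ k, ⨆ n, P.val (P.mg fun k => (t k).1) (P.ms G) L μ Z n k := by
  have cG := ms_cont (P := P) hG.g2
  have hB : ∀ k, P.Bd (t k).1 := fun k i => ((ht k).1 i).bd
  have hanti : ∀ Z l l', l ≤ l' →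
      ⨆ n, P.val (P.mg fun k => (t k).1) (P.ms G) L μ Z n l' ≤
        ⨆ n, P.val (P.mg fun k => (t k).1) (P.ms G) L μ Z n l := fun Z l l' h =>
    iSup_mono fun n => (val_le (e := 0) le_rfl (fun _ _ => le_rfl) cG cG (fun _ _ => le_rfl)
      (fun _ => le_rfl) fun T => (P.tch_anti μ h subset_rfl).trans_eq (add_zero _).symm).trans_eq
        (add_zero _)
  have hone : ∑ Z ∈ θ.support, ENNReal.ofReal (θ Z) = 1 := by
    rw [← ENNReal.ofReal_sum_of_nonneg fun Z _ => hθ.nn Z]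
    have h := hθ.one
    rw [Finsupp.sum] at h
    rw [h, ENNReal.ofReal_one]
  have key : ∀ l, ENNReal.ofReal c ≤ ∑ Z ∈ θ.support, ENNReal.ofReal (θ Z) *
      ⨆ n, P.val (P.mg fun k => (t k).1) (P.ms G) L μ Z n l := fun l => by
    refine ENNReal.le_of_forall_pos_le_add fun e he _ => ?_
    obtain ⟨k, hk, hlk⟩ := ((tch_near hμ l (ENNReal.coe_pos.2 he)).and
      (hU (eventually_ge_atTop l))).exists
    obtain ⟨-, hK, n, hn⟩ := fl_anti A θ c j hlk (ht k)
    obtain ⟨N, hN, hm⟩ := hopn_mg (B := fun k => (t k).1) hB k n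
    refine hn.le.trans ?_
    rw [av, Finsupp.sum, ← one_mul (e : ℝ≥0∞), ← hone, Finset.sum_mul, ← Finset.sum_add_distrib]
    refine Finset.sum_le_sum fun Z _ => ?_
    rw [← mul_add]
    refine mul_le_mul' le_rfl ((val_le hN (fun l hl => hm N le_rfl N _ l hl) (ms_cont hK.tv.g2) cG
      (fun z hz => ms_mono hK.tv.g2 hG.g2 (h1 k) hz) (h2 k) hk).trans (add_le_add ?_ le_rfl))
    exact le_iSup (fun n => P.val (P.mg fun k => (t k).1) (P.ms G) L μ Z n l) N
  rw [Finsupp.sum]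
  simp only [ENNReal.mul_iInf fun h => absurd h ENNReal.ofReal_ne_top]
  refine (le_iInf key).trans (ENNReal.iInf_sum (f := fun l Z => ENNReal.ofReal (θ Z) *
    ⨆ n, P.val (P.mg fun k => (t k).1) (P.ms G) L μ Z n l) fun _ i i' => ⟨max i i', fun Z _ =>
      ⟨mul_le_mul' le_rfl (hanti Z _ _ (le_max_left i i')),
        mul_le_mul' le_rfl (hanti Z _ _ (le_max_right i i'))⟩⟩).le

end Par

end Vale.Agent.P116.K
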