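import Vale.Agent.P116.K.RfI
import Vale.Agent.P116.K.RfF
import Vale.Agent.P116.K.RfG

/-! P116 K/RfJ (owner helper18). A level without failing tests. Plan: by contradiction all Fl A theta (c+eta) j k are nonempty
(fl_anti); sel, kc_mass, meas_lim, av_lim, nv_lim, BV with eps small: c (1 + 2 eps) < c + eta.
Helper names end with `_RfJ`. -/

open MeasureTheory Set Metric Filter Topology Complex
open scoped ENNReal

noncomputable section

namespace Vale.Agent.P116.K

open Vale.Agent.P128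

namespace Par
variable {P : Par}

theorem exists_gd {A : List (TF P.E)} {θ : Set ℂ →₀ ℝ} (hθ : P.Sys θ) {c : ℝ} (hc : 0 ≤ c)
    (h : P.BV A θ c) {η : ℝ} (hη : 0 < η) (j k₀ : ℕ) : ∃ k, k₀ ≤ k ∧ P.Gd A θ (c + η) j k := by
  by_contra hn
  have hne : ∀ k, (P.Fl A θ (c + η) j k).Nonempty := fun k => by
    have h1 : ¬ P.Gd A θ (c + η) j (max k k₀) := fun h2 => hn ⟨_, le_max_right _ _, h2⟩
    by_contra h2
    refine h1 fun b hb g lam ν hk n => not_lt.1 fun h3 => h2 ⟨(b, g, lam, ν), ?_⟩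
    exact fl_anti A θ (c + η) j (le_max_left k k₀) ⟨hb, hk, n, h3⟩
  have hε : 0 < η / (4 * (c + 1)) := by positivity
  obtain ⟨t, G, L, hG, ht⟩ := sel (P := P)
    (X := (ℕ → TF P.E) × (ℂ → ℝ) × (Cp P.E → ℝ) × Measure ℂ) (fun x => x.2.1) (fun x => x.2.2.1)
    (fl_anti A θ (c + η) j) hne (fun k x hx => ⟨hx.2.1.tv, hx.2.1.nrm⟩) (fun k => fl_mid) hε
  obtain ⟨C, hC⟩ := kc_mass (P := P) j
  obtain ⟨μ, U, h1, h2, h3, h4⟩ := meas_lim (P := P) (ν := fun k => (t k).2.2.2) (C := C)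
    (fun k => (ht k).1.2.1.off) fun k => hC _ _ _ (ht k).1.2.1
  have h5 := av_lim hθ (fun k => (ht k).1) h3 h4 hG (fun k => (ht k).2.1) fun k => (ht k).2.2.1
  have h6 := nv_lim (fun k => (ht k).1.2.1) h4 hG hε (fun k => (ht k).2.2.2.1)
    fun k => (ht k).2.2.2.2
  have h7 := h5.trans (h (P.mg fun k => (t k).1) (fun i => (ht _).1.1 _) G L hG μ h1)
  have h8 : c * (2 * (η / (4 * (c + 1)))) < η := by
    have e : c * (2 * (η / (4 * (c + 1)))) = η * (c / (2 * (c + 1))) := by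
      field_simp
      ring
    rw [e]
    exact mul_lt_of_lt_one_right hη ((div_lt_one (by positivity)).2 (by linarith))
  have h9 := mul_le_mul_of_nonneg_left h6 hc
  refine h7.not_gt ((ENNReal.ofReal_lt_ofReal_iff (by positivity)).2 ?_)
  linarith

end Par

end Vale.Agent.P116.K
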