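import Vale.Agent.P116.K.Rf0

/-! P116 K/RfK (owner helper18). From values to plans. Plan: for Z in the support val is finite; choose y, x, l with
ofReal cost + tch <= val + ofReal eta (iInf_lt_iff); pi = theta.mapDomain (fun Z => (Z, x Z, l Z))
(injective; mapDomain_comp). Convexity of plans and linearity of ex, den, tl, tcs.
Helper names end with `_RfK`. -/

open MeasureTheory Set Metric Filter Topology Complex
open scoped ENNReal

noncomputable section

namespace Vale.Agent.P116.K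

open Vale.Agent.P128

namespace Par
variable {P : Par}

theorem plan_of_av {θ : Set ℂ →₀ ℝ} (hθ : P.Sys θ) {b : ℕ → TF P.E} {g : ℂ → ℝ}
    {lam : Cp P.E → ℝ} {ν : Measure ℂ} {n k : ℕ} {c : ℝ} (hc : 0 ≤ c)
    (h : P.av θ b g lam ν n k ≤ ENNReal.ofReal c) {η : ℝ} (hη : 0 < η) : ∃ π, P.Plan n θ π ∧
      P.ex π (fun i => cost b (P.ms g) lam n i.2.2 + (P.tch ν k (trc i.2.1 i.2.2)).toReal) ≤
        c + η := by
  classical
  have hfin : ∀ Z ∈ θ.support, ENNReal.ofReal (θ Z) * P.val b (P.ms g) lam ν Z n k ≠ ⊤ :=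
    fun Z hZ => ne_top_of_le_ne_top ENNReal.ofReal_ne_top ((Finset.single_le_sum
      (f := fun Z => ENNReal.ofReal (θ Z) * P.val b (P.ms g) lam ν Z n k)
      (fun _ _ => zero_le) hZ).trans h)
  have hex : ∀ Z ∈ θ.support, ∃ q : ℂ × List (Stp P.E), P.Crs n (Z, q) ∧
      cost b (P.ms g) lam n q.2 + (P.tch ν k (trc q.1 q.2)).toReal ≤
        (P.val b (P.ms g) lam ν Z n k).toReal + η := by
    intro Z hZ
    have h0 : 0 < θ Z := (hθ.nn Z).lt_of_ne' (Finsupp.mem_support_iff.1 hZ)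
    have h1 : P.val b (P.ms g) lam ν Z n k ≠ ⊤ := fun e => hfin Z hZ (by
      rw [e, ENNReal.mul_top (ENNReal.ofReal_pos.2 h0).ne'])
    have h2 := ENNReal.lt_add_right h1 (ENNReal.ofReal_pos.2 hη).ne'
    generalize hv : P.val b (P.ms g) lam ν Z n k = v at h1 h2 ⊢
    nth_rewrite 1 [← hv] at h2
    simp only [val, W, iInf_lt_iff] at h2
    obtain ⟨y, hy, x, hx, l, hl, h3⟩ := h2
    refine ⟨(x, l), ⟨hx, y, hy, hl⟩, ?_⟩
    have h4 : v + ENNReal.ofReal η ≠ ⊤ := ENNReal.add_ne_top.2 ⟨h1, ENNReal.ofReal_ne_top⟩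
    have h5 := ENNReal.toReal_mono h4 h3.le
    rw [ENNReal.toReal_add ENNReal.ofReal_ne_top (ne_top_of_le_ne_top h4 (le_add_self.trans h3.le)),
      ENNReal.toReal_add h1 ENNReal.ofReal_ne_top, ENNReal.toReal_ofReal hη.le,
      ENNReal.toReal_ofReal'] at h5
    exact (add_le_add (le_max_left _ _) le_rfl).trans h5
  choose! q hq1 hq2 using hex
  have hf : Function.Injective fun Z : Set ℂ => ((Z, q Z) : P.It) := fun _ _ e => congrArg Prod.fst e
  refine ⟨θ.mapDomain fun Z => (Z, q Z), ⟨fun i => ?_, fun i hi => ?_, ?_⟩, ?_⟩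
  · by_cases hi : i ∈ range fun Z : Set ℂ => ((Z, q Z) : P.It)
    · obtain ⟨Z, rfl⟩ := hi
      rw [Finsupp.mapDomain_apply hf]
      exact hθ.nn Z
    · rw [Finsupp.mapDomain_of_notMem_range _ _ hi]
  · obtain ⟨Z, hZ, rfl⟩ := Finset.mem_image.1 (Finsupp.mapDomain_support hi)
    exact hq1 Z hZ
  · rw [← Finsupp.mapDomain_comp]
    exact Finsupp.mapDomain_id
  · rw [ex, Finsupp.sum_mapDomain_index_inj hf]
    have h1 := ENNReal.toReal_le_of_le_ofReal hc h
    rw [av, Finsupp.sum, ENNReal.toReal_sum hfin] at h1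
    have h2 : ∑ Z ∈ θ.support, θ Z = 1 := hθ.one
    calc _ ≤ ∑ Z ∈ θ.support, θ Z * ((P.val b (P.ms g) lam ν Z n k).toReal + η) :=
          Finset.sum_le_sum fun Z hZ => mul_le_mul_of_nonneg_left (hq2 Z hZ) (hθ.nn Z)
      _ = ∑ Z ∈ θ.support, (ENNReal.ofReal (θ Z) * P.val b (P.ms g) lam ν Z n k).toReal + η := by
          simp only [mul_add, Finset.sum_add_distrib, ← Finset.sum_mul, h2, one_mul,
            ENNReal.toReal_mul, ENNReal.toReal_ofReal (hθ.nn _)]
      _ ≤ _ := add_le_add h1 le_rfl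

theorem ex_comb (π π' : P.It →₀ ℝ) (s t : ℝ) (F : P.It → ℝ) :
    P.ex (s • π + t • π') F = s * P.ex π F + t * P.ex π' F := by
  have h1 : ∀ (π : P.It →₀ ℝ) (s : ℝ), P.ex (s • π) F = s * P.ex π F := fun π s => by
    rw [ex, ex, Finsupp.sum_smul_index' fun _ => zero_mul _, Finsupp.mul_sum]
    simp only [smul_eq_mul, mul_assoc]
  rw [← h1, ← h1]
  exact Finsupp.sum_add_index' (fun _ => zero_mul _) fun _ _ _ => add_mul _ _ _

theorem ex_add (π : P.It →₀ ℝ) (F G : P.It → ℝ) :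
    P.ex π (fun i => F i + G i) = P.ex π F + P.ex π G := by
  simp only [ex, Finsupp.sum, mul_add, Finset.sum_add_distrib]

theorem ex_mul (π : P.It →₀ ℝ) (s : ℝ) (F : P.It → ℝ) :
    P.ex π (fun i => s * F i) = s * P.ex π F := by
  simp only [ex, Finsupp.sum, Finset.mul_sum, mul_left_comm]

theorem Plan.comb {n : ℕ} {θ : Set ℂ →₀ ℝ} {π π' : P.It →₀ ℝ} (h : P.Plan n θ π)
    (h' : P.Plan n θ π') {s t : ℝ} (hs : 0 ≤ s) (ht : 0 ≤ t) (e : s + t = 1) :
    P.Plan n θ (s • π + t • π') := by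
  classical
  refine ⟨fun i => add_nonneg (mul_nonneg hs (h.nn i)) (mul_nonneg ht (h'.nn i)), fun i hi => ?_, ?_⟩
  · rcases Finset.mem_union.1 (Finsupp.support_add hi) with h1 | h1
    · exact h.crs i (Finsupp.support_smul h1)
    · exact h'.crs i (Finsupp.support_smul h1)
  · rw [Finsupp.mapDomain_add, Finsupp.mapDomain_smul, Finsupp.mapDomain_smul, h.mar, h'.mar,
      ← add_smul, e, one_smul]

theorem tl_fin (π : P.It →₀ ℝ) : (Function.support (P.tl π)).Finite := by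
  refine (π.support.finite_toSet.biUnion fun i _ => tele_fin i.2.2).subset fun c hc => ?_
  obtain ⟨i, hi, h1⟩ := Finset.exists_ne_zero_of_sum_ne_zero hc
  exact mem_iUnion₂.2 ⟨i, hi, right_ne_zero_of_mul h1⟩

theorem tl_pair (π : P.It →₀ ℝ) (lam : Cp P.E → ℝ) :
    ∑' c, lam c * P.tl π c = P.ex π fun i => (i.2.2.map (Stp.tel lam)).sum := by
  have h1 : ∀ i : P.It, Summable fun c => π i * (lam c * P.tele i.2.2 c) := fun i =>
    (summable_of_hasFiniteSupport ((tele_fin i.2.2).subset fun c hc =>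
      right_ne_zero_of_mul hc)).mul_left _
  simp only [tl, ← ex_mul]
  simp only [ex, Finsupp.sum]
  rw [Summable.tsum_finsetSum fun i _ => h1 i]
  exact Finset.sum_congr rfl fun i _ => by rw [tsum_mul_left, tele_pair]

theorem tl_nn {n : ℕ} {θ : Set ℂ →₀ ℝ} {π : P.It →₀ ℝ} (h : P.Plan n θ π) (c : Cp P.E) :
    0 ≤ P.tl π c := by
  exact Finset.sum_nonneg fun i _ => mul_nonneg (h.nn i) (tele_nn _ _)

theorem tcs_nn {n : ℕ} {θ : Set ℂ →₀ ℝ} {π : P.It →₀ ℝ} (h : P.Plan n θ π) (S : Set ℂ) :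
    0 ≤ P.tcs π S := by
  exact Finset.sum_nonneg fun i _ => mul_nonneg (h.nn i) (indicator_nonneg (fun _ _ => zero_le_one) _)

end Par

end Vale.Agent.P116.K
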