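import Vale.Agent.P116.K.Rf0

/-! P116 K/RfL (owner helper18). The test built from finitely many tests is normalised. Plan: fix l and G separated at level l;
work in WithLp 2 (Lp R 2 volume x EuclideanSpace R G) and use norm_sum_le; for F in Phi the
clusters cl l c.pt (c in G) are pairwise disjoint and contain at most one point of F (cl_anti,
cl_eq), so the sum over c of (sum over p in F inside cl l c.pt of t F p)^2 is at most the sum
over p in F of (t F p)^2.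
Helper names end with `_RfL`. -/

open MeasureTheory Set Metric Filter Topology Complex
open scoped ENNReal

noncomputable section

namespace Vale.Agent.P116.K

open Vale.Agent.P128

theorem nrm_RfL {κ : Type} (G : Finset κ) {f : ℂ → ℝ} (hf : MemLp f 2 volume) (a : κ → ℝ) :
    √((∫ x, f x ^ 2) + ∑ c ∈ G, a c ^ 2) = ‖(WithLp.toLp 2 (hf.toLp f,
      (WithLp.toLp 2 fun c : G => a c : EuclideanSpace ℝ G)) :
        WithLp 2 (Lp ℝ 2 volume × EuclideanSpace ℝ G))‖ := by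
  rw [WithLp.prod_norm_eq_of_L2]
  congr 2
  · rw [← real_inner_self_eq_norm_sq, L2.inner_def]
    refine integral_congr_ae (hf.coeFn_toLp.mono fun x hx => ?_)
    simp only [WithLp.toLp_fst, hx, real_inner_self_eq_norm_sq, Real.norm_eq_abs, sq_abs]
  · rw [EuclideanSpace.real_norm_sq_eq, ← Finset.sum_coe_sort]
    rfl

theorem sum_RfL {κ φ : Type} (G : Finset κ) {g₀ : ℂ → ℝ} (h₀ : MemLp g₀ 2 volume) (a₀ : κ → ℝ)
    {g : φ → ℂ → ℝ} (hg : ∀ F, MemLp (g F) 2 volume) (a : φ → κ → ℝ) (Φ : Finset φ) :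
    √((∫ x, (g₀ x + ∑ F ∈ Φ, g F x) ^ 2) + ∑ c ∈ G, (a₀ c + ∑ F ∈ Φ, a F c) ^ 2) ≤
      √((∫ x, g₀ x ^ 2) + ∑ c ∈ G, a₀ c ^ 2) +
        ∑ F ∈ Φ, √((∫ x, g F x ^ 2) + ∑ c ∈ G, a F c ^ 2) := by
  classical
  induction Φ using Finset.induction_on with
  | empty => simp
  | insert F Φ hF ih =>
    have h1 : MemLp (fun x => g₀ x + ∑ F ∈ Φ, g F x) 2 volume :=
      h₀.add (memLp_finsetSum Φ fun F _ => hg F)
    simp only [Finset.sum_insert hF, add_left_comm _ (g F _), add_left_comm _ (a F _)]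
    rw [add_left_comm]
    refine le_trans ?_ (add_le_add le_rfl ih)
    rw [nrm_RfL G (hg F), nrm_RfL G h1]
    refine (nrm_RfL G ((hg F).add h1) _).trans_le (le_of_eq_of_le ?_ (norm_add_le _ _))
    rw [MemLp.toLp_add (hg F) h1]
    rfl

namespace Par
variable {P : Par}

open Classical in
theorem sep_RfL {j l : ℕ} (hl : j ≤ l) {F : Finset ℂ} (hF : P.Sep j F) {G : Finset (Cp P.E)}
    (hG : ∀ c ∈ G, ∀ c' ∈ G, c ≠ c' → c'.pt ∉ P.cl l c.pt) (t : ℂ → ℝ) :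
    ∑ c ∈ G, (∑ p ∈ F with p ∈ P.cl l c.pt, t p) ^ 2 ≤ ∑ p ∈ F, t p ^ 2 := by
  have h0 : ∀ c ∈ G, (∑ p ∈ F with p ∈ P.cl l c.pt, t p) ^ 2 ≤
      ∑ p ∈ F with p ∈ P.cl l c.pt, t p ^ 2 := fun c _ => by
    refine sq_sum_le_card_mul_sum_sq.trans (mul_le_of_le_one_left
      (Finset.sum_nonneg fun _ _ => sq_nonneg _)
      (Nat.cast_le_one.2 (Finset.card_le_one.2 fun p hp q hq => by_contra fun h => ?_)))
    obtain ⟨h1, h2⟩ := Finset.mem_filter.1 hp
    obtain ⟨h3, h4⟩ := Finset.mem_filter.1 hq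
    exact hF.2 p h1 q h3 h (P.cl_anti hl p (P.cl_eq h2 ▸ h4))
  refine (Finset.sum_le_sum h0).trans ?_
  rw [← Finset.sum_biUnion]
  · exact Finset.sum_le_sum_of_subset_of_nonneg
      (Finset.biUnion_subset.2 fun _ _ => Finset.filter_subset _ _) fun _ _ _ => sq_nonneg _
  · refine fun c hc c' hc' h => Finset.disjoint_left.2 fun p hp hp' => hG c hc c' hc' h ?_
    rw [← P.cl_eq (Finset.mem_filter.1 hp).2, P.cl_eq (Finset.mem_filter.1 hp').2]
    exact P.mem_cl l c'.2.choose_spec.1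

/-- The measure of a family of tests. -/
def nuT (Φ : Finset (Finset ℂ)) (t : Finset ℂ → ℂ → ℝ) : Measure ℂ :=
  ∑ F ∈ Φ, ∑ p ∈ F, ENNReal.ofReal (t F p) • Measure.dirac p

theorem kc_test {j : ℕ} {Φ : Finset (Finset ℂ)} (hΦ : ∀ F ∈ Φ, P.Sep j F) {g₀ : ℂ → ℝ}
    {lam : Cp P.E → ℝ} (h₀ : P.Tv g₀ lam) {g t : Finset ℂ → ℂ → ℝ}
    (hg : ∀ F, MemLp (g F) 2 volume) (g0 : ∀ F x, 0 ≤ g F x) (t0 : ∀ F p, 0 ≤ t F p)
    (h : P.nv g₀ lam + ∑ F ∈ Φ, √((∫ x, g F x ^ 2) + ∑ p ∈ F, t F p ^ 2) ≤ 1) :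
    P.Kc j (fun x => g₀ x + ∑ F ∈ Φ, g F x) lam (nuT Φ t) := by
  classical
  have hν : ∀ (S : Set ℂ) [DecidablePred (· ∈ S)],
      nuT Φ t S = ENNReal.ofReal (∑ F ∈ Φ, ∑ p ∈ F with p ∈ S, t F p) := fun S _ => by
    rw [nuT, Measure.finsetSum_apply, ENNReal.ofReal_sum_of_nonneg fun F _ =>
      Finset.sum_nonneg fun p _ => t0 F p]
    refine Finset.sum_congr rfl fun F _ => ?_
    rw [Measure.finsetSum_apply, ENNReal.ofReal_sum_of_nonneg fun p _ => t0 F p,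
      Finset.sum_filter]
    refine Finset.sum_congr rfl fun p _ => ?_
    rw [Measure.smul_apply, Measure.dirac_apply, smul_eq_mul, indicator_apply, mul_ite,
      Pi.one_apply, mul_one, mul_zero]
  refine ⟨⟨h₀.g2.add (memLp_finsetSum Φ fun F _ => hg F), fun x => add_nonneg (h₀.g0 x)
    (Finset.sum_nonneg fun F _ => g0 F x), h₀.l0, h₀.l2⟩, ⟨(hν univ).trans_lt ENNReal.ofReal_lt_top⟩, ?_,
    fun l hl G hG => ?_⟩
  · rw [hν, Finset.sum_eq_zero fun F hF => Finset.sum_eq_zero fun p hp =>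
      ((Finset.mem_filter.1 hp).2 ((hΦ F hF).1 p (Finset.mem_filter.1 hp).1)).elim,
      ENNReal.ofReal_zero]
  · have h1 : ∀ c : Cp P.E, (nuT Φ t (P.E ∩ P.cl l c.pt)).toReal =
        ∑ F ∈ Φ, ∑ p ∈ F with p ∈ P.cl l c.pt, t F p := fun c => by
      rw [hν, ENNReal.toReal_ofReal (Finset.sum_nonneg fun F _ =>
        Finset.sum_nonneg fun p _ => t0 F p)]
      exact Finset.sum_congr rfl fun F hF => Finset.sum_congr (Finset.filter_congr fun p hp =>
        and_iff_right ((hΦ F hF).1 p hp)) fun _ _ => rfl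
    simp only [h1]
    refine (Real.sqrt_le_iff.1 ((sum_RfL G h₀.g2 lam hg
      (fun F c => ∑ p ∈ F with p ∈ P.cl l c.pt, t F p) Φ).trans (le_trans (add_le_add
        (Real.sqrt_le_sqrt (add_le_add le_rfl (h₀.l2.sum_le_tsum G fun _ _ => sq_nonneg _)))
        (Finset.sum_le_sum fun F hF => Real.sqrt_le_sqrt
          (add_le_add le_rfl (sep_RfL hl (hΦ F hF) hG _)))) h))).2.trans_eq (one_pow 2)

end Par

end Vale.Agent.P116.K
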