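import Vale.Agent.P116.K.RfL
import Vale.Agent.P116.K.RfK
import Vale.Agent.P116.K.RfA

/-! P116 K/RfM (owner helper18). The pairing bound. Plan: tch_nuT by Measure.finset_sum_apply, dirac_apply' (the set in tch is
measurable: E inter a union of open clusters). test_one: hopn_mul, Gd at level m, plan_of_av,
Plan.anti, den_pair, tl_pair, ex_add, Plan.ex_mono. test_plan: N = the sum of the norms plus a
small positive number; apply test_one to the positive parts divided by N (and to s / N); the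
pairings with den, tl, tcs (all nonnegative) only increase under positive parts and the norms
decrease.
Helper names end with `_RfM`. -/

open MeasureTheory Set Metric Filter Topology Complex
open scoped ENNReal

noncomputable section

namespace Vale.Agent.P116.K

open Vale.Agent.P128

namespace Par
variable {P : Par}

theorem sum_RfM {ι : Type*} (π : P.It →₀ ℝ) (I : Finset ι) (F : ι → P.It → ℝ) :
    P.ex π (fun i => ∑ J ∈ I, F J i) = ∑ J ∈ I, P.ex π (F J) := by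
  simp only [ex, Finsupp.sum, Finset.mul_sum]
  exact Finset.sum_comm

theorem pt_RfM {j : ℕ} {Φ : Finset (Finset ℂ)} (hΦ : ∀ F ∈ Φ, P.Sep j F)
    {t : Finset ℂ → ℂ → ℝ} (t0 : ∀ F p, 0 ≤ t F p) (k : ℕ) (i : P.It) :
    (P.tch (nuT Φ t) k (trc i.2.1 i.2.2)).toReal = ∑ F ∈ Φ, ∑ p ∈ F, t F p *
      {it : P.It | (P.cl k p ∩ trc it.2.1 it.2.2).Nonempty}.indicator 1 i := by
  have e : P.tch (nuT Φ t) k (trc i.2.1 i.2.2) = ∑ F ∈ Φ, ∑ p ∈ F, ENNReal.ofReal (t F p *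
      {it : P.It | (P.cl k p ∩ trc it.2.1 it.2.2).Nonempty}.indicator 1 i) := by
    rw [tch, nuT, Measure.finsetSum_apply]
    refine Finset.sum_congr rfl fun F hF => ?_
    rw [Measure.finsetSum_apply]
    refine Finset.sum_congr rfl fun p hp => ?_
    rw [Measure.smul_apply, Measure.dirac_apply, smul_eq_mul]
    by_cases h : (P.cl k p ∩ trc i.2.1 i.2.2).Nonempty
    · rw [indicator_of_mem (show p ∈ {p | p ∈ P.E ∧ (P.cl k p ∩ trc i.2.1 i.2.2).Nonempty} from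
        ⟨(hΦ F hF).1 p hp, h⟩), indicator_of_mem (show i ∈ {it : P.It |
          (P.cl k p ∩ trc it.2.1 it.2.2).Nonempty} from h)]
      simp
    · rw [indicator_of_notMem (show p ∉ {p | p ∈ P.E ∧ (P.cl k p ∩ trc i.2.1 i.2.2).Nonempty} from
        fun c => h c.2), indicator_of_notMem (show i ∉ {it : P.It |
          (P.cl k p ∩ trc it.2.1 it.2.2).Nonempty} from h)]
      simp
  rw [e, ENNReal.toReal_sum fun F _ => ENNReal.sum_ne_top.2 fun _ _ => ENNReal.ofReal_ne_top]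
  refine Finset.sum_congr rfl fun F _ => ?_
  rw [ENNReal.toReal_sum fun _ _ => ENNReal.ofReal_ne_top]
  refine Finset.sum_congr rfl fun p _ => ENNReal.toReal_ofReal ?_
  exact mul_nonneg (t0 F p) (indicator_nonneg (fun _ _ => zero_le_one) _)

theorem tch_nuT {j : ℕ} {Φ : Finset (Finset ℂ)} (hΦ : ∀ F ∈ Φ, P.Sep j F)
    {t : Finset ℂ → ℂ → ℝ} (t0 : ∀ F p, 0 ≤ t F p) (k : ℕ) (π : P.It →₀ ℝ) :
    P.ex π (fun i => (P.tch (nuT Φ t) k (trc i.2.1 i.2.2)).toReal) =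
      ∑ F ∈ Φ, ∑ p ∈ F, t F p * P.tcs π (P.cl k p) := by
  simp only [pt_RfM hΦ t0 k]
  rw [sum_RfM]
  refine Finset.sum_congr rfl fun F _ => ?_
  rw [sum_RfM]
  exact Finset.sum_congr rfl fun p _ => ex_mul π _ _

theorem test_one {A : List (TF P.E)} {θ : Set ℂ →₀ ℝ} (hθ : P.Sys θ) {c : ℝ} (hc : 0 ≤ c)
    {j k : ℕ} (hG : P.Gd A θ c j k) {b : ℕ → TF P.E} (hb : ∀ i, Aux A (b i))
    {Φ : Finset (Finset ℂ)} (hΦ : ∀ F ∈ Φ, P.Sep j F) {g₀ : ℂ → ℝ}
    {lam : Cp P.E → ℝ} (h₀ : P.Tv g₀ lam) {g t : Finset ℂ → ℂ → ℝ}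
    (hg : ∀ F, MemLp (g F) 2 volume) (g0 : ∀ F x, 0 ≤ g F x) (t0 : ∀ F p, 0 ≤ t F p)
    (h : P.nv g₀ lam + ∑ F ∈ Φ, √((∫ x, g F x ^ 2) + ∑ p ∈ F, t F p ^ 2) ≤ 1)
    (n : ℕ) (s : ℝ) {η : ℝ} (hη : 0 < η) : ∃ π, P.Plan n θ π ∧
      ((∫ x, g₀ x * P.den π x) + ∑' c, lam c * P.tl π c) +
        ∑ F ∈ Φ, ((∫ x, g F x * P.den π x) + ∑ p ∈ F, t F p * P.tcs π (P.cl k p)) +
        s * P.ex π (fun i => hopn b n i.2.2) ≤ c + η := by
  obtain ⟨m, hm, hmul⟩ := hopn_mul (P := P) (b := b) (fun i => (hb i).bd) n s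
  have kc := kc_test hΦ h₀ hg g0 t0 h
  obtain ⟨π, hπ, hle⟩ := plan_of_av hθ hc (hG b hb _ _ _ kc m) hη
  refine ⟨π, hπ.anti hm, le_trans ?_ hle⟩
  have d2 := (den_cont hπ).2.2
  have i0 : Integrable fun x => g₀ x * P.den π x := h₀.g2.integrable_mul d2
  have i1 : ∀ F ∈ Φ, Integrable fun x => g F x * P.den π x := fun F _ => (hg F).integrable_mul d2
  have e1 := den_pair hπ kc.tv.g2
  simp only [add_mul, Finset.sum_mul] at e1
  rw [integral_add i0 (integrable_finsetSum Φ i1), integral_finsetSum Φ i1] at e1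
  have e2 : s * P.ex π (fun i => hopn b n i.2.2) ≤ P.ex π fun i => hopn b m i.2.2 := by
    rw [← ex_mul]
    exact hπ.ex_mono fun i hi => hmul _ _ _ (ok_KerF hπ hi)
  simp only [cost]
  rw [ex_add, ex_add, ex_add, tch_nuT hΦ t0, ← e1, ← tl_pair, Finset.sum_add_distrib]
  linarith

end Par

end Vale.Agent.P116.K
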