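import Vale.Agent.P116.K.RfM

/-! P116 K/RfN (owner helper18). Signed tests. Plan: N = the sum of the norms plus a small positive number; apply test_one to
the positive parts divided by N (and to s / N, eta small); the pairings with den, tl, tcs (all
nonnegative: den_nn, tl_nn, tcs_nn; den_cont, tl_fin) only increase under positive parts and the
norms decrease.
Helper names end with `_RfN`. -/

open MeasureTheory Set Metric Filter Topology Complex
open scoped ENNReal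

noncomputable section

namespace Vale.Agent.P116.K

open Vale.Agent.P128

namespace Par
variable {P : Par}

theorem int_RfN {g d : ℂ → ℝ} (hg : MemLp g 2 volume) (hd : MemLp d 2 volume) (d0 : ∀ x, 0 ≤ d x)
    {a : ℝ} (a0 : 0 ≤ a) : a * ∫ x, g x * d x ≤ ∫ x, a * |g x| * d x := by
  rw [← integral_const_mul]
  refine integral_mono ((hg.integrable_mul hd).const_mul a)
    ((hg.norm.const_mul a).integrable_mul hd) fun x => ?_
  show a * (g x * d x) ≤ a * |g x| * d x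
  rw [mul_assoc]
  exact mul_le_mul_of_nonneg_left (mul_le_mul_of_nonneg_right (le_abs_self _) (d0 x)) a0

theorem ts_RfN {ι : Type} {l d : ι → ℝ} (hd : (Function.support d).Finite) (d0 : ∀ x, 0 ≤ d x)
    {a : ℝ} (a0 : 0 ≤ a) : a * ∑' x, l x * d x ≤ ∑' x, a * |l x| * d x := by
  have hs : ∀ u : ι → ℝ, Summable fun x => u x * d x := fun u =>
    summable_of_ne_finset_zero (s := hd.toFinset) fun x hx => by
      rw [Function.notMem_support.1 fun k => hx (hd.mem_toFinset.2 k), mul_zero]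
  rw [← tsum_mul_left]
  refine ((hs l).mul_left a).tsum_le_tsum (fun x => ?_) (hs fun x => a * |l x|)
  rw [mul_assoc]
  exact mul_le_mul_of_nonneg_left (mul_le_mul_of_nonneg_right (le_abs_self _) (d0 x)) a0

theorem sq_RfN (a y : ℝ) : (a * |y|) ^ 2 = a ^ 2 * y ^ 2 := by
  rw [mul_pow, sq_abs]

theorem test_plan {A : List (TF P.E)} {θ : Set ℂ →₀ ℝ} (hθ : P.Sys θ) {c : ℝ} (hc : 0 ≤ c)
    {j k : ℕ} (hG : P.Gd A θ c j k) {b : ℕ → TF P.E} (hb : ∀ i, Aux A (b i))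
    {Φ : Finset (Finset ℂ)} (hΦ : ∀ F ∈ Φ, P.Sep j F) {g₀ : ℂ → ℝ} (h₀ : MemLp g₀ 2 volume)
    {lam : Cp P.E → ℝ} (hl : Summable fun c => lam c ^ 2) {g : Finset ℂ → ℂ → ℝ}
    (hg : ∀ F, MemLp (g F) 2 volume) (t : Finset ℂ → ℂ → ℝ)
    (n : ℕ) (s : ℝ) {η : ℝ} (hη : 0 < η) : ∃ π, P.Plan n θ π ∧
      ((∫ x, g₀ x * P.den π x) + ∑' c, lam c * P.tl π c) +
        ∑ F ∈ Φ, ((∫ x, g F x * P.den π x) + ∑ p ∈ F, t F p * P.tcs π (P.cl k p)) +
        s * P.ex π (fun i => hopn b n i.2.2) ≤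
      c * (P.nv g₀ lam + ∑ F ∈ Φ, √((∫ x, g F x ^ 2) + ∑ p ∈ F, t F p ^ 2)) + η := by
  obtain ⟨M, hM⟩ : ∃ M, M = P.nv g₀ lam + ∑ F ∈ Φ, √((∫ x, g F x ^ 2) + ∑ p ∈ F, t F p ^ 2) :=
    ⟨_, rfl⟩
  have M0 : 0 ≤ M := hM ▸ add_nonneg (Real.sqrt_nonneg _)
    (Finset.sum_nonneg fun F _ => Real.sqrt_nonneg _)
  obtain ⟨κ, κ0, hκ⟩ : ∃ κ : ℝ, 0 < κ ∧ c * κ ≤ η / 2 := by
    refine ⟨η / 2 / (c + 1), by positivity, ?_⟩
    rw [← mul_div_assoc, div_le_iff₀ (by positivity)]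
    nlinarith
  have N0 : 0 < M + κ := by positivity
  obtain ⟨a, ha⟩ : ∃ a, a = (M + κ)⁻¹ := ⟨_, rfl⟩
  have a0 : 0 < a := ha ▸ inv_pos.2 N0
  have aN : a * (M + κ) = 1 := ha ▸ inv_mul_cancel₀ N0.ne'
  have e1 : P.nv (fun x => a * |g₀ x|) (fun c => a * |lam c|) = a * P.nv g₀ lam := by
    unfold nv
    simp only [sq_RfN]
    rw [integral_const_mul, tsum_mul_left, ← mul_add, Real.sqrt_mul (sq_nonneg a),
      Real.sqrt_sq a0.le]
  have e2 : ∀ F : Finset ℂ, √((∫ x, (a * |g F x|) ^ 2) + ∑ p ∈ F, (a * |t F p|) ^ 2) =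
      a * √((∫ x, g F x ^ 2) + ∑ p ∈ F, t F p ^ 2) := fun F => by
    simp only [sq_RfN]
    rw [integral_const_mul, ← Finset.mul_sum, ← mul_add, Real.sqrt_mul (sq_nonneg a),
      Real.sqrt_sq a0.le]
  obtain ⟨π, hπ, h⟩ := test_one hθ hc hG hb hΦ (g₀ := fun x => a * |g₀ x|)
    (lam := fun c => a * |lam c|)
    ⟨h₀.norm.const_mul a, fun x => by positivity, fun x => by positivity, by
      simp only [sq_RfN]
      exact hl.mul_left _⟩
    (g := fun F x => a * |g F x|) (t := fun F p => a * |t F p|)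
    (fun F => (hg F).norm.const_mul a) (fun F x => by positivity) (fun F x => by positivity)
    (by
      rw [e1, Finset.sum_congr rfl fun F _ => e2 F, ← Finset.mul_sum, ← mul_add, ← hM]
      nlinarith [mul_pos a0 κ0])
    n (a * s) (η := a * (η / 2)) (by positivity)
  refine ⟨π, hπ, ?_⟩
  have hd := (den_cont hπ).2.2
  have k1 := int_RfN h₀ hd (den_nn hπ) a0.le
  have k2 := ts_RfN (l := lam) (tl_fin π) (tl_nn hπ) a0.le
  have k3 : a * ∑ F ∈ Φ, ((∫ x, g F x * P.den π x) + ∑ p ∈ F, t F p * P.tcs π (P.cl k p)) ≤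
      ∑ F ∈ Φ, ((∫ x, a * |g F x| * P.den π x) +
        ∑ p ∈ F, a * |t F p| * P.tcs π (P.cl k p)) := by
    rw [Finset.mul_sum]
    refine Finset.sum_le_sum fun F _ => ?_
    rw [mul_add, Finset.mul_sum]
    refine add_le_add (int_RfN (hg F) hd (den_nn hπ) a0.le) (Finset.sum_le_sum fun p _ => ?_)
    rw [mul_assoc]
    exact mul_le_mul_of_nonneg_left
      (mul_le_mul_of_nonneg_right (le_abs_self _) (tcs_nn hπ _)) a0.le
  rw [← hM]
  refine le_of_mul_le_mul_left ?_ a0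
  have k4 : c ≤ a * (c * M) + a * (η / 2) := by
    have k5 := mul_le_mul_of_nonneg_left hκ a0.le
    have k6 : c = a * (c * M) + a * (c * κ) := by linear_combination (-c) * aN
    linarith
  rw [mul_add, mul_add, mul_add, mul_add, ← mul_assoc a s]
  linarith

end Par

end Vale.Agent.P116.K
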