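import Vale.Agent.P116.K.RfN

/-! P116 K/RfO (owner helper18). The minimax step (helper18 fills).
Helper names end with `_RfO`. -/

open MeasureTheory Set Metric Filter Topology Complex
open scoped ENNReal

noncomputable section

namespace Vale.Agent.P116.K

open Vale.Agent.P128

namespace Par
variable {P : Par}

theorem mm_RfO {X κ : Type} {ι : κ → Type} (I : Finset κ) (S : Set X) (d : κ → X → ℂ → ℝ)
    (e : ∀ i, X → ι i → ℝ) (hd : ∀ x ∈ S, ∀ i, MemLp (d i x) 2 volume)
    (he : ∀ x ∈ S, ∀ i, (Function.support (e i x)).Finite)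
    (hv : ∀ x ∈ S, ∀ y ∈ S, ∀ s t : ℝ, 0 ≤ s → 0 ≤ t → s + t = 1 → ∃ z ∈ S, ∀ i,
      (∀ w, d i z w = s * d i x w + t * d i y w) ∧ ∀ a, e i z a = s * e i x a + t * e i y a)
    {c : ℝ} (hc : 0 ≤ c)
    (h : ∀ (g : κ → ℂ → ℝ) (l : ∀ i, ι i → ℝ), (∀ i, MemLp (g i) 2 volume) →
      (∀ i, Summable fun a => l i a ^ 2) → ∀ η : ℝ, 0 < η → ∃ x ∈ S,
        ∑ i ∈ I, ((∫ w, g i w * d i x w) + ∑' a, l i a * e i x a) ≤
          c * ∑ i ∈ I, √((∫ w, g i w ^ 2) + ∑' a, l i a ^ 2) + η)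
    {η : ℝ} (hη : 0 < η) :
    ∃ x ∈ S, ∀ i ∈ I, (∫ w, d i x w ^ 2) + ∑' a, e i x a ^ 2 ≤ (c + η) ^ 2 := by
  classical
  have hm : ∀ x ∈ S, ∀ i, Memℓp (e i x) 2 := fun x hx i =>
    (memℓp_zero (he x hx i)).of_exponent_ge zero_le
  let H : I → Type := fun i => WithLp 2 (Lp ℝ 2 (volume : Measure ℂ) × lp (fun _ : ι i => ℝ) 2)
  let v : ∀ x ∈ S, ∀ i : I, H i := fun x hx i =>
    WithLp.toLp 2 ((hd x hx i).toLp _, ⟨e i x, hm x hx i⟩)
  have nL : ∀ u : Lp ℝ 2 (volume : Measure ℂ), ‖u‖ ^ 2 = ∫ w, u w ^ 2 := fun u => by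
    rw [← real_inner_self_eq_norm_sq, L2.inner_def]
    simp
  have nl : ∀ (i : κ) (u : lp (fun _ : ι i => ℝ) 2), ‖u‖ ^ 2 = ∑' a, u a ^ 2 := fun i u => by
    rw [← real_inner_self_eq_norm_sq, lp.inner_eq_tsum]
    simp
  have nH : ∀ (i : I) (u : H i), ‖u‖ ^ 2 = (∫ w, u.fst w ^ 2) + ∑' a, u.snd a ^ 2 :=
    fun i u => by rw [WithLp.prod_norm_sq_eq_of_L2, nL, nl]
  have hS : Convex ℝ {p : ∀ i : I, H i | ∃ x, ∃ hx : x ∈ S, p = v x hx} := by
    rintro _ ⟨x, hx, rfl⟩ _ ⟨y, hy, rfl⟩ s t hs ht hst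
    obtain ⟨z, hz, h1⟩ := hv x hx y hy s t hs ht hst
    refine ⟨z, hz, funext fun i => ?_⟩
    have e1 : s • (hd x hx i).toLp _ + t • (hd y hy i).toLp _ = (hd z hz i).toLp _ := by
      rw [← MemLp.toLp_const_smul, ← MemLp.toLp_const_smul, ← MemLp.toLp_add]
      exact MemLp.toLp_congr _ _ (Eventually.of_forall fun w => ((h1 i).1 w).symm)
    have e2 : s • (⟨e i x, hm x hx i⟩ : lp (fun _ : ι i => ℝ) 2) +
        t • (⟨e i y, hm y hy i⟩ : lp (fun _ : ι i => ℝ) 2) = ⟨e i z, hm z hz i⟩ :=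
      Subtype.ext (funext fun a => ((h1 i).2 a).symm)
    exact congrArg (WithLp.toLp 2) (Prod.ext e1 e2)
  obtain ⟨_, ⟨x, hx, rfl⟩, h2⟩ := minimax18 hS hc (fun t ζ hζ => by
    obtain ⟨x, hx, h3⟩ := h (fun i => if hi : i ∈ I then (t ⟨i, hi⟩).fst else 0)
      (fun i => if hi : i ∈ I then (t ⟨i, hi⟩).snd else 0) (fun i => by
        split_ifs
        exacts [Lp.memLp _, MemLp.zero]) (fun i => by
        split_ifs with hi
        · simpa using (lp.memℓp (t ⟨i, hi⟩).snd).summable (by norm_num)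
        · simp) ζ hζ
    refine ⟨_, ⟨x, hx, rfl⟩, ?_⟩
    rw [← Finset.sum_coe_sort I, ← Finset.sum_coe_sort I] at h3
    refine le_of_eq_of_le (Finset.sum_congr rfl fun i _ => ?_) (h3.trans (le_of_eq ?_))
    · simp only [i.2, dif_pos]
      rw [WithLp.prod_inner_apply, L2.inner_def, lp.inner_eq_tsum]
      refine congrArg₂ (· + ·) (integral_congr_ae ?_) (tsum_congr fun a => ?_)
      · filter_upwards [(hd x hx i).coeFn_toLp] with w hw
        rw [← hw]
        exact mul_comm _ _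
      · exact mul_comm _ _
    · refine congrArg (c * · + ζ) (Finset.sum_congr rfl fun i _ => ?_)
      simp only [i.2, dif_pos]
      rw [← nH, Real.sqrt_sq (norm_nonneg _)]) hη
  refine ⟨x, hx, fun i hi => ?_⟩
  have h4 := pow_le_pow_left₀ (norm_nonneg _) (h2 ⟨i, hi⟩) 2
  rw [nH] at h4
  refine le_of_eq_of_le (congrArg₂ (· + ·) (integral_congr_ae ?_) rfl) h4
  filter_upwards [(hd x hx i).coeFn_toLp] with w hw
  rw [← hw]
  rfl

/-- The index types. -/
def io_RfO (P : Par) : Option (Option (Finset ℂ)) → Type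
  | none => Cp P.E
  | some _ => ℂ

open Classical in
/-- The discrete parts. -/
def ee_RfO (P : Par) (k : ℕ) (f : (P.It →₀ ℝ) → ℝ) :
    ∀ i, (P.It →₀ ℝ) → io_RfO P i → ℝ
  | none => fun π => P.tl π
  | some none => fun π (p : ℂ) => if p ∈ ({0} : Finset ℂ) then f π else 0
  | some (some F) => fun π (p : ℂ) => if p ∈ F then P.tcs π (P.cl k p) else 0

/-- The continuous parts. -/
def dd_RfO (P : Par) : Option (Option (Finset ℂ)) → (P.It →₀ ℝ) → ℂ → ℝ
  | none => P.den
  | some none => fun _ _ => 0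
  | some (some _) => P.den

open Classical in
theorem ts_RfO (F : Finset ℂ) (l u : ℂ → ℝ) :
    ∑' p, l p * (if p ∈ F then u p else 0) = ∑ p ∈ F, l p * u p := by
  rw [tsum_eq_sum (s := F) fun p hp => by simp [hp]]
  exact Finset.sum_congr rfl fun p hp => by simp [hp]

open Classical in
theorem tq_RfO (F : Finset ℂ) (u : ℂ → ℝ) :
    ∑' p, (if p ∈ F then u p else 0) ^ 2 = ∑ p ∈ F, u p ^ 2 := by
  rw [tsum_eq_sum (s := F) fun p hp => by simp [hp]]
  exact Finset.sum_congr rfl fun p hp => by simp [hp]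

theorem sq_RfO (F : Finset ℂ) {u : ℂ → ℝ} (h : Summable fun p => u p ^ 2) :
    ∑ p ∈ F, u p ^ 2 ≤ ∑' p, u p ^ 2 := h.sum_le_tsum F fun _ _ => sq_nonneg _

theorem pre_plan {A : List (TF P.E)} {θ : Set ℂ →₀ ℝ} (hθ : P.Sys θ) {c : ℝ} (hc : 0 ≤ c)
    {j k : ℕ} (hG : P.Gd A θ c j k) {b : ℕ → TF P.E} (hb : ∀ i, Aux A (b i)) (n : ℕ) {η : ℝ}
    (hη : 0 < η) : ∃ π, P.Plan n θ π ∧ P.Gp b j n c η (fun p => P.tcs π (P.cl k p)) π := by
  classical
  obtain ⟨Φ, hΦ, hF⟩ := sep_fin (P := P) j k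
  have hM : 0 < (c + η) / η := by positivity
  obtain ⟨π, hπ, h⟩ := mm_RfO (Finset.insertNone (Finset.insertNone Φ)) {π | P.Plan n θ π}
    (dd_RfO P) (ee_RfO P k fun π => (c + η) / η * P.ex π fun i => hopn b n i.2.2)
    (fun π hπ i => by
      rcases i with _ | _ | F
      exacts [(den_cont hπ).2.2, MemLp.zero, (den_cont hπ).2.2])
    (fun π _ i => by
      rcases i with _ | _ | F
      · exact tl_fin π
      · exact (Finset.finite_toSet ({0} : Finset ℂ)).subset fun p hp => by_contra fun h => hp (if_neg h)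
      · exact F.finite_toSet.subset fun p hp => by_contra fun h => hp (if_neg h))
    (fun π hπ π' hπ' s t hs ht hst => ⟨s • π + t • π', Plan.comb hπ hπ' hs ht hst, fun i => by
      rcases i with _ | _ | F
      · exact ⟨fun w => ex_comb _ _ _ _ _, fun a => ex_comb _ _ _ _ _⟩
      · refine ⟨fun w => by simp [dd_RfO], fun a => ?_⟩
        simp only [ee_RfO, ex_comb]
        split_ifs <;> ring
      · refine ⟨fun w => ex_comb _ _ _ _ _, fun a => ?_⟩
        simp only [ee_RfO, tcs, ex_comb]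
        split_ifs <;> ring⟩) hc
    (fun g l hg hl ζ hζ => by
      obtain ⟨π, hπ, h⟩ := test_plan hθ hc hG hb hΦ (hg none) (lam := l none) (hl none)
        (g := fun F => g (some (some F))) (fun F => hg _) (fun F => l (some (some F))) n
        (l (some none) (0 : ℂ) * ((c + η) / η)) hζ
      refine ⟨π, hπ, ?_⟩
      rw [Finset.sum_insertNone, Finset.sum_insertNone, Finset.sum_insertNone,
        Finset.sum_insertNone]
      have e1 : (∫ w, g (some none) w * dd_RfO P (some none) π w) + ∑' a, l (some none) a *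
          ee_RfO P k (fun π => (c + η) / η * P.ex π fun i => hopn b n i.2.2) (some none) π a =
          l (some none) (0 : ℂ) * ((c + η) / η) * P.ex π fun i => hopn b n i.2.2 := by
        rw [show (∑' a, l (some none) a * ee_RfO P k
          (fun π => (c + η) / η * P.ex π fun i => hopn b n i.2.2) (some none) π a) = _ from
          ts_RfO {0} (l (some none)) fun _ => (c + η) / η * P.ex π fun i => hopn b n i.2.2]
        simp [dd_RfO, mul_assoc]
      have e2 : ∑ F ∈ Φ, ((∫ w, g (some (some F)) w * dd_RfO P (some (some F)) π w) +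
          ∑' a, l (some (some F)) a * ee_RfO P k
            (fun π => (c + η) / η * P.ex π fun i => hopn b n i.2.2) (some (some F)) π a) =
          ∑ F ∈ Φ, ((∫ w, g (some (some F)) w * P.den π w) +
            ∑ p ∈ F, l (some (some F)) p * P.tcs π (P.cl k p)) :=
        Finset.sum_congr rfl fun F _ => congrArg₂ (· + ·) rfl
          (ts_RfO F (l (some (some F))) fun p => P.tcs π (P.cl k p))
      have e3 : ∑ F ∈ Φ, √((∫ w, g (some (some F)) w ^ 2) + ∑ p ∈ F, l (some (some F)) p ^ 2) ≤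
          ∑ F ∈ Φ, √((∫ w, g (some (some F)) w ^ 2) + ∑' p, l (some (some F)) p ^ 2) :=
        Finset.sum_le_sum fun F _ => Real.sqrt_le_sqrt (add_le_add le_rfl
          (sq_RfO F (hl (some (some F)))))
      have e4 := Real.sqrt_nonneg ((∫ w, g (some none) w ^ 2) + ∑' p, l (some none) p ^ 2)
      rw [e1, e2]
      refine le_trans (le_of_eq ?_) (h.trans (add_le_add (mul_le_mul_of_nonneg_left ?_ hc) le_rfl))
      · rw [add_assoc _ (∑ F ∈ Φ, _), add_comm (∑ F ∈ Φ, _)]
        rfl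
      · exact add_le_add le_rfl (e3.trans (le_add_of_nonneg_left e4))) hη
  refine ⟨π, hπ, ?_, h none (by simp), fun F hS => ?_⟩
  · have h1 := h (some none) (by simp)
    rw [show (∑' a, ee_RfO P k (fun π => (c + η) / η * P.ex π fun i => hopn b n i.2.2)
      (some none) π a ^ 2) = _ from
      tq_RfO {0} fun _ => (c + η) / η * P.ex π fun i => hopn b n i.2.2] at h1
    simp only [dd_RfO, Finset.sum_singleton, ne_eq, OfNat.ofNat_ne_zero, not_false_eq_true,
      zero_pow, integral_zero, zero_add] at h1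
    have h2 := (abs_le_of_sq_le_sq' h1 (by positivity)).2
    refine le_of_mul_le_mul_left (h2.trans (le_of_eq ?_)) hM
    field_simp
  · obtain ⟨F', h1, h2⟩ := hF F hS
    have h3 := h (some (some F')) (by simpa using h1)
    rw [h2 fun S => P.tcs π S ^ 2]
    exact le_of_eq_of_le (congrArg₂ (· + ·) rfl (tq_RfO F' fun p => P.tcs π (P.cl k p)).symm) h3

end Par

end Vale.Agent.P116.K
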