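import Vale.Agent.P116.K.RfK

/-! P116 K/RfP (owner helper18). Enlarging the tubes. Plan: R = representatives of level k+1; for an item i = (Z, x, l) put
Z' = Z union the closures of cl (k+1) q over the q in R whose cl k q misses trc x l (clos_cl:
these closures miss the trace, Chn.restrict, Chn.trc); pi' = pi.mapDomain, theta' = pi'.mapDomain
fst; all Z' lie in the finite set of the Z union closures over subsets of R (Tube.union);
tau theta' S = ex pi (if S in Z' then 0 else 1) by Plan.ex_fst; cl_eq, cl_anti.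
Helper names end with `_RfP`. -/

open MeasureTheory Set Metric Filter Topology Complex
open scoped ENNReal

noncomputable section

namespace Vale.Agent.P116.K

open Vale.Agent.P128

namespace Par
variable {P : Par}

theorem map_RfP (f : P.It → P.It) (π : P.It →₀ ℝ) (F : P.It → ℝ) :
    P.ex (π.mapDomain f) F = P.ex π fun i => F (f i) :=
  Finsupp.sum_mapDomain_index (fun _ => zero_mul _) (fun _ _ _ => add_mul _ _ _)

theorem app_RfP {α β : Type} (f : α → β) (π : α →₀ ℝ) (j : β) :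
    π.mapDomain f j = ∑ a ∈ π.support, Finsupp.single (f a) (π a) j := by
  rw [Finsupp.mapDomain, Finsupp.sum_apply]
  rfl

theorem one_RfP {β : Type} (j j' : β) {t : ℝ} (ht : 0 ≤ t) : 0 ≤ Finsupp.single j t j' := by
  classical
  rw [Finsupp.single_apply]
  split_ifs
  · exact ht
  · exact le_rfl

theorem nn_RfP {α β : Type} (f : α → β) {π : α →₀ ℝ} (h : ∀ i, 0 ≤ π i) (j : β) :
    0 ≤ π.mapDomain f j := by
  rw [app_RfP]
  exact Finset.sum_nonneg fun a _ => one_RfP _ _ (h a)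

theorem mem_RfP {α β : Type} (f : α → β) {π : α →₀ ℝ} (h : ∀ i, 0 ≤ π i) {i : α}
    (hi : i ∈ π.support) : f i ∈ (π.mapDomain f).support := by
  rw [Finsupp.mem_support_iff, app_RfP]
  have h1 := Finset.single_le_sum (f := fun a => Finsupp.single (f a) (π a) (f i))
    (fun a _ => one_RfP _ _ (h a)) hi
  simp only [Finsupp.single_eq_same] at h1
  have h2 : 0 < π i := lt_of_le_of_ne (h i) (Finsupp.mem_support_iff.1 hi).symm
  exact (h2.trans_le h1).ne'

theorem sup_RfP {α β : Type} (f : α → β) {π : α →₀ ℝ} {j : β}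
    (hj : j ∈ (π.mapDomain f).support) : ∃ i ∈ π.support, f i = j := by
  classical
  exact Finset.mem_image.1 (Finsupp.mapDomain_support hj)

open Classical in
theorem tau_RfP {n : ℕ} {θ : Set ℂ →₀ ℝ} {π : P.It →₀ ℝ} (h : P.Plan n θ π) (S : Set ℂ) :
    tau θ S = P.ex π fun i => if S ⊆ i.1 then 0 else 1 := by
  rw [h.ex_fst fun Z => if S ⊆ Z then 0 else 1]
  refine Finset.sum_congr rfl fun Z _ => ?_
  beta_reduce
  split_ifs <;> simp

theorem enlarge {θ : Set ℂ →₀ ℝ} (hθ : P.Sys θ) (k : ℕ) : ∃ 𝒵 : Finset (Set ℂ),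
    ∀ n π, P.Plan n θ π → ∃ θ' π', P.Sys θ' ∧ P.Plan n θ' π' ∧ θ'.support ⊆ 𝒵 ∧
      (∀ S, tau θ' S ≤ tau θ S) ∧
      (∀ F : List (Stp P.E) → ℝ, P.ex π' (fun i => F i.2.2) = P.ex π fun i => F i.2.2) ∧
      ∀ p ∈ P.E, tau θ' (closure (P.cl (k + 1) p)) ≤ P.tcs π (P.cl k p) := by
  classical
  obtain ⟨R, hR, hc⟩ := P.exists_reps (k + 1)
  set G : Finset ℂ → Set ℂ := fun T => ⋃ q ∈ T, closure (P.cl (k + 1) q) with hG
  set sel : P.It → Finset ℂ := fun i =>
    R.filter fun q => Disjoint (P.cl k q) (trc i.2.1 i.2.2) with hsel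
  set f : P.It → P.It := fun i => (i.1 ∪ G (sel i), i.2) with hf
  have hT : ∀ i, P.Tube (G (sel i)) := fun i => by
    refine ⟨(sel i).image fun q => (k + 1, q), fun q hq => ?_, ?_⟩
    · obtain ⟨q', h1, rfl⟩ := Finset.mem_image.1 hq
      exact hR.1 q' (Finset.mem_filter.1 h1).1
    · rw [Finset.set_biUnion_finset_image]
  refine ⟨(θ.support ×ˢ R.powerset).image fun p => p.1 ∪ G p.2, fun n π h => ?_⟩
  have hfst : ∀ i ∈ π.support, i.1 ∈ θ.support := fun i hi => by
    rw [← h.mar]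
    exact mem_RfP Prod.fst h.nn hi
  have hpl : P.Plan n ((π.mapDomain f).mapDomain Prod.fst) (π.mapDomain f) := by
    refine ⟨nn_RfP f h.nn, fun j hj => ?_, rfl⟩
    obtain ⟨i, hi, rfl⟩ := sup_RfP f hj
    obtain ⟨h1, y, h2, h3⟩ := h.crs i hi
    refine ⟨h1, y, h2, h3.restrict fun z hz => ⟨(h3.trc.1 hz).1, ?_⟩⟩
    rintro (h4 | h4)
    · exact (h3.trc.1 hz).2 h4
    · obtain ⟨q, hq, h5⟩ := mem_iUnion₂.1 h4
      obtain ⟨h6, h7⟩ := Finset.mem_filter.1 hq
      exact disjoint_left.1 h7 (P.clos_cl (Nat.lt_succ_self k) (hR.1 q h6) h5) hz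
  have hsup : ∀ Z ∈ ((π.mapDomain f).mapDomain Prod.fst).support,
      ∃ i ∈ π.support, Z = i.1 ∪ G (sel i) := fun Z hZ => by
    obtain ⟨j, hj, rfl⟩ := sup_RfP Prod.fst hZ
    obtain ⟨i, hi, rfl⟩ := sup_RfP f hj
    exact ⟨i, hi, rfl⟩
  refine ⟨_, _, ⟨nn_RfP _ hpl.nn, ?_, fun Z hZ => ?_⟩, hpl, fun Z hZ => ?_, fun S => ?_,
    fun F => map_RfP f π _, fun p hp => ?_⟩
  · have h1 := hpl.ex_fst fun _ => 1
    rw [map_RfP, h.one hθ] at h1
    simp only [mul_one] at h1
    exact h1.symm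
  · obtain ⟨i, hi, rfl⟩ := hsup Z hZ
    exact (hθ.tube _ (hfst i hi)).union (hT i)
  · obtain ⟨i, hi, rfl⟩ := hsup Z hZ
    exact Finset.mem_image.2 ⟨(i.1, sel i), Finset.mem_product.2
      ⟨hfst i hi, Finset.mem_powerset.2 (Finset.filter_subset _ _)⟩, rfl⟩
  · rw [tau_RfP hpl, tau_RfP h, map_RfP]
    refine h.ex_mono fun i _ => ?_
    by_cases h1 : S ⊆ i.1
    · rw [if_pos h1, if_pos (h1.trans subset_union_left)]
    · rw [if_neg h1]
      split_ifs
      · exact zero_le_one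
      · exact le_rfl
  · rw [tau_RfP hpl, map_RfP]
    refine h.ex_mono fun i _ => ?_
    obtain ⟨q, hq, h1⟩ := hc p hp
    by_cases h2 : (P.cl k p ∩ trc i.2.1 i.2.2).Nonempty
    · rw [indicator_of_mem (show i ∈ {it : P.It | (P.cl k p ∩ trc it.2.1 it.2.2).Nonempty} from h2)]
      split_ifs
      · exact zero_le_one
      · exact le_rfl
    · have h3 : q ∈ sel i := by
        refine Finset.mem_filter.2 ⟨hq, ?_⟩
        rw [← P.cl_eq (P.cl_anti (Nat.le_succ k) q h1)]
        exact disjoint_iff_inter_eq_empty.2 (not_nonempty_iff_eq_empty.1 h2)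
      have h4 : closure (P.cl (k + 1) p) ⊆ (f i).1 := by
        rw [P.cl_eq h1]
        exact fun z hz => Or.inr (mem_iUnion₂.2 ⟨q, h3, hz⟩)
      rw [if_pos h4]
      exact indicator_nonneg (fun _ _ => zero_le_one) _

end Par

end Vale.Agent.P116.K
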