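import Vale.Agent.P116.K.RfK

/-! P116 K/RfQ (owner helper18). Reweighting. Plan: pi2 i = pi1 i * (theta2 i.1 / theta1 i.1) (Finsupp.onFinset on the support
of pi1); the marginal by mapDomain_apply as a sum (Plan.ex_fst with an indicator); then den, tl,
tau and the hop term grow at most by the factor (den_nn, den_cont, tl_fin, hopn_mono).
Helper names end with `_RfQ`. -/

open MeasureTheory Set Metric Filter Topology Complex
open scoped ENNReal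

noncomputable section

namespace Vale.Agent.P116.K

open Vale.Agent.P128

namespace Par
variable {P : Par}

open Classical in
theorem map_RfQ (π : P.It →₀ ℝ) (Z : Set ℂ) :
    π.mapDomain Prod.fst Z = P.ex π fun i => if i.1 = Z then 1 else 0 := by
  rw [Finsupp.mapDomain, Finsupp.sum_apply]
  refine Finsupp.sum_congr fun i _ => ?_
  rw [Finsupp.single_apply]
  by_cases h : i.1 = Z
  · simp only [if_pos h, mul_one]
  · simp only [if_neg h, mul_zero]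

open Classical in
theorem tau_RfQ (θ : Set ℂ →₀ ℝ) {U : Finset (Set ℂ)} (h : θ.support ⊆ U) (S : Set ℂ) :
    tau θ S = ∑ Z ∈ U, if S ⊆ Z then 0 else θ Z :=
  Finsupp.sum_of_support_subset θ h _ fun _ _ => ite_self _

theorem sm_RfQ (π : P.It →₀ ℝ) : Summable fun c => P.tl π c ^ 2 :=
  summable_of_hasFiniteSupport ((tl_fin π).subset fun c hc h0 => hc (by simp [h0]))

theorem tau_nn {θ : Set ℂ →₀ ℝ} (h : ∀ Z, 0 ≤ θ Z) (S : Set ℂ) : 0 ≤ tau θ S := by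
  refine Finset.sum_nonneg fun Z _ => ?_
  dsimp only
  split_ifs
  exacts [le_rfl, h Z]

theorem tau_le {θ₁ θ₂ : Set ℂ →₀ ℝ} (h1 : ∀ Z, 0 ≤ θ₁ Z) {s : ℝ} (hs : 0 ≤ s)
    (h : ∀ Z, θ₂ Z ≤ s * θ₁ Z) (S : Set ℂ) : tau θ₂ S ≤ s * tau θ₁ S := by
  classical
  rw [tau_RfQ θ₂ (Finset.subset_union_right (s₁ := θ₁.support)),
    tau_RfQ θ₁ (Finset.subset_union_left (s₂ := θ₂.support)), Finset.mul_sum]
  refine Finset.sum_le_sum fun Z _ => ?_
  split_ifs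
  exacts [(mul_zero s).ge, h Z]

theorem tau_mono {θ : Set ℂ →₀ ℝ} (h : ∀ Z, 0 ≤ θ Z) {S S' : Set ℂ} (hS : S ⊆ S') :
    tau θ S ≤ tau θ S' := by
  refine Finset.sum_le_sum fun Z _ => ?_
  dsimp only
  split_ifs with h1 h2 h2
  exacts [le_rfl, h Z, absurd (hS.trans h2) h1, le_rfl]

theorem reweight {n : ℕ} {θ₁ θ₂ : Set ℂ →₀ ℝ} {π₁ : P.It →₀ ℝ} (h : P.Plan n θ₁ π₁)
    (h2 : ∀ Z, 0 ≤ θ₂ Z) {s : ℝ} (hs : 0 ≤ s) (hl : ∀ Z, θ₂ Z ≤ s * θ₁ Z) :
    ∃ π₂, P.Plan n θ₂ π₂ ∧ P.n1 π₂ ≤ s ^ 2 * P.n1 π₁ ∧ P.n2 π₂ ≤ s ^ 2 * P.n2 π₁ ∧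
      ∀ b, P.Bd b → ∀ m, P.ex π₂ (fun i => hopn b m i.2.2) ≤
        s * P.ex π₁ (fun i => hopn b m i.2.2) := by
  classical
  have h1 : ∀ Z, 0 ≤ θ₁ Z := fun Z => by
    rw [← h.mar, map_RfQ]
    refine Finset.sum_nonneg fun i _ => mul_nonneg (h.nn i) ?_
    dsimp only
    split_ifs <;> norm_num
  have w0 : ∀ Z, 0 ≤ θ₂ Z / θ₁ Z := fun Z => div_nonneg (h2 Z) (h1 Z)
  have w1 : ∀ Z, θ₂ Z / θ₁ Z ≤ s := fun Z => div_le_of_le_mul₀ (h1 Z) hs (hl Z)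
  have w2 : ∀ Z, θ₁ Z * (θ₂ Z / θ₁ Z) = θ₂ Z := fun Z => by
    rcases (h1 Z).eq_or_lt with h0 | h0
    · have := hl Z
      rw [← h0, mul_zero] at this
      rw [← h0, zero_mul]
      exact le_antisymm (h2 Z) this
    · exact mul_div_cancel₀ _ h0.ne'
  obtain ⟨π₂, hπ, hsub⟩ : ∃ π₂ : P.It →₀ ℝ, (∀ i, π₂ i = π₁ i * (θ₂ i.1 / θ₁ i.1)) ∧
      π₂.support ⊆ π₁.support :=
    ⟨Finsupp.onFinset π₁.support (fun i => π₁ i * (θ₂ i.1 / θ₁ i.1)) fun i hi =>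
      Finsupp.mem_support_iff.2 (left_ne_zero_of_mul hi), fun _ => rfl,
      Finsupp.support_onFinset_subset⟩
  have e : ∀ F : P.It → ℝ, P.ex π₂ F = P.ex π₁ fun i => θ₂ i.1 / θ₁ i.1 * F i := fun F => by
    refine (Finsupp.sum_of_support_subset π₂ hsub (fun i a => a * F i)
      fun _ _ => zero_mul _).trans (Finset.sum_congr rfl fun i _ => ?_)
    dsimp only
    rw [hπ, mul_assoc]
  have key : ∀ F : P.It → ℝ, (∀ i ∈ π₁.support, 0 ≤ F i) → P.ex π₂ F ≤ s * P.ex π₁ F :=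
    fun F hF => by
      rw [e, ← ex_mul]
      exact h.ex_mono fun i hi => mul_le_mul_of_nonneg_right (w1 _) (hF i hi)
  have hp : P.Plan n θ₂ π₂ := by
    refine ⟨fun i => ?_, fun i hi => h.crs i (hsub hi), Finsupp.ext fun Z => ?_⟩
    · rw [hπ]
      exact mul_nonneg (h.nn i) (w0 _)
    · rw [map_RfQ, e, h.ex_fst fun Z' => θ₂ Z' / θ₁ Z' * if Z' = Z then 1 else 0,
        Finsupp.sum_eq_single Z (fun Z' _ hZ => by rw [if_neg hZ, mul_zero, mul_zero])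
          fun _ => zero_mul _, if_pos rfl, mul_one, w2]
  refine ⟨π₂, hp, ?_, ?_, fun b hb m => key _ fun i hi =>
    (hopn_mono (le_refl m) (ok_KerF h hi) hb).1⟩
  · rw [n1, n1, ← integral_const_mul]
    refine integral_mono (den_cont hp).2.2.integrable_sq
      ((den_cont h).2.2.integrable_sq.const_mul _) fun x => ?_
    dsimp only
    rw [← mul_pow]
    exact pow_le_pow_left₀ (den_nn hp x) (key _ fun i _ => eta_nn _ _) 2
  · rw [n2, n2, ← tsum_mul_left]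
    refine (sm_RfQ π₂).tsum_le_tsum (fun c => ?_) ((sm_RfQ π₁).mul_left _)
    rw [← mul_pow]
    exact pow_le_pow_left₀ (tl_nn hp c) (key _ fun i _ => tele_nn _ _) 2

end Par

end Vale.Agent.P116.K
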