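import Vale.Agent.P116.K.Rf0

/-! P116 K/RfR (owner helper18). Compactness of the systems with support in a finite set. Plan: the sets G i generate a proper
filter on the finitely supported functions; take an ultrafilter U above it (Ultrafilter.of),
the limits f Z in [0,1] of the coordinates (IsCompact.ultrafilter_le_nhds), theta' =
Finsupp.onFinset; sums over the finite set pass to the limit; if f Z > 0 then the coordinate is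
eventually above f Z / (1+s), and Z is a tube.
Helper names end with `_RfR`. -/

open MeasureTheory Set Metric Filter Topology Complex
open scoped ENNReal

noncomputable section

namespace Vale.Agent.P116.K

open Vale.Agent.P128

namespace Par
variable {P : Par}

theorem ult_RfR {ι α : Type} [Nonempty ι] (G : ι → Set α) (hne : ∀ i, (G i).Nonempty)
    (hd : ∀ i i', ∃ i'', G i'' ⊆ G i ∩ G i') : ∃ U : Ultrafilter α, ∀ i, G i ∈ (U : Filter α) := by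
  have hF : NeBot (⨅ i, 𝓟 (G i)) := by
    refine iInf_neBot_of_directed' (fun i i' => ?_) fun i => principal_neBot_iff.2 (hne i)
    obtain ⟨k, hk⟩ := hd i i'
    exact ⟨k, principal_mono.2 (hk.trans inter_subset_left),
      principal_mono.2 (hk.trans inter_subset_right)⟩
  exact ⟨Ultrafilter.of (⨅ i, 𝓟 (G i)), fun i =>
    le_principal_iff.1 ((Ultrafilter.of_le _).trans (iInf_le _ i))⟩

open Classical in
theorem tau_RfR {𝒵 : Finset (Set ℂ)} {θ : Set ℂ →₀ ℝ} (h : θ.support ⊆ 𝒵) (S : Set ℂ) :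
    tau θ S = ∑ Z ∈ 𝒵, if S ⊆ Z then 0 else θ Z :=
  Finsupp.sum_of_support_subset θ h (fun Z a => if S ⊆ Z then 0 else a) fun _ _ => ite_self 0

theorem sys_lim {ι : Type} [Nonempty ι] (G : ι → Set (Set ℂ →₀ ℝ)) (hne : ∀ i, (G i).Nonempty)
    (hd : ∀ i i', ∃ i'', G i'' ⊆ G i ∩ G i') {𝒵 : Finset (Set ℂ)} {θ : Set ℂ →₀ ℝ}
    (h : ∀ i, ∀ θ₁ ∈ G i, P.Sys θ₁ ∧ θ₁.support ⊆ 𝒵 ∧ ∀ S, tau θ₁ S ≤ tau θ S) :
    ∃ θ', P.Sys θ' ∧ (∀ S, tau θ' S ≤ tau θ S) ∧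
      ∀ i, ∀ s : ℝ, 0 < s → ∃ θ₁ ∈ G i, ∀ Z, θ' Z ≤ (1 + s) * θ₁ Z := by
  classical
  obtain ⟨U, hU⟩ := ult_RfR G hne hd
  obtain ⟨i₀⟩ := ‹Nonempty ι›
  have hE : ∀ᶠ θ₁ in (U : Filter (Set ℂ →₀ ℝ)),
      P.Sys θ₁ ∧ θ₁.support ⊆ 𝒵 ∧ ∀ S, tau θ₁ S ≤ tau θ S := mem_of_superset (hU i₀) (h i₀)
  have hone : ∀ θ₁ : Set ℂ →₀ ℝ, P.Sys θ₁ → θ₁.support ⊆ 𝒵 → ∑ Z ∈ 𝒵, θ₁ Z = 1 := fun θ₁ h1 h2 =>
    (Finsupp.sum_of_support_subset θ₁ h2 (fun _ a => a) fun _ _ => rfl).symm.trans h1.one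
  have hI : ∀ θ₁ : Set ℂ →₀ ℝ, P.Sys θ₁ → ∀ Z, θ₁ Z ∈ Icc (0 : ℝ) 1 := fun θ₁ h1 Z => by
    refine ⟨h1.nn Z, ?_⟩
    by_cases hZ : Z ∈ θ₁.support
    · rw [← h1.one]
      exact Finset.single_le_sum (f := fun Z => θ₁ Z) (fun Z _ => h1.nn Z) hZ
    · rw [Finsupp.notMem_support_iff.1 hZ]
      exact zero_le_one
  have hlim : ∀ Z, ∃ a ∈ Icc (0 : ℝ) 1, Tendsto (fun θ₁ : Set ℂ →₀ ℝ => θ₁ Z) U (𝓝 a) := fun Z =>
    isCompact_Icc.ultrafilter_le_nhds (U.map fun θ₁ : Set ℂ →₀ ℝ => θ₁ Z)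
      (le_principal_iff.2 (hE.mono fun θ₁ h1 => hI θ₁ h1.1 Z))
  choose f hf0 hf using hlim
  have hz : ∀ Z, f Z ≠ 0 → Z ∈ 𝒵 ∧ P.Tube Z := fun Z hZ => by
    obtain ⟨θ₁, h1, h2⟩ := (hE.and ((hf Z).eventually_ne hZ)).exists
    have h3 := Finsupp.mem_support_iff.2 h2
    exact ⟨h1.2.1 h3, h1.1.tube Z h3⟩
  obtain ⟨θ', hθ⟩ : ∃ θ' : Set ℂ →₀ ℝ, ∀ Z, θ' Z = f Z :=
    ⟨Finsupp.onFinset 𝒵 f fun Z hZ => (hz Z hZ).1, fun _ => rfl⟩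
  have hs : θ'.support ⊆ 𝒵 := fun Z hZ => (hz Z (hθ Z ▸ Finsupp.mem_support_iff.1 hZ)).1
  refine ⟨θ', ⟨fun Z => hθ Z ▸ (hf0 Z).1, ?_,
    fun Z hZ => (hz Z (hθ Z ▸ Finsupp.mem_support_iff.1 hZ)).2⟩, fun S => ?_, fun i s h0 => ?_⟩
  · rw [Finsupp.sum_of_support_subset θ' hs (fun _ a => a) fun _ _ => rfl]
    simp only [hθ]
    exact tendsto_nhds_unique (tendsto_finsetSum 𝒵 fun Z _ => hf Z)
      (tendsto_const_nhds.congr' (hE.mono fun θ₁ h1 => (hone θ₁ h1.1 h1.2.1).symm))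
  · rw [tau_RfR hs]
    simp only [hθ]
    refine le_of_tendsto (f := fun θ₁ : Set ℂ →₀ ℝ => ∑ Z ∈ 𝒵, if S ⊆ Z then 0 else θ₁ Z)
      (x := (U : Filter (Set ℂ →₀ ℝ))) (tendsto_finsetSum 𝒵 fun Z _ => ?_)
      (hE.mono fun θ₁ h1 => (tau_RfR h1.2.1 S).symm.le.trans (h1.2.2 S))
    split_ifs
    · exact tendsto_const_nhds
    · exact hf Z
  · have h1 : ∀ᶠ θ₁ in (U : Filter (Set ℂ →₀ ℝ)), ∀ Z ∈ 𝒵, f Z ≤ (1 + s) * θ₁ Z := by
      refine (eventually_all_finset 𝒵).2 fun Z _ => ?_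
      rcases (hf0 Z).1.eq_or_lt with h2 | h2
      · exact hE.mono fun θ₁ h3 => h2 ▸ mul_nonneg (by linarith) (h3.1.nn Z)
      · have h3 : f Z < (1 + s) * f Z := by nlinarith
        exact (((hf Z).const_mul (1 + s)).eventually (lt_mem_nhds h3)).mono fun θ₁ h4 => h4.le
    obtain ⟨θ₁, h2, h3, h4⟩ := ((show ∀ᶠ θ₁ in (U : Filter (Set ℂ →₀ ℝ)), θ₁ ∈ G i from
      hU i).and (hE.and h1)).exists
    refine ⟨θ₁, h2, fun Z => ?_⟩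
    rw [hθ]
    by_cases hZ : f Z = 0
    · rw [hZ]
      exact mul_nonneg (by linarith) (h3.1.nn Z)
    · exact h4 Z (hz Z hZ).1

end Par

end Vale.Agent.P116.K
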