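import Vale.Agent.P116.K.RfJ
import Vale.Agent.P116.K.RfO
import Vale.Agent.P116.K.RfP
import Vale.Agent.P116.K.RfQ
import Vale.Agent.P116.K.RfR

/-! P116 K/RfS (owner helper18). The refinement. Plan: exists_gd gives k; index type = triples (b, n, eta') with Aux b and
0 < eta' (if there is no Aux sequence take theta itself); G (b, n, eta') = the systems theta1 with
support in the finite set of enlarge, tau theta1 <= tau theta and a plan pi of level n with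
Gp b j n (c+eta) eta' (fun p => tau theta1 (closure (cl (k+1) p))) pi; nonempty by pre_plan and
enlarge (n1, n2 are functions of ex of functions of the chain); directed by mg, hopn_mg,
Plan.anti, min; sys_lim, reweight, tau_le; the level is k+1.
Helper names end with `_RfS`. -/

open MeasureTheory Set Metric Filter Topology Complex
open scoped ENNReal

noncomputable section

namespace Vale.Agent.P116.K

open Vale.Agent.P128

namespace Par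
variable {P : Par}

theorem refine {A : List (TF P.E)} {θ : Set ℂ →₀ ℝ} (hθ : P.Sys θ) {c : ℝ} (hc : 0 ≤ c)
    (h : P.BV A θ c) (j k₀ : ℕ) {η : ℝ} (hη : 0 < η) : ∃ k θ', k₀ ≤ k ∧ P.Sys θ' ∧
      (∀ S, tau θ' S ≤ tau θ S) ∧
      ∀ b : ℕ → TF P.E, (∀ i, Aux A (b i)) → P.Cert b j k θ' (c + η) := by
  obtain ⟨k, hk, hG⟩ := exists_gd hθ hc h hη j k₀
  have hc' : 0 ≤ c + η := by linarith
  obtain ⟨𝒵, hZ⟩ := enlarge hθ k
  by_cases h0 : ∃ b : ℕ → TF P.E, ∀ i, Aux A (b i)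
  swap
  · exact ⟨k₀, θ, le_rfl, hθ, fun _ => le_rfl, fun b hb => absurd ⟨b, hb⟩ h0⟩
  obtain ⟨b₀, hb₀⟩ := h0
  let ι : Type := {x : (ℕ → TF P.E) × ℕ × ℝ // (∀ i, Aux A (x.1 i)) ∧ 0 < x.2.2}
  have : Nonempty ι := ⟨⟨(b₀, 0, 1), hb₀, one_pos⟩⟩
  let G : ι → Set (Set ℂ →₀ ℝ) := fun x => {θ₁ | (P.Sys θ₁ ∧ θ₁.support ⊆ 𝒵 ∧
    ∀ S, tau θ₁ S ≤ tau θ S) ∧ ∃ π, P.Plan x.1.2.1 θ₁ π ∧ P.Gp x.1.1 j x.1.2.1 (c + η) x.1.2.2
      (fun p => tau θ₁ (closure (P.cl (k + 1) p))) π}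
  have hne : ∀ x, (G x).Nonempty := by
    rintro ⟨⟨b, n, ζ⟩, hb, hζ⟩
    obtain ⟨π, hπ, g1, g2, g3⟩ := pre_plan hθ hc' hG hb n hζ
    obtain ⟨θ₁, π₁, s1, s2, s3, s4, s5, s6⟩ := hZ n π hπ
    have e1 : P.n1 π₁ = P.n1 π :=
      integral_congr_ae (Eventually.of_forall fun x => congrArg (· ^ 2) (s5 fun l => P.eta l x))
    have e2 : P.n2 π₁ = P.n2 π := tsum_congr fun q => congrArg (· ^ 2) (s5 fun l => P.tele l q)
    refine ⟨θ₁, ⟨s1, s3, s4⟩, π₁, s2, (s5 fun l => hopn b n l).trans_le g1, ?_, fun F hF => ?_⟩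
    · rw [e1, e2]
      exact g2
    · rw [e1]
      exact (add_le_add le_rfl (Finset.sum_le_sum fun p hp =>
        pow_le_pow_left₀ (tau_nn s1.nn _) (s6 p (hF.1 p hp)) 2)).trans (g3 F hF)
  have hw : ∀ (x y : ι), x.1.2.1 ≤ y.1.2.1 → y.1.2.2 ≤ x.1.2.2 →
      (∀ (n' : ℕ) (O : Set ℂ) (l : List (Stp P.E)), (∀ s ∈ l, P.Ok n' O s) →
        hopn x.1.1 x.1.2.1 l ≤ hopn y.1.1 y.1.2.1 l) → G y ⊆ G x := by
    rintro x y h1 h2 h3 θ₁ ⟨s1, π, hπ, g1, g2, g3⟩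
    have h4 : (c + η + y.1.2.2) ^ 2 ≤ (c + η + x.1.2.2) ^ 2 :=
      pow_le_pow_left₀ (add_nonneg hc' y.2.2.le) (by linarith) 2
    refine ⟨s1, π, hπ.anti h1, ((hπ.ex_mono fun i hi => ?_).trans g1).trans h2, g2.trans h4,
      fun F hF => (g3 F hF).trans h4⟩
    obtain ⟨-, z, -, h5⟩ := hπ.crs i hi
    exact h3 _ _ _ h5.2.2
  have hd : ∀ x y, ∃ z, G z ⊆ G x ∩ G y := by
    intro x y
    let B : ℕ → ℕ → TF P.E := fun m => if m = 0 then x.1.1 else y.1.1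
    have hB : ∀ m i, Aux A (B m i) := fun m i => by
      by_cases hm : m = 0
      · simpa [B, hm] using x.2.1 i
      · simpa [B, hm] using y.2.1 i
    obtain ⟨N₁, a1, a2⟩ := hopn_mg (B := B) (fun m i => (hB m i).bd) 0 x.1.2.1
    obtain ⟨N₂, a3, a4⟩ := hopn_mg (B := B) (fun m i => (hB m i).bd) 1 y.1.2.1
    refine ⟨⟨(P.mg B, max N₁ N₂, min x.1.2.2 y.1.2.2), fun i => hB _ _, lt_min x.2.2 y.2.2⟩,
      subset_inter (hw _ _ (a1.trans (le_max_left _ _)) (min_le_left _ _)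
        (a2 _ (le_max_left _ _))) (hw _ _ (a3.trans (le_max_right _ _)) (min_le_right _ _)
        (a4 _ (le_max_right _ _)))⟩
  obtain ⟨θ', t1, t2, t3⟩ := sys_lim G hne hd fun _ _ h => h.1
  refine ⟨k + 1, θ', by omega, t1, t2, fun b hb n ζ hζ => ?_⟩
  have hp : 0 < c + η + ζ := by linarith
  obtain ⟨s, hs, hs1⟩ : ∃ s : ℝ, 0 < s ∧ s * (c + η + ζ) = ζ / 2 :=
    ⟨ζ / 2 / (c + η + ζ), by positivity, div_mul_cancel₀ _ hp.ne'⟩
  obtain ⟨θ₁, ⟨s1, π, hπ, g1, g2, g3⟩, t4⟩ := t3 ⟨(b, n, ζ / 2), hb, half_pos hζ⟩ s hs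
  have h1s : 0 ≤ 1 + s := by linarith
  obtain ⟨π₂, r1, r2, r3, r4⟩ := reweight hπ t1.nn h1s t4
  have k1 : (1 + s) ^ 2 * (c + η + ζ / 2) ^ 2 ≤ (c + η + ζ) ^ 2 := by
    rw [← mul_pow]
    exact pow_le_pow_left₀ (by positivity) (by nlinarith) 2
  refine ⟨π₂, r1, (r4 b (fun i => (hb i).bd) n).trans
    ((mul_le_mul_of_nonneg_left g1 h1s).trans ?_), ?_, fun F hF => ?_⟩
  · show (1 + s) * (ζ / 2) ≤ ζ
    nlinarith [mul_nonneg hs.le hc']
  · exact (add_le_add r2 r3).trans ((mul_add _ _ _).symm.trans_le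
      ((mul_le_mul_of_nonneg_left g2 (sq_nonneg _)).trans k1))
  · refine le_trans ?_ ((mul_le_mul_of_nonneg_left (g3 F hF) (sq_nonneg _)).trans k1)
    rw [mul_add, Finset.mul_sum]
    refine add_le_add r2 (Finset.sum_le_sum fun p _ => ?_)
    rw [← mul_pow]
    exact pow_le_pow_left₀ (tau_nn t1.nn _) (tau_le s1.1.nn h1s t4 _) 2

end Par

end Vale.Agent.P116.K
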