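import Vale.Agent.P116.S.Arg
import Vale.Agent.P116.S.Rect
import Vale.Agent.P116.K.Fit
import Vale.Agent.P116.S.Cover

/-! P116 K/Side (TASK, owner helper20). Helper names end with `_Side`.
`Lft Γ` is open (`IsOpen.connectedComponentIn`). The left part of the strip is convex and misses `Γ`. `miranda`: `exists_arg` for the four open sets `{0 < re Φ}`, .. pulled back by the clamp onto the square, then as in S/Cover (`stay`, `exists_shift`).
`sg_right`: otherwise there is a path `κ` in the open connected set `Lft Γ` from `-1/2 + I/2` to `z` (`IsOpen.isConnected_iff_isPathConnected`); its range `K` is compact, misses `Γ`, and has `im ∈ [η, 1 - η]`. A thin `thickening` of `Γ` (union of balls, preconnected: `IsPreconnected.biUnion_of_..` or `isPreconnected_of_forall_pair`; simpler: the component of the open thickening containing `Γ`)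
misses `K`, lies in `-1/2 < re < z.re`, is open and connected, so contains a path `γ` from the bottom point to the top point. `Φ (s + i t) = κ.extend s - γ.extend t` contradicts `miranda` (apply it to `conj Φ`). -/

open MeasureTheory Set Metric Filter Topology Complex
open scoped ENNReal ComplexConjugate

set_option linter.unusedVariables false

noncomputable section

namespace Vale.Agent.P116

open Vale.Agent.P128

variable {E : Set ℂ}

/-- The part of the strip to the left of `Γ`. -/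
def Lft (Γ : Set ℂ) : Set ℂ := connectedComponentIn (Qs \ Γ) ⟨-1 / 2, 1 / 2⟩

/-- The indicator of the right side of `Γ`. -/
def sg (Γ : Set ℂ) : ℂ → ℝ := (Lft Γ)ᶜ.indicator 1

theorem op_Side {Γ : Set ℂ} (hΓ : IsClosed Γ) : IsOpen (Qs \ Γ) :=
  (isOpen_Ioo.reProdIm isOpen_Ioo).sdiff hΓ

theorem mem_Side {Γ J : Set ℂ} (hJ : IsPreconnected J) (hs : J ⊆ Qs \ Γ) {z z' : ℂ} (hz : z ∈ J)
    (hz' : z' ∈ J) (h : z ∈ Lft Γ) : z' ∈ Lft Γ := by
  rw [Lft, connectedComponentIn_eq h]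
  exact hJ.subset_connectedComponentIn hz hs hz'

theorem miranda {Φ : ℂ → ℂ} (hΦ : ContinuousOn Φ Qc)
    (h : ∀ z ∈ Qc, (z.re = 0 → (Φ z).re < 0) ∧ (z.re = 1 → 0 < (Φ z).re) ∧
      (z.im = 0 → (Φ z).im < 0) ∧ (z.im = 1 → 0 < (Φ z).im)) : ∃ z ∈ Qc, Φ z = 0 := by
  by_contra hn
  obtain ⟨k, k1, k2, k3⟩ := ret_Cover
  have c : Continuous fun z => Φ (k z) := hΦ.comp_continuous k1 k2
  obtain ⟨θ, hθ, g⟩ := exists_arg (isOpen_lt continuous_const (continuous_re.comp c))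
    (isOpen_lt (continuous_re.comp c) continuous_const)
    (isOpen_lt continuous_const (continuous_im.comp c))
    (isOpen_lt (continuous_im.comp c) continuous_const)
    (disjoint_left.2 fun z h1 h2 => lt_asymm (a := (0 : ℝ)) h1 h2)
    (disjoint_left.2 fun z h1 h2 => lt_asymm (a := (0 : ℝ)) h1 h2) fun z => by
      by_contra h0
      simp only [not_or, mem_ofPred_eq, not_lt] at h0
      exact hn ⟨k z, k2 z, Complex.ext (le_antisymm h0.1 h0.2.1) (le_antisymm h0.2.2.1 h0.2.2.2)⟩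
  have m0 : Icc (0 : ℝ) 0 ⊆ Icc (0 : ℝ) 1 := Icc_subset_Icc le_rfl zero_le_one
  have m1 : Icc (1 : ℝ) 1 ⊆ Icc (0 : ℝ) 1 := Icc_subset_Icc zero_le_one le_rfl
  have cR : ∀ z ∈ Icc (1 : ℝ) 1 ×ℂ Icc (0 : ℝ) 1, 0 < Real.cos (θ z) := fun z hz => by
    have hw : z ∈ Qc := ⟨m1 hz.1, hz.2⟩
    refine (g z).1.2 (show 0 < (Φ (k z)).re from ?_)
    rw [k3 z hw]
    exact (h z hw).2.1 (le_antisymm hz.1.2 hz.1.1)
  have cT : ∀ z ∈ Icc (0 : ℝ) 1 ×ℂ Icc (1 : ℝ) 1, 0 < Real.sin (θ z) := fun z hz => by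
    have hw : z ∈ Qc := ⟨hz.1, m1 hz.2⟩
    refine (g z).2.2.1.2 (show 0 < (Φ (k z)).im from ?_)
    rw [k3 z hw]
    exact (h z hw).2.2.2 (le_antisymm hz.2.2 hz.2.1)
  have cL : ∀ z ∈ Icc (0 : ℝ) 0 ×ℂ Icc (0 : ℝ) 1, Real.cos (θ z) < 0 := fun z hz => by
    have hw : z ∈ Qc := ⟨m0 hz.1, hz.2⟩
    refine (g z).2.1.2 (show (Φ (k z)).re < 0 from ?_)
    rw [k3 z hw]
    exact (h z hw).1 (le_antisymm hz.1.2 hz.1.1)
  have cB : ∀ z ∈ Icc (0 : ℝ) 1 ×ℂ Icc (0 : ℝ) 0, Real.sin (θ z) < 0 := fun z hz => by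
    have hw : z ∈ Qc := ⟨hz.1, m0 hz.2⟩
    refine (g z).2.2.2.2 (show (Φ (k z)).im < 0 from ?_)
    rw [k3 z hw]
    exact (h z hw).2.2.1 (le_antisymm hz.2.2 hz.2.1)
  obtain ⟨j, hj⟩ := exists_shift (cR ⟨1, 0⟩ ⟨⟨le_rfl, le_rfl⟩, le_rfl, zero_le_one⟩)
    (cB ⟨1, 0⟩ ⟨⟨zero_le_one, le_rfl⟩, le_rfl, le_rfl⟩)
  refine wind_Cover (θ := fun z => θ z + j * (2 * Real.pi)) (hθ.add continuous_const)
    (fun z hz => ?_) (fun z hz => ?_) (fun z hz => ?_) (fun z hz => ?_) hj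
  · rw [Real.cos_add_int_mul_two_pi]; exact cR z hz
  · rw [Real.sin_add_int_mul_two_pi]; exact cT z hz
  · rw [Real.cos_add_int_mul_two_pi]; exact cL z hz
  · rw [Real.sin_add_int_mul_two_pi]; exact cB z hz

theorem sg_mem (Γ : Set ℂ) (z : ℂ) : sg Γ z = 0 ∨ sg Γ z = 1 := by
  by_cases h : z ∈ (Lft Γ)ᶜ
  · exact Or.inr (indicator_of_mem h _)
  · exact Or.inl (indicator_of_notMem h _)

theorem sg_meas {Γ : Set ℂ} (hΓ : IsClosed Γ) : Measurable (sg Γ) := by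
  exact measurable_one.indicator (op_Side hΓ).connectedComponentIn.measurableSet.compl

theorem sg_const {Γ J : Set ℂ} (hJ : IsPreconnected J) (hs : J ⊆ Qs \ Γ) {z z' : ℂ} (hz : z ∈ J)
    (hz' : z' ∈ J) : sg Γ z = sg Γ z' := by
  by_cases h : z ∈ Lft Γ
  · rw [sg, indicator_of_notMem (not_not.2 h), indicator_of_notMem (not_not.2 (mem_Side hJ hs hz hz' h))]
  · rw [sg, indicator_of_mem (mem_compl h),
      indicator_of_mem (mem_compl fun h' => h (mem_Side hJ hs hz' hz h'))]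
    rfl

theorem sg_loc {Γ : Set ℂ} (hΓ : IsClosed Γ) {z : ℂ} (hz : z ∈ Qs \ Γ) :
    ∀ᶠ y in 𝓝 z, sg Γ y = sg Γ z := by
  obtain ⟨r, hr, h⟩ := Metric.isOpen_iff.1 (op_Side hΓ) z hz
  exact mem_of_superset (ball_mem_nhds z hr) fun y hy =>
    sg_const (convex_ball z r).isPreconnected h hy (mem_ball_self hr)

theorem sg_left {Γ : Set ℂ} (hQ : Γ ⊆ Qc) {z : ℂ} (hz : z ∈ Qs) (h : z.re < 0) : sg Γ z = 0 := by
  have h1 : Ioo (-1 : ℝ) 0 ×ℂ Ioo (0 : ℝ) 1 ⊆ Qs \ Γ := fun y hy =>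
    ⟨⟨⟨hy.1.1, lt_trans hy.1.2 two_pos⟩, hy.2⟩, fun hy' => (hQ hy').1.1.not_gt hy.1.2⟩
  have h2 : (⟨-1 / 2, 1 / 2⟩ : ℂ) ∈ Ioo (-1 : ℝ) 0 ×ℂ Ioo (0 : ℝ) 1 := by
    refine ⟨⟨?_, ?_⟩, ?_, ?_⟩ <;> norm_num
  exact indicator_of_notMem (not_not.2 ((cvx_Ioo (-1) 0 0 1).isPreconnected.subset_connectedComponentIn
    h2 h1 (show z ∈ Ioo (-1 : ℝ) 0 ×ℂ Ioo (0 : ℝ) 1 from ⟨⟨hz.1.1, h⟩, hz.2⟩))) _

theorem sg_right {Γ : Set ℂ} (hΓ : IsCompact Γ) (hc : IsPreconnected Γ) (hQ : Γ ⊆ Qc)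
    (hb : ∃ p ∈ Γ, p.im = 0) (ht : ∃ p ∈ Γ, p.im = 1) {z : ℂ} (hz : z ∈ Qs) (h : 1 < z.re) :
    sg Γ z = 1 := by
  refine indicator_of_mem (mem_compl fun h0 => ?_) _
  obtain ⟨p, hp, p0⟩ := hb
  obtain ⟨q, hq, q1⟩ := ht
  have b0 := connectedComponentIn_nonempty_iff.1 ⟨z, h0⟩
  obtain ⟨κ, hκ⟩ := ((op_Side hΓ.isClosed).connectedComponentIn.isConnected_iff_isPathConnected.1
    (isConnected_connectedComponentIn_iff.2 b0)).joinedIn _ (mem_connectedComponentIn b0) z h0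
  replace hκ : ∀ t, κ.extend t ∈ Qs \ Γ := fun t => connectedComponentIn_subset _ _ (hκ _)
  have hU : IsOpen ((re ⁻¹' Ioo (-1 / 2) z.re) \ range κ.extend) := by
    rw [κ.extend_range]
    exact (isOpen_Ioo.preimage continuous_re).sdiff (isCompact_range κ.continuous).isClosed
  have hs : Γ ⊆ (re ⁻¹' Ioo (-1 / 2) z.re) \ range κ.extend := fun y hy =>
    ⟨⟨lt_of_lt_of_le (by norm_num) (hQ hy).1.1, lt_of_le_of_lt (hQ hy).1.2 h⟩,
      fun ⟨t, e⟩ => (hκ t).2 (e ▸ hy)⟩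
  obtain ⟨γ, hγ⟩ := (hU.connectedComponentIn.isConnected_iff_isPathConnected.1
    (isConnected_connectedComponentIn_iff.2 (hs hp))).joinedIn _ (mem_connectedComponentIn (hs hp)) q
      (hc.subset_connectedComponentIn hp hs hq)
  replace hγ : ∀ t, γ.extend t ∈ (re ⁻¹' Ioo (-1 / 2) z.re) \ range κ.extend := fun t =>
    connectedComponentIn_subset _ _ (hγ _)
  refine (miranda (Φ := fun w => conj (κ.extend w.re - γ.extend w.im))
    (Continuous.continuousOn (by fun_prop))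
    fun w _ => ⟨fun e => ?_, fun e => ?_, fun e => ?_, fun e => ?_⟩).elim fun w hw =>
      (hγ w.im).2 ⟨w.re, sub_eq_zero.1 ((map_eq_zero _).1 hw.2)⟩
  · rw [conj_re, sub_re, e, κ.extend_zero]
    exact sub_neg.2 (hγ _).1.1
  · rw [conj_re, sub_re, e, κ.extend_one]
    exact sub_pos.2 (hγ _).1.2
  · rw [conj_im, sub_im, e, γ.extend_zero, p0, sub_zero]
    exact neg_neg_of_pos (hκ _).1.2.1
  · rw [conj_im, sub_im, e, γ.extend_one, q1, neg_sub]
    exact sub_pos.2 (hκ _).1.2.2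

end Vale.Agent.P116
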