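import Vale.Agent.P116.K.MolA

/-! P116 K/SlA (TASK, owner helper20). Helper names end with `_SlA`.
One variable. `F x = (∫ y in Iic x, g y * deriv f y) - g x * f x` is locally constant off `T` (near a point of `O` the function `g` is constant, `intervalIntegral.integral_deriv_eq_sub`; off `tsupport f` everything vanishes), and its jump at `t ∈ T` is at most `|f t|`.
For instance induct on `T` (`Finset.induction_on_max`) with the statement: for `a < b` not in `T`, `|∫ a..b g f' - (g b f b - g a f a)| ≤ ∑ t ∈ T, |f t|` whenever `g f` has derivative `g f'` at all points of `Icc a b \ T`; split at `t - η`, `t + η` and let `η → 0`. -/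

open MeasureTheory Set Metric Filter Topology Complex
open scoped ENNReal ComplexConjugate

set_option linter.unusedVariables false

noncomputable section

namespace Vale.Agent.P116

open Vale.Agent.P128

variable {E : Set ℂ}

theorem ind_SlA {F w c : ℝ → ℝ} {a : ℝ} (T : Finset ℝ) : ∀ b, a ≤ b → (∀ t ∈ T, a < t ∧ t < b) →
    (∀ y z, y ≤ z → z ≤ b → (∀ x ∈ Icc y z, x ∉ T) → F z = F y) →
    (∀ t ∈ T, ∀ ε > 0, ∀ᶠ y in 𝓝 t, |F y - c t| ≤ w t / 2 + ε) → |F b - F a| ≤ ∑ t ∈ T, w t := by
  classical
  induction T using Finset.induction_on_max with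
  | empty =>
    intro b hb _ h _
    rw [h a b hb le_rfl fun x _ => Finset.notMem_empty x, sub_self, abs_zero, Finset.sum_empty]
  | insert t T ht ih =>
    intro b hb h1 h2 h3
    have hm := Finset.mem_insert_self t T
    rw [Finset.sum_insert fun h => (ht t h).false]
    refine le_of_forall_pos_le_add fun ε hε => ?_
    have h4 := h3 t hm (ε / 2) (half_pos hε)
    have h5 : ∀ᶠ y in 𝓝 t, ∀ s ∈ T, s < y :=
      (eventually_all_finset T).2 fun s hs => lt_mem_nhds (ht s hs)
    obtain ⟨y, ⟨y1, y2, y3⟩, y4⟩ := (((h4.and (h5.and (lt_mem_nhds (h1 t hm).1))).filter_mono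
      (nhdsWithin_le_nhds (s := Iio t))).and self_mem_nhdsWithin).exists
    obtain ⟨z, ⟨z1, z2⟩, z3⟩ := (((h4.and (gt_mem_nhds (h1 t hm).2)).filter_mono
      (nhdsWithin_le_nhds (s := Ioi t))).and self_mem_nhdsWithin).exists
    have y5 : y < t := y4
    have z4 : t < z := z3
    have h6 := ih y y3.le (fun s hs => ⟨(h1 s (Finset.mem_insert_of_mem hs)).1, y2 s hs⟩)
      (fun p q hp hq h => h2 p q hp (hq.trans (y5.trans (h1 t hm).2).le) fun x hx hx' =>
        (Finset.mem_insert.1 hx').elim (fun e => ((hx.2.trans hq).trans_lt y5).ne e) (h x hx))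
      fun s hs => h3 s (Finset.mem_insert_of_mem hs)
    have h7 := h2 z b z2.le le_rfl fun x hx hx' => (Finset.mem_insert.1 hx').elim
      (fun e => (z4.trans_le hx.1).ne' e) fun h => ((ht x h).trans (z4.trans_le hx.1)).false
    rw [h7]
    rw [abs_le] at h6 y1 z1 ⊢
    constructor <;> linarith [h6.1, h6.2, y1.1, y1.2, z1.1, z1.2]

theorem slice_one (T : Finset ℝ) {O : Set ℝ} (hO : IsOpen O) {g f : ℝ → ℝ} (hg : Measurable g)
    (h01 : ∀ x, g x ∈ Icc (0 : ℝ) 1) (hc : ∀ x ∈ O, x ∉ T → ∀ᶠ y in 𝓝 x, g y = g x)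
    (hf : ContDiff ℝ 1 f) (hs : HasCompactSupport f) (hO' : tsupport f ⊆ O) :
    |∫ x, g x * deriv f x| ≤ ∑ t ∈ T, |f t| := by
  have hk : Integrable fun x => g x * deriv f x :=
    Integrable.bdd_mul (c := 1) ((hf.continuous_deriv le_rfl).integrable_of_hasCompactSupport
      hs.deriv) hg.aestronglyMeasurable (ae_of_all _ fun z => by
        rw [Real.norm_of_nonneg (h01 z).1]
        exact (h01 z).2)
  have hd : ∀ x, x ∉ T → HasDerivAt (fun x => g x * f x) (g x * deriv f x) x := fun x hx => by
    have h1 := ((hf.differentiable one_ne_zero x).hasDerivAt).const_mul (g x)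
    refine h1.congr_of_eventuallyEq ?_
    by_cases h2 : x ∈ O
    · filter_upwards [hc x h2 hx] with y hy
      rw [hy]
    · filter_upwards [notMem_tsupport_iff_eventuallyEq.1 fun h => h2 (hO' h)] with y hy
      rw [hy, Pi.zero_apply, mul_zero, mul_zero]
  obtain ⟨R, hR0, hR⟩ := (hs.isCompact.isBounded.union T.finite_toSet.isBounded).subset_ball_lt 0 0
  rw [Real.ball_eq_Ioo, zero_sub, zero_add] at hR
  have h0 : ∀ x, x ∉ Ioo (-R) R → f x = 0 := fun x hx =>
    image_eq_zero_of_notMem_tsupport fun h => hx (hR (Or.inl h))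
  have h1 := ind_SlA (F := fun x => (∫ y in (-R)..x, g y * deriv f y) - g x * f x)
    (w := fun t => |f t|) (c := fun t => (∫ y in (-R)..t, g y * deriv f y) - f t / 2) (a := -R)
    T R (by linarith) (fun t ht => hR (Or.inr ht)) (fun y z hy _ h => by
      have h2 := intervalIntegral.integral_eq_sub_of_hasDerivAt
        (fun x hx => hd x (h x (uIcc_of_le hy ▸ hx))) (hk.intervalIntegrable (a := y) (b := z))
      have h3 := intervalIntegral.integral_interval_sub_left
        (hk.intervalIntegrable (a := -R) (b := z)) (hk.intervalIntegrable (a := -R) (b := y))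
      linarith) fun t _ ε hε => by
      have h2 := Metric.tendsto_nhds.1 ((hk.continuous_primitive (-R)).tendsto t) _ (half_pos hε)
      have h3 := Metric.tendsto_nhds.1 (hf.continuous.tendsto t) _ (half_pos hε)
      filter_upwards [h2, h3] with y y1 y2
      rw [Real.dist_eq] at y1 y2
      have h4 : |g y * (f y - f t)| ≤ |f y - f t| := by
        rw [abs_mul, abs_of_nonneg (h01 y).1]
        exact mul_le_of_le_one_left (abs_nonneg _) (h01 y).2
      have h5 : |(g y - 1 / 2) * f t| ≤ 1 / 2 * |f t| := by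
        rw [abs_mul]
        exact mul_le_mul_of_nonneg_right
          (abs_le.2 ⟨by linarith [(h01 y).1], by linarith [(h01 y).2]⟩) (abs_nonneg _)
      rw [abs_lt] at y1
      rw [abs_le] at h4 h5 ⊢
      constructor <;> linarith [y1.1, y1.2, h4.1, h4.2, h5.1, h5.2]
  rw [h0 R fun h => h.2.false, h0 (-R) fun h => h.1.false, intervalIntegral.integral_same,
    intervalIntegral.integral_eq_integral_of_support_subset fun x hx =>
      Ioo_subset_Ioc_self (hR (Or.inl (support_deriv_subset (right_ne_zero_of_mul hx))))] at h1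
  simpa using h1

end Vale.Agent.P116
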