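import Vale.Agent.P116.K.SlA

/-! P116 K/SlB (TASK, owner helper20). Helper names end with `_SlB`.
Fubini (`Complex.volume_preserving_equiv_real_prod`, `integral_prod_symm`). For `y` not among the finitely many heights `(a i).im`, the horizontal line at height `y` meets each segment in at most one point `x i y + i y` (only segments with `(a i).im ≠ (b i).im` and `y` between);
`slice_one` with `T` the image (`Finset.sum_image_le_of_nonneg`), then `∫ y in uIcc (a i).im (b i).im, |φ (..)| = |(b i - a i).im| ∫ t in 0..1, |φ (a i + t (b i - a i))|` (`intervalIntegral.integral_comp_mul_add`).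
`slice_y`: apply `slice_x` to the functions composed with the swap `z ↦ I * conj z` (measure preserving), or repeat the proof. `slice`: `|φ| |im| + |ψ| |re| ≤ √(φ² + ψ²) ‖b - a‖`. -/

open MeasureTheory Set Metric Filter Topology Complex
open scoped ENNReal ComplexConjugate

set_option linter.unusedVariables false

noncomputable section

namespace Vale.Agent.P116

open Vale.Agent.P128

variable {E : Set ℂ} {ι : Type} {I : Finset ι} {a b : ι → ℂ} {O : Set ℂ} {σ φ ψ : ℂ → ℝ}

theorem par_SlB {φ : ℂ → ℝ} (hφ : Continuous φ) (h : ℂ →L[ℝ] ℝ) (a b : ℂ) :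
    ∫ y, (uIcc (h a) (h b)).indicator
      (fun y => |φ (a + ((y - h a) / h (b - a)) • (b - a))|) y ≤
      |h (b - a)| * ∫ t in (0 : ℝ)..1, |φ (a + t • (b - a))| := by
  have n0 : 0 ≤ ∫ t in (0 : ℝ)..1, |φ (a + t • (b - a))| :=
    intervalIntegral.integral_nonneg zero_le_one fun _ _ => abs_nonneg _
  rw [integral_indicator measurableSet_uIcc, uIcc, integral_Icc_eq_integral_Ioc]
  refine (le_abs_self _).trans ?_
  have e := intervalIntegral.abs_intervalIntegral_eq
    (fun y => |φ (a + ((y - h a) / h (b - a)) • (b - a))|) (h a) (h b) volume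
  rw [uIoc] at e
  rw [← e]
  by_cases hc : h (b - a) = 0
  · have : h b = h a := by
      rw [map_sub] at hc
      linarith
    rw [this, intervalIntegral.integral_same, abs_zero]
    positivity
  · have e2 := intervalIntegral.smul_integral_comp_mul_add (a := 0) (b := 1)
      (fun y => |φ (a + ((y - h a) / h (b - a)) • (b - a))|) (h (b - a)) (h a)
    have e3 : h (b - a) * 1 + h a = h b := by
      rw [map_sub]
      ring
    rw [mul_zero, zero_add, e3] at e2
    rw [← e2, smul_eq_mul, abs_mul]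
    have e4 : ∀ t : ℝ, (h (b - a) * t + h a - h a) / h (b - a) = t := fun t => by
      field_simp
      ring
    simp only [e4]
    rw [abs_of_nonneg n0]

theorem line_SlB (v w : ℂ) (p h : ℂ →L[ℝ] ℝ) (hp : ∀ x y : ℝ, p (x • v + y • w) = x)
    (hh : ∀ x y : ℝ, h (x • v + y • w) = y) (hd : ∀ z, p z • v + h z • w = z)
    (hO : IsOpen O) (hσ : Measurable σ) (h01 : ∀ z, σ z ∈ Icc (0 : ℝ) 1)
    (hc : ∀ z ∈ O, (∀ i ∈ I, z ∉ segment ℝ (a i) (b i)) → ∀ᶠ y in 𝓝 z, σ y = σ z)
    (hφ : STst O φ) {y : ℝ} (hy : ∀ i ∈ I, y ≠ h (a i)) :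
    |∫ x : ℝ, σ (x • v + y • w) * fderiv ℝ φ (x • v + y • w) v| ≤
      ∑ i ∈ I, (uIcc (h (a i)) (h (b i))).indicator
        (fun y => |φ (a i + ((y - h (a i)) / h (b i - a i)) • (b i - a i))|) y := by
  classical
  have ce : Continuous fun x : ℝ => x • v + y • w := by fun_prop
  have de : ContDiff ℝ 1 fun x : ℝ => x • v + y • w := by fun_prop
  have emb : IsClosedEmbedding fun x : ℝ => x • v + y • w :=
    Function.LeftInverse.isClosedEmbedding (f := fun z => p z) (fun x => hp x y) p.continuous ce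
  have d1 : ContDiff ℝ 1 φ := hφ.1.of_le (by exact_mod_cast le_top)
  have key := slice_one ((I.filter fun i => y ∈ uIcc (h (a i)) (h (b i))).image
      fun i => p (a i + ((y - h (a i)) / h (b i - a i)) • (b i - a i)))
    (O := (fun x : ℝ => x • v + y • w) ⁻¹' O) (g := fun x : ℝ => σ (x • v + y • w))
    (f := φ ∘ fun x : ℝ => x • v + y • w) (hO.preimage ce) (hσ.comp ce.measurable)
    (fun x => h01 _) ?_ (d1.comp de) (hφ.2.1.comp_isClosedEmbedding emb)
    ((tsupport_comp_subset_preimage φ ce).trans (preimage_mono hφ.2.2))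
  · have e : ∀ x : ℝ, deriv (φ ∘ fun x : ℝ => x • v + y • w) x =
        fderiv ℝ φ (x • v + y • w) v := fun x => by
      have l : HasDerivAt (fun x : ℝ => x • v + y • w) ((1 : ℝ) • v) x :=
        ((hasDerivAt_id x).smul_const v).add_const _
      rw [one_smul] at l
      exact ((d1.differentiable one_ne_zero _).hasFDerivAt.comp_hasDerivAt x l).deriv
    simp only [e] at key
    refine key.trans ((Finset.sum_image_le_of_nonneg fun _ _ => abs_nonneg _).trans ?_)
    rw [Finset.sum_filter]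
    refine Finset.sum_le_sum fun i hi => le_of_eq ?_
    by_cases hm : y ∈ uIcc (h (a i)) (h (b i))
    · rw [if_pos hm, indicator_of_mem hm]
      have c0 : h (b i - a i) ≠ 0 := fun c => by
        have : h (b i) = h (a i) := by
          rw [map_sub] at c
          linarith
        rw [this, uIcc_self] at hm
        exact hy i hi hm
      have e2 : h (a i + ((y - h (a i)) / h (b i - a i)) • (b i - a i)) = y := by
        rw [map_add, map_smul, smul_eq_mul, div_mul_cancel₀ _ c0]
        ring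
      have e3 := hd (a i + ((y - h (a i)) / h (b i - a i)) • (b i - a i))
      rw [e2] at e3
      simp only [Function.comp]
      rw [e3]
    · rw [if_neg hm, indicator_of_notMem hm]
  · intro x hx hT
    refine (ce.tendsto x).eventually (hc _ hx fun i hi hs => hT ?_)
    rw [segment_eq_image'] at hs
    obtain ⟨t, ht, e⟩ := hs
    simp only at e
    have e1 : y = h (a i) + t * h (b i - a i) := by
      rw [← hh x y, ← e, map_add, map_smul, smul_eq_mul]
    have c0 : h (b i - a i) ≠ 0 := fun c => hy i hi (by rw [e1, c, mul_zero, add_zero])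
    have e2 : (y - h (a i)) / h (b i - a i) = t := by
      rw [div_eq_iff c0, e1]
      ring
    refine Finset.mem_image.2 ⟨i, Finset.mem_filter.2 ⟨hi, ?_⟩, ?_⟩
    · rw [← segment_eq_uIcc, segment_eq_image']
      exact ⟨t, ht, by simp only [smul_eq_mul]; rw [e1, map_sub]⟩
    · rw [e2, e, hp]

theorem gen_SlB (v w : ℂ) (p h : ℂ →L[ℝ] ℝ) (hp : ∀ x y : ℝ, p (x • v + y • w) = x)
    (hh : ∀ x y : ℝ, h (x • v + y • w) = y) (hd : ∀ z, p z • v + h z • w = z)
    (hF : ∀ F : ℂ → ℝ, Integrable F → ∫ z, F z = ∫ y : ℝ, ∫ x : ℝ, F (x • v + y • w))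
    (hO : IsOpen O) (hσ : Measurable σ) (h01 : ∀ z, σ z ∈ Icc (0 : ℝ) 1)
    (hc : ∀ z ∈ O, (∀ i ∈ I, z ∉ segment ℝ (a i) (b i)) → ∀ᶠ y in 𝓝 z, σ y = σ z)
    (hφ : STst O φ) : |∫ z in O, σ z * fderiv ℝ φ z v| ≤
      ∑ i ∈ I, |h (b i - a i)| * ∫ t in (0 : ℝ)..1, |φ (a i + t • (b i - a i))| := by
  have cφ := hφ.1.continuous
  have i1 : Integrable fun z => σ z * fderiv ℝ φ z v :=
    integrableOn_univ.1 (int_MolA (O := univ) hσ h01 ⟨hφ.1, hφ.2.1, subset_univ _⟩ v)
  rw [setIntegral_eq_integral_of_forall_compl_eq_zero fun z hz => by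
    rw [fderiv_of_notMem_tsupport ℝ fun c => hz (hφ.2.2 c)]
    simp, hF _ i1]
  have i2 : ∀ i ∈ I, Integrable ((uIcc (h (a i)) (h (b i))).indicator
      fun y => |φ (a i + ((y - h (a i)) / h (b i - a i)) • (b i - a i))|) := fun i _ => by
    refine IntegrableOn.integrable_indicator ?_ measurableSet_uIcc
    refine Continuous.integrableOn_uIcc ?_
    fun_prop
  have fin : ∀ᵐ y : ℝ, y ∉ (fun i => h (a i)) '' (I : Set ι) :=
    (I.finite_toSet.image _).countable.ae_notMem volume
  have := norm_integral_le_of_norm_le (μ := volume) (integrable_finsetSum I i2)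
    (f := fun y : ℝ => ∫ x : ℝ, σ (x • v + y • w) * fderiv ℝ φ (x • v + y • w) v)
    (by
      filter_upwards [fin] with y hy
      exact line_SlB v w p h hp hh hd hO hσ h01 hc hφ fun i hi c => hy ⟨i, hi, c.symm⟩)
  refine this.trans ?_
  rw [integral_finsetSum I i2]
  exact Finset.sum_le_sum fun i _ => par_SlB cφ h _ _

theorem fub_SlB (F : ℂ → ℝ) (hF : Integrable F) :
    (∫ z, F z = ∫ y : ℝ, ∫ x : ℝ, F (x • (1 : ℂ) + y • Complex.I)) ∧
      ∫ z, F z = ∫ y : ℝ, ∫ x : ℝ, F (x • Complex.I + y • (1 : ℂ)) := by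
  have m := Complex.volume_preserving_equiv_real_prod.symm Complex.measurableEquivRealProd
  have i : Integrable (fun q : ℝ × ℝ => F (Complex.measurableEquivRealProd.symm q))
      (volume.prod volume) :=
    (m.integrable_comp_emb Complex.measurableEquivRealProd.symm.measurableEmbedding).2 hF
  have e := m.integral_comp' F
  have e1 : ∀ x y : ℝ, x • (1 : ℂ) + y • Complex.I =
      Complex.measurableEquivRealProd.symm (x, y) := fun x y => by
    apply Complex.ext <;> simp
  have e2 : ∀ x y : ℝ, x • Complex.I + y • (1 : ℂ) =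
      Complex.measurableEquivRealProd.symm (y, x) := fun x y => by
    apply Complex.ext <;> simp
  simp only [e1, e2]
  rw [← e]
  exact ⟨integral_prod_symm _ i, integral_prod _ i⟩

theorem slice_x (hO : IsOpen O) (hσ : Measurable σ) (h01 : ∀ z, σ z ∈ Icc (0 : ℝ) 1)
    (hc : ∀ z ∈ O, (∀ i ∈ I, z ∉ segment ℝ (a i) (b i)) → ∀ᶠ y in 𝓝 z, σ y = σ z)
    (hφ : STst O φ) : |∫ z in O, σ z * (gr φ z).re| ≤
      ∑ i ∈ I, |(b i - a i).im| * ∫ t in (0 : ℝ)..1, |φ (a i + t • (b i - a i))| := by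
  have e : ∀ z, (gr φ z).re = fderiv ℝ φ z 1 := fun z => by simp [gr]
  simp only [e]
  exact gen_SlB 1 Complex.I Complex.reCLM Complex.imCLM (fun x y => by simp) (fun x y => by simp)
    (fun z => by apply Complex.ext <;> simp) (fun F hF => (fub_SlB F hF).1) hO hσ h01 hc hφ

theorem slice_y (hO : IsOpen O) (hσ : Measurable σ) (h01 : ∀ z, σ z ∈ Icc (0 : ℝ) 1)
    (hc : ∀ z ∈ O, (∀ i ∈ I, z ∉ segment ℝ (a i) (b i)) → ∀ᶠ y in 𝓝 z, σ y = σ z)
    (hφ : STst O φ) : |∫ z in O, σ z * (gr φ z).im| ≤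
      ∑ i ∈ I, |(b i - a i).re| * ∫ t in (0 : ℝ)..1, |φ (a i + t • (b i - a i))| := by
  have e : ∀ z, (gr φ z).im = fderiv ℝ φ z Complex.I := fun z => by simp [gr]
  simp only [e]
  exact gen_SlB Complex.I 1 Complex.imCLM Complex.reCLM (fun x y => by simp) (fun x y => by simp)
    (fun z => by apply Complex.ext <;> simp) (fun F hF => (fub_SlB F hF).2) hO hσ h01 hc hφ

theorem cs_SlB (c : ℂ) (s t : ℝ) :
    |c.im| * |s| + |c.re| * |t| ≤ ‖c‖ * √(s ^ 2 + t ^ 2) := by
  have e : ‖c‖ ^ 2 = c.re ^ 2 + c.im ^ 2 := by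
    rw [Complex.sq_norm, Complex.normSq_apply]
    ring
  refine abs_le_of_sq_le_sq' ?_ (by positivity) |>.2
  rw [mul_pow, Real.sq_sqrt (by positivity), e, ← sq_abs c.re, ← sq_abs c.im, ← sq_abs s,
    ← sq_abs t]
  nlinarith [sq_nonneg (|c.im| * |t| - |c.re| * |s|)]

theorem slice (hO : IsOpen O) (hσ : Measurable σ) (h01 : ∀ z, σ z ∈ Icc (0 : ℝ) 1)
    (hc : ∀ z ∈ O, (∀ i ∈ I, z ∉ segment ℝ (a i) (b i)) → ∀ᶠ y in 𝓝 z, σ y = σ z)
    (hφ : STst O φ) (hψ : STst O ψ) : |∫ z in O, σ z * ((gr φ z).re + (gr ψ z).im)| ≤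
      ∑ i ∈ I, ‖b i - a i‖ * ∫ t in (0 : ℝ)..1,
        √(φ (a i + t • (b i - a i)) ^ 2 + ψ (a i + t • (b i - a i)) ^ 2) := by
  have cφ := hφ.1.continuous
  have cψ := hψ.1.continuous
  have e1 : ∀ z, (gr φ z).re = fderiv ℝ φ z 1 := fun z => by simp [gr]
  have e2 : ∀ z, (gr ψ z).im = fderiv ℝ ψ z Complex.I := fun z => by simp [gr]
  have hx := slice_x hO hσ h01 hc hφ
  have hy := slice_y hO hσ h01 hc hψ
  simp only [e1, e2, mul_add] at hx hy ⊢
  rw [integral_add (int_MolA hσ h01 hφ 1) (int_MolA hσ h01 hψ Complex.I)]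
  refine (abs_add_le _ _).trans ((add_le_add hx hy).trans ?_)
  rw [← Finset.sum_add_distrib]
  refine Finset.sum_le_sum fun i _ => ?_
  rw [← intervalIntegral.integral_const_mul, ← intervalIntegral.integral_const_mul,
    ← intervalIntegral.integral_const_mul, ← intervalIntegral.integral_add
      (Continuous.intervalIntegrable (by fun_prop) _ _)
      (Continuous.intervalIntegrable (by fun_prop) _ _)]
  refine intervalIntegral.integral_mono_on zero_le_one
    (Continuous.intervalIntegrable (by fun_prop) _ _)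
    (Continuous.intervalIntegrable (by fun_prop) _ _) fun t _ => ?_
  exact cs_SlB _ _ _

end Vale.Agent.P116
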