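import Vale.Agent.P116.K.OfFun
import Vale.Agent.P116.K.Fit
import Vale.Agent.P116.K.Mol

/-! P116 K/StTF (TASK, owner helper20). Helper names end with `_StTF`.
`exists_WG`, `exists_fit` (with `θ (M² + 1)` small), `mol` on `O = Qs \ E` with `δ z = min δ₀ (infDist z Oᶜ / 2)`, `exists_TF` for `v ∘ τ`. At `re = 0` the ball `ball (τ z) (δ ..)` lies in `Qs ∩ {re < 0}`, so `v = 0` there; similarly at `re = 1`.
Range control: given `U ⊇ c`, take `ρ > 0` with `cthickening ρ c ⊆ U ∩ N ∩ Q` (`IsCompact.exists_cthickening_subset_open`) and `U' = thickening (ρ / 2) c`; for `y ∈ U' \ E`, `δ y ≤ infDist y c / 2`, so `ball y (δ y) ⊆ (U ∩ Q) \ E`.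
Oscillation: on `U` from `hπ` the values of `u` lie in `[α, α + π c + η]` with `α` the infimum. `Summable.of_nonneg_of_le`, `Summable.tsum_le_tsum`. -/

open MeasureTheory Set Metric Filter Topology Complex
open scoped ENNReal ComplexConjugate

set_option linter.unusedVariables false

noncomputable section

namespace Vale.Agent.P116

open Vale.Agent.P128

variable {E : Set ℂ}

theorem op_StTF (hE : Dom E) : IsOpen (Qs \ E) ∧ Bornology.IsBounded (Qs \ E) ∧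
    (Qs \ E)ᶜ.Nonempty := by
  refine ⟨(isOpen_Ioo.reProdIm isOpen_Ioo).sdiff hE.cpt.isClosed,
    ((isBounded_Ioo _ _).reProdIm (isBounded_Ioo _ _)).subset sdiff_subset, 0, fun h => ?_⟩
  exact lt_irrefl _ h.1.2.1

theorem stream_TF (hE : Dom E) {u : ℂ → ℝ} (hu : Measurable u) (hb : ∀ z, u z ∈ Icc (0 : ℝ) 1)
    (h0 : ∀ z ∈ Qs, z.re < 0 → u z = 0) (h1 : ∀ z ∈ Qs, 1 < z.re → u z = 1) {M : ℝ} (hM : 0 ≤ M)
    (h : ∀ φ ψ, STst (Qs \ E) φ → STst (Qs \ E) ψ →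
      |∫ z in Qs \ E, u z * ((gr φ z).re + (gr ψ z).im)| ≤
        M * √(∫ z in Qs \ E, (φ z ^ 2 + ψ z ^ 2)))
    {π : Cp E → ℝ} (hs : Summable fun c => π c ^ 2)
    (hπ : ∀ (c : Cp E) (η : ℝ), 0 < η → ∃ U, IsOpen U ∧ c.1 ⊆ U ∧
      ∀ y ∈ (U ∩ Q) \ E, ∀ y' ∈ (U ∩ Q) \ E, u y - u y' ≤ π c + η) {ε : ℝ} (hε : 0 < ε) :
    ∃ a : TF E, a.H ∧ a.Fn ∧ (∀ z ∈ Qc, 0 ≤ a.lo z ∧ a.hi z ≤ 1) ∧ (∀ c, a.osc c ≤ π c) ∧
      a.en ≤ M ^ 2 + ∑' c, π c ^ 2 + ε ∧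
      ∀ (c : Cp E) (U : Set ℂ) (α β : ℝ), IsOpen U → c.1 ⊆ U →
        (∀ y ∈ (U ∩ Q) \ E, u y ∈ Icc α β) → α ≤ a.lo c.pt ∧ a.hi c.pt ≤ β := by
  obtain ⟨hO, hbd, hne⟩ := op_StTF hE
  obtain ⟨G, hG, hGM⟩ := exists_WG hO hu hb hM h
  have hp : 0 < M ^ 2 + ε := by positivity
  obtain ⟨τ, δ₀, N, d0, -, tc, hN, hEN, tN, tm, t0, t1, tv⟩ :=
    exists_fit hE (θ := ε / (2 * (M ^ 2 + ε))) (by positivity)
  obtain ⟨v, vl, vi, ve, vr⟩ := mol hO hbd hu hb hG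
    (δ := fun z => min δ₀ (infDist z (Qs \ E)ᶜ / 2))
    (continuous_const.min ((continuous_infDist_pt _).div_const 2)).continuousOn
    (fun z hz => lt_min d0 (half_pos
      ((hO.isClosed_compl.notMem_iff_infDist_pos hne).1 fun h' => h' hz))) (half_pos hε)
  have hball : ∀ z y, y ∈ ball z (min δ₀ (infDist z (Qs \ E)ᶜ / 2)) →
      y ∈ Qs \ E ∧ dist y z < δ₀ ∧ dist y z < infDist z (Qs \ E)ᶜ / 2 := fun z y hy => by
    have h2 := lt_min_iff.1 (mem_ball.1 hy)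
    refine ⟨?_, h2⟩
    have h3 : y ∈ ball z (infDist z (Qs \ E)ᶜ) :=
      mem_ball.2 (h2.2.trans_le (half_le_self infDist_nonneg))
    exact not_not.1 (ball_infDist_subset_compl h3)
  obtain ⟨wl, wi, we⟩ := tv v vl vi
  have w01 : ∀ z ∈ Qc \ E, (v ∘ τ) z ∈ Icc (0 : ℝ) 1 := fun z hz =>
    vr _ (tm hz) _ _ fun y _ => hb y
  obtain ⟨a, a1, a2, a3, -⟩ := exists_TF hE (v := v ∘ τ)
    (vl.continuousOn.comp tc.continuousOn tm) wl fun z hz => w01 z ⟨Q_sub hz.1, hz.2⟩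
  have key : ∀ (c : Cp E) (U : Set ℂ) (α β : ℝ), IsOpen U → c.1 ⊆ U →
      (∀ y ∈ (U ∩ Q) \ E, u y ∈ Icc α β) → α ≤ a.lo c.pt ∧ a.hi c.pt ≤ β := by
    intro c U α β hU hc hy
    obtain ⟨ρ, hρ, hs⟩ := (c.cpt hE.cpt).exists_cthickening_subset_open
      ((hU.inter isOpen_Q).inter hN)
      fun z hz => ⟨⟨hc hz, hE.sub (c.sub hz)⟩, hEN (c.sub hz)⟩
    refine a3 c (thickening (ρ / 2) c.1) α β isOpen_thickening
      (self_subset_thickening (half_pos hρ) _) fun y hy' => ?_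
    obtain ⟨p, hp, hd⟩ := mem_thickening_iff.1 hy'.1.1
    have e : τ y = y := tN y (hs (mem_cthickening_of_dist_le y p ρ _ hp (by linarith))).2
    have hm : y ∈ Qs \ E := e ▸ tm ⟨Q_sub hy'.1.2, hy'.2⟩
    show v (τ y) ∈ _
    rw [e]
    refine vr y hm α β fun y' h' => ?_
    obtain ⟨b1, -, b3⟩ := hball y y' h'
    have b4 : infDist y (Qs \ E)ᶜ ≤ dist y p := infDist_le_dist_of_mem fun h'' => h''.2 (c.sub hp)
    have b5 := dist_triangle y' y p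
    exact hy y' ⟨(hs (mem_cthickening_of_dist_le y' p ρ _ hp (by linarith))).1, b1.2⟩
  have osc : ∀ c, a.osc c ≤ π c := fun c => le_of_forall_pos_le_add fun η hη => by
    obtain ⟨U, hU, hc, hy⟩ := hπ c η hη
    have hbb : BddBelow (u '' ((U ∩ Q) \ E)) := ⟨0, by rintro _ ⟨y, -, rfl⟩; exact (hb y).1⟩
    have := key c U (sInf (u '' ((U ∩ Q) \ E))) (sInf (u '' ((U ∩ Q) \ E)) + (π c + η)) hU hc
      fun y hy' => ⟨csInf_le hbb ⟨y, hy', rfl⟩, sub_le_iff_le_add.1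
        (le_csInf ⟨_, y, hy', rfl⟩ (by
          rintro _ ⟨y', hy'', rfl⟩
          have := hy y hy' y' hy''
          linarith))⟩
    unfold TF.osc
    linarith [this.1, this.2]
  have sq : ∀ c, a.osc c ^ 2 ≤ π c ^ 2 := fun c => pow_le_pow_left₀ (a.osc_nonneg c) (osc c) 2
  have sm : Summable fun c => a.osc c ^ 2 := Summable.of_nonneg_of_le (fun c => sq_nonneg _) sq hs
  have ee : EqOn (fun z => ‖gr (v ∘ τ) z‖ ^ 2) (fun z => ‖gr a.hi z‖ ^ 2) (Q \ E) :=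
    fun z hz => by simp only [a2 z hz]
  refine ⟨a, fun z hz => ⟨fun e => ?_, fun e => ?_⟩, ⟨wi.congr_fun ee hE.op.measurableSet, sm⟩,
    fun z hz => ?_, osc, ?_, key⟩
  · have hz' : z ∉ E := fun h' => (hE.sub h').1.1.ne' e
    rw [a1 z hz']
    have := vr _ (tm ⟨hz, hz'⟩) 0 0 fun y hy => by
      obtain ⟨b1, b2, -⟩ := hball _ y hy
      have b3 := (abs_le.1 (abs_re_le_norm (y - τ z))).2
      rw [sub_re, t0 z e, ← dist_eq_norm] at b3
      rw [h0 y b1.1 (by linarith)]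
      exact ⟨le_rfl, le_rfl⟩
    exact le_antisymm this.2 this.1
  · have hz' : z ∉ E := fun h' => (hE.sub h').1.2.ne e
    rw [a1 z hz']
    have := vr _ (tm ⟨hz, hz'⟩) 1 1 fun y hy => by
      obtain ⟨b1, b2, -⟩ := hball _ y hy
      have b3 := (abs_le.1 (abs_re_le_norm (y - τ z))).1
      rw [sub_re, t1 z e, ← dist_eq_norm] at b3
      rw [h1 y b1.1 (by linarith)]
      exact ⟨le_rfl, le_rfl⟩
    exact le_antisymm this.2 this.1
  · by_cases hz' : z ∈ E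
    · obtain ⟨e1, e2⟩ := a.at_pt (Cp.mem_mk z hz')
      rw [e1, e2]
      exact a3 _ univ 0 1 isOpen_univ (subset_univ _) fun y hy => w01 y ⟨Q_sub hy.1.2, hy.2⟩
    · rw [a.eq z hz', a1 z hz']
      exact w01 z ⟨hz, hz'⟩
  · have e1 := setIntegral_congr_fun (μ := volume) hE.op.measurableSet ee
    have e2 := sm.tsum_le_tsum sq hs
    have e3 : ε / (2 * (M ^ 2 + ε)) * (M ^ 2 + ε) = ε / 2 := by field_simp
    have e4 : 0 < ε / (2 * (M ^ 2 + ε)) := by positivity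
    have e5 : ∫ z in Qs \ E, ‖gr v z‖ ^ 2 ≤ M ^ 2 + ε / 2 := by linarith
    unfold TF.en
    rw [← e1]
    nlinarith

end Vale.Agent.P116
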