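import Vale.Agent.P116.K.TfA

/-! P116 K/Tf: test functions from functions off E; energy from weights. -/

open MeasureTheory Set Metric Filter Topology Complex
open scoped ENNReal

noncomputable section

namespace Vale.Agent.P116.K

open Vale.Agent.P128


theorem loc_TfB {E O S : Set ℂ} {u ρ : ℂ → ℝ} (hc : ContinuousOn ρ (O \ E)) (h : Maj E O u ρ)
    (hS : Convex ℝ S) (hSO : S ⊆ O \ E) {z : ℂ} (hz : z ∈ S) {K : ℝ} (hK : ρ z < K) :
    ∃ T ∈ 𝓝[S] z, ∀ x ∈ T, ∀ y ∈ T, |u x - u y| ≤ K * dist x y := by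
  obtain ⟨ε, hε, hb⟩ := Metric.mem_nhdsWithin_iff.1
    (((hc.mono hSO) z hz).eventually (gt_mem_nhds hK))
  exact ⟨ball z ε ∩ S, inter_mem (mem_nhdsWithin_of_mem_nhds (ball_mem_nhds z hε))
    self_mem_nhdsWithin, h _ ((convex_ball _ _).inter hS) (inter_subset_right.trans hSO) K
      fun w hw => (hb hw).le⟩

theorem nhd_TfB {E O : Set ℂ} {u ρ : ℂ → ℝ} (hE : IsClosed E) (hO : IsOpen O)
    (hc : ContinuousOn ρ (O \ E)) (h : Maj E O u ρ) {z : ℂ} (hz : z ∈ O \ E) {K : ℝ}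
    (hK : ρ z < K) : ∃ T ∈ 𝓝 z, ∀ x ∈ T, ∀ y ∈ T, |u x - u y| ≤ K * dist x y := by
  obtain ⟨r, hr, hb⟩ := Metric.isOpen_iff.1 (hO.sdiff hE) z hz
  have := loc_TfB hc h (convex_ball z r) hb (mem_ball_self hr) hK
  rwa [isOpen_ball.nhdsWithin_eq (mem_ball_self hr)] at this

theorem gr_TfB (u : ℂ → ℝ) (z : ℂ) : ‖gr u z‖ ≤ ‖fderiv ℝ u z‖ := by
  have h1 : fderiv ℝ u z (gr u z) = ‖gr u z‖ * ‖gr u z‖ := by
    have e : gr u z = fderiv ℝ u z 1 • (1 : ℂ) + fderiv ℝ u z I • I := by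
      simp [gr, mul_comm]
    rw [← sq, ← normSq_eq_norm_sq, normSq_apply]
    nth_rewrite 1 [e]
    rw [map_add, map_smul, map_smul]
    simp [gr]
  have h2 := (le_abs_self _).trans ((fderiv ℝ u z).le_opNorm (gr u z))
  rw [h1] at h2
  rcases (norm_nonneg (gr u z)).eq_or_lt with h0 | h0
  · rw [← h0]
    exact norm_nonneg _
  · exact le_of_mul_le_mul_right h2 h0

theorem real_TfB {f B B' : ℝ → ℝ} {d : ℝ} (hB : ∀ t, HasDerivAt B (B' t) t)
    (h0 : B 0 = 0) (h : ∀ t ∈ Icc (0 : ℝ) 1, ∀ K, B' t < K →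
      ∀ᶠ s in 𝓝[Icc 0 1] t, |f s - f t| ≤ K * (|s - t| * d)) : |f 1 - f 0| ≤ B 1 * d := by
  have hf : ContinuousOn f (Icc 0 1) := by
    intro t ht
    rw [ContinuousWithinAt, tendsto_iff_dist_tendsto_zero]
    refine squeeze_zero' (Eventually.of_forall fun _ => dist_nonneg) (h t ht _ (lt_add_one _)) ?_
    have : Continuous fun s : ℝ => (B' t + 1) * (|s - t| * d) := by fun_prop
    exact (this.tendsto' t 0 (by simp)).mono_left nhdsWithin_le_nhds
  refine image_le_of_liminf_slope_right_le_deriv_boundary (f := fun s => |f s - f 0|)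
    (B := fun s => B s * d) (B' := fun s => B' s * d) (hf.sub continuousOn_const).abs
    (by simp [h0]) (fun s _ => ((hB s).mul_const d).continuousAt.continuousWithinAt)
    (fun s _ => ((hB s).mul_const d).hasDerivWithinAt) ?_ (right_mem_Icc.2 zero_le_one)
  intro t ht r hr
  obtain ⟨c, hc, hcr⟩ := exists_pos_mul_lt (sub_pos.2 hr) d
  have hle : 𝓝[>] t ≤ 𝓝[Icc 0 1] t := nhdsWithin_le_iff.2 (mem_of_superset
    (Ioc_mem_nhdsGT ht.2) fun s hs => ⟨ht.1.trans hs.1.le, hs.2⟩)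
  refine Eventually.frequently ?_
  filter_upwards [hle (h t (Ico_subset_Icc_self ht) (B' t + c) (by linarith)),
    self_mem_nhdsWithin] with s hs hts
  have hp : 0 < s - t := sub_pos.2 hts
  rw [slope_def_field, div_lt_iff₀ hp]
  have hs' : |f s - f t| ≤ (B' t + c) * (|s - t| * d) := hs
  rw [abs_of_pos hp] at hs'
  have h3 := abs_sub_abs_le_abs_sub (f s - f 0) (f t - f 0)
  rw [sub_sub_sub_cancel_right] at h3
  nlinarith [mul_lt_mul_of_pos_right hcr hp]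

theorem mem_TfB (x y : ℂ) {t : ℝ} (ht : t ∈ Icc (0 : ℝ) 1) : x + t • (y - x) ∈ segment ℝ x y := by
  rw [segment_eq_image']
  exact ⟨t, ht, rfl⟩

theorem core_TfB {S : Set ℂ} {u : ℂ → ℝ} {x y : ℂ} {B B' : ℝ → ℝ}
    (hB : ∀ t, HasDerivAt B (B' t) t) (h0 : B 0 = 0) (hS : segment ℝ x y ⊆ S)
    (h : ∀ t ∈ Icc (0 : ℝ) 1, ∀ K, B' t < K → ∀ᶠ w in 𝓝[S] (x + t • (y - x)),
      |u w - u (x + t • (y - x))| ≤ K * dist w (x + t • (y - x))) :
    |u y - u x| ≤ B 1 * dist x y := by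
  have := real_TfB (f := fun t => u (x + t • (y - x))) (d := dist x y) hB h0 fun t ht K hK => ?_
  · simpa using this
  have hγ : Continuous fun t : ℝ => x + t • (y - x) := by fun_prop
  have h1 : Tendsto (fun t : ℝ => x + t • (y - x)) (𝓝[Icc 0 1] t) (𝓝[S] (x + t • (y - x))) :=
    hγ.continuousWithinAt.tendsto_nhdsWithin fun s hs => hS (mem_TfB x y hs)
  filter_upwards [h1.eventually (h t ht K hK)] with s hs
  rwa [dist_add_left, dist_eq_norm, ← sub_smul, norm_smul, Real.norm_eq_abs, ← dist_eq_norm,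
    dist_comm y x] at hs

theorem Maj.locLip {E O : Set ℂ} {u ρ : ℂ → ℝ} (hE : IsClosed E) (hO : IsOpen O)
    (hc : ContinuousOn ρ (O \ E)) (h : Maj E O u ρ) : LocallyLipschitzOn (O \ E) u := by
  intro z hz
  obtain ⟨T, hT, hl⟩ := nhd_TfB hE hO hc h hz (lt_add_one _)
  exact ⟨_, T, mem_nhdsWithin_of_mem_nhds hT, LipschitzOnWith.of_dist_le' hl⟩

theorem Maj.gr_le {E O : Set ℂ} {u ρ : ℂ → ℝ} (hE : IsClosed E) (hO : IsOpen O)
    (hc : ContinuousOn ρ (O \ E)) (h : Maj E O u ρ) {z : ℂ} (hz : z ∈ O \ E) :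
    ‖gr u z‖ ≤ ρ z := by
  refine (gr_TfB u z).trans (le_of_forall_gt_imp_ge_of_dense fun K hK => ?_)
  obtain ⟨T, hT, hl⟩ := nhd_TfB hE hO hc h hz hK
  have hz' := mem_of_mem_nhds hT
  obtain ⟨y, hy, hyz⟩ := Filter.nonempty_of_mem (f := 𝓝[≠] z)
    (inter_mem (mem_nhdsWithin_of_mem_nhds hT) self_mem_nhdsWithin)
  have hK0 : 0 ≤ K := nonneg_of_mul_nonneg_left ((abs_nonneg _).trans (hl y hy z hz'))
    (dist_pos.2 hyz)
  refine norm_fderiv_le_of_lip' ℝ hK0 ?_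
  filter_upwards [hT] with w hw
  rw [← dist_eq_norm w z]
  exact hl w hw z hz'

/-- Variation along a segment. -/
theorem Maj.seg {E O : Set ℂ} {u ρ : ℂ → ℝ} (hc : ContinuousOn ρ (O \ E)) (h : Maj E O u ρ)
    {x y : ℂ} (hs : segment ℝ x y ⊆ O \ E) : |u y - u x| ≤ Stp.len ρ (Stp.seg x y : Stp E) := by
  have hψ : Continuous fun t : ℝ => ρ (x + (projIcc (0 : ℝ) 1 zero_le_one t : ℝ) • (y - x)) :=
    hc.comp_continuous (by fun_prop) fun t => hs (mem_TfB x y (projIcc _ _ _ t).2)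
  have := core_TfB (u := u) (fun t => (hψ.integral_hasStrictDerivAt 0 t).hasDerivAt)
    (intervalIntegral.integral_same) (subset_refl (segment ℝ x y)) fun t ht K hK => ?_
  · refine this.trans (le_of_eq ?_)
    rw [Stp.len]
    refine congrArg (· * dist x y) (intervalIntegral.integral_congr fun t ht => ?_)
    rw [uIcc_of_le zero_le_one] at ht
    simp only [projIcc_of_mem _ ht]
  simp only [projIcc_of_mem _ ht] at hK
  obtain ⟨T, hT, hl⟩ := loc_TfB hc h (convex_segment x y) hs (mem_TfB x y ht) hK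
  filter_upwards [hT] with w hw
  exact hl w hw _ (mem_of_mem_nhdsWithin (mem_TfB x y ht) hT)

/-- A pointwise upper bound of the local Lipschitz constant gives `Maj`. -/
theorem maj_of_loc {E O : Set ℂ} {u ρ : ℂ → ℝ}
    (h : ∀ x ∈ O \ E, ∀ K, ρ x < K → ∀ᶠ y in 𝓝[O \ E] x, |u y - u x| ≤ K * dist y x) :
    Maj E O u ρ := by
  intro B hB hBO K hK x hx y hy
  have hs : segment ℝ y x ⊆ B := hB.segment_subset hy hx
  have := core_TfB (u := u) (B := fun t => K * t) (B' := fun _ => K)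
    (fun t => by simpa using (hasDerivAt_id t).const_mul K) (mul_zero K) (hs.trans hBO)
    fun t ht L hL => h _ (hBO (hs (mem_TfB y x ht))) L ((hK _ (hs (mem_TfB y x ht))).trans_lt hL)
  rwa [mul_one, dist_comm] at this

end Vale.Agent.P116.K
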