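import Vale.Agent.P116.K.TfB

/-! P116 K/Tf: test functions from functions off E; energy from weights. -/

open MeasureTheory Set Metric Filter Topology Complex
open scoped ENNReal

noncomputable section

namespace Vale.Agent.P116.K

open Vale.Agent.P128


theorem fn_of_maj {E : Set ℂ} (hE : Dom E) {w : TF E} {ρ : ℂ → ℝ} (hρ : Wt E ρ)
    (h : Maj E Q w.hi ρ) {l : Cp E → ℝ} (hl : ∀ c, w.osc c ≤ l c) (hs : Summable fun c => l c ^ 2) :
    w.Fn ∧ w.en ≤ (∫ z in Q \ E, ρ z ^ 2) + ∑' c, l c ^ 2 := by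
  have h1 : ∀ᵐ z ∂(volume.restrict (Q \ E)), ‖gr w.hi z‖ ^ 2 ≤ ρ z ^ 2 :=
    (ae_restrict_iff' hE.op.measurableSet).2 (Eventually.of_forall fun z hz =>
      pow_le_pow_left₀ (norm_nonneg _)
        (h.gr_le hE.cpt.isClosed isOpen_Q (hρ.cont.mono fun _ k => k.2) hz) 2)
  have h2 : ∀ c, w.osc c ^ 2 ≤ l c ^ 2 := fun c => pow_le_pow_left₀ (w.osc_nonneg c) (hl c) 2
  have h3 : w.Fn := ⟨hρ.l2.mono' ((EARN.measurable_gr w.hi).1.norm.pow_const 2).aestronglyMeasurable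
    (h1.mono fun _ hz => (Real.norm_of_nonneg (sq_nonneg _)).trans_le hz),
    hs.of_nonneg_of_le (fun _ => sq_nonneg _) h2⟩
  exact ⟨h3, add_le_add (integral_mono_ae h3.1 hρ.l2 h1) (h3.2.tsum_le_tsum h2 hs)⟩

theorem St.maj {E : Set ℂ} {a b : TF E} (h : St a b) {ρ : ℂ → ℝ} (h0 : ∀ z, 0 ≤ ρ z)
    (hm : Maj E Q a.hi ρ) : Maj E Q b.hi ρ := by
  intro B h1 h2 K hK x hx y hy
  lift K to NNReal using (h0 x).trans (hK x hx)
  exact (h.lip B K h1 h2 (LipschitzOnWith.of_dist_le_mul (hm B h1 h2 K hK))).dist_le_mul x hx y hy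

theorem cmp_self {E : Set ℂ} (a : TF E) : a.Cmp a := by
  refine measure_mono_null (t := (LinearMap.eqLocus reLm imLm : Submodule ℝ ℂ)) ?_
    (Measure.addHaar_submodule _ _ fun e => ?_)
  · rintro _ ⟨z, -, rfl⟩
    exact rfl
  · have k : (1 : ℂ) ∈ LinearMap.eqLocus reLm imLm := e ▸ Submodule.mem_top
    simp at k

theorem cmp_symm {E : Set ℂ} {a b : TF E} (h : a.Cmp b) : b.Cmp a := by
  refine measure_mono_null ?_ (addHaar_image_eq_zero_of_differentiableOn_of_addHaar_eq_zero volume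
    (f := fun z => I * conjCLE z) (conjCLE.differentiable.const_mul I).differentiableOn h)
  rintro _ ⟨z, hz, rfl⟩
  exact ⟨_, ⟨z, ⟨hz.1, hz.2.2, hz.2.1⟩, rfl⟩, Complex.ext (by simp [TF.pr]) (by simp [TF.pr])⟩

theorem Mem.aux {E : Set ℂ} {A : List (TF E)} (hA : Fam A) {a : TF E} (ha : a ∈ A) : Aux A a := by
  obtain ⟨ρ, h1, h2⟩ := (hA.1 a ha).maj
  exact ⟨(hA.1 a ha).fn, ⟨1, fun z hz => ⟨by linarith [((hA.1 a ha).mem z hz).1],
    ((hA.1 a ha).mem z hz).2⟩⟩, ⟨ρ, h1.toWt, h2⟩, fun b hb => hA.2 b hb a ha⟩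

end Vale.Agent.P116.K
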