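import Vale.Agent.P116.K.BarAux
import Vale.Agent.P116.K.Ker

/-! P116 K/Touch (owner helper34). For each tube Z in the support put beta Z = inf over k of sup over n of val n k; it is finite (Bs with the given b at level n, tch ≤ nu univ). exists_bar, bar_aux give w Z; let b2 enumerate the w Z (Finset.toList, getD). Bs for b2, g, lam + atoms at a large level N: for each chain of the plan chn_var, bot, top give beta Z ≤ cost, so the sum of theta Z * beta Z is at most c nv + eta. Choose k for all Z (val is antitone in k), then for each n an almost optimal chain in each tube. -/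

open MeasureTheory Set Metric Filter Topology Complex
open scoped ENNReal

noncomputable section

namespace Vale.Agent.P116.K

open Vale.Agent.P128

theorem touch {P : Par} {A : List (TF P.E)} (hA : Fam A) {θ : Set ℂ →₀ ℝ} (hθ : P.Sys θ) {c : ℝ}
    (h : P.Bs A θ c) {b : ℕ → TF P.E} (hb : ∀ i, Aux A (b i)) {g : ℂ → ℝ} {lam : Cp P.E → ℝ}
    (hv : P.Tv g lam) (ν : Measure ℂ) [IsFiniteMeasure ν] {η : ℝ} (hη : 0 < η) :
    ∃ k, ∀ n, ∃ π, P.Plan n θ π ∧ P.ex π (fun i => cost b (P.ms g) lam n i.2.2 +
      (P.tch ν k (trc i.2.1 i.2.2)).toReal) ≤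
        c * P.nv g (fun q => lam q + (ν q.1).toReal) + η := by
  sorry

end Vale.Agent.P116.K
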