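import Vale.Agent.P116.K.ZA
import Vale.Agent.P116.K.Side

/-! P116 K/ZB (owner helper20, stream block). Helper names end with `_ZB`.
The sides. `left` is relatively open in the convex set `strip` (for `z` in it, `ball z η ∩ strip` is convex and misses the closed trace), so it is `strip ∩ open`, hence measurable.
`z_right`: let `Γ₀` be the trace with two vertical whiskers (down to `im = -δ-1`, up to `im = 2+δ`), `A z = ⟨(re - δ) / (1 - 2δ), (im + δ + 1) / (3 + 2δ)⟩`, `Γ = A '' Γ₀ ⊆ Qc` compact connected from bottom to top; `κ z = ⟨max 0 (min 1 re), im⟩` maps `strip \ T` to `strip \ Γ₀`;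
`J = A '' (κ '' left)` is preconnected in `Qs \ Γ`, contains `A 0` (`sg_left`) and `A (κ z)` (`sg_right`), against `sg_const`. -/

open MeasureTheory Set Metric Filter Topology Complex
open scoped ENNReal

set_option linter.unusedVariables false

noncomputable section

namespace Vale.Agent.P116.K

open Vale.Agent.P128

namespace Par

variable {P : Par} {n : ℕ} {θ : Set ℂ →₀ ℝ} {π : P.It →₀ ℝ} {i : P.It}

theorem cvx_ZB (P : Par) : Convex ℝ P.strip :=
  (convex_halfSpace_im_ge _).inter (convex_halfSpace_im_le _)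

theorem mem_ZB {T J : Set ℂ} (hJ : IsPreconnected J) (hs : J ⊆ P.strip \ T) {z z' : ℂ} (hz : z ∈ J)
    (hz' : z' ∈ J) (h : z ∈ P.left T) : z' ∈ P.left T := by
  rw [left, connectedComponentIn_eq h]
  exact hJ.subset_connectedComponentIn hz hs hz'

/-- The clamp followed by the rescaling. -/
def F_ZB (δ : ℝ) (z : ℂ) : ℂ :=
  ⟨(max 0 (min 1 z.re) - δ) / (1 - 2 * δ), (z.im + δ + 1) / (3 + 2 * δ)⟩

theorem re_ZB (δ : ℝ) (z : ℂ) : (F_ZB δ z).re = (max 0 (min 1 z.re) - δ) / (1 - 2 * δ) := rfl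

theorem im_ZB (δ : ℝ) (z : ℂ) : (F_ZB δ z).im = (z.im + δ + 1) / (3 + 2 * δ) := rfl

theorem cont_ZB (δ : ℝ) : Continuous (F_ZB δ) := by
  refine (equivRealProdCLM.toHomeomorph.comp_continuous_iff).1 ?_
  refine Continuous.prodMk (f := fun z => (F_ZB δ z).re) (g := fun z => (F_ZB δ z).im) ?_ ?_
  · simp only [re_ZB]
    fun_prop
  · simp only [im_ZB]
    fun_prop

theorem key_ZB {δ : ℝ} (h0 : 0 < δ) (h1 : δ ≤ 1 / 100) {T J : Set ℂ}
    (hR : T ⊆ Icc δ (1 - δ) ×ℂ Icc (-δ) (1 + δ)) (hc : IsCompact T) (hp : IsPreconnected T)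
    (hb : ∃ p ∈ T, p.im = -δ) (ht : ∃ p ∈ T, p.im = 1 + δ) (hJ : IsPreconnected J)
    (hs : J ⊆ {z : ℂ | -δ ≤ z.im ∧ z.im ≤ 1 + δ} \ T) (hz0 : (0 : ℂ) ∈ J) {z : ℂ} (hz : z ∈ J)
    (hr : 1 - δ < z.re) : False := by
  obtain ⟨p, pT, p0⟩ := hb
  obtain ⟨q, qT, q1⟩ := ht
  have d1 : 0 < 1 - 2 * δ := by linarith
  have d2 : 0 < 3 + 2 * δ := by linarith
  have c1 : Continuous fun t : ℝ => p - t * I := by fun_prop
  have c2 : Continuous fun t : ℝ => q + t * I := by fun_prop
  obtain ⟨G, hG⟩ : ∃ G : Set ℂ, G = (T ∪ (fun t : ℝ => p - t * I) '' Icc 0 1) ∪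
    (fun t : ℝ => q + t * I) '' Icc 0 1 := ⟨_, rfl⟩
  have gc : IsCompact G := hG ▸ (hc.union (isCompact_Icc.image c1)).union (isCompact_Icc.image c2)
  have gp : IsPreconnected G := by
    rw [hG]
    refine IsPreconnected.union q (Or.inl qT) ⟨0, left_mem_Icc.2 zero_le_one, by simp⟩
      (IsPreconnected.union p pT ⟨0, left_mem_Icc.2 zero_le_one, by simp⟩ hp
        (isPreconnected_Icc.image _ c1.continuousOn)) (isPreconnected_Icc.image _ c2.continuousOn)
  have gm : ∀ w ∈ G, δ ≤ w.re ∧ w.re ≤ 1 - δ ∧ -δ - 1 ≤ w.im ∧ w.im ≤ 2 + δ ∧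
      (-δ ≤ w.im → w.im ≤ 1 + δ → w ∈ T) := by
    rw [hG]
    rintro w ((hw | ⟨t, ht, rfl⟩) | ⟨t, ht, rfl⟩)
    · obtain ⟨⟨a1, a2⟩, a3, a4⟩ := hR hw
      exact ⟨a1, a2, by linarith, by linarith, fun _ _ => hw⟩
    · obtain ⟨⟨a1, a2⟩, -⟩ := hR pT
      have e1 : (p - t * I).re = p.re := by simp
      have e2 : (p - t * I).im = -δ - t := by simp [p0]
      simp only [e1, e2]
      refine ⟨a1, a2, by linarith [ht.2], by linarith [ht.1], fun a _ => ?_⟩
      have e3 : t = 0 := by linarith [ht.1]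
      simpa [e3] using pT
    · obtain ⟨⟨a1, a2⟩, -⟩ := hR qT
      have e1 : (q + t * I).re = q.re := by simp
      have e2 : (q + t * I).im = 1 + δ + t := by simp [q1]
      simp only [e1, e2]
      refine ⟨a1, a2, by linarith [ht.1], by linarith [ht.2], fun _ a => ?_⟩
      have e3 : t = 0 := by linarith [ht.1]
      simpa [e3] using qT
  have cl : ∀ w ∈ G, max 0 (min 1 w.re) = w.re := fun w hw => by
    obtain ⟨a1, a2, -⟩ := gm w hw
    rw [min_eq_right (by linarith), max_eq_right (by linarith)]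
  have hQ : F_ZB δ '' G ⊆ Qc := by
    rintro _ ⟨w, hw, rfl⟩
    obtain ⟨a1, a2, a3, a4, -⟩ := gm w hw
    refine ⟨⟨?_, ?_⟩, ?_, ?_⟩
    · rw [re_ZB, cl w hw]
      exact div_nonneg (by linarith) d1.le
    · rw [re_ZB, cl w hw, div_le_one d1]
      linarith
    · rw [im_ZB]
      exact div_nonneg (by linarith) d2.le
    · rw [im_ZB, div_le_one d2]
      linarith
  have hJs : F_ZB δ '' J ⊆ Qs \ F_ZB δ '' G := by
    rintro _ ⟨w, hw, rfl⟩
    obtain ⟨⟨a1, a2⟩, a3⟩ := hs hw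
    have m0 : 0 ≤ max 0 (min 1 w.re) := le_max_left _ _
    have m1 : max 0 (min 1 w.re) ≤ 1 := max_le zero_le_one (min_le_left _ _)
    refine ⟨⟨⟨?_, ?_⟩, ?_, ?_⟩, ?_⟩
    · rw [re_ZB, lt_div_iff₀ d1]
      linarith
    · rw [re_ZB, div_lt_iff₀ d1]
      linarith
    · rw [im_ZB]
      exact div_pos (by linarith) d2
    · rw [im_ZB, div_lt_one d2]
      linarith
    · rintro ⟨y, hy, e⟩
      have e1 := congrArg re e
      have e2 := congrArg im e
      rw [re_ZB, re_ZB, cl y hy, div_left_inj' d1.ne', sub_left_inj] at e1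
      rw [im_ZB, im_ZB, div_left_inj' d2.ne', add_left_inj, add_left_inj] at e2
      obtain ⟨b1, b2, -, -, b3⟩ := gm y hy
      have e3 : y.re = w.re := by
        rcases le_total 1 w.re with k | k
        · rw [min_eq_left k, max_eq_right zero_le_one] at e1
          linarith
        · rw [min_eq_right k] at e1
          rcases le_total 0 w.re with k' | k'
          · rwa [max_eq_right k'] at e1
          · rw [max_eq_left k'] at e1
            linarith
      exact a3 (Complex.ext e3 e2 ▸ b3 (e2 ▸ a1) (e2 ▸ a2))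
  have s0 : sg (F_ZB δ '' G) (F_ZB δ 0) = 0 := by
    refine sg_left hQ (hJs ⟨0, hz0, rfl⟩).1 ?_
    rw [re_ZB, zero_re, min_eq_right zero_le_one, max_self]
    exact div_neg_of_neg_of_pos (by linarith) d1
  have s1 : sg (F_ZB δ '' G) (F_ZB δ z) = 1 := by
    refine sg_right (gc.image (cont_ZB δ)) (gp.image _ (cont_ZB δ).continuousOn) hQ
      ⟨_, ⟨p - (1 : ℝ) * I, ?_, rfl⟩, ?_⟩ ⟨_, ⟨q + (1 : ℝ) * I, ?_, rfl⟩, ?_⟩ (hJs ⟨z, hz, rfl⟩).1 ?_
    · rw [hG]
      exact Or.inl (Or.inr ⟨1, right_mem_Icc.2 zero_le_one, rfl⟩)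
    · rw [im_ZB, div_eq_zero_iff]
      left
      simp only [sub_im, mul_im, ofReal_re, ofReal_im, I_re, I_im, p0]
      ring
    · rw [hG]
      exact Or.inr ⟨1, right_mem_Icc.2 zero_le_one, rfl⟩
    · rw [im_ZB, div_eq_one_iff_eq d2.ne']
      simp only [add_im, mul_im, ofReal_re, ofReal_im, I_re, I_im, q1]
      ring
    · rw [re_ZB, one_lt_div d1]
      have : 1 - δ < max 0 (min 1 z.re) := lt_max_of_lt_right (lt_min (by linarith) hr)
      linarith
  have := sg_const (hJ.image _ (cont_ZB δ).continuousOn) hJs ⟨0, hz0, rfl⟩ ⟨z, hz, rfl⟩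
  rw [s0, s1] at this
  exact zero_ne_one this

theorem z_chi (i : P.It) (z : ℂ) : P.chi i z = 0 ∨ P.chi i z = 1 := by
  by_cases h : z ∈ (P.left (trc i.2.1 i.2.2))ᶜ
  · exact Or.inr (indicator_of_mem h _)
  · exact Or.inl (indicator_of_notMem h _)

theorem z_meas (h : P.Crs n i) : Measurable (P.chi i) := by
  have hT := (z_T h).2.1.isClosed
  have hS : IsClosed P.strip :=
    (isClosed_le continuous_const continuous_im).inter (isClosed_le continuous_im continuous_const)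
  have e : P.left (T i) = P.strip ∩ interior (P.left (T i) ∪ P.stripᶜ) := by
    refine Subset.antisymm (fun z hz => ?_) fun z hz => (interior_subset hz.2).resolve_right
      (not_not.2 hz.1)
    have h1 := connectedComponentIn_subset _ _ hz
    obtain ⟨r, hr, hb⟩ := Metric.isOpen_iff.1 hT.isOpen_compl z h1.2
    refine ⟨h1.1, mem_interior_iff_mem_nhds.2 (mem_of_superset (ball_mem_nhds z hr) fun y hy => ?_)⟩
    by_cases hs : y ∈ P.strip
    · exact Or.inl (mem_ZB ((convex_ball z r).inter (cvx_ZB P)).isPreconnected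
        (fun w hw => ⟨hw.2, hb hw.1⟩) ⟨mem_ball_self hr, h1.1⟩ ⟨hy, hs⟩ hz)
    · exact Or.inr hs
  have hm : MeasurableSet (P.left (T i)) := by
    rw [e]
    exact hS.measurableSet.inter isOpen_interior.measurableSet
  exact measurable_one.indicator hm.compl

theorem z_const {V : Set ℂ} (hV : IsPreconnected V) (hs : V ⊆ P.strip) (hd : Disjoint V (T i))
    {z z' : ℂ} (hz : z ∈ V) (hz' : z' ∈ V) : P.chi i z = P.chi i z' := by
  have hs' : V ⊆ P.strip \ T i := fun w hw => ⟨hs hw, Set.disjoint_left.1 hd hw⟩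
  by_cases h : z ∈ P.left (T i)
  · exact (indicator_of_notMem (not_not.2 h) _).trans
      (indicator_of_notMem (not_not.2 (mem_ZB hV hs' hz hz' h)) _).symm
  · have e1 : P.chi i z = 1 := indicator_of_mem (mem_compl h) _
    have e2 : P.chi i z' = 1 :=
      indicator_of_mem (mem_compl fun h' => h (mem_ZB hV hs' hz' hz h')) _
    rw [e1, e2]

theorem z_left (h : P.Crs n i) {z : ℂ} (hz : z ∈ P.strip) (hr : z.re < P.δ) : P.chi i z = 0 := by
  have h0 := P.δ0
  have hV : Convex ℝ (P.strip ∩ {w : ℂ | w.re < P.δ}) := (cvx_ZB P).inter (convex_halfSpace_re_lt _)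
  have hs : P.strip ∩ {w : ℂ | w.re < P.δ} ⊆ P.strip \ T i := fun w hw =>
    ⟨hw.1, fun hT => ((z_T h).1 hT).1.1.not_gt hw.2⟩
  have hz0 : (0 : ℂ) ∈ P.strip ∩ {w : ℂ | w.re < P.δ} :=
    ⟨⟨by rw [zero_im]; linarith, by rw [zero_im]; linarith⟩, h0⟩
  exact indicator_of_notMem (not_not.2
    (hV.isPreconnected.subset_connectedComponentIn hz0 hs ⟨hz, hr⟩)) _

theorem z_right (h : P.Crs n i) {z : ℂ} (hz : z ∈ P.strip) (hr : 1 - P.δ < z.re) : P.chi i z = 1 := by
  obtain ⟨h1, h2, h3, h4, h5⟩ := z_T h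
  refine indicator_of_mem (mem_compl fun hl => ?_) _
  exact key_ZB P.δ0 (z_δ P) h1 h2 h3 h4 h5 isPreconnected_connectedComponentIn
    (connectedComponentIn_subset _ _)
    (mem_connectedComponentIn (connectedComponentIn_nonempty_iff.1 ⟨z, hl⟩)) hl hr

end Par

end Vale.Agent.P116.K
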