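import Vale.Agent.P116.K.ZB

/-! P116 K/ZC (TASK, owner helper20, stream block). Helper names end with `_ZC`.
Values of the stream. `str π x = ex π (sm · x)` by `rfl`; `φ h ≠ 0` gives `‖h‖ < 1`, so `x + r x * h ∈ ball x (r x)`, `r x ≤ ε δ < δ`; `∫ φ = 1`; the integrand is `φ` times a bounded measurable function.
`z_osc`: if the trace misses `V` then both integrands equal `φ h * chi x`; else both values lie in `[0, 1]`. -/

open MeasureTheory Set Metric Filter Topology Complex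
open scoped ENNReal

set_option linter.unusedVariables false

noncomputable section

namespace Vale.Agent.P116.K

open Vale.Agent.P128

namespace Par

variable {P : Par} {n : ℕ} {θ : Set ℂ →₀ ℝ} {π : P.It →₀ ℝ} {i : P.It}

theorem r_lt_ZC (P : Par) (x : ℂ) : P.r x < P.δ := by
  have := (P.r_le x).1
  nlinarith [P.ε1, P.δ0]

theorem chi_ZC (i : P.It) (z : ℂ) : 0 ≤ P.chi i z ∧ P.chi i z ≤ 1 := by
  rcases z_chi i z with h | h <;> rw [h] <;> norm_num

theorem sm_ZC {x : ℂ} {c : ℝ} (h : ∀ v : ℂ, ‖v‖ < 1 → P.chi i (x + (P.r x : ℂ) * v) = c) :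
    sm i x = c := by
  have e : (fun v => φ v * P.chi i (x + (P.r x : ℂ) * v)) = fun v => φ v * c := by
    funext v
    rcases lt_or_ge ‖v‖ 1 with hv | hv
    · rw [h v hv]
    · rw [φ_zero hv, zero_mul, zero_mul]
  rw [sm, e, integral_mul_const, φ_int.2, one_mul]

theorem dist_ZC (P : Par) (x v : ℂ) : dist (x + (P.r x : ℂ) * v) x = P.r x * ‖v‖ := by
  rw [dist_self_add_left, norm_mul, norm_real, Real.norm_of_nonneg (P.r_nn x)]

theorem cb_ZC (P : Par) (x : ℂ) {v : ℂ} (hv : ‖v‖ < 1) :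
    x + (P.r x : ℂ) * v ∈ closedBall x (P.r x) := by
  rw [mem_closedBall, dist_ZC]
  exact mul_le_of_le_one_right (P.r_nn x) hv.le

theorem b_ZC (P : Par) {x : ℂ} (hx : x ∉ P.E) {v : ℂ} (hv : ‖v‖ < 1) :
    x + (P.r x : ℂ) * v ∈ ball x (P.r x) := by
  rw [mem_ball, dist_ZC]
  exact mul_lt_of_lt_one_right (P.r_pos hx) hv

theorem re_ZC (P : Par) {x w : ℂ} (hw : w ∈ closedBall x (P.r x)) :
    |w.re - x.re| < P.δ ∧ |w.im - x.im| < P.δ := by
  have h := (mem_closedBall_iff_norm.1 hw).trans_lt (P.r_lt_ZC x)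
  exact ⟨(abs_re_le_norm (w - x)).trans_lt h, (abs_im_le_norm (w - x)).trans_lt h⟩

theorem ex_ZC {F : P.It → ℝ} {c : ℝ} (h : P.Plan n θ π) (hθ : P.Sys θ)
    (hF : ∀ i ∈ π.support, F i = c) : P.ex π F = c := by
  have h1 := z_mul π c fun _ => 1
  rw [h.one hθ, mul_one] at h1
  exact le_antisymm ((h.ex_mono fun i hi => (hF i hi).le).trans h1.le)
    (h1.ge.trans (h.ex_mono fun i hi => (hF i hi).ge))

theorem z_sm_int (h : P.Crs n i) (x : ℂ) :
    Integrable fun h => φ h * P.chi i (x + (P.r x : ℂ) * h) := by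
  refine φ_int.1.mul_bdd (c := 1) ((z_meas h).comp (by fun_prop)).aestronglyMeasurable
    (ae_of_all _ fun v => ?_)
  rw [Real.norm_of_nonneg (chi_ZC _ _).1]
  exact (chi_ZC _ _).2

theorem z_sm_mem (h : P.Crs n i) (x : ℂ) : 0 ≤ sm i x ∧ sm i x ≤ 1 := by
  refine ⟨integral_nonneg fun v => mul_nonneg (φ_nn v) (chi_ZC _ _).1, ?_⟩
  rw [← φ_int.2]
  exact integral_mono (z_sm_int h x) φ_int.1 fun v => mul_le_of_le_one_right (φ_nn v) (chi_ZC _ _).2

theorem z_ball (P : Par) {x : ℂ} (hx : x ∈ Qc) : closedBall x (P.r x) ⊆ P.strip := by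
  intro w hw
  have h := abs_lt.1 (P.re_ZC hw).2
  have h1 := (mem_reProdIm.1 hx).2
  exact ⟨by linarith [h1.1], by linarith [h1.2]⟩

theorem z_str_mem (h : P.Plan n θ π) (hθ : P.Sys θ) (x : ℂ) : 0 ≤ P.str π x ∧ P.str π x ≤ 1 := by
  refine ⟨Finset.sum_nonneg fun i hi => mul_nonneg (h.nn i) (z_sm_mem (h.crs i hi) x).1, ?_⟩
  rw [← h.one hθ]
  exact h.ex_mono fun i hi => (z_sm_mem (h.crs i hi) x).2

theorem z_str_bd (h : P.Plan n θ π) (hθ : P.Sys θ) {x : ℂ} (hx : x ∈ Qc) :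
    (x.re = 0 → P.str π x = 0) ∧ (x.re = 1 → P.str π x = 1) := by
  refine ⟨fun h0 => ex_ZC h hθ fun i hi => sm_ZC fun v hv => ?_,
    fun h0 => ex_ZC h hθ fun i hi => sm_ZC fun v hv => ?_⟩
  · have h1 := abs_lt.1 (P.re_ZC (P.cb_ZC x hv)).1
    exact z_left (h.crs i hi) (P.z_ball hx (P.cb_ZC x hv)) (by linarith)
  · have h1 := abs_lt.1 (P.re_ZC (P.cb_ZC x hv)).1
    exact z_right (h.crs i hi) (P.z_ball hx (P.cb_ZC x hv)) (by linarith)

theorem z_osc (h : P.Plan n θ π) {V : Set ℂ} (hV : IsPreconnected V) (hs : V ⊆ P.strip)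
    {x y : ℂ} (hx : x ∉ P.E) (hy : y ∉ P.E) (bx : ball x (P.r x) ⊆ V) (b2 : ball y (P.r y) ⊆ V) :
    |P.str π x - P.str π y| ≤ P.ex π (mt V) := by
  have e : P.str π x - P.str π y = P.ex π fun i => sm i x - sm i y := (z_sub π _ _).symm
  rw [e]
  refine z_abs h fun i hi => ?_
  by_cases hm : (V ∩ trc i.2.1 i.2.2).Nonempty
  · have e1 : mt V i = 1 := indicator_of_mem (s := {it : P.It | (V ∩ trc it.2.1 it.2.2).Nonempty})
      hm _
    have h1 := z_sm_mem (h.crs i hi) x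
    have h2 := z_sm_mem (h.crs i hi) y
    rw [e1, abs_le]
    exact ⟨by linarith [h1.1, h2.2], by linarith [h1.2, h2.1]⟩
  · have hd : Disjoint V (T i) := disjoint_iff_inter_eq_empty.2 (not_nonempty_iff_eq_empty.1 hm)
    have hxV := bx (mem_ball_self (P.r_pos hx))
    rw [sm_ZC fun v hv => z_const hV hs hd (bx (P.b_ZC hx hv)) hxV,
      sm_ZC fun v hv => z_const hV hs hd (b2 (P.b_ZC hy hv)) hxV, sub_self, abs_zero]
    exact (z_mt_nn V i).1

end Par

end Vale.Agent.P116.K
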