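import Vale.Agent.P116.K.ZA

/-! P116 K/ZD (TASK, owner helper20, stream block). Helper names end with `_ZD`.
Weighted image inequality by the layer cake formula: `lintegral_eq_lintegral_meas_lt` for the measures `volume.restrict (Φ '' s)` and `(volume.withDensity |det|).restrict s`;
`{w > t} ∩ Φ '' s = Φ '' (s ∩ Φ ⁻¹' {w > t})` (measurable: `Φ` is continuous on `s`), `addHaar_image_le_lintegral_abs_det_fderiv`; `Measure.restrict_apply` needs only the measurability of `{w > t}`. -/

open MeasureTheory Set Metric Filter Topology Complex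
open scoped ENNReal

set_option linter.unusedVariables false

noncomputable section

namespace Vale.Agent.P116.K

open Vale.Agent.P128

namespace Par

variable {P : Par} {n : ℕ} {θ : Set ℂ →₀ ℝ} {π : P.It →₀ ℝ} {i : P.It}

theorem z_img {Φ : ℂ → ℂ} {Φ' : ℂ → ℂ →L[ℝ] ℂ} {s : Set ℂ} (hs : MeasurableSet s)
    (hd : ∀ z ∈ s, HasFDerivWithinAt Φ (Φ' z) s z) (hm : Measurable fun z => (Φ' z).det)
    {w : ℂ → ℝ} (hw : Continuous w) (h0 : ∀ z, 0 ≤ w z) :
    ∫⁻ z in Φ '' s, ENNReal.ofReal (w z) ≤
      ∫⁻ z in s, ENNReal.ofReal (w (Φ z)) * ENNReal.ofReal |(Φ' z).det| := by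
  have hc : ContinuousOn Φ s := fun z hz => (hd z hz).continuousWithinAt
  have h1 : AEMeasurable (fun z => w (Φ z)) (volume.restrict s) :=
    (hw.comp_continuousOn hc).aemeasurable hs
  have h2 : AEMeasurable (fun z => ENNReal.ofReal |(Φ' z).det|) (volume.restrict s) :=
    (continuous_abs.measurable.comp hm).ennreal_ofReal.aemeasurable
  have h3 := lintegral_withDensity_eq_lintegral_mul₀ h2 h1.ennreal_ofReal
  simp only [Pi.mul_apply, mul_comm (ENNReal.ofReal |_|)] at h3
  rw [← h3, lintegral_eq_lintegral_meas_lt _ (Eventually.of_forall h0) hw.aemeasurable,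
    lintegral_eq_lintegral_meas_lt _ (Eventually.of_forall fun z => h0 (Φ z))
      (h1.mono_ac (withDensity_absolutelyContinuous _ _))]
  refine lintegral_mono fun t => ?_
  have ho : IsOpen {a | t < w a} := isOpen_lt continuous_const hw
  obtain ⟨u, hu, e⟩ := continuousOn_iff'.1 hc _ ho
  have h4 : MeasurableSet (Φ ⁻¹' {a | t < w a} ∩ s) := by
    rw [e]
    exact hu.measurableSet.inter hs
  rw [Measure.restrict_apply ho.measurableSet, ← image_preimage_inter, withDensity_apply',
    Measure.restrict_restrict' hs]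
  exact addHaar_image_le_lintegral_abs_det_fderiv volume h4
    fun z hz => (hd z hz.2).mono inter_subset_right

end Par

end Vale.Agent.P116.K
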