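import Vale.Agent.P116.K.ZD

/-! P116 K/ZE (TASK, owner helper20, stream block). Helper names end with `_ZE`.
The region swept by a segment. `Φ z = (a + z.re • (b - a) - (x + z.im • (x' - x))) / (r + z.im (r' - r))` on `s = Qc`; the set is `Φ '' Qc`. Partial derivatives `(b - a) / r_t` and `-((x' - x) + Φ z (r' - r)) / r_t`;
`|det| ≤` product of the norms; `φ (Φ z) = 0` when `1 ≤ ‖Φ z‖`. Use `z_img`, `Complex.volume_preserving_equiv_real_prod` and Tonelli (integrate in `z.re` first). -/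

open MeasureTheory Set Metric Filter Topology Complex
open scoped ENNReal

set_option linter.unusedVariables false

noncomputable section

namespace Vale.Agent.P116.K

open Vale.Agent.P128

namespace Par

variable {P : Par} {n : ℕ} {θ : Set ℂ →₀ ℝ} {π : P.It →₀ ℝ} {i : P.It}

/-- The sweeping map. -/
def swp_ZE (a b x x' : ℂ) (r r' : ℝ) (z : ℂ) : ℂ :=
  (a + z.re • (b - a) - (x + z.im • (x' - x))) / ((r + z.im * (r' - r) : ℝ) : ℂ)

theorem pos_ZE {r r' t : ℝ} (hr : 0 < r) (hr' : 0 < r') (ht : t ∈ Icc (0 : ℝ) 1) :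
    0 < r + t * (r' - r) := by
  rcases le_total r r' with h | h
  · have := mul_nonneg ht.1 (sub_nonneg.2 h)
    linarith
  · have := mul_nonneg (sub_nonneg.2 ht.2) (sub_nonneg.2 h)
    linarith

theorem det_ZE (L : ℂ →L[ℝ] ℂ) : |L.det| ≤ ‖L 1‖ * ‖L I‖ := by
  have e : L.det = ((starRingEnd ℂ) (L 1) * L I).im := by
    rw [det_Lip, mul_im, conj_re, conj_im]
    ring
  rw [e]
  refine (abs_im_le_norm _).trans_eq ?_
  rw [norm_mul, norm_conj]

theorem der_ZE (a b x x' : ℂ) {r r' : ℝ} {z : ℂ} (h : 0 < r + z.im * (r' - r)) :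
    ∃ L : ℂ →L[ℝ] ℂ, HasFDerivAt (swp_ZE a b x x' r r') L z ∧ (‖swp_ZE a b x x' r r' z‖ ≤ 1 →
      |L.det| ≤ (dist x x' + |r' - r|) * dist a b / (r + z.im * (r' - r)) ^ 2) := by
  have e : swp_ZE a b x x' r r' = fun z : ℂ =>
      (r + z.im * (r' - r))⁻¹ • (a + z.re • (b - a) - (x + z.im • (x' - x))) := by
    funext z
    rw [swp_ZE, div_eq_inv_mul, ← ofReal_inv, ← real_smul]
  have h1 : HasFDerivAt (fun z : ℂ => z.re) reCLM z := reCLM.hasFDerivAt
  have h2 : HasFDerivAt (fun z : ℂ => z.im) imCLM z := imCLM.hasFDerivAt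
  have h3 := (hasDerivAt_inv h.ne').comp_hasFDerivAt z ((h2.mul_const (r' - r)).const_add r)
  have h4 := ((h1.smul_const (b - a)).const_add a).fun_sub ((h2.smul_const (x' - x)).const_add x)
  rw [e]
  refine ⟨_, h3.fun_smul h4, fun hn => (det_ZE _).trans ?_⟩
  have hi : 0 < (r + z.im * (r' - r))⁻¹ := inv_pos.2 h
  beta_reduce at hn
  generalize a + z.re • (b - a) - (x + z.im • (x' - x)) = N at hn
  simp only [_root_.add_apply, _root_.smul_apply,
    _root_.sub_apply, ContinuousLinearMap.smulRight_apply, reCLM_apply, imCLM_apply,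
    one_re, one_im, I_re, I_im, zero_smul, one_smul, sub_zero, zero_sub, add_zero,
    Function.comp_apply, smul_eq_mul, mul_zero, mul_one]
  generalize r + z.im * (r' - r) = ρ at h hi hn
  have e1 : ‖ρ⁻¹ • (b - a)‖ = ρ⁻¹ * dist a b := by
    rw [norm_smul, Real.norm_of_nonneg hi.le, dist_comm, dist_eq_norm]
  have e2 : ‖ρ⁻¹ • -(x' - x) + (-(ρ ^ 2)⁻¹ * (r' - r)) • N‖ ≤ ρ⁻¹ * (dist x x' + |r' - r|) := by
    have e3 : (-(ρ ^ 2)⁻¹ * (r' - r)) • N = (-(ρ⁻¹ * (r' - r))) • ρ⁻¹ • N := by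
      rw [smul_smul]
      congr 1
      ring
    refine (norm_add_le _ _).trans ?_
    rw [e3, norm_smul, norm_smul (-(ρ⁻¹ * (r' - r))), norm_neg, norm_neg, norm_mul,
      Real.norm_of_nonneg hi.le, Real.norm_eq_abs, dist_comm, dist_eq_norm, mul_add]
    exact add_le_add le_rfl (mul_le_of_le_one_right (by positivity) hn)
  rw [e1]
  refine (mul_le_mul_of_nonneg_left e2 (by positivity)).trans_eq ?_
  ring

theorem z_swp {a b x x' : ℂ} {r r' M : ℝ} (hr : 0 < r) (hr' : 0 < r')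
    (hM : ∀ t ∈ Icc (0 : ℝ) 1, ∫ s in (0 : ℝ)..1,
      φ ((a + s • (b - a) - (x + t • (x' - x))) / ((r + t * (r' - r) : ℝ) : ℂ)) /
        (r + t * (r' - r)) ^ 2 ≤ M) :
    ∫⁻ h in {h : ℂ | ∃ t ∈ Icc (0 : ℝ) 1,
        x + t • (x' - x) + ((r + t * (r' - r) : ℝ) : ℂ) * h ∈ segment ℝ a b},
      ENNReal.ofReal (φ h) ≤ ENNReal.ofReal ((dist x x' + |r' - r|) * dist a b * M) := by
  obtain ⟨C, hC⟩ : ∃ C, C = (dist x x' + |r' - r|) * dist a b := ⟨_, rfl⟩
  have hC0 : 0 ≤ C := by rw [hC]; positivity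
  have hQ : MeasurableSet Qc := isCompact_Qc.measurableSet
  have h1 : {h : ℂ | ∃ t ∈ Icc (0 : ℝ) 1,
      x + t • (x' - x) + ((r + t * (r' - r) : ℝ) : ℂ) * h ∈ segment ℝ a b} ⊆
      swp_ZE a b x x' r r' '' Qc := by
    rintro h ⟨t, ht, hs⟩
    rw [segment_eq_image'] at hs
    obtain ⟨s, hs, e⟩ := hs
    refine ⟨⟨s, t⟩, ⟨hs, ht⟩, ?_⟩
    have h0 : ((r + t * (r' - r) : ℝ) : ℂ) ≠ 0 := ofReal_ne_zero.2 (pos_ZE hr hr' ht).ne'
    beta_reduce at e
    change (a + s • (b - a) - (x + t • (x' - x))) / ((r + t * (r' - r) : ℝ) : ℂ) = h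
    rw [e, add_sub_cancel_left, mul_div_cancel_left₀ _ h0]
  have h2 := z_img (Φ := swp_ZE a b x x' r r') (Φ' := fderiv ℝ (swp_ZE a b x x' r r')) hQ
    (fun z hz => by
      obtain ⟨L, hL, -⟩ := der_ZE a b x x' (pos_ZE hr hr' hz.2)
      exact hL.differentiableAt.hasFDerivAt.hasFDerivWithinAt)
    (ContinuousLinearMap.continuous_det.measurable.comp (measurable_fderiv ℝ _)) φ_cont φ_nn
  obtain ⟨G, hG⟩ : ∃ G : ℝ × ℝ → ℝ, G = fun p =>
      φ ((a + p.1 • (b - a) - (x + p.2 • (x' - x))) / ((r + p.2 * (r' - r) : ℝ) : ℂ)) /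
        (r + p.2 * (r' - r)) ^ 2 := ⟨_, rfl⟩
  have hGm : Measurable G := by
    rw [hG]
    refine (φ_cont.measurable.comp (Measurable.div ?_ ?_)).div ?_
    · exact Continuous.measurable (by fun_prop)
    · exact Continuous.measurable (by fun_prop)
    · exact Continuous.measurable (by fun_prop)
  have h3 : ∫⁻ z in Qc, ENNReal.ofReal (φ (swp_ZE a b x x' r r' z)) *
      ENNReal.ofReal |(fderiv ℝ (swp_ZE a b x x' r r') z).det| ≤
      ∫⁻ z in Qc, ENNReal.ofReal (C * G (measurableEquivRealProd z)) := by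
    refine setLIntegral_mono' hQ fun z hz => ?_
    obtain ⟨L, hL, hd⟩ := der_ZE a b x x' (pos_ZE hr hr' hz.2)
    rcases le_total ‖swp_ZE a b x x' r r' z‖ 1 with h | h
    · rw [hL.fderiv, ← ENNReal.ofReal_mul (φ_nn _)]
      refine ENNReal.ofReal_le_ofReal ((mul_le_mul_of_nonneg_left (hd h) (φ_nn _)).trans_eq ?_)
      rw [← hC, hG]
      change _ = C * (φ (swp_ZE a b x x' r r' z) / (r + z.im * (r' - r)) ^ 2)
      ring
    · rw [φ_zero h, ENNReal.ofReal_zero, zero_mul]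
      exact zero_le
  have h4 : ∫⁻ z in Qc, ENNReal.ofReal (C * G (measurableEquivRealProd z)) =
      ∫⁻ p in Icc (0 : ℝ) 1 ×ˢ Icc (0 : ℝ) 1, ENNReal.ofReal (C * G p) :=
    volume_preserving_equiv_real_prod.setLIntegral_comp_preimage_emb
      measurableEquivRealProd.measurableEmbedding (fun p => ENNReal.ofReal (C * G p))
      (Icc (0 : ℝ) 1 ×ˢ Icc (0 : ℝ) 1)
  refine (lintegral_mono_set h1).trans (h2.trans (h3.trans ?_))
  rw [h4, Measure.volume_eq_prod, ← Measure.prod_restrict,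
    lintegral_prod_symm _ (hGm.const_mul C).ennreal_ofReal.aemeasurable, ← hC]
  refine (setLIntegral_mono' (g := fun _ => ENNReal.ofReal (C * M)) measurableSet_Icc
    fun t ht => ?_).trans_eq ?_
  · have hc : Continuous fun s : ℝ => G (s, t) := by
      rw [hG]
      have h5 : Continuous fun s : ℝ =>
          (a + s • (b - a) - (x + t • (x' - x))) / ((r + t * (r' - r) : ℝ) : ℂ) :=
        Continuous.div_const (by fun_prop) _
      exact (φ_cont.comp' h5).div_const ((r + t * (r' - r)) ^ 2)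
    rw [← ofReal_integral_eq_lintegral_ofReal (f := fun s : ℝ => C * G (s, t))
      ((continuous_const.mul hc).continuousOn.integrableOn_compact isCompact_Icc)
      (Eventually.of_forall fun s => mul_nonneg hC0 (by
        rw [hG]
        exact div_nonneg (φ_nn _) (sq_nonneg _))),
      integral_const_mul, integral_Icc_eq_integral_Ioc,
      ← intervalIntegral.integral_of_le zero_le_one]
    refine ENNReal.ofReal_le_ofReal (mul_le_mul_of_nonneg_left ?_ hC0)
    rw [hG]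
    exact hM t ht
  · rw [setLIntegral_const, Real.volume_Icc, sub_zero, ENNReal.ofReal_one, mul_one]

end Par

end Vale.Agent.P116.K
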