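import Vale.Agent.P116.K.ZC
import Vale.Agent.P116.K.ZE

/-! P116 K/ZF (TASK, owner helper20, stream block). Helper names end with `_ZF`.
Local Lipschitz bound of one item. For `y ∈ Qc` near `x` and `‖h‖ < 1` the segment from `x + r x h` to `y + r y h` lies in the convex `strip` (`z_ball`) and misses `nb n`; if it misses the trace the two values of `chi` agree (`z_const`); else (`z_step`) `h` lies in the swept set of a segment of the chain.
So `|sm y - sm x| ≤ ∑ seg ∫_{swept} φ`; `z_swp` with `M = ∫ ker x (a + s (b - a)) ds + η'` (uniform continuity of `(x, r, s) ↦ φ ((a + s (b - a) - x) / r) / r ^ 2` near `r = r x > 0`; do it in a helper lemma for one segment, then induction over the list), `r_lip`. -/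

open MeasureTheory Set Metric Filter Topology Complex
open scoped ENNReal

set_option linter.unusedVariables false

noncomputable section

namespace Vale.Agent.P116.K

open Vale.Agent.P128

namespace Par

variable {P : Par} {n : ℕ} {θ : Set ℂ →₀ ℝ} {π : P.It →₀ ℝ} {i : P.It}

theorem seg_ZF (a b x : ℂ) {r η : ℝ} (hr : 0 < r) (hη : 0 < η) : ∃ ρ : ℝ, 0 < ρ ∧ ∀ (x' : ℂ) (r' : ℝ),
    dist x' x < ρ → |r' - r| < ρ → ∀ t ∈ Icc (0 : ℝ) 1, ∫ s in (0 : ℝ)..1,
      φ ((a + s • (b - a) - (x + t • (x' - x))) / ((r + t * (r' - r) : ℝ) : ℂ)) /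
        (r + t * (r' - r)) ^ 2 ≤
      (∫ s in (0 : ℝ)..1, φ ((a + s • (b - a) - x) / (r : ℂ)) / r ^ 2) + η := by
  have hm : ∀ u : ℝ, max u (r / 2) ≠ 0 := fun u =>
    (lt_of_lt_of_le (half_pos hr) (le_max_right _ _)).ne'
  let G : ℂ × ℝ → ℝ → ℝ := fun p s =>
    φ ((a + s • (b - a) - p.1) / ((max p.2 (r / 2) : ℝ) : ℂ)) / (max p.2 (r / 2)) ^ 2
  have hG : Continuous (Function.uncurry G) := by
    refine Continuous.div (φ_cont.comp (Continuous.div (by fun_prop) (by fun_prop) ?_))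
      (by fun_prop) ?_
    · intro q
      exact ofReal_ne_zero.2 (hm _)
    · intro q
      exact pow_ne_zero 2 (hm _)
  have hc : Continuous fun p => ∫ s in (0 : ℝ)..1, G p s :=
    intervalIntegral.continuous_parametric_intervalIntegral_of_continuous' hG 0 1
  obtain ⟨ρ, hρ, hb⟩ := Metric.continuousAt_iff.1 (hc.continuousAt (x := (x, r))) η hη
  refine ⟨min ρ (r / 2), lt_min hρ (half_pos hr), fun x' r' h1 h2 t ht => ?_⟩
  have h3 : |t * (r' - r)| ≤ |r' - r| := by
    rw [abs_mul, abs_of_nonneg ht.1]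
    exact mul_le_of_le_one_left (abs_nonneg _) ht.2
  have h4 : dist (x + t • (x' - x), r + t * (r' - r)) (x, r) < ρ := by
    rw [Prod.dist_eq]
    refine max_lt ?_ ?_
    · rw [dist_eq_norm, add_sub_cancel_left, norm_smul, Real.norm_of_nonneg ht.1, ← dist_eq_norm]
      exact lt_of_le_of_lt (mul_le_of_le_one_left dist_nonneg ht.2) (h1.trans_le (min_le_left _ _))
    · rw [Real.dist_eq, add_sub_cancel_left]
      exact h3.trans_lt (h2.trans_le (min_le_left _ _))
  have h5 := hb h4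
  have h6 : max (r + t * (r' - r)) (r / 2) = r + t * (r' - r) := by
    have := abs_lt.1 (h3.trans_lt (h2.trans_le (min_le_right _ _)))
    exact max_eq_left (by linarith [this.1])
  have h7 : max r (r / 2) = r := max_eq_left (by linarith)
  simp only [G, h6, h7] at h5
  rw [Real.dist_eq] at h5
  linarith [(abs_lt.1 h5).2]

/-- The region swept by a step. -/
def sw_ZF (x y : ℂ) : Stp P.E → Set ℂ
  | .seg a b => {h : ℂ | ∃ t ∈ Icc (0 : ℝ) 1,
      x + t • (y - x) + ((P.r x + t * (P.r y - P.r x) : ℝ) : ℂ) * h ∈ segment ℝ a b}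
  | .jmp _ _ _ _ => ∅

theorem len_ZF (x : ℂ) (s : Stp P.E) : 0 ≤ s.len (P.ker x) := by
  cases s with
  | seg a b =>
    exact mul_nonneg (intervalIntegral.integral_nonneg zero_le_one fun t _ => P.ker_nn _ _) dist_nonneg
  | jmp _ _ _ _ => exact le_rfl

theorem one_ZF {x : ℂ} (hr : 0 < P.r x) (s : Stp P.E) {η : ℝ} (hη : 0 < η) :
    ∀ᶠ y in 𝓝 x, ∫⁻ h in sw_ZF x y s, ENNReal.ofReal (φ h) ≤
      ENNReal.ofReal (((1 + P.ε) * s.len (P.ker x) + η) * dist y x) := by
  cases s with
  | jmp _ _ _ _ => exact Eventually.of_forall fun y => by simp [sw_ZF]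
  | seg a b =>
    have he := P.ε0
    have he1 := P.ε1
    have hab : 0 ≤ dist a b := dist_nonneg
    have hq : 0 < (1 + P.ε) * (dist a b + 1) := by positivity
    obtain ⟨ρ, hρ, hb⟩ := seg_ZF a b x hr (div_pos hη hq)
    filter_upwards [ball_mem_nhds x (lt_min hρ hr)] with y hy
    have h1 : dist y x < min ρ (P.r x) := hy
    have hD : 0 ≤ dist y x := dist_nonneg
    have h2 : |P.r y - P.r x| ≤ P.ε * dist y x := P.r_lip y x
    have h3 : P.ε * dist y x ≤ dist y x := mul_le_of_le_one_left hD (by linarith)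
    have h4 : 0 < P.r y := by
      have := (abs_le.1 (h2.trans h3)).1
      have := h1.trans_le (min_le_right _ _)
      linarith
    refine (z_swp hr h4 (hb y (P.r y) (h1.trans_le (min_le_left _ _))
      ((h2.trans h3).trans_lt (h1.trans_le (min_le_left _ _))))).trans
      (ENNReal.ofReal_le_ofReal ?_)
    have hI : 0 ≤ ∫ s in (0 : ℝ)..1, P.ker x (a + s • (b - a)) :=
      intervalIntegral.integral_nonneg zero_le_one fun t _ => P.ker_nn _ _
    change (dist x y + |P.r y - P.r x|) * dist a b *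
      ((∫ s in (0 : ℝ)..1, P.ker x (a + s • (b - a))) + η / ((1 + P.ε) * (dist a b + 1))) ≤
      ((1 + P.ε) * ((∫ s in (0 : ℝ)..1, P.ker x (a + s • (b - a))) * dist a b) + η) * dist y x
    generalize (∫ s in (0 : ℝ)..1, P.ker x (a + s • (b - a))) = I at hI
    have h5 : dist x y + |P.r y - P.r x| ≤ (1 + P.ε) * dist y x := by
      rw [dist_comm x y]
      linarith
    have h6 : (1 + P.ε) * dist a b * (η / ((1 + P.ε) * (dist a b + 1))) ≤ η := by
      rw [← mul_div_assoc, div_le_iff₀ hq]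
      nlinarith [mul_pos hη (show 0 < 1 + P.ε by linarith)]
    have h7 : 0 ≤ η / ((1 + P.ε) * (dist a b + 1)) := (div_pos hη hq).le
    generalize η / ((1 + P.ε) * (dist a b + 1)) = e at h6 h7
    calc _ ≤ (1 + P.ε) * dist y x * dist a b * (I + e) :=
          mul_le_mul_of_nonneg_right (mul_le_mul_of_nonneg_right h5 hab) (add_nonneg hI h7)
      _ = ((1 + P.ε) * (I * dist a b) + (1 + P.ε) * dist a b * e) * dist y x := by ring
      _ ≤ _ := mul_le_mul_of_nonneg_right (by linarith) hD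

theorem sum_ZF (x : ℂ) (l : List (Stp P.E)) : 0 ≤ P.eta l x :=
  List.sum_nonneg fun a ha => by
    obtain ⟨s, -, rfl⟩ := List.mem_map.1 ha
    exact len_ZF x s

theorem lst_ZF {x : ℂ} (hr : 0 < P.r x) (l : List (Stp P.E)) : ∀ η : ℝ, 0 < η →
    ∀ᶠ y in 𝓝 x, ∫⁻ h in ⋃ s ∈ l, sw_ZF x y s, ENNReal.ofReal (φ h) ≤
      ENNReal.ofReal (((1 + P.ε) * P.eta l x + η) * dist y x) := by
  induction l with
  | nil => exact fun η hη => Eventually.of_forall fun y => by simp
  | cons s l ih =>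
    intro η hη
    filter_upwards [one_ZF hr s (half_pos hη), ih _ (half_pos hη)] with y h1 h2
    have he := P.ε0
    have e1 : (⋃ s' ∈ s :: l, sw_ZF x y s') = sw_ZF x y s ∪ ⋃ s' ∈ l, sw_ZF x y s' := by
      ext z
      simp
    have e2 : P.eta (s :: l) x = s.len (P.ker x) + P.eta l x := by simp [eta]
    have p1 := len_ZF x s
    have p2 := sum_ZF x l
    have p3 : 0 ≤ dist y x := dist_nonneg
    rw [e1, e2]
    refine (lintegral_union_le _ _ _).trans ((add_le_add h1 h2).trans ?_)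
    rw [← ENNReal.ofReal_add (by positivity) (by positivity)]
    exact ENNReal.ofReal_le_ofReal (le_of_eq (by ring))

theorem cvx_ZF (P : Par) : Convex ℝ P.strip :=
  (convex_Icc (-P.δ) (1 + P.δ)).is_linear_preimage Complex.imLm.isLinear

theorem pt_ZF (h : P.Crs n i) {x y : ℂ} (hx : x ∈ Qc) (hy : y ∈ Qc)
    (hd : 2 * (P.δ / (n + 1)) ≤ infDist x P.E) (hxy : dist y x < infDist x P.E / 4) (w : ℂ) :
    ENNReal.ofReal |φ w * P.chi i (y + (P.r y : ℂ) * w) - φ w * P.chi i (x + (P.r x : ℂ) * w)| ≤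
      (⋃ s ∈ i.2.2, sw_ZF x y s).indicator (fun h => ENNReal.ofReal (φ h)) w := by
  rcases le_or_gt 1 ‖w‖ with hw | hw
  · simp [φ_zero hw]
  have hb : ∀ z : ℂ, dist (z + (P.r z : ℂ) * w) z ≤ P.r z := fun z => by
    rw [dist_eq_norm, add_sub_cancel_left, norm_mul, Complex.norm_real,
      Real.norm_of_nonneg (P.r_nn z)]
    exact mul_le_of_le_one_right (P.r_nn z) hw.le
  have hV : segment ℝ (x + (P.r x : ℂ) * w) (y + (P.r y : ℂ) * w) ⊆ P.strip :=
    (cvx_ZF P).segment_subset (z_ball P hx (hb x)) (z_ball P hy (hb y))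
  by_cases hdj : Disjoint (segment ℝ (x + (P.r x : ℂ) * w) (y + (P.r y : ℂ) * w)) (T i)
  · rw [z_const (convex_segment _ _).isPreconnected hV hdj (right_mem_segment _ _ _)
      (left_mem_segment _ _ _)]
    simp
  obtain ⟨z, hz1, hz2⟩ := not_disjoint_iff.1 hdj
  have he := P.ε0
  have he1 := P.ε1
  have hd0 : 0 ≤ infDist x P.E := infDist_nonneg
  have hD : 0 ≤ dist y x := dist_nonneg
  have a1 : P.r x ≤ infDist x P.E / 100 := by
    have := (P.r_le x).2
    nlinarith
  have a2 : P.r y ≤ P.r x + dist y x / 100 := by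
    have := (abs_le.1 (P.r_lip y x)).2
    nlinarith
  have hB : segment ℝ (x + (P.r x : ℂ) * w) (y + (P.r y : ℂ) * w) ⊆
      closedBall x (infDist x P.E / 2) := by
    refine (convex_closedBall _ _).segment_subset ?_ ?_
    · exact mem_closedBall.2 ((hb x).trans (by linarith))
    · exact mem_closedBall.2 ((dist_triangle _ y _).trans (by linarith [hb y]))
  have hn : z ∉ P.nb n := by
    intro hz
    have b1 := (mem_thickening_iff_infDist_lt P.ne).1 hz
    have b2 : infDist x P.E ≤ infDist z P.E + dist x z := infDist_le_infDist_add_dist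
    have b3 : dist z x ≤ infDist x P.E / 2 := hB hz1
    rw [dist_comm] at b3
    linarith
  obtain ⟨a, b, hab, hz3, -⟩ := z_step h hz2 hn
  have hm : w ∈ ⋃ s ∈ i.2.2, sw_ZF x y s := by
    refine mem_iUnion₂.2 ⟨_, hab, ?_⟩
    rw [segment_eq_image'] at hz1
    obtain ⟨t, ht, rfl⟩ := hz1
    refine ⟨t, ht, ?_⟩
    have e : x + t • (y - x) + ((P.r x + t * (P.r y - P.r x) : ℝ) : ℂ) * w =
        x + (P.r x : ℂ) * w + t • (y + (P.r y : ℂ) * w - (x + (P.r x : ℂ) * w)) := by
      simp only [real_smul]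
      push_cast
      ring
    rw [e]
    exact hz3
  rw [indicator_of_mem hm]
  refine ENNReal.ofReal_le_ofReal ?_
  have hp := φ_nn w
  rcases z_chi i (y + (P.r y : ℂ) * w) with c1 | c1 <;>
    rcases z_chi i (x + (P.r x : ℂ) * w) with c2 | c2 <;> rw [c1, c2, abs_le] <;>
    constructor <;> linarith

theorem z_item (h : P.Crs n i) {x : ℂ} (hx : x ∈ Qc) (hd : 2 * (P.δ / (n + 1)) ≤ infDist x P.E)
    {η : ℝ} (hη : 0 < η) : ∀ᶠ y in 𝓝[Qc] x,
      |sm i y - sm i x| ≤ ((1 + P.ε) * P.eta i.2.2 x + η) * dist y x := by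
  have hκ : 0 < P.δ / (n + 1) := div_pos P.δ0 (Nat.cast_add_one_pos n)
  have hd0 : 0 < infDist x P.E := by linarith
  have hr : 0 < P.r x := P.r_pos fun hE => hd0.ne' (infDist_zero_of_mem hE)
  have he := P.ε0
  filter_upwards [nhdsWithin_le_nhds (lst_ZF hr i.2.2 η hη), self_mem_nhdsWithin,
    nhdsWithin_le_nhds (ball_mem_nhds x (show 0 < infDist x P.E / 4 by linarith))] with y h1 hy h2
  have p2 := sum_ZF (P := P) x i.2.2
  have p3 : 0 ≤ dist y x := dist_nonneg
  rw [← ENNReal.ofReal_le_ofReal_iff (by positivity)]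
  refine le_trans ?_ h1
  rw [sm, sm, ← integral_sub (z_sm_int h y) (z_sm_int h x), ← Real.enorm_eq_ofReal_abs]
  refine (enorm_integral_le_lintegral_enorm _).trans (le_trans (lintegral_mono fun w => ?_)
    (lintegral_indicator_le _ _))
  rw [Real.enorm_eq_ofReal_abs]
  exact pt_ZF h hx hy hd h2 w

end Par

end Vale.Agent.P116.K
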