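import Vale.Agent.P116.K.ZF

/-! P116 K/ZG (TASK, owner helper20, stream block). Helper names end with `_ZG`.
`z_maj`: `maj_of_loc`, `z_item` for the finitely many items of the support (`Finset.eventually_all`), `z_abs`, `Plan.one`. `z_arz`: Arzela-Ascoli by hand: countable dense `D ⊆ S` (`TopologicalSpace.exists_countable_dense_subset` or in the subtype), `IsCompact.tendsto_subseq` in the product of intervals over `D`
(`isCompact_univ_pi`, countable product is first countable), Cauchy at every point of `S`, `F x = limUnder`, uniformity on compact sets by a finite cover (`IsCompact.induction_on`). -/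

open MeasureTheory Set Metric Filter Topology Complex
open scoped ENNReal

set_option linter.unusedVariables false

noncomputable section

namespace Vale.Agent.P116.K

open Vale.Agent.P128

namespace Par

variable {P : Par} {n : ℕ} {θ : Set ℂ →₀ ℝ} {π : P.It →₀ ℝ} {i : P.It}

theorem z_maj (h : P.Plan n θ π) (hθ : P.Sys θ) :
    Maj P.E {z | z ∈ Qc ∧ 2 * (P.δ / (n + 1)) ≤ infDist z P.E} (P.str π)
      fun z => (1 + P.ε) * P.den π z := by
  refine maj_of_loc fun x hx K hK => ?_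
  have hη : 0 < K - (1 + P.ε) * P.den π x := sub_pos.2 hK
  have h1 : ∀ᶠ y in 𝓝[Qc] x, ∀ i ∈ π.support, |sm i y - sm i x| ≤
      ((1 + P.ε) * P.eta i.2.2 x + (K - (1 + P.ε) * P.den π x)) * dist y x :=
    (Finset.eventually_all _).2 fun i hi => z_item (h.crs i hi) hx.1.1 hx.1.2 hη
  refine (h1.filter_mono (nhdsWithin_mono _ fun z hz => hz.1.1)).mono fun y hy => ?_
  have h2 := z_abs h hy
  have e : (fun i : P.It => ((1 + P.ε) * P.eta i.2.2 x + (K - (1 + P.ε) * P.den π x)) * dist y x) =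
      fun i => (dist y x * (1 + P.ε)) * P.eta i.2.2 x +
        (dist y x * (K - (1 + P.ε) * P.den π x)) * 1 := funext fun i => by ring
  rw [z_sub, e, z_add, z_mul, z_mul, h.one hθ] at h2
  refine le_of_le_of_eq h2 ?_
  change _ * P.den π x + _ = _
  ring

theorem z_arz {f : ℕ → ℂ → ℝ} {S : Set ℂ} (hb : ∀ x ∈ S, ∃ M, ∀ j, |f j x| ≤ M)
    (he : ∀ x ∈ S, ∀ η : ℝ, 0 < η → ∃ d : ℝ, 0 < d ∧
      ∀ᶠ j in atTop, ∀ y ∈ S ∩ ball x d, |f j y - f j x| ≤ η) :
    ∃ (ψ : ℕ → ℕ) (F : ℂ → ℝ), StrictMono ψ ∧ ContinuousOn F S ∧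
      ∀ K, IsCompact K → K ⊆ S → ∀ η : ℝ, 0 < η → ∀ᶠ j in atTop, ∀ x ∈ K, |f (ψ j) x - F x| ≤ η := by
  obtain ⟨D, hDS, hDc, hD⟩ :=
    (TopologicalSpace.IsSeparable.of_separableSpace S).exists_countable_dense_subset
  have : Countable D := hDc.to_subtype
  choose! M hM using hb
  obtain ⟨a, -, ψ, hψ, ha⟩ := (isCompact_univ_pi fun x : D => isCompact_Icc (a := -M x) (b := M x)).tendsto_subseq
    (x := fun j (x : D) => f j x) fun j x _ => abs_le.1 (hM x (hDS x.2) j)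
  have he' : ∀ x ∈ S, ∀ η : ℝ, 0 < η → ∃ d : ℝ, 0 < d ∧
      ∀ᶠ j in atTop, ∀ y ∈ S ∩ ball x d, |f (ψ j) y - f (ψ j) x| ≤ η := fun x hx η hη => by
    obtain ⟨d, hd, h⟩ := he x hx η hη
    exact ⟨d, hd, hψ.tendsto_atTop.eventually h⟩
  have hc : ∀ x ∈ S, CauchySeq fun j => f (ψ j) x := by
    intro x hx
    refine Metric.cauchySeq_iff'.2 fun η hη => ?_
    obtain ⟨d, hd, h1⟩ := he' x hx (η / 5) (by linarith)
    obtain ⟨y, hy, hxy⟩ := Metric.mem_closure_iff.1 (hD hx) d hd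
    have h2 := Metric.tendsto_nhds.1 (tendsto_pi_nhds.1 ha ⟨y, hy⟩) (η / 5) (by linarith)
    obtain ⟨N, hN⟩ := eventually_atTop.1 (h1.and h2)
    refine ⟨N, fun j hj => ?_⟩
    have hy' : y ∈ S ∩ ball x d := ⟨hDS hy, mem_ball'.2 hxy⟩
    have a1 := abs_le.1 ((hN j hj).1 y hy')
    have a2 := abs_le.1 ((hN N le_rfl).1 y hy')
    have a3 : |f (ψ j) y - a ⟨y, hy⟩| < η / 5 := (hN j hj).2
    have a4 : |f (ψ N) y - a ⟨y, hy⟩| < η / 5 := (hN N le_rfl).2
    rw [abs_lt] at a3 a4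
    rw [Real.dist_eq, abs_lt]
    constructor <;> linarith [a1.1, a1.2, a2.1, a2.2, a3.1, a3.2, a4.1, a4.2]
  have ht : ∀ x ∈ S, Tendsto (fun j => f (ψ j) x) atTop
      (𝓝 (limUnder atTop fun j => f (ψ j) x)) := fun x hx => (hc x hx).tendsto_limUnder
  generalize hF : (fun x => limUnder atTop fun j => f (ψ j) x) = F
  have ht' : ∀ x ∈ S, Tendsto (fun j => f (ψ j) x) atTop (𝓝 (F x)) := hF ▸ ht
  have hl : ∀ x ∈ S, ∀ η : ℝ, 0 < η → ∃ d : ℝ, 0 < d ∧
      (∀ᶠ j in atTop, ∀ y ∈ S ∩ ball x d, |f (ψ j) y - f (ψ j) x| ≤ η) ∧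
        ∀ y ∈ S ∩ ball x d, |F y - F x| ≤ η := fun x hx η hη => by
    obtain ⟨d, hd, h⟩ := he' x hx η hη
    exact ⟨d, hd, h, fun y hy =>
      le_of_tendsto ((ht' y hy.1).sub (ht' x hx)).abs (h.mono fun j hj => hj y hy)⟩
  refine ⟨ψ, F, hψ, Metric.continuousOn_iff.2 fun x hx η hη => ?_, fun K hK hKS η hη => ?_⟩
  · obtain ⟨d, hd, -, h⟩ := hl x hx (η / 2) (by linarith)
    exact ⟨d, hd, fun y hy hxy => (h y ⟨hy, hxy⟩).trans_lt (by linarith)⟩
  · refine hK.induction_on (p := fun s => ∀ᶠ j in atTop, ∀ x ∈ s, |f (ψ j) x - F x| ≤ η)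
      (Eventually.of_forall fun j x hx => hx.elim)
      (fun s t hst h => h.mono fun j hj x hx => hj x (hst hx))
      (fun s t h1 h2 => (h1.and h2).mono fun j hj x hx => hx.elim (hj.1 x) (hj.2 x)) fun x hx => ?_
    obtain ⟨d, hd, h1, h2⟩ := hl x (hKS hx) (η / 3) (by linarith)
    refine ⟨S ∩ ball x d, nhdsWithin_mono _ hKS (inter_mem_nhdsWithin _ (ball_mem_nhds x hd)), ?_⟩
    have h3 := Metric.tendsto_nhds.1 (ht' x (hKS hx)) (η / 3) (by linarith)
    refine (h1.and h3).mono fun j hj y hy => ?_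
    have a1 := abs_le.1 (hj.1 y hy)
    have a2 := abs_le.1 (h2 y hy)
    have a3 : |f (ψ j) x - F x| < η / 3 := hj.2
    rw [abs_lt] at a3
    rw [abs_le]
    constructor <;> linarith [a1.1, a1.2, a2.1, a2.2, a3.1, a3.2]

end Par

end Vale.Agent.P116.K
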