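import Vale.Agent.P116.K.ZG

/-! P116 K/ZH (TASK, owner helper20, stream block). Helper names end with `_ZH`.
`exists_lim`: `z_arz` for `den` on `Eᶜ` (`den_equi` on a closed disc; `n1 ≤ c ^ 2` as `n2 ≥ 0`), then for `str` along the subsequence on `Qc \ E` (`z_maj` on the convex set `Qc ∩ closedBall x d`, `den_equi`); put `ρ = 0` on `E` (indicator).
`Lim.maj`: for `x, y ∈ B` the segment is compact in `Q \ E`, `infDist ≥ d > 0` on it, `den ≤ ρ + η` on it eventually; `z_maj` on the segment; limit; `η → 0`. -/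

open MeasureTheory Set Metric Filter Topology Complex
open scoped ENNReal

set_option linter.unusedVariables false

noncomputable section

namespace Vale.Agent.P116.K

open Vale.Agent.P128

namespace Par

variable {P : Par} {n : ℕ} {θ : Set ℂ →₀ ℝ} {π : P.It →₀ ℝ} {i : P.It}

variable {b : ℕ → TF P.E} {c : ℝ} {pl : ℕ → P.It →₀ ℝ} {τ : ℕ → ℂ → ℝ} {k ψ : ℕ → ℕ}
  {u ρ : ℂ → ℝ}

theorem ev_ZH (P : Par) {d : ℝ} (hd : 0 < d) (hψ : StrictMono ψ) :
    ∀ᶠ j in atTop, 2 * (P.δ / ((ψ j : ℝ) + 1)) ≤ d := by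
  have h1 : Tendsto (fun j : ℕ => 2 * (P.δ / ((j : ℝ) + 1))) atTop (𝓝 (2 * 0)) :=
    (tendsto_const_nhds.div_atTop
      (tendsto_atTop_add_const_right _ _ tendsto_natCast_atTop_atTop)).const_mul 2
  rw [mul_zero] at h1
  exact hψ.tendsto_atTop.eventually (h1.eventually (ge_mem_nhds hd))

theorem pos_ZH (P : Par) {x : ℂ} (hx : x ∉ P.E) : 0 < infDist x P.E :=
  (P.dom.cpt.isClosed.notMem_iff_infDist_pos P.ne).1 hx

theorem disc_ZH (P : Par) {x : ℂ} (hx : x ∉ P.E) :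
    ∃ d : ℝ, 0 < d ∧ ∀ y ∈ closedBall x d, d ≤ infDist y P.E ∧ y ∉ P.E := by
  have h0 := pos_ZH P hx
  refine ⟨infDist x P.E / 2, by linarith, fun y hy => ?_⟩
  have h1 : infDist x P.E ≤ infDist y P.E + dist x y := infDist_le_infDist_add_dist
  rw [mem_closedBall, dist_comm] at hy
  refine ⟨by linarith, fun hE => ?_⟩
  rw [infDist_zero_of_mem hE] at h1
  linarith

theorem den_ZH (h : P.Pls b c pl τ k) {S : Set ℂ} (hS : IsCompact S) (hd : ∀ x ∈ S, x ∉ P.E) :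
    ∃ L : ℝ, 0 < L ∧ ∀ j, ∀ x ∈ S, |P.den (pl j) x| ≤ L ∧
      ∀ y ∈ S, |P.den (pl j) x - P.den (pl j) y| ≤ L * dist x y := by
  obtain ⟨L, hL⟩ := den_equi hS (Set.disjoint_left.2 hd) (c ^ 2)
  refine ⟨max L 1, lt_max_of_lt_right one_pos, fun j x hx => ?_⟩
  obtain ⟨θ, -, hp⟩ := h.plan j
  have h2 : 0 ≤ P.n2 (pl j) := tsum_nonneg fun _ => sq_nonneg _
  obtain ⟨h3, h4⟩ := hL j θ _ hp (by linarith [h.nrm j]) x hx
  exact ⟨(abs_of_nonneg (den_nn hp x)).trans_le (h3.trans (le_max_left _ _)), fun y hy =>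
    (h4 y hy).trans (mul_le_mul_of_nonneg_right (le_max_left _ _) dist_nonneg)⟩

theorem small_ZH {L η t d : ℝ} (hL : 0 < L) (ht : t < min d (η / L)) : L * t ≤ η := by
  have h1 := (lt_div_iff₀ hL).1 (ht.trans_le (min_le_right _ _))
  linarith

theorem exists_lim (h : P.Pls b c pl τ k) : ∃ ψ u ρ, Lim pl ψ u ρ := by
  have he := P.ε0
  obtain ⟨ψ₁, ρ₀, m1, c1, t1⟩ := z_arz (f := fun j => P.den (pl j)) (S := P.Eᶜ)
    (fun x hx => by
      obtain ⟨L, -, hL⟩ := den_ZH h (isCompact_singleton (x := x)) fun y hy => hy ▸ hx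
      exact ⟨L, fun j => (hL j x rfl).1⟩)
    (fun x hx η hη => by
      obtain ⟨d, hd, hb⟩ := disc_ZH P hx
      obtain ⟨L, hL0, hL⟩ := den_ZH h (isCompact_closedBall x d) fun y hy => (hb y hy).2
      refine ⟨min d (η / L), lt_min hd (by positivity), Eventually.of_forall fun j y hy => ?_⟩
      have h1 : dist y x < min d (η / L) := hy.2
      exact ((hL j y (h1.le.trans (min_le_left _ _))).2 x (mem_closedBall_self hd.le)).trans
        (small_ZH hL0 h1))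
  obtain ⟨ψ₂, u, m2, c2, t2⟩ := z_arz (f := fun j => P.str (pl (ψ₁ j))) (S := Qc \ P.E)
    (fun x _ => ⟨1, fun j => by
      obtain ⟨θ, hθ, hp⟩ := h.plan (ψ₁ j)
      exact (abs_of_nonneg (z_str_mem hp hθ x).1).trans_le (z_str_mem hp hθ x).2⟩)
    (fun x hx η hη => by
      obtain ⟨d, hd, hb⟩ := disc_ZH P hx.2
      obtain ⟨L, hL0, hL⟩ := den_ZH h (isCompact_closedBall x d) fun y hy => (hb y hy).2
      have hK : 0 < (1 + P.ε) * L := by positivity
      refine ⟨min d (η / ((1 + P.ε) * L)), lt_min hd (by positivity),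
        (ev_ZH P hd m1).mono fun j hj y hy => ?_⟩
      obtain ⟨θ, hθ, hp⟩ := h.plan (ψ₁ j)
      have h1 : dist y x < min d (η / ((1 + P.ε) * L)) := hy.2
      exact (z_maj hp hθ (Qc ∩ closedBall x d) ((cvx_Icc 0 1 0 1).inter (convex_closedBall x d))
        (fun z hz => ⟨⟨hz.1, hj.trans (hb z hz.2).1⟩, (hb z hz.2).2⟩) ((1 + P.ε) * L)
        (fun z hz => mul_le_mul_of_nonneg_left ((le_abs_self _).trans (hL _ z hz.2).1)
          (by linarith)) y ⟨hy.1.1, h1.le.trans (min_le_left _ _)⟩ x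
        ⟨hx.1, mem_closedBall_self hd.le⟩).trans (small_ZH hK h1))
  refine ⟨fun j => ψ₁ (ψ₂ j), u, P.Eᶜ.indicator ρ₀, m1.comp m2, c2, fun x hx => ?_,
    c1.congr fun x hx => indicator_of_mem hx _, fun z => ?_,
    fun z hz => indicator_of_notMem (notMem_compl_iff.2 hz) _, fun K hK hs η hη => ?_⟩
  · refine Metric.tendsto_nhds.2 fun η hη => ?_
    refine (t2 {x} isCompact_singleton (singleton_subset_iff.2 hx) (η / 2) (by linarith)).mono
      fun j hj => ?_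
    rw [Real.dist_eq]
    linarith [hj x rfl]
  · refine indicator_nonneg (fun z hz => le_of_forall_pos_le_add fun η hη => ?_) z
    obtain ⟨j, hj⟩ := (t1 {z} isCompact_singleton (singleton_subset_iff.2 hz) η hη).exists
    obtain ⟨θ, -, hp⟩ := h.plan (ψ₁ j)
    linarith [(abs_le.1 (hj z rfl)).2, den_nn hp z]
  · refine (m2.tendsto_atTop.eventually (t1 K hK hs η hη)).mono fun j hj x hx => ?_
    rw [indicator_of_mem (hs hx)]
    exact hj x hx

theorem Lim.mem (h : P.Pls b c pl τ k) (hl : Lim pl ψ u ρ) : ∀ x ∈ Qc \ P.E, 0 ≤ u x ∧ u x ≤ 1 := by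
  intro x hx
  have h1 : ∀ j, 0 ≤ P.str (pl (ψ j)) x ∧ P.str (pl (ψ j)) x ≤ 1 := fun j => by
    obtain ⟨θ, hθ, hp⟩ := h.plan (ψ j)
    exact z_str_mem hp hθ x
  exact ⟨ge_of_tendsto' (hl.ut x hx) fun j => (h1 j).1, le_of_tendsto' (hl.ut x hx) fun j => (h1 j).2⟩

theorem Lim.bd (h : P.Pls b c pl τ k) (hl : Lim pl ψ u ρ) :
    ∀ x ∈ Qc, (x.re = 0 → u x = 0) ∧ (x.re = 1 → u x = 1) := by
  intro x hx
  have h1 : ∀ j, (x.re = 0 → P.str (pl (ψ j)) x = 0) ∧ (x.re = 1 → P.str (pl (ψ j)) x = 1) :=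
    fun j => by
      obtain ⟨θ, hθ, hp⟩ := h.plan (ψ j)
      exact z_str_bd hp hθ hx
  have hE : x.re = 0 ∨ x.re = 1 → x ∉ P.E := fun h0 hE => by
    have h2 : x.re ∈ Ioo (0 : ℝ) 1 := (P.dom.sub hE).1
    rcases h0 with h0 | h0 <;> linarith [h2.1, h2.2]
  exact ⟨fun h0 => tendsto_nhds_unique (hl.ut x ⟨hx, hE (Or.inl h0)⟩)
      (tendsto_const_nhds.congr fun j => ((h1 j).1 h0).symm),
    fun h0 => tendsto_nhds_unique (hl.ut x ⟨hx, hE (Or.inr h0)⟩)
      (tendsto_const_nhds.congr fun j => ((h1 j).2 h0).symm)⟩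

theorem Lim.maj (h : P.Pls b c pl τ k) (hl : Lim pl ψ u ρ) :
    Maj P.E Q u fun z => (1 + P.ε) * ρ z := by
  intro B hB hs K hK x hx y hy
  have he := P.ε0
  have hS : segment ℝ x y ⊆ B := hB.segment_subset hx hy
  have hc : IsCompact (segment ℝ x y) := by
    rw [segment_eq_image]
    exact isCompact_Icc.image (by fun_prop)
  obtain ⟨z₀, hz₀, hm⟩ := hc.exists_isMinOn ⟨x, left_mem_segment ℝ x y⟩
    (continuous_infDist_pt P.E).continuousOn
  have hd := pos_ZH P (hs (hS hz₀)).2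
  have hQ : ∀ z ∈ B, z ∈ Qc \ P.E := fun z hz => ⟨Q_sub (hs hz).1, (hs hz).2⟩
  have lim := ((hl.ut x (hQ x hx)).sub (hl.ut y (hQ y hy))).abs
  have key : ∀ η : ℝ, 0 < η → |u x - u y| ≤ (K + (1 + P.ε) * η) * dist x y := by
    intro η hη
    refine le_of_tendsto lim (((ev_ZH P hd hl.mono).and
      (hl.rt _ hc (fun z hz => (hs (hS hz)).2) η hη)).mono fun j hj => ?_)
    obtain ⟨θ, hθ, hp⟩ := h.plan (ψ j)
    refine z_maj hp hθ _ (convex_segment x y)
      (fun z hz => ⟨⟨(hQ z (hS hz)).1, hj.1.trans (hm hz)⟩, (hs (hS hz)).2⟩) _ (fun z hz => ?_)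
      x (left_mem_segment ℝ x y) y (right_mem_segment ℝ x y)
    have h1 := mul_le_mul_of_nonneg_left (abs_le.1 (hj.2 z hz)).2 (show 0 ≤ 1 + P.ε by linarith)
    have h2 : (1 + P.ε) * ρ z ≤ K := hK z (hS hz)
    show (1 + P.ε) * P.den (pl (ψ j)) z ≤ _
    linarith
  have h3 : Tendsto (fun η : ℝ => (K + (1 + P.ε) * η) * dist x y) (𝓝[>] 0)
      (𝓝 ((K + (1 + P.ε) * 0) * dist x y)) :=
    tendsto_nhdsWithin_of_tendsto_nhds (Continuous.tendsto (by fun_prop) 0)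
  rw [mul_zero, add_zero] at h3
  exact ge_of_tendsto h3 (eventually_nhdsWithin_of_forall fun η hη => key η hη)

end Par

end Vale.Agent.P116.K
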