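import Vale.Agent.P116.K.ZA

/-! P116 K/ZI (TASK, owner helper20, stream block). Helper names end with `_ZI`.
`ker_ge`: for `dist x y < r y / 2` one has `|r x - r y| ≤ r y / 200`, so `4 / (3 π r y ^ 2) ≤ ker x y`; the disc has area `π r y ^ 2 / 4`. `z_len`: `w ≤ ms (3 g)` on the segments (`ker_ge`), `den_pair`, monotonicity of interval integrals of continuous functions (`ms_cont`), `len` of a jump is `0`.
`z_avg`: `z_len` with `w = ker y` (`≤ 1 / r y ^ 2`, vanishes off `ball y (r y)`), `g = indicator (ball y (2 r y)) (1 / r y ^ 2)`. -/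

open MeasureTheory Set Metric Filter Topology Complex
open scoped ENNReal

set_option linter.unusedVariables false

noncomputable section

namespace Vale.Agent.P116.K

open Vale.Agent.P128

namespace Par

variable {P : Par} {n : ℕ} {θ : Set ℂ →₀ ℝ} {π : P.It →₀ ℝ} {i : P.It}

theorem low_ZI {x y : ℂ} (hy : y ∉ P.E) (hx : x ∈ ball y (P.r y / 2)) :
    3 / Real.pi * (4 / 9 / P.r y ^ 2) ≤ P.ker x y := by
  have r0 := P.r_pos hy
  have d1 : dist x y < P.r y / 2 := hx
  have d0 : 0 ≤ dist x y := dist_nonneg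
  have h1 := abs_le.1 (P.r_lip x y)
  have h2 : P.ε * dist x y ≤ 1 / 100 * (P.r y / 2) :=
    mul_le_mul P.ε1 d1.le d0 (by norm_num)
  have a1 : 199 / 200 * P.r y ≤ P.r x := by linarith [h1.1]
  have a2 : P.r x ≤ 201 / 200 * P.r y := by linarith [h1.2]
  have rx : 0 < P.r x := by linarith
  rw [ker_eq_KerG y rx]
  refine mul_le_mul_of_nonneg_left ?_ pi_KerG.1.le
  have b1 : 99 / 200 ≤ max 0 (1 - dist x y * (P.r x)⁻¹) := by
    refine le_trans ?_ (le_max_right _ _)
    have : dist x y * (P.r x)⁻¹ ≤ 101 / 200 := by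
      rw [← div_eq_mul_inv, div_le_iff₀ rx]
      linarith
    linarith
  have b2 : (201 / 200 * P.r y)⁻¹ ^ 2 ≤ (P.r x)⁻¹ ^ 2 := by gcongr
  calc 4 / 9 / P.r y ^ 2 ≤ 99 / 200 * (200 / 201) ^ 2 / P.r y ^ 2 := by
        gcongr
        norm_num
    _ = 99 / 200 * (201 / 200 * P.r y)⁻¹ ^ 2 := by field_simp
    _ ≤ max 0 (1 - dist x y * (P.r x)⁻¹) * (P.r x)⁻¹ ^ 2 := by gcongr

theorem len_ZI {O : Set ℂ} {s : Stp P.E} (hs : P.Ok n O s) {w v : ℂ → ℝ}
    (hw : ContinuousOn w P.Eᶜ) (hv : ContinuousOn v P.Eᶜ) (h : ∀ y ∈ O \ P.E, w y ≤ 3 * v y) :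
    s.len w ≤ 3 * s.len v := by
  cases s with
  | seg x y =>
    have hs' : segment ℝ x y ⊆ O \ P.E := hs
    have c1 := cont_ChainZ (hw.mono fun z hz => (hs' hz).2)
    have c2 := cont_ChainZ (hv.mono fun z hz => (hs' hz).2)
    show (∫ t in (0 : ℝ)..1, w (x + t • (y - x))) * dist x y ≤
      3 * ((∫ t in (0 : ℝ)..1, v (x + t • (y - x))) * dist x y)
    rw [← mul_assoc, ← intervalIntegral.integral_const_mul]
    refine mul_le_mul_of_nonneg_right ?_ dist_nonneg
    exact intervalIntegral.integral_mono_on zero_le_one (c1.intervalIntegrable_of_Icc zero_le_one)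
      ((c2.intervalIntegrable_of_Icc zero_le_one).const_mul 3)
      fun t ht => h _ (hs' (mem_ChainZ x y ht))
  | jmp x y J c =>
    show (0 : ℝ) ≤ 3 * 0
    norm_num

theorem ker_ge {g : ℂ → ℝ} (h2 : MemLp g 2 volume) (h0 : ∀ x, 0 ≤ g x) {y : ℂ} (hy : y ∉ P.E)
    {t : ℝ} (ht : ∀ x ∈ ball y (P.r y / 2), t ≤ g x) : t ≤ 3 * P.ms g y := by
  have r0 := P.r_pos hy
  rcases le_or_gt t 0 with t0 | t0
  · have := P.ms_nn h0 y
    linarith
  have hi : Integrable ((ball y (P.r y / 2)).indicator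
      fun _ : ℂ => 3 / Real.pi * (4 / 9 / P.r y ^ 2) * t) :=
    (integrableOn_const measure_ball_lt_top.ne).integrable_indicator measurableSet_ball
  have h1 := integral_mono hi (int_KerC h2 hy) fun x => by
    by_cases hx : x ∈ ball y (P.r y / 2)
    · rw [indicator_of_mem hx]
      exact mul_le_mul (low_ZI hy hx) (ht x hx) t0.le (P.ker_nn x y)
    · rw [indicator_of_notMem hx]
      exact mul_nonneg (P.ker_nn x y) (h0 x)
  rw [integral_indicator_const _ measurableSet_ball, measureReal_def, Complex.volume_ball,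
    ENNReal.toReal_mul, ENNReal.toReal_pow, ENNReal.toReal_ofReal (by positivity),
    ENNReal.coe_toReal, NNReal.coe_real_pi, smul_eq_mul] at h1
  have e : (P.r y / 2) ^ 2 * Real.pi * (3 / Real.pi * (4 / 9 / P.r y ^ 2) * t) = t / 3 := by
    have := Real.pi_pos
    field_simp
    ring
  rw [e] at h1
  have h3 : t / 3 ≤ P.ms g y := h1
  linarith

theorem z_len (h : P.Plan n θ π) {w g : ℂ → ℝ} (hw : ContinuousOn w P.Eᶜ) (h2 : MemLp g 2 volume)
    (h0 : ∀ x, 0 ≤ g x) (hl : ∀ y ∈ P.R \ P.E, ∀ x ∈ ball y (P.r y / 2), w y ≤ g x) :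
    P.ex π (fun i => (i.2.2.map (Stp.len w)).sum) ≤ 3 * ∫ x, g x * P.den π x := by
  rw [den_pair h h2, ← z_mul]
  refine h.ex_mono fun i hi => ?_
  rw [← List.sum_map_mul_left]
  refine List.sum_le_sum fun s hs => len_ZI (ok_KerF h hi s hs) hw (ms_cont h2) fun y hy => ?_
  exact ker_ge h2 h0 hy.2 (hl y ⟨hy.1.1, hy.2⟩)

theorem z_avg (h : P.Plan n θ π) {y : ℂ} (hy : y ∉ P.E) :
    P.den π y ≤ 3 / P.r y ^ 2 * ∫ x in ball y (2 * P.r y), P.den π x := by
  have r0 := P.r_pos hy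
  have g0 : ∀ x, 0 ≤ (ball y (2 * P.r y)).indicator (fun _ : ℂ => (P.r y)⁻¹ ^ 2) x := fun x =>
    indicator_nonneg (fun _ _ => by positivity) x
  have c1 : ContinuousOn (P.ker y) P.Eᶜ :=
    ContinuousOn.comp (g := fun q : ℂ × ℂ => P.ker q.1 q.2) (f := fun z : ℂ => (y, z)) P.ker_cont
      (Continuous.prodMk_right y).continuousOn fun z _ => Or.inl hy
  have c2 : MemLp ((ball y (2 * P.r y)).indicator fun _ : ℂ => (P.r y)⁻¹ ^ 2) 2 volume :=
    memLp_indicator_const 2 measurableSet_ball _ (Or.inr measure_ball_lt_top.ne)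
  have c3 : ∀ z ∈ P.R \ P.E, ∀ x ∈ ball z (P.r z / 2),
      P.ker y z ≤ (ball y (2 * P.r y)).indicator (fun _ : ℂ => (P.r y)⁻¹ ^ 2) x := by
    intro z _ x hx
    rcases le_or_gt (P.r y) (dist y z) with e | e
    · rw [P.ker_zero e]
      exact g0 x
    · have a1 := (P.near_KerB e).2
      have a2 : P.ε * P.r y ≤ 1 / 100 * P.r y := mul_le_mul_of_nonneg_right P.ε1 r0.le
      have a3 : dist x z < P.r z / 2 := hx
      have a4 := dist_triangle x z y
      rw [dist_comm z y] at a4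
      rw [indicator_of_mem (show x ∈ ball y (2 * P.r y) from mem_ball.2 (by linarith))]
      exact ker_le_KerG r0 le_rfl z
  have h1 := z_len h c1 c2 g0 c3
  have e : ∫ x, (ball y (2 * P.r y)).indicator (fun _ : ℂ => (P.r y)⁻¹ ^ 2) x * P.den π x =
      (P.r y)⁻¹ ^ 2 * ∫ x in ball y (2 * P.r y), P.den π x := by
    rw [← integral_const_mul, ← integral_indicator measurableSet_ball]
    refine integral_congr_ae (ae_of_all _ fun x => ?_)
    by_cases hx : x ∈ ball y (2 * P.r y)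
    · simp only [indicator_of_mem hx]
    · simp only [indicator_of_notMem hx, zero_mul]
  rw [e, ← mul_assoc, inv_pow, ← div_eq_mul_inv] at h1
  exact h1

end Par

end Vale.Agent.P116.K
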