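import Vale.Agent.P116.K.ZJ

/-! P116 K/ZM (TASK, owner helper20, stream block). Helper names end with `_ZM`.
`z_exit`: `f z = min (dist z x) (2 t)` is `1`-Lipschitz and `Maj E univ f w` holds (`maj_of_loc`; `f` is locally constant where `w < 1`); induction on the list: if the trace of a chain from `a` meets `ball x t` then `f a - t ≤ ∑ len w` (`Maj.seg`, `len_split`, `len_nn`; a jump lies in `nb n`, so `f = 2 t` at both ends); the start has `f = 2 t` since `2 t ≤ δ`.
`Lim.tch`: `t = r x`, `w z = max 0 (min 1 (3 - dist z x / t))`, `g = indicator (ball x (4 t)) 1`, `z_len`, `Lim.int`, Cauchy-Schwarz `∫_{ball x (4t)} ρ ≤ 4 t √π √(∫_{ball} ρ ^ 2)`, and the discs have small area (`Integrable.uniformIntegrable`-type statement `MemLp.eLpNorm_indicator_le`, or `exists_pos_setLIntegral_lt_of_measure_lt`). -/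

open MeasureTheory Set Metric Filter Topology Complex
open scoped ENNReal

set_option linter.unusedVariables false

noncomputable section

namespace Vale.Agent.P116.K

open Vale.Agent.P128

namespace Par

variable {P : Par} {n : ℕ} {θ : Set ℂ →₀ ℝ} {π : P.It →₀ ℝ} {i : P.It}

variable {b : ℕ → TF P.E} {c : ℝ} {pl : ℕ → P.It →₀ ℝ} {τ : ℕ → ℂ → ℝ} {k ψ : ℕ → ℕ}
  {u ρ : ℂ → ℝ}

theorem maj_ZM (E : Set ℂ) {x : ℂ} {t : ℝ} {w : ℂ → ℝ} (h0 : ∀ z, 0 ≤ w z)
    (h1 : ∀ z ∈ closedBall x (2 * t), 1 ≤ w z) :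
    Maj E univ (fun z => min (dist z x) (2 * t)) w := by
  refine maj_of_loc fun z _ K hK => ?_
  by_cases hz : z ∈ closedBall x (2 * t)
  · refine Eventually.of_forall fun y => (abs_min_sub_min_le_max _ _ _ _).trans ?_
    rw [sub_self, abs_zero, max_eq_left (abs_nonneg _)]
    exact (abs_dist_sub_le y z x).trans
      (le_mul_of_one_le_left dist_nonneg ((h1 z hz).trans hK.le))
  · filter_upwards [mem_nhdsWithin_of_mem_nhds (isClosed_closedBall.isOpen_compl.mem_nhds hz)]
      with y hy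
    have a1 : 2 * t < dist z x := not_le.1 hz
    have a2 : 2 * t < dist y x := not_le.1 hy
    rw [min_eq_right a1.le, min_eq_right a2.le, sub_self, abs_zero]
    exact mul_nonneg ((h0 z).trans hK.le) dist_nonneg

theorem ind_ZM {O : Set ℂ} {x y : ℂ} {t : ℝ} (ht : 0 < t)
    (hd : Disjoint (closedBall x (2 * t)) (P.nb n)) {w : ℂ → ℝ} (hw : Continuous w)
    (h0 : ∀ z, 0 ≤ w z) (h1 : ∀ z ∈ closedBall x (2 * t), 1 ≤ w z) (l : List (Stp P.E)) :
    ∀ a, P.Chn n O a y l → (ball x t ∩ trc a l).Nonempty →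
      min (dist a x) (2 * t) - t ≤ (l.map (Stp.len w)).sum := by
  have hm := maj_ZM P.E h0 h1
  have hfar : ∀ z ∈ P.nb n, min (dist z x) (2 * t) = 2 * t := fun z hz =>
    min_eq_right (not_le.1 fun h => Set.disjoint_left.1 hd h hz).le
  induction l with
  | nil =>
    rintro a - ⟨p, hp, hp'⟩
    rcases mem_trc_ChainD.1 hp' with rfl | ⟨s, hs, -⟩
    · have := min_le_left (dist p x) (2 * t)
      have h2 : dist p x < t := hp
      rw [List.map_nil, List.sum_nil]
      linarith
    · exact absurd hs List.not_mem_nil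
  | cons s l ih =>
    rintro a h ⟨p, hp, hp'⟩
    obtain ⟨hs, hok, hl⟩ := tail_ChainD h
    rw [(cons_ChainA h).2.2.2] at hp'
    rw [List.map_cons, List.sum_cons]
    have hp2 : dist p x < t := hp
    have hnn : 0 ≤ (l.map (Stp.len w)).sum := List.sum_nonneg fun r hr => by
      obtain ⟨s', -, rfl⟩ := List.mem_map.1 hr
      exact len_nn h0 s'
    cases s with
    | seg a' b' =>
      obtain rfl : a' = a := hs
      have hseg : segment ℝ a' b' ⊆ univ \ P.E := fun z hz => ⟨mem_univ _, (hok hz).2⟩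
      rcases hp' with hp' | hp'
      · have e1 := len_split (E := P.E) (ρ := w) hp' hw.continuousOn
        have e2 := (abs_le.1 (hm.seg hw.continuousOn (x := a') (y := p)
          (((convex_segment a' b').segment_subset (left_mem_segment ℝ a' b') hp').trans hseg))).1
        have e3 := len_nn h0 (Stp.seg p b' : Stp P.E)
        have e4 := min_le_left (dist p x) (2 * t)
        linarith
      · have e1 : min (dist b' x) (2 * t) - t ≤ _ := ih _ hl ⟨p, hp, hp'⟩
        have e2 := (abs_le.1 (hm.seg hw.continuousOn hseg)).1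
        linarith
    | jmp a' b' J c' =>
      obtain rfl : a' = a := hs
      obtain ⟨m1, m2, -, -, m3, -⟩ := hok
      rcases hp' with hp' | hp'
      · exact absurd (m3 hp').2 (Set.disjoint_left.1 hd (mem_closedBall.2 (by linarith)))
      · have e1 : min (dist b' x) (2 * t) - t ≤ _ := ih _ hl ⟨p, hp, hp'⟩
        have e2 := len_nn h0 (Stp.jmp a' b' J c')
        rw [hfar _ (m3 m2.1).2] at e1
        rw [hfar _ (m3 m1.1).2]
        linarith

theorem vol_ZM (x : ℂ) {R : ℝ} (hR : 0 ≤ R) :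
    volume (ball x R) = ENNReal.ofReal (R ^ 2 * Real.pi) := by
  rw [Complex.volume_ball, ENNReal.ofReal_mul (sq_nonneg R), ENNReal.ofReal_pow hR,
    ← NNReal.coe_real_pi, ENNReal.ofReal_coe_nnreal]

theorem small_ZM {f : ℂ → ℝ} (hf : Integrable f) {κ : ℝ} (hκ : 0 < κ) :
    ∃ a : ℝ, 0 < a ∧ ∀ x R, 0 ≤ R → R < a → ∫ z in ball x R, f z < κ := by
  have h1 := (hf.tendsto_setIntegral_nhds_zero (l := comap volume (𝓝 0)) (s := id)
    tendsto_comap).eventually (gt_mem_nhds hκ)
  rw [eventually_comap] at h1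
  have h2 : Tendsto (fun R : ℝ => ENNReal.ofReal (R ^ 2 * Real.pi)) (𝓝 0) (𝓝 0) := by
    have h3 : Continuous fun R : ℝ => R ^ 2 * Real.pi := by fun_prop
    have := ENNReal.tendsto_ofReal (h3.tendsto' 0 0 (by simp))
    rwa [ENNReal.ofReal_zero] at this
  obtain ⟨a, ha, h⟩ := Metric.eventually_nhds_iff.1 (h2.eventually h1)
  refine ⟨a, ha, fun x R h0 hR => h (y := R) ?_ _ (vol_ZM x h0)⟩
  rwa [Real.dist_eq, sub_zero, abs_of_nonneg h0]

theorem amgm_ZM {f : ℂ → ℝ} (hf : MemLp f 2 volume) (x : ℂ) {t κ : ℝ} (ht : 0 < t) (hκ : 0 < κ)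
    (h : ∫ z in ball x (4 * t), f z ^ 2 < κ ^ 2) : ∫ z in ball x (4 * t), f z ≤ 33 * (κ * t) := by
  haveI : IsFiniteMeasure (volume.restrict (ball x (4 * t))) :=
    isFiniteMeasure_restrict.2 measure_ball_lt_top.ne
  have h1 : IntegrableOn (fun z => t / (2 * κ) * f z ^ 2) (ball x (4 * t)) :=
    (hf.integrable_sq.const_mul _).integrableOn
  have h2 := integral_mono ((hf.restrict (ball x (4 * t))).integrable (by norm_num))
    (h1.add (integrable_const (κ / (2 * t)))) fun z => by
      have e : t / (2 * κ) * f z ^ 2 + κ / (2 * t) - f z = (t * f z - κ) ^ 2 / (2 * κ * t) := by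
        field_simp
        ring
      have e' : 0 ≤ (t * f z - κ) ^ 2 / (2 * κ * t) := by positivity
      change f z ≤ t / (2 * κ) * f z ^ 2 + κ / (2 * t)
      linarith
  have h3 : ∫ z in ball x (4 * t), (t / (2 * κ) * f z ^ 2 + κ / (2 * t)) =
      t / (2 * κ) * (∫ z in ball x (4 * t), f z ^ 2) + (4 * t) ^ 2 * Real.pi * (κ / (2 * t)) := by
    rw [integral_add h1 (integrable_const _), integral_const_mul, setIntegral_const, smul_eq_mul,
      measureReal_def, vol_ZM x (by positivity), ENNReal.toReal_ofReal (by positivity)]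
  have h4 : t / (2 * κ) * (∫ z in ball x (4 * t), f z ^ 2) ≤ κ * t / 2 := by
    calc _ ≤ t / (2 * κ) * κ ^ 2 := mul_le_mul_of_nonneg_left h.le (by positivity)
      _ = _ := by field_simp
  have h5 : (4 * t) ^ 2 * Real.pi * (κ / (2 * t)) ≤ 32 * (κ * t) := by
    calc _ ≤ (4 * t) ^ 2 * 4 * (κ / (2 * t)) := by gcongr; exact Real.pi_le_four
      _ = _ := by field_simp; ring
  have h6 : 0 < κ * t := mul_pos hκ ht
  have h7 : ∫ z in ball x (4 * t), f z ≤
      ∫ z in ball x (4 * t), (t / (2 * κ) * f z ^ 2 + κ / (2 * t)) := h2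
  linarith

theorem z_exit (h : P.Crs n i) {x : ℂ} (hx : x ∈ Qc) {t : ℝ} (ht : 0 < t) (ht' : 2 * t ≤ P.δ)
    (hd : Disjoint (closedBall x (2 * t)) (P.nb n)) {w : ℂ → ℝ} (hw : Continuous w)
    (h0 : ∀ z, 0 ≤ w z) (h1 : ∀ z ∈ closedBall x (2 * t), 1 ≤ w z) :
    t * mt (ball x t) i ≤ (i.2.2.map (Stp.len w)).sum := by
  obtain ⟨ha, y, -, hc⟩ := h
  by_cases hm : (ball x t ∩ trc i.2.1 i.2.2).Nonempty
  · have e1 := ind_ZM ht hd hw h0 h1 _ _ hc hm
    have e2 : 2 * t ≤ dist i.2.1 x := by
      have e3 := (abs_le.1 (abs_im_le_norm (i.2.1 - x))).1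
      have e4 : 0 ≤ x.im := hx.2.1
      rw [sub_im, ha, ← dist_eq_norm] at e3
      linarith
    have e5 := mul_le_mul_of_nonneg_left (z_mt_nn (ball x t) i).2 ht.le
    rw [min_eq_right e2] at e1
    linarith
  · have hm' : i ∉ {it : P.It | (ball x t ∩ trc it.2.1 it.2.2).Nonempty} := hm
    rw [mt, indicator_of_notMem hm', mul_zero]
    refine List.sum_nonneg fun r hr => ?_
    obtain ⟨s', -, rfl⟩ := List.mem_map.1 hr
    exact len_nn h0 s'

theorem Lim.tch (h : P.Pls b c pl τ k) (hl : Lim pl ψ u ρ) {η : ℝ} (hη : 0 < η) :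
    ∃ l, ∀ x ∈ P.nb l \ P.E, ∀ᶠ j in atTop, P.ex (pl (ψ j)) (mt (ball x (P.r x))) ≤ η := by
  have hρ := (Lim.fatou h hl (M := c ^ 2) (Eventually.of_forall fun j =>
    (le_add_of_nonneg_right (tsum_nonneg fun _ => sq_nonneg _)).trans (h.nrm j))).1
  have hκ : 0 < η / 100 := by positivity
  obtain ⟨a, ha, hsm⟩ := small_ZM hρ.integrable_sq (pow_pos hκ 2)
  obtain ⟨l, hla⟩ := exists_nat_gt (P.δ / a)
  refine ⟨l, fun x hx => ?_⟩
  have ht := P.r_pos hx.2
  obtain ⟨r1, r2⟩ := P.r_le x
  have hε := P.ε1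
  have hδ := P.δ0
  have hd0 : 0 ≤ infDist x P.E := infDist_nonneg
  have r3 : 100 * P.r x ≤ P.δ := by nlinarith
  have r4 : 100 * P.r x ≤ infDist x P.E := by nlinarith
  have r5 : infDist x P.E < a := by
    refine ((mem_thickening_iff_infDist_lt P.ne).1 hx.1).trans ?_
    rw [div_lt_iff₀ ha] at hla
    rw [div_lt_iff₀ (by positivity)]
    linarith
  have hrl := P.r_lip
  generalize htd : P.r x = t at ht r3 r4 ⊢
  have e1 := amgm_ZM hρ x ht hκ (hsm x _ (by positivity) (by linarith))
  have hηt : 0 < η * t := mul_pos hη ht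
  have e2 := (Lim.int h hl (y := x) (t := 4 * t) (by linarith)).eventually
    (gt_mem_nhds (show _ < η * t / 3 by linarith))
  obtain ⟨n₀, hn₀⟩ := P.exists_nb (V := (closedBall x (2 * t))ᶜ) isClosed_closedBall.isOpen_compl
    fun z hz hz' => by
      have e3 := infDist_le_dist_of_mem (x := x) hz
      have e4 : dist z x ≤ 2 * t := hz'
      rw [dist_comm] at e3
      linarith
  filter_upwards [e2, eventually_ge_atTop n₀] with j hj hjn
  obtain ⟨θ, -, hp⟩ := h.plan (ψ j)
  have hd : Disjoint (closedBall x (2 * t)) (P.nb (ψ j)) := Set.disjoint_right.2 fun z hz =>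
    hn₀ (subset_closure (P.nb_anti (hjn.trans hl.mono.le_apply) hz))
  have hw : Continuous fun z : ℂ => max 0 (min 1 (3 - dist z x / t)) := by fun_prop
  have e3 := hp.ex_mono fun i hi => z_exit (hp.crs i hi)
    (Q_sub (P.clos_nb_Q l (subset_closure hx.1))) ht (by linarith) hd hw
    (fun z => le_max_left _ _) fun z hz => le_max_of_le_right (le_min le_rfl (by
      have e4 : dist z x / t ≤ 2 := (div_le_iff₀ ht).2 hz
      linarith))
  have e4 := z_len hp hw.continuousOn (g := (ball x (4 * t)).indicator fun _ => 1)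
    (memLp_indicator_const 2 measurableSet_ball 1 (Or.inr measure_ball_lt_top.ne))
    (fun z => indicator_nonneg (fun _ _ => zero_le_one) z) fun y _ z hz => by
      by_cases hz' : z ∈ ball x (4 * t)
      · rw [indicator_of_mem hz']
        exact max_le zero_le_one (min_le_left _ _)
      · rw [indicator_of_notMem hz']
        refine max_le le_rfl ((min_le_right _ _).trans ?_)
        rw [sub_nonpos, le_div_iff₀ ht]
        by_contra hlt
        have a1 := (abs_le.1 (hrl y x)).2
        have a2 : dist z y < P.r y / 2 := hz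
        have a3 := dist_triangle z y x
        have a4 : P.ε * dist y x ≤ 1 / 100 * dist y x :=
          mul_le_mul_of_nonneg_right hε dist_nonneg
        rw [htd] at a1
        exact hz' (mem_ball.2 (by linarith))
  have e5 : ∫ z, (ball x (4 * t)).indicator (fun _ => (1 : ℝ)) z * P.den (pl (ψ j)) z =
      ∫ z in ball x (4 * t), P.den (pl (ψ j)) z := by
    rw [← integral_indicator measurableSet_ball]
    refine integral_congr_ae (Eventually.of_forall fun z => ?_)
    by_cases hz : z ∈ ball x (4 * t)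
    · simp only [indicator_of_mem hz, one_mul]
    · simp only [indicator_of_notMem hz, zero_mul]
  rw [z_mul] at e3
  rw [e5] at e4
  have e6 : t * P.ex (pl (ψ j)) (mt (ball x t)) ≤ t * η := by linarith
  exact le_of_mul_le_mul_left e6 ht

end Par

end Vale.Agent.P116.K
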