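import Vale.Agent.P116.K.ZA
import Vale.Agent.P116.K.LevD

/-! P116 K/ZN (TASK, owner helper20, stream block). Helper names end with `_ZN`.
`z_sep2`: otherwise there are levels `j → ∞` and points `z_j ∈ J`, `z'_j ∈ J'` in one preconnected subset of `nb j`; subsequence limits `z ∈ J ∩ E`, `z' ∈ J' ∩ E` (`IsCompact.tendsto_subseq` in `J ×ˢ J'`, `infDist → 0`); for each `l` the open clusters `cl l z`, `cl l z'` contain `z_j`, `z'_j`, which lie in one cluster of level `l`, so `z' ∈ cl l z`; `iInter_cl`.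
For small sets: `dist` of the disjoint compact sets. `z_sep`: members of `cps` are compact (closed components of the compact `lev`), `cps_sep`, `Finset.eventually_all`; the sum of indicators has at most one non-zero term. -/

open MeasureTheory Set Metric Filter Topology Complex
open scoped ENNReal

set_option linter.unusedVariables false

noncomputable section

namespace Vale.Agent.P116.K

open Vale.Agent.P128

namespace Par

variable {P : Par} {n : ℕ} {θ : Set ℂ →₀ ℝ} {π : P.It →₀ ℝ} {i : P.It}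

theorem loc_ZN {z z' : ℂ} (h : z' ∉ connectedComponentIn P.E z) : ∃ t ∈ 𝓝 (z, z'), ∃ n : ℕ,
    ∀ y ∈ t, ∀ X, IsPreconnected X → X ⊆ P.nb n → y.1 ∈ X → y.2 ∉ X := by
  by_cases hz : z ∈ P.E
  · obtain ⟨n, hn⟩ := P.exists_cl_sub hz isOpen_compl_singleton (subset_compl_singleton_iff.2 h)
    refine ⟨P.cl n z ×ˢ (closure (P.cl n z))ᶜ, prod_mem_nhds
      ((P.cl_open n z).mem_nhds (P.mem_cl n hz))
      (isClosed_closure.isOpen_compl.mem_nhds fun h' => hn h' rfl), n,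
      fun y hy X h1 h2 h3 h4 => hy.2 (subset_closure ?_)⟩
    rw [← P.cl_eq hy.1]
    exact h1.subset_connectedComponentIn h3 h2 h4
  · obtain ⟨n, hn⟩ := P.exists_nb isOpen_compl_singleton (subset_compl_singleton_iff.2 hz)
    exact ⟨(closure (P.nb n))ᶜ ×ˢ univ, prod_mem_nhds
      (isClosed_closure.isOpen_compl.mem_nhds fun h' => hn h' rfl) univ_mem, n,
      fun y hy X _ h2 h3 _ => hy.1 (subset_closure (h2 h3))⟩

theorem small_ZN {r : ℝ} (hr : 0 < r) : ∀ᶠ j : ℕ in atTop, 2 / ((j : ℝ) + 1) < r := by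
  obtain ⟨N, hN⟩ := exists_nat_gt (2 / r)
  filter_upwards [eventually_ge_atTop N] with j hj
  have : (N : ℝ) ≤ j := by exact_mod_cast hj
  rw [div_lt_iff₀ hr] at hN
  rw [div_lt_iff₀ (Nat.cast_add_one_pos j)]
  nlinarith

theorem cpt_ZN {K : Set ℂ} (hK : IsCompact K) {z : ℂ} (hz : z ∈ K) :
    IsCompact (connectedComponentIn K z) :=
  hK.of_isClosed_subset (isClosed_of_closure_subset
    (isPreconnected_connectedComponentIn.closure.subset_connectedComponentIn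
      (subset_closure (mem_connectedComponentIn hz))
      (closure_minimal (connectedComponentIn_subset _ _) hK.isClosed)))
    (connectedComponentIn_subset _ _)

theorem z_sep2 {J J' : Set ℂ} (hJ : IsCompact J) (hJ' : IsCompact J')
    (h : ∀ z ∈ J, ∀ z' ∈ J', z ≠ z' ∧ z' ∉ connectedComponentIn P.E z) :
    ∀ᶠ j : ℕ in atTop, ∀ X : Set ℂ,
      (IsPreconnected X ∧ X ⊆ P.nb j) ∨ (∀ x ∈ X, ∀ y ∈ X, dist x y ≤ 2 / ((j : ℝ) + 1)) →
        ¬ ((J ∩ X).Nonempty ∧ (J' ∩ X).Nonempty) := by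
  have key : ∀ᶠ j : ℕ in atTop, ∀ y ∈ J ×ˢ J', ∀ X : Set ℂ,
      (IsPreconnected X ∧ X ⊆ P.nb j) ∨ (∀ x ∈ X, ∀ y ∈ X, dist x y ≤ 2 / ((j : ℝ) + 1)) →
        y.1 ∈ X → y.2 ∉ X := by
    refine (hJ.prod hJ').induction_on (p := fun S => ∀ᶠ j : ℕ in atTop, ∀ y ∈ S, ∀ X : Set ℂ,
      (IsPreconnected X ∧ X ⊆ P.nb j) ∨ (∀ x ∈ X, ∀ y ∈ X, dist x y ≤ 2 / ((j : ℝ) + 1)) →
        y.1 ∈ X → y.2 ∉ X) (Eventually.of_forall fun j y hy => absurd hy (notMem_empty y))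
      (fun s t hst ht => ht.mono fun j hj y hy => hj y (hst hy))
      (fun s t hs ht => (hs.and ht).mono fun j hj y hy => hy.elim (hj.1 y) (hj.2 y)) ?_
    rintro ⟨z, z'⟩ ⟨hz, hz'⟩
    obtain ⟨h1, h2⟩ := h z hz z' hz'
    obtain ⟨t, ht, n, hn⟩ := loc_ZN h2
    have d0 : 0 < dist z z' := dist_pos.2 h1
    refine ⟨t ∩ {y | dist z z' / 2 < dist y.1 y.2}, mem_nhdsWithin_of_mem_nhds (inter_mem ht
      ((isOpen_lt continuous_const continuous_dist).mem_nhds (half_lt_self d0))), ?_⟩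
    filter_upwards [eventually_ge_atTop n, small_ZN (half_pos d0)] with j j1 j2 y hy X hX h3 h4
    rcases hX with hX | hX
    · exact hn y hy.1 X hX.1 (hX.2.trans (P.nb_anti j1)) h3 h4
    · exact (hX _ h3 _ h4).not_gt (j2.trans hy.2)
  filter_upwards [key] with j hj X hX
  rintro ⟨⟨z, hz, hzX⟩, z', hz', hzX'⟩
  exact hj (z, z') ⟨hz, hz'⟩ X hX hzX hzX'

theorem z_sep {a : TF P.E} {U : Set ℂ} (hU : IsOpen U) (hc : closure U ⊆ Q)
    (hf : Disjoint (frontier U) P.E) {t : ℝ} {I : Finset (Set ℂ)} (hI : ∀ J ∈ I, J ∈ a.cps U t) :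
    ∀ᶠ j : ℕ in atTop, ∀ X : Set ℂ,
      (IsPreconnected X ∧ X ⊆ P.nb j) ∨ (∀ x ∈ X, ∀ y ∈ X, dist x y ≤ 2 / ((j : ℝ) + 1)) →
        ∀ J ∈ I, ∀ J' ∈ I, (J ∩ X).Nonempty → (J' ∩ X).Nonempty → J = J' := by
  have cpt : ∀ J ∈ I, IsCompact J := fun J hJ => by
    obtain ⟨z, hz, rfl⟩ := hI J hJ
    exact cpt_ZN (a.lev_cpt (cl_LevD hc) hc t) hz.1
  have key : ∀ᶠ j : ℕ in atTop, ∀ J ∈ I, ∀ J' ∈ I, J ≠ J' → ∀ X : Set ℂ,
      (IsPreconnected X ∧ X ⊆ P.nb j) ∨ (∀ x ∈ X, ∀ y ∈ X, dist x y ≤ 2 / ((j : ℝ) + 1)) →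
        ¬ ((J ∩ X).Nonempty ∧ (J' ∩ X).Nonempty) := by
    refine (Finset.eventually_all I).2 fun J hJ => (Finset.eventually_all I).2 fun J' hJ' => ?_
    by_cases hne : J = J'
    · exact Eventually.of_forall fun j h => absurd hne h
    · exact (z_sep2 (cpt J hJ) (cpt J' hJ') (cps_sep hU hf (hI J hJ) (hI J' hJ') hne)).mono
        fun j hj _ => hj
  filter_upwards [key] with j hj X hX J hJ J' hJ' h1 h2
  by_contra hne
  exact hj J hJ J' hJ' hne X hX ⟨h1, h2⟩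

end Par

end Vale.Agent.P116.K
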