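import Vale.Agent.P116.K.ZA
import Vale.Agent.P116.K.LevD

/-! P116 K/ZO (TASK, owner helper20, stream block). Helper names end with `_ZO`.
Pieces of one step. A segment (its length is at most `2`, it lies in `R`) is cut in `j + 1` equal parts `X q = segment (z q) (z (q + 1))`; if `X q` meets `closure U` it lies in `U'` for large `j` (`IsCompact.exists_cthickening_subset_open`), take the interval of radius `len w (X q)` around `a.hi (z q)`
(`Maj.seg`, `len_split`, `len_nn`; `Maj E U' a.hi w` follows from the hypotheses); else the interval is `Icc 1 0`-like: put `α = 1, β = 0` and note `max 0`. The lengths add up (`len_split`, induction).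
A jump along `J` is one piece; if it meets `closure U` then `J ⊆ U` for large `j` (`exists_nb` with the complement of `frontier U`), `α = sInf (lo '' J)`, `β = sSup (hi '' J)`; `hop_nn`. -/

open MeasureTheory Set Metric Filter Topology Complex
open scoped ENNReal

set_option linter.unusedVariables false

noncomputable section

namespace Vale.Agent.P116.K

open Vale.Agent.P128

namespace Par

variable {P : Par} {n : ℕ} {θ : Set ℂ →₀ ℝ} {π : P.It →₀ ℝ} {i : P.It}

theorem seg_ZO (x y : ℂ) {s t : ℝ} (h : s ≤ t) :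
    segment ℝ (AffineMap.lineMap x y s) (AffineMap.lineMap x y t) =
      (AffineMap.lineMap x y : ℝ →ᵃ[ℝ] ℂ) '' Icc s t := by
  rw [← image_segment, segment_eq_Icc h]

theorem cov_ZO {N : ℝ} (k : ℕ) : ∀ t : ℝ, 0 ≤ t → t ≤ ((k : ℝ) + 1) / N →
    ∃ q : ℕ, q < k + 1 ∧ t ∈ Icc ((q : ℝ) / N) (((q : ℝ) + 1) / N) := by
  induction k with
  | zero => exact fun t h0 h1 => ⟨0, Nat.zero_lt_one, by simpa using h0, h1⟩
  | succ k ih =>
    intro t h0 h1
    rcases le_total t (((k : ℝ) + 1) / N) with h | h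
    · obtain ⟨q, h2, h3⟩ := ih t h0 h
      exact ⟨q, h2.trans (Nat.lt_succ_self _), h3⟩
    · exact ⟨k + 1, Nat.lt_succ_self _, by simpa using h, h1⟩

theorem sum_ZO {E : Set ℂ} {w : ℂ → ℝ} {x y : ℂ} (hc : ContinuousOn w (segment ℝ x y)) {N : ℝ}
    (hN : 0 < N) (k : ℕ) (hk : (k : ℝ) ≤ N) :
    ∑ q ∈ Finset.range k, Stp.len w (Stp.seg (AffineMap.lineMap x y ((q : ℝ) / N))
      (AffineMap.lineMap x y (((q : ℝ) + 1) / N)) : Stp E) =
      Stp.len w (Stp.seg (AffineMap.lineMap x y (0 : ℝ))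
        (AffineMap.lineMap x y ((k : ℝ) / N)) : Stp E) := by
  induction k with
  | zero => simp [Stp.len]
  | succ k ih =>
    push_cast at hk ⊢
    have h1 : (0 : ℝ) ≤ (k : ℝ) / N := by positivity
    have h2 : (k : ℝ) / N ≤ ((k : ℝ) + 1) / N := div_le_div_of_nonneg_right (by linarith) hN.le
    rw [Finset.sum_range_succ, ih (by linarith)]
    refine (len_split ?_ (hc.mono ?_)).symm
    · rw [seg_ZO x y (h1.trans h2)]
      exact mem_image_of_mem _ ⟨h1, h2⟩
    · rw [seg_ZO x y (h1.trans h2), segment_eq_image_lineMap]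
      exact image_mono (Icc_subset_Icc_right ((div_le_one hN).2 hk))

theorem dist_ZO {x y : ℂ} (hx : x ∈ P.R) (hy : y ∈ P.R) : dist x y ≤ 2 := by
  rw [dist_eq_norm]
  refine (norm_le_abs_re_add_abs_im _).trans ?_
  have h1 : |(x - y).re| ≤ 1 - 2 * P.δ := by
    rw [sub_re, abs_le]
    constructor <;> linarith [hx.1.1, hx.1.2, hy.1.1, hy.1.2]
  have h2 : |(x - y).im| ≤ 1 + 2 * P.δ := by
    rw [sub_im, abs_le]
    constructor <;> linarith [hx.2.1, hx.2.2, hy.2.1, hy.2.2]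
  linarith

theorem z_pcs {a : TF P.E} (ha : ∀ z ∈ Qc, 0 ≤ a.lo z ∧ a.hi z ≤ 1) {ρ w : ℂ → ℝ}
    (hm : Maj P.E Q a.hi ρ) {U U' : Set ℂ} (hU : IsOpen U) (hU' : IsOpen U')
    (hc : closure U ⊆ U') (hQ : U' ⊆ Q) (hf : Disjoint (frontier U) P.E)
    (hw : ContinuousOn w P.Eᶜ) (h0 : ∀ z, 0 ≤ w z) (hρ : ∀ z ∈ U' \ P.E, ρ z ≤ w z)
    {lam : Cp P.E → ℝ} (l0 : ∀ c, 0 ≤ lam c) (hl : ∀ c : Cp P.E, c.1 ⊆ U → a.osc c ≤ lam c) :
    ∀ᶠ j : ℕ in atTop, ∀ s : Stp P.E, P.Ok j P.R s →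
      ∃ (m : ℕ) (X : ℕ → Set ℂ) (α β : ℕ → ℝ), s.tr ⊆ ⋃ q ∈ Finset.range m, X q ∧
        (∀ q, (IsPreconnected (X q) ∧ X q ⊆ P.nb j) ∨
          ∀ x ∈ X q, ∀ y ∈ X q, dist x y ≤ 2 / ((j : ℝ) + 1)) ∧
        (∀ q < m, ∀ z ∈ X q ∩ closure U, α q ≤ a.lo z ∧ a.hi z ≤ β q) ∧
        ∑ q ∈ Finset.range m, max 0 (β q - α q) ≤ 2 * s.len w + s.tel lam + s.hop a := by
  have hK : IsCompact (closure U) :=
    isCompact_Qc.of_isClosed_subset isClosed_closure (hc.trans (hQ.trans Q_sub))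
  obtain ⟨r, hr, h1⟩ := hK.exists_cthickening_subset_open hU' hc
  obtain ⟨n₀, h2⟩ := P.exists_nb isClosed_frontier.isOpen_compl hf.symm.subset_compl_right
  obtain ⟨n₁, h3⟩ := exists_nat_gt (2 / r)
  have hM : Maj P.E U' a.hi w := fun B hB hBU K hK => hm B hB
    (fun z hz => ⟨hQ (hBU hz).1, (hBU hz).2⟩) K fun z hz => (hρ z (hBU hz)).trans (hK z hz)
  filter_upwards [eventually_ge_atTop n₀, eventually_ge_atTop n₁] with j j0 j1 s hs
  have hh := hop_nn hs (b := a) ⟨1, fun z hz => ⟨by linarith [(ha z hz).1], (ha z hz).2⟩⟩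
  cases s with
  | seg x y =>
    have hs' : segment ℝ x y ⊆ P.R \ P.E := hs
    obtain ⟨N, hN⟩ : ∃ N : ℝ, N = (j : ℝ) + 1 := ⟨_, rfl⟩
    have N0 : 0 < N := by rw [hN]; positivity
    have hr' : 2 / N ≤ r := by
      rw [div_le_iff₀ N0]
      have k1 : (n₁ : ℝ) ≤ j := Nat.cast_le.2 j1
      have k2 := (div_lt_iff₀ hr).1 h3
      nlinarith
    have hd := dist_ZO (hs' (left_mem_segment ℝ x y)).1 (hs' (right_mem_segment ℝ x y)).1
    have hle : ∀ q : ℕ, (q : ℝ) / N ≤ ((q : ℝ) + 1) / N := fun q =>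
      div_le_div_of_nonneg_right (by linarith) N0.le
    obtain ⟨z, hz⟩ : ∃ z : ℝ → ℂ, z = (AffineMap.lineMap x y : ℝ →ᵃ[ℝ] ℂ) := ⟨_, rfl⟩
    have hX : ∀ q : ℕ, ∀ u ∈ segment ℝ (z ((q : ℝ) / N)) (z (((q : ℝ) + 1) / N)),
        ∀ v ∈ segment ℝ (z ((q : ℝ) / N)) (z (((q : ℝ) + 1) / N)), dist u v ≤ 2 / N := by
      intro q u hu v hv
      rw [hz, seg_ZO x y (hle q)] at hu hv
      obtain ⟨s, k1, rfl⟩ := hu
      obtain ⟨t, k2, rfl⟩ := hv
      rw [dist_lineMap_lineMap]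
      have k3 : dist s t ≤ 1 / N := by
        refine (Real.dist_le_of_mem_Icc k1 k2).trans (le_of_eq ?_)
        ring
      calc dist s t * dist x y ≤ 1 / N * 2 := mul_le_mul k3 hd dist_nonneg (by positivity)
        _ = 2 / N := by ring
    have hS : ∀ q : ℕ, q < j + 1 →
        segment ℝ (z ((q : ℝ) / N)) (z (((q : ℝ) + 1) / N)) ⊆ segment ℝ x y := by
      intro q hq
      have k1 : (q : ℝ) ≤ j := Nat.cast_le.2 (Nat.lt_succ_iff.1 hq)
      rw [hz, seg_ZO x y (hle q), segment_eq_image_lineMap]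
      exact image_mono (Icc_subset_Icc (by positivity) ((div_le_one N0).2 (by linarith)))
    have hw' : ContinuousOn w (segment ℝ x y) := hw.mono fun u hu => (hs' hu).2
    refine ⟨j + 1, fun q => segment ℝ (z ((q : ℝ) / N)) (z (((q : ℝ) + 1) / N)),
      fun q => a.hi (z ((q : ℝ) / N)) -
        Stp.len w (Stp.seg (z ((q : ℝ) / N)) (z (((q : ℝ) + 1) / N)) : Stp P.E),
      fun q => a.hi (z ((q : ℝ) / N)) +
        Stp.len w (Stp.seg (z ((q : ℝ) / N)) (z (((q : ℝ) + 1) / N)) : Stp P.E),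
      fun u hu => ?_, fun q => Or.inr (hN ▸ hX q), fun q hq u hu => ?_, ?_⟩
    · have hu' : u ∈ segment ℝ x y := hu
      rw [segment_eq_image_lineMap] at hu'
      obtain ⟨t, k1, rfl⟩ := hu'
      obtain ⟨q, k2, k3⟩ := cov_ZO (N := N) j t k1.1 (by rw [← hN, div_self N0.ne']; exact k1.2)
      refine mem_iUnion₂.2 ⟨q, Finset.mem_range.2 k2, ?_⟩
      beta_reduce
      rw [hz, seg_ZO x y (hle q)]
      exact mem_image_of_mem _ k3
    · have k1 : segment ℝ (z ((q : ℝ) / N)) (z (((q : ℝ) + 1) / N)) ⊆ U' \ P.E := fun v hv =>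
        ⟨h1 (mem_cthickening_of_dist_le v u r _ hu.2 ((hX q v hv u hu.1).trans hr')),
          (hs' (hS q hq hv)).2⟩
      have k2 := Maj.seg (hw.mono fun v hv => hv.2) hM
        (((convex_segment _ _).segment_subset (left_mem_segment ℝ _ _) hu.1).trans k1)
      have k3 := len_split (E := P.E) hu.1 (hw'.mono (hS q hq))
      have k4 := len_nn h0 (Stp.seg u (z (((q : ℝ) + 1) / N)) : Stp P.E)
      rw [a.eq u (k1 hu.1).2]
      constructor <;> linarith [(abs_le.1 k2).1, (abs_le.1 k2).2]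
    · have k1 := sum_ZO (E := P.E) hw' N0 (j + 1) (by rw [hN]; push_cast; exact le_rfl)
      rw [show ((j + 1 : ℕ) : ℝ) / N = 1 by push_cast; rw [← hN, div_self N0.ne'],
        AffineMap.lineMap_apply_zero, AffineMap.lineMap_apply_one, ← hz] at k1
      show _ ≤ 2 * Stp.len w (Stp.seg x y : Stp P.E) + 0 + 0
      rw [add_zero, add_zero, ← k1, Finset.mul_sum]
      refine Finset.sum_le_sum fun q _ => max_le ?_ (le_of_eq (by ring))
      exact mul_nonneg zero_le_two (len_nn h0 _)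
  | jmp x y J c =>
    obtain ⟨-, -, -, k1, k2, k3⟩ := hs
    have ht : 0 ≤ Stp.tel lam (Stp.jmp x y J c) := by
      cases c with
      | none => exact le_rfl
      | some c => exact l0 c
    have hl' : Stp.len w (Stp.jmp x y J c) = 0 := rfl
    by_cases hJ : (J ∩ closure U).Nonempty
    · have k4 : closure U ∩ J ⊆ U := fun u hu => by_contra fun k =>
        h2 (subset_closure (P.nb_anti j0 (k2 hu.2).2)) (hU.frontier_eq ▸ ⟨hu.1, k⟩)
      obtain ⟨u, hu⟩ := hJ
      have k5 : J ⊆ U := k1.subset_of_closure_inter_subset hU ⟨u, hu.1, k4 ⟨hu.2, hu.1⟩⟩ k4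
      have k6 : J ⊆ Qc := k5.trans (subset_closure.trans (hc.trans (hQ.trans Q_sub)))
      refine ⟨1, fun _ => J, fun _ => sInf (a.lo '' J), fun _ => sSup (a.hi '' J),
        fun v hv => mem_iUnion₂.2 ⟨0, Finset.mem_range.2 Nat.zero_lt_one, hv⟩,
        fun _ => Or.inl ⟨k1, fun v hv => (k2 hv).2⟩, fun _ _ v hv => ⟨?_, ?_⟩, ?_⟩
      · exact csInf_le ⟨0, forall_mem_image.2 fun v hv => (ha v (k6 hv)).1⟩
          (mem_image_of_mem _ hv.1)
      · exact le_csSup ⟨1, forall_mem_image.2 fun v hv => (ha v (k6 hv)).2⟩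
          (mem_image_of_mem _ hv.1)
      · rw [Finset.sum_range_one, hl']
        refine max_le (by linarith) ?_
        cases c with
        | none =>
          show dm a J ≤ 2 * 0 + 0 + dm a J
          linarith
        | some c =>
          show dm a J ≤ 2 * 0 + lam c + (dm a J - a.osc c)
          linarith [hl c ((k3 c rfl).trans k5)]
    · refine ⟨1, fun _ => J, fun _ => 1, fun _ => 0,
        fun v hv => mem_iUnion₂.2 ⟨0, Finset.mem_range.2 Nat.zero_lt_one, hv⟩,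
        fun _ => Or.inl ⟨k1, fun v hv => (k2 hv).2⟩, fun _ _ v hv => (hJ ⟨v, hv⟩).elim, ?_⟩
      rw [Finset.sum_range_one, hl']
      exact max_le (by linarith) (by linarith)

end Par

end Vale.Agent.P116.K
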