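import Vale.Agent.P116.K.ZN
import Vale.Agent.P116.K.ZO

/-! P116 K/ZP (TASK, owner helper20, stream block). Helper names end with `_ZP`.
Counting function. Choose for each `j`, `s` the pieces of `z_pcs` (when they exist, else `0`); `N j i t = ∑ s ∈ list, ∑ q < m, indicator (Icc (α q) (β q)) 1 t`. `Real.volume_Icc`. For the last claim: each `J ∈ I` that meets the trace meets a step (`z_step`-like: the start lies in the trace of the first step) and a piece `X q`, at a point `z ∈ lev`, so `t ∈ Icc (α q) (β q)`;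
by `z_sep` a piece meets at most one `J ∈ I`: `∑ J, mt J i ≤ ∑ J, ∑ s, ∑ q, 1[J meets X q] ≤ ∑ s, ∑ q, 1[t ∈ Icc]`. -/

open MeasureTheory Set Metric Filter Topology Complex
open scoped ENNReal

set_option linter.unusedVariables false

noncomputable section

namespace Vale.Agent.P116.K

open Vale.Agent.P128

namespace Par

variable {P : Par} {n : ℕ} {θ : Set ℂ →₀ ℝ} {π : P.It →₀ ℝ} {i : P.It}

theorem lst_ZP {S : Type} (g : S → ℝ → ℝ) (h1 : ∀ s, Measurable (g s))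
    (h2 : ∀ s, Integrable (g s)) (l : List S) :
    Measurable (fun t => (l.map fun s => g s t).sum) ∧
      Integrable (fun t => (l.map fun s => g s t).sum) ∧
      ∫ t, (l.map fun s => g s t).sum = (l.map fun s => ∫ t, g s t).sum := by
  induction l with
  | nil => simp
  | cons s l ih =>
    simp only [List.map_cons, List.sum_cons]
    exact ⟨(h1 s).add ih.1, (h2 s).add ih.2.1, by rw [integral_add (h2 s) ih.2.1, ih.2.2]⟩

theorem bd_ZP {S : Type} (f f1 f2 f3 : S → ℝ) (l : List S)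
    (h : ∀ s ∈ l, f s ≤ 2 * f1 s + f2 s + f3 s) :
    (l.map f).sum ≤ 2 * (l.map f1).sum + (l.map f2).sum + (l.map f3).sum := by
  induction l with
  | nil => simp
  | cons s l ih =>
    simp only [List.map_cons, List.sum_cons]
    have a1 := h s List.mem_cons_self
    have a2 := ih fun s' hs' => h s' (List.mem_cons_of_mem _ hs')
    linarith

open Classical in
theorem cnt_ZP {S A : Type} (I : Finset A) (r : A → S → Prop) (f : S → ℝ) (l : List S)
    (h : ∀ s ∈ l, ∑ J ∈ I, (if r J s then (1 : ℝ) else 0) ≤ f s) :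
    ∑ J ∈ I, (if ∃ s ∈ l, r J s then (1 : ℝ) else 0) ≤ (l.map f).sum := by
  induction l with
  | nil => simp
  | cons s l ih =>
    simp only [List.map_cons, List.sum_cons]
    refine le_trans ?_ (add_le_add (h s List.mem_cons_self)
      (ih fun s' hs' => h s' (List.mem_cons_of_mem _ hs')))
    rw [← Finset.sum_add_distrib]
    refine Finset.sum_le_sum fun J _ => ?_
    by_cases h1 : ∃ s' ∈ s :: l, r J s'
    · rw [if_pos h1]
      obtain ⟨s', hs', hr⟩ := h1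
      rcases List.mem_cons.1 hs' with rfl | hs'
      · rw [if_pos hr]
        split_ifs <;> norm_num
      · rw [if_pos (show ∃ s ∈ l, r J s from ⟨s', hs', hr⟩)]
        split_ifs <;> norm_num
    · rw [if_neg h1]
      split_ifs <;> norm_num

open Classical in
theorem one_ZP {I : Finset (Set ℂ)} {T : Set ℂ} {m : ℕ} {X : ℕ → Set ℂ} {α β : ℕ → ℝ} {t : ℝ}
    (h1 : T ⊆ ⋃ q ∈ Finset.range m, X q)
    (h2 : ∀ q, ∀ J ∈ I, ∀ J' ∈ I, (J ∩ X q).Nonempty → (J' ∩ X q).Nonempty → J = J')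
    (h3 : ∀ q < m, ∀ J ∈ I, (J ∩ X q).Nonempty → t ∈ Icc (α q) (β q)) :
    ∑ J ∈ I, (if (J ∩ T).Nonempty then (1 : ℝ) else 0) ≤
      ∑ q ∈ Finset.range m, (Icc (α q) (β q)).indicator (1 : ℝ → ℝ) t := by
  have e1 : ∀ J ∈ I, (if (J ∩ T).Nonempty then (1 : ℝ) else 0) ≤
      ∑ q ∈ Finset.range m, (if (J ∩ X q).Nonempty then (1 : ℝ) else 0) := fun J _ => by
    have p : ∀ q ∈ Finset.range m, 0 ≤ (if (J ∩ X q).Nonempty then (1 : ℝ) else 0) :=
      fun q _ => by split_ifs <;> norm_num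
    split_ifs with h
    · obtain ⟨z, hz, hT⟩ := h
      obtain ⟨q, hq, hX⟩ := mem_iUnion₂.1 (h1 hT)
      exact (if_pos ⟨z, hz, hX⟩).symm.le.trans (Finset.single_le_sum p hq)
    · exact Finset.sum_nonneg p
  refine (Finset.sum_le_sum e1).trans (Finset.sum_comm.le.trans
    (Finset.sum_le_sum fun q hq => ?_))
  by_cases h : ∃ J ∈ I, (J ∩ X q).Nonempty
  · obtain ⟨J, hJ, hn⟩ := h
    rw [indicator_of_mem (h3 q (Finset.mem_range.1 hq) J hJ hn), Pi.one_apply,
      Finset.sum_eq_single J (fun J' hJ' hne => if_neg fun h' => hne (h2 q J' hJ' J hJ h' hn))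
        (fun h' => absurd hJ h'), if_pos hn]
  · rw [Finset.sum_eq_zero fun J hJ => if_neg fun h' => h ⟨J, hJ, h'⟩]
    exact indicator_nonneg (fun _ _ => zero_le_one) t

theorem trc_ZP (h : P.Crs n i) {z : ℂ} (hz : z ∈ trc i.2.1 i.2.2) : ∃ s ∈ i.2.2, z ∈ s.tr := by
  obtain ⟨Z, x, l⟩ := i
  obtain ⟨h1, y, h2, -, h3, h4⟩ := h
  rcases hz with hz | hz
  · rw [mem_singleton_iff] at hz
    subst hz
    cases l with
    | nil =>
      have e : z = y := h3
      have := P.δ0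
      rw [← e] at h2
      have h1' : z.im = -P.δ := h1
      linarith
    | cons s l =>
      have e : s.src = z := h3.1
      exact ⟨s, List.mem_cons_self, e ▸ (ok_ChainA (h4 s List.mem_cons_self)).1⟩
  · obtain ⟨s, hs, h⟩ := mem_iUnion₂.1 hz
    exact ⟨s, hs, h⟩

theorem z_cnt {a : TF P.E} (ha : ∀ z ∈ Qc, 0 ≤ a.lo z ∧ a.hi z ≤ 1) {ρ w : ℂ → ℝ}
    (hm : Maj P.E Q a.hi ρ) {U U' : Set ℂ} (hU : IsOpen U) (hU' : IsOpen U')
    (hc : closure U ⊆ U') (hQ : U' ⊆ Q) (hf : Disjoint (frontier U) P.E)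
    (hw : ContinuousOn w P.Eᶜ) (h0 : ∀ z, 0 ≤ w z) (hρ : ∀ z ∈ U' \ P.E, ρ z ≤ w z)
    {lam : Cp P.E → ℝ} (l0 : ∀ c, 0 ≤ lam c) (hl : ∀ c : Cp P.E, c.1 ⊆ U → a.osc c ≤ lam c) :
    ∃ N : ℕ → P.It → ℝ → ℝ, (∀ j i t, 0 ≤ N j i t) ∧ (∀ j i, Measurable (N j i)) ∧
      (∀ j i, Integrable (N j i)) ∧
      (∀ᶠ j in atTop, ∀ i, P.Crs j i → ∫ t, N j i t ≤ 2 * (i.2.2.map (Stp.len w)).sum +
        (i.2.2.map (Stp.tel lam)).sum + (i.2.2.map (Stp.hop a)).sum) ∧
      ∀ (t : ℝ) (I : Finset (Set ℂ)), (∀ J ∈ I, J ∈ a.cps U t) →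
        ∀ᶠ j in atTop, ∀ i, P.Crs j i → ∑ J ∈ I, mt J i ≤ N j i t := by
  classical
  have hp := z_pcs ha hm hU hU' hc hQ hf hw h0 hρ l0 hl
  obtain ⟨Pc, hPc⟩ : ∃ Pc : ℕ → Stp P.E → ℕ → (ℕ → Set ℂ) → (ℕ → ℝ) → (ℕ → ℝ) → Prop,
      Pc = fun (j : ℕ) s m X α β => s.tr ⊆ ⋃ q ∈ Finset.range m, X q ∧
        (∀ q, (IsPreconnected (X q) ∧ X q ⊆ P.nb j) ∨
          ∀ x ∈ X q, ∀ y ∈ X q, dist x y ≤ 2 / ((j : ℝ) + 1)) ∧
        (∀ q < m, ∀ z ∈ X q ∩ closure U, α q ≤ a.lo z ∧ a.hi z ≤ β q) ∧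
        ∑ q ∈ Finset.range m, max 0 (β q - α q) ≤ 2 * s.len w + s.tel lam + s.hop a := ⟨_, rfl⟩
  have hch : ∀ j s, ∃ m X α β, (∃ m X α β, Pc j s m X α β) → Pc j s m X α β := fun j s => by
    by_cases h : ∃ m X α β, Pc j s m X α β
    · obtain ⟨m, X, α, β, h⟩ := h
      exact ⟨m, X, α, β, fun _ => h⟩
    · exact ⟨0, fun _ => ∅, 0, 0, fun h' => absurd h' h⟩
  choose m X α β hX using hch
  have hp' : ∀ᶠ j : ℕ in atTop, ∀ i, P.Crs j i → ∀ s ∈ i.2.2,
      Pc j s (m j s) (X j s) (α j s) (β j s) := hp.mono fun j hj i hi s hs => by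
    obtain ⟨-, y, -, -, -, h4⟩ := hi
    refine hX j s ?_
    rw [hPc]
    exact hj s ((h4 s hs).mono le_rfl sdiff_subset)
  rw [hPc] at hp'
  have gi : ∀ c d : ℝ, Integrable ((Icc c d).indicator (1 : ℝ → ℝ)) := fun c d =>
    (integrable_indicator_iff measurableSet_Icc).2 (integrableOn_const measure_Icc_lt_top.ne)
  have hL := fun j (i : P.It) => lst_ZP
    (fun s t => ∑ q ∈ Finset.range (m j s), (Icc (α j s q) (β j s q)).indicator (1 : ℝ → ℝ) t)
    (fun s => Finset.measurable_sum _ fun q _ => measurable_one.indicator measurableSet_Icc)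
    (fun s => integrable_finsetSum _ fun q _ => gi _ _) i.2.2
  refine ⟨fun j i t => (i.2.2.map fun s => ∑ q ∈ Finset.range (m j s),
    (Icc (α j s q) (β j s q)).indicator (1 : ℝ → ℝ) t).sum, fun j i t => ?_,
    fun j i => (hL j i).1, fun j i => (hL j i).2.1, hp'.mono fun j hj i hi => ?_,
    fun t I hI => ?_⟩
  · refine List.sum_nonneg fun x hx => ?_
    obtain ⟨s, -, rfl⟩ := List.mem_map.1 hx
    exact Finset.sum_nonneg fun q _ => indicator_nonneg (fun _ _ => zero_le_one) t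
  · rw [(hL j i).2.2]
    refine bd_ZP _ _ _ _ _ fun s hs => le_trans (le_of_eq ?_) (hj i hi s hs).2.2.2
    rw [integral_finsetSum _ fun q _ => gi _ _]
    refine Finset.sum_congr rfl fun q _ => ?_
    rw [integral_indicator_one measurableSet_Icc, Real.volume_real_Icc, max_comm]
  · filter_upwards [hp', z_sep hU (hc.trans hQ) hf hI] with j hj hs i hi
    refine le_trans (Finset.sum_le_sum fun J _ => ?_) (cnt_ZP I (fun J s => (J ∩ s.tr).Nonempty)
      _ i.2.2 fun s hs' => one_ZP (hj i hi s hs').1 (fun q => hs _ ((hj i hi s hs').2.1 q))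
        fun q hq J hJ hn => ?_)
    · by_cases h : (J ∩ trc i.2.1 i.2.2).Nonempty
      · obtain ⟨z, hz, hT⟩ := h
        obtain ⟨s, hs', hz'⟩ := trc_ZP hi hT
        rw [if_pos ⟨s, hs', z, hz, hz'⟩]
        exact (z_mt_nn J i).2
      · rw [mt, indicator_of_notMem
          (show i ∉ {it : P.It | (J ∩ trc it.2.1 it.2.2).Nonempty} from h)]
        split_ifs <;> norm_num
    · obtain ⟨z, hz, hX⟩ := hn
      obtain ⟨z', -, e⟩ := hI J hJ
      have hz' : z ∈ a.lev (closure U) t := connectedComponentIn_subset _ z' (e ▸ hz)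
      have h := (hj i hi s hs').2.2.1 q hq z ⟨hX, hz'.1⟩
      exact ⟨h.1.trans hz'.2.1, hz'.2.2.trans h.2⟩

end Par

end Vale.Agent.P116.K
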