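import Vale.Agent.P116.K.ZC
import Vale.Agent.P116.K.ZM
import Vale.Agent.P116.K.LevD

/-! P116 K/ZQ (TASK, owner helper20, stream block). Helper names end with `_ZQ`.
`z_atom`: the support `S` of `osc w` is countable (`Summable.countable_support`); `N t = ∑' c : S, ofReal (osc w c) * indicator` (zero when `c` is not in `U`), `lintegral_tsum`, `Real.volume_Icc`.
`Lim.pt`: choose `l` with `cl l p ∪ cl l q ⊆ U` (`exists_cl_sub`; the components of `p`, `q` lie in `U` by `Cp.in_or`), `Cv.l2`, `Cv.h2`, `Lim.tch`; `J` is preconnected, contains `p` and meets `frontier U` (`lev_reach`), so it meets `frontier (cl (l + 1) p) ⊆ cl l p \ E` in `x`; same for `q`, `y`;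
`z_osc` with `V = J ∪ ball x (r x) ∪ ball y (r y)`, `z_mt_union`, `Lim.ut`. -/

open MeasureTheory Set Metric Filter Topology Complex
open scoped ENNReal

set_option linter.unusedVariables false

noncomputable section

namespace Vale.Agent.P116.K

open Vale.Agent.P128

namespace Par

variable {P : Par} {n : ℕ} {θ : Set ℂ →₀ ℝ} {π : P.It →₀ ℝ} {i : P.It}

variable {b : ℕ → TF P.E} {c : ℝ} {pl : ℕ → P.It →₀ ℝ} {τ : ℕ → ℂ → ℝ} {k ψ : ℕ → ℕ}
  {u ρ : ℂ → ℝ}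

theorem z_atom {a w : TF P.E} (hw : w.Fn) (U : Set ℂ) {lam : Cp P.E → ℝ}
    (hl : ∀ c : Cp P.E, c.1 ⊆ U → a.osc c ≤ lam c) : ∃ N : ℝ → ℝ≥0∞, Measurable N ∧
    ∫⁻ t, N t ≤ ∑' c, ENNReal.ofReal (lam c * w.osc c) ∧
    ∀ (t : ℝ) (F : Finset (Cp P.E)), (∀ c ∈ F, c.1 ⊆ U ∧ a.lo c.pt ≤ t ∧ t ≤ a.hi c.pt) →
      ∑ c ∈ F, ENNReal.ofReal (w.osc c) ≤ N t := by
  have hS : {c : Cp P.E | 0 < w.osc c ∧ c.1 ⊆ U}.Countable := hw.countable.mono fun c hc => hc.1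
  haveI := hS.to_subtype
  have hm : ∀ c : Cp P.E, Measurable
      ((Icc (a.lo c.pt) (a.hi c.pt)).indicator fun _ : ℝ => ENNReal.ofReal (w.osc c)) :=
    fun c => measurable_const.indicator measurableSet_Icc
  refine ⟨fun t => ∑' c : {c : Cp P.E | 0 < w.osc c ∧ c.1 ⊆ U},
    (Icc (a.lo c.1.pt) (a.hi c.1.pt)).indicator (fun _ : ℝ => ENNReal.ofReal (w.osc c)) t,
    Measurable.ennreal_tsum fun c => hm c, ?_, fun t F hF => ?_⟩
  · rw [lintegral_tsum fun c : {c : Cp P.E | 0 < w.osc c ∧ c.1 ⊆ U} => (hm c).aemeasurable]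
    refine le_trans (ENNReal.tsum_le_tsum fun c => ?_) (ENNReal.tsum_comp_le_tsum_of_injective
      Subtype.val_injective fun c => ENNReal.ofReal (lam c * w.osc c))
    rw [lintegral_indicator_const measurableSet_Icc, Real.volume_Icc,
      ← ENNReal.ofReal_mul c.2.1.le, mul_comm]
    exact ENNReal.ofReal_le_ofReal (mul_le_mul_of_nonneg_right (hl c c.2.2) c.2.1.le)
  · beta_reduce
    rw [tsum_subtype {c : Cp P.E | 0 < w.osc c ∧ c.1 ⊆ U} fun c =>
      (Icc (a.lo c.pt) (a.hi c.pt)).indicator (fun _ : ℝ => ENNReal.ofReal (w.osc c)) t]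
    refine le_trans (Finset.sum_le_sum fun c hc => ?_) (ENNReal.sum_le_tsum F)
    by_cases h0 : 0 < w.osc c
    · rw [indicator_of_mem (show c ∈ {c : Cp P.E | 0 < w.osc c ∧ c.1 ⊆ U} from ⟨h0, (hF c hc).1⟩),
        indicator_of_mem (show t ∈ Icc (a.lo c.pt) (a.hi c.pt) from (hF c hc).2)]
    · rw [ENNReal.ofReal_of_nonpos (not_lt.1 h0)]
      exact zero_le

theorem exit_ZQ {a : TF P.E} (hm : a.Mono) {U : Set ℂ} (hU : IsOpen U) (hc : closure U ⊆ Q)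
    (hf : Disjoint (frontier U) P.E) {t : ℝ} {J : Set ℂ} (hJ : J ∈ a.cps U t) {p : ℂ}
    (hp : p ∈ J ∩ P.E) (l : ℕ) : ∃ x ∈ J, x ∈ P.cl l p \ P.E := by
  obtain ⟨z, hz, rfl⟩ := hJ
  have h1 : connectedComponentIn P.E p ⊆ U :=
    ((Cp.mk p hp.2).in_or hU hf).resolve_right fun h =>
      disjoint_left.1 h (Cp.mem_mk p hp.2) (connectedComponentIn_subset _ _ hp.1).1
  obtain ⟨m, hm'⟩ := P.exists_cl_sub hp.2 hU h1
  obtain ⟨y, hy, hy'⟩ := lev_reach hm hU hc hz.1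
  by_contra hn
  have h2 := isPreconnected_connectedComponentIn.subset_of_closure_inter_subset
    (P.cl_open (max l m + 1) p) ⟨p, hp.1, P.mem_cl _ hp.2⟩ fun x hx => by
      by_contra hx'
      have h3 : x ∈ frontier (P.cl (max l m + 1) p) := by
        rw [(P.cl_open _ p).frontier_eq]
        exact ⟨hx.1, hx'⟩
      exact hn ⟨x, hx.2, P.clos_cl (Nat.lt_succ_of_le (le_max_left l m)) hp.2 hx.1,
        disjoint_left.1 (P.fr_cl_disj _ p) h3⟩
  rw [hU.frontier_eq] at hy'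
  exact hy'.2 (hm' (subset_closure
    (P.cl_anti ((le_max_right l m).trans (Nat.le_succ _)) p (h2 hy))))

theorem Lim.pt (h : P.Pls b c pl τ k) (hl : Lim pl ψ u ρ) {w : TF P.E}
    (hw : ∀ p ∈ P.E, Cv P u w p) {a : TF P.E} (hm : a.Mono) {U : Set ℂ} (hU : IsOpen U)
    (hc : closure U ⊆ Q) (hf : Disjoint (frontier U) P.E) {t : ℝ} {J : Set ℂ}
    (hJ : J ∈ a.cps U t) {p q : ℂ} (hp : p ∈ J ∩ P.E) (hq : q ∈ J ∩ P.E) {η : ℝ} (hη : 0 < η) :
    ∀ᶠ j in atTop, w.hi p - w.lo q ≤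
      (w.hi p - w.lo p) + (w.hi q - w.lo q) + η + P.ex (pl (ψ j)) (mt J) := by
  have h6 : 0 < η / 6 := by positivity
  obtain ⟨l₁, h1⟩ := (hw p hp.2).l2 (w.lo p - η / 6) (by linarith)
  obtain ⟨l₂, h2⟩ := (hw q hq.2).h2 (w.hi q + η / 6) (by linarith)
  obtain ⟨l₃, h3⟩ := Lim.tch h hl h6
  obtain ⟨x, hxJ, hx, hxE⟩ := exit_ZQ hm hU hc hf hJ hp (max l₁ l₃)
  obtain ⟨y, hyJ, hy, hyE⟩ := exit_ZQ hm hU hc hf hJ hq (max l₂ l₃)
  have hJQ : J ⊆ Qc := by
    obtain ⟨z, -, rfl⟩ := hJ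
    exact fun v hv => Q_sub (hc (connectedComponentIn_subset _ _ hv).1)
  have hJc : IsPreconnected J := by
    obtain ⟨z, -, rfl⟩ := hJ
    exact isPreconnected_connectedComponentIn
  have a1 := h1 x ⟨P.cl_anti (le_max_left _ _) p hx, hxE⟩
  have a2 := h2 y ⟨P.cl_anti (le_max_left _ _) q hy, hyE⟩
  have hV : IsPreconnected (J ∪ ball x (P.r x) ∪ ball y (P.r y)) :=
    (hJc.union x hxJ (mem_ball_self (P.r_pos hxE)) (convex_ball x _).isPreconnected).union y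
      (Or.inl hyJ) (mem_ball_self (P.r_pos hyE)) (convex_ball y _).isPreconnected
  have hVs : J ∪ ball x (P.r x) ∪ ball y (P.r y) ⊆ P.strip :=
    union_subset (union_subset
      (fun v hv => P.z_ball (hJQ hv) (mem_closedBall_self (P.r_nn v)))
      (ball_subset_closedBall.trans (P.z_ball (hJQ hxJ))))
      (ball_subset_closedBall.trans (P.z_ball (hJQ hyJ)))
  filter_upwards [h3 x ⟨P.cl_sub _ p (P.cl_anti (le_max_right _ _) p hx), hxE⟩,
    h3 y ⟨P.cl_sub _ q (P.cl_anti (le_max_right _ _) q hy), hyE⟩,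
    Metric.tendsto_nhds.1 (hl.ut x ⟨hJQ hxJ, hxE⟩) _ h6,
    Metric.tendsto_nhds.1 (hl.ut y ⟨hJQ hyJ, hyE⟩) _ h6] with j b1 b2 b3 b4
  obtain ⟨θ, -, hθ⟩ := h.plan (ψ j)
  have b5 := z_osc hθ hV hVs hxE hyE (subset_union_right.trans subset_union_left)
    subset_union_right
  have b6 := z_abs hθ (F := mt (J ∪ ball x (P.r x) ∪ ball y (P.r y)))
    (G := fun i => mt J i + mt (ball x (P.r x)) i + mt (ball y (P.r y)) i) fun i _ => by
      rw [abs_of_nonneg (z_mt_nn _ i).1]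
      exact (z_mt_union _ _ i).trans (add_le_add (z_mt_union _ _ i) le_rfl)
  rw [z_add _ (fun i => mt J i + mt (ball x (P.r x)) i), z_add] at b6
  rw [Real.dist_eq] at b3 b4
  linarith [(abs_lt.1 b3).1, (abs_lt.1 b4).2, (abs_le.1 b5).2, (abs_le.1 b6).2]

end Par

end Vale.Agent.P116.K
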