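import Vale.Agent.P116.K.ZI

/-! P116 K/ZR (TASK, owner helper20, stream block). Helper names end with `_ZR`.
`z_small`: `w = ρ * κ`, `κ z = max 0 (min 1 (2 - infDist z E / d))`, `d = δ / (m + 1)`; `g' = indicator (thickening (3 d) E \ E) g`; for `y ∉ E` with `κ y ≠ 0` and `x ∈ ball y (r y / 2)`: `x ∈ Q \ E`, `infDist x E < 3 d`, `y ∈ ball x (infDist x E / 8)`.
`z_len`, Cauchy-Schwarz (`integral_mul_le_Lp_mul_Lq_of_nonneg` or `L2`), and `∫ g' ^ 2 → 0` as `m → ∞` (`tendsto_setIntegral_of_antitone`, empty intersection).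
`z_reg`: `U = nb (m + 1) \ ⋃ closure (cl k c.pt)`, `m ≥ k`, `U' = nb m`; `clos_nb`, `fr_cl_disj`, `closure_eq_self_union_frontier`. -/

open MeasureTheory Set Metric Filter Topology Complex
open scoped ENNReal

set_option linter.unusedVariables false

noncomputable section

namespace Vale.Agent.P116.K

open Vale.Agent.P128

namespace Par

variable {P : Par} {n : ℕ} {θ : Set ℂ →₀ ℝ} {π : P.It →₀ ℝ} {i : P.It}

theorem near_ZR {d : ℝ} (hd : d ≤ P.δ) {x y : ℂ} (hy : y ∉ P.E) (h : infDist y P.E < 2 * d)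
    (hx : x ∈ ball y (P.r y / 2)) : x ∈ thickening (3 * d) P.E \ P.E ∧ x ∈ Q \ P.E ∧
      y ∈ ball x (infDist x P.E / 8) := by
  have t0 := (P.dom.cpt.isClosed.notMem_iff_infDist_pos P.ne).1 hy
  have h1 := (P.r_le y).2.trans (mul_le_mul_of_nonneg_right P.ε1 t0.le)
  have h2 := infDist_le_infDist_add_dist (s := P.E) (x := x) (y := y)
  have h3 := infDist_le_infDist_add_dist (s := P.E) (x := y) (y := x)
  rw [mem_ball] at hx
  rw [dist_comm] at h3
  have h4 : x ∉ P.E := (P.dom.cpt.isClosed.notMem_iff_infDist_pos P.ne).2 (by linarith)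
  have h5 : x ∈ thickening (3 * d) P.E := (mem_thickening_iff_infDist_lt P.ne).2 (by linarith)
  refine ⟨⟨h5, h4⟩, ⟨not_not.1 fun hQ => ?_, h4⟩, mem_ball'.2 (by linarith)⟩
  obtain ⟨z, hz, k⟩ := mem_thickening_iff.1 h5
  have k1 := P.far z hz x hQ
  rw [dist_comm, div_le_iff₀ P.ε0] at k1
  nlinarith [P.ε1, P.δ0, dist_nonneg (x := x) (y := z)]

theorem lim_ZR {g : ℂ → ℝ} (hg : MemLp g 2 volume) : Tendsto (fun m : ℕ =>
    ∫ x in thickening (3 * (P.δ / (m + 1))) P.E \ P.E, g x ^ 2) atTop (𝓝 0) := by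
  have h := tendsto_setIntegral_of_antitone (f := fun x => g x ^ 2) (μ := volume)
    (s := fun m : ℕ => thickening (3 * (P.δ / (m + 1))) P.E \ P.E)
    (fun m => (isOpen_thickening.sdiff P.dom.cpt.isClosed).measurableSet)
    (fun a b hab => sdiff_subset_sdiff_left (thickening_mono (mul_le_mul_of_nonneg_left
      (div_le_div_of_nonneg_left P.δ0.le (by positivity) (by simpa using hab)) zero_le_three) _))
    ⟨0, hg.integrable_sq.integrableOn⟩
  have e : ⋂ m : ℕ, thickening (3 * (P.δ / (m + 1))) P.E \ P.E = ∅ := by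
    refine eq_empty_of_forall_notMem fun x hx => ?_
    have t0 := (P.dom.cpt.isClosed.notMem_iff_infDist_pos P.ne).1 (mem_iInter.1 hx 0).2
    obtain ⟨m, hm⟩ := exists_nat_ge (3 * P.δ / infDist x P.E)
    have k := (mem_thickening_iff_infDist_lt P.ne).1 (mem_iInter.1 hx m).1
    rw [← mul_div_assoc, lt_div_iff₀ (by positivity)] at k
    rw [div_le_iff₀ t0] at hm
    linarith
  rwa [e, setIntegral_empty] at h

theorem z_small {ρ : ℂ → ℝ} (hρ : Gw P.E ρ) (C : ℝ) {η : ℝ} (hη : 0 < η) :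
    ∀ᶠ m : ℕ in atTop, ∃ w : ℂ → ℝ, ContinuousOn w P.Eᶜ ∧ (∀ z, 0 ≤ w z) ∧
      (∀ z ∈ P.nb m \ P.E, ρ z ≤ w z) ∧ ∀ n θ π, P.Plan n θ π → P.n1 π ≤ C →
        P.ex π (fun i => (i.2.2.map (Stp.len w)).sum) ≤ η := by
  obtain ⟨g, g2, g0, hg⟩ := hρ.sup
  obtain ⟨t, t0, ht⟩ : ∃ t : ℝ, 0 < t ∧ 3 * (t * C) ≤ η := ⟨η / (3 * (|C| + 1)), by positivity, by
    rw [div_mul_eq_mul_div, ← mul_div_assoc, div_le_iff₀ (by positivity)]
    nlinarith [le_abs_self C]⟩
  filter_upwards [(lim_ZR (P := P) g2).eventually_lt_const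
    (show 0 < t * η / 3 by positivity)] with m hm
  have d0 : 0 < P.δ / (m + 1) := div_pos P.δ0 (by positivity)
  have d1 : P.δ / (m + 1) ≤ P.δ := div_le_self P.δ0.le (by simp)
  rw [nb]
  generalize P.δ / (m + 1) = d at hm d0 d1
  have hS := (isOpen_thickening (δ := 3 * d) (E := P.E)).sdiff P.dom.cpt.isClosed
  have hw : ContinuousOn (fun z => ρ z * max 0 (min 1 (2 - infDist z P.E / d))) P.Eᶜ :=
    hρ.cont.mul (Continuous.continuousOn (continuous_const.max (continuous_const.min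
      (continuous_const.sub ((continuous_infDist_pt _).div_const d)))))
  refine ⟨_, hw, fun z => mul_nonneg (hρ.nn z) (le_max_left _ _), fun z hz => ?_,
    fun n θ π hπ hC => ?_⟩
  · have k := (div_lt_one d0).2 ((mem_thickening_iff_infDist_lt P.ne).1 hz.1)
    rw [min_eq_left (by linarith), max_eq_right zero_le_one, mul_one]
  have i0 : ∀ x, 0 ≤ (thickening (3 * d) P.E \ P.E).indicator g x := fun x =>
    indicator_nonneg (fun x _ => g0 x) x
  have i2 := g2.indicator hS.measurableSet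
  refine (z_len hπ hw i2 i0 fun y hy x hx => ?_).trans ?_
  · rcases le_or_gt (2 * d) (infDist y P.E) with k | k
    · have k1 := (le_div_iff₀ d0).2 k
      rw [max_eq_left ((min_le_right _ _).trans (by linarith)), mul_zero]
      exact i0 x
    · obtain ⟨k1, k2, k3⟩ := near_ZR d1 hy.2 k hx
      rw [indicator_of_mem k1]
      exact (mul_le_of_le_one_right (hρ.nn y) (max_le zero_le_one (min_le_left _ _))).trans
        (hg x k2 y k3)
  have i3 := (den_cont hπ).2.2
  have k1 : ∫ x, (thickening (3 * d) P.E \ P.E).indicator g x * P.den π x ≤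
      ∫ x, (t⁻¹ / 2 * (thickening (3 * d) P.E \ P.E).indicator g x ^ 2 + t / 2 * P.den π x ^ 2) :=
    integral_mono (i2.integrable_mul i3)
      ((i2.integrable_sq.const_mul _).add (i3.integrable_sq.const_mul _)) fun x => by
        have k := mul_nonneg (inv_pos.2 t0).le
          (sq_nonneg ((thickening (3 * d) P.E \ P.E).indicator g x - t * P.den π x))
        have e : ∀ a b : ℝ, t⁻¹ * (a - t * b) ^ 2 = t⁻¹ * a ^ 2 - 2 * (a * b) + t * b ^ 2 :=
          fun a b => by field_simp; ring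
        rw [e] at k
        dsimp only
        linarith
  have e : ∀ x, (thickening (3 * d) P.E \ P.E).indicator g x ^ 2 =
      (thickening (3 * d) P.E \ P.E).indicator (fun x => g x ^ 2) x := fun x => by
    by_cases hx : x ∈ thickening (3 * d) P.E \ P.E
    · rw [indicator_of_mem hx, indicator_of_mem hx]
    · rw [indicator_of_notMem hx, indicator_of_notMem hx, zero_pow two_ne_zero]
  rw [integral_add (i2.integrable_sq.const_mul _) (i3.integrable_sq.const_mul _),
    integral_const_mul, integral_const_mul] at k1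
  simp only [e] at k1
  rw [integral_indicator hS.measurableSet] at k1
  have k2 := mul_le_mul_of_nonneg_left hm.le (inv_pos.2 t0).le
  rw [show t⁻¹ * (t * η / 3) = η / 3 by field_simp] at k2
  have k3 : t * ∫ x, P.den π x ^ 2 ≤ t * C := mul_le_mul_of_nonneg_left hC t0.le
  linarith

theorem z_reg (F : Finset (Cp P.E)) (k m : ℕ) : ∃ U : Set ℂ, IsOpen U ∧ closure U ⊆ P.nb m ∧
    Disjoint (frontier U) P.E ∧ (∀ c : Cp P.E, c.1 ⊆ U → c ∉ F) ∧
    ∀ z ∈ P.E, (∀ c ∈ F, z ∉ P.cl k c.pt) → z ∈ U := by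
  have hc : ∀ z ∈ P.E, ∀ p, z ∈ closure (P.cl k p) → z ∈ P.cl k p := fun z hz p h => by
    rw [closure_eq_self_union_frontier] at h
    exact h.resolve_right fun h => disjoint_left.1 (P.fr_cl_disj k p) h hz
  have hU : IsOpen (P.nb (m + 1) \ ⋃ c ∈ F, closure (P.cl k c.pt)) :=
    (P.nb_open _).sdiff (isClosed_biUnion_finset fun _ _ => isClosed_closure)
  refine ⟨_, hU, (closure_mono sdiff_subset).trans (P.clos_nb m.lt_succ_self),
    disjoint_left.2 fun z h hz => ?_, fun c h hF => (h c.pt_in).2 (mem_iUnion₂.2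
      ⟨c, hF, subset_closure (P.mem_cl k c.pt_mem)⟩), fun z hz h => ⟨P.sub_nb _ hz, fun h' => ?_⟩⟩
  · rw [hU.frontier_eq] at h
    obtain ⟨c, hF, h1⟩ := mem_iUnion₂.1 (not_not.1 fun h' => h.2 ⟨P.sub_nb _ hz, h'⟩)
    obtain ⟨y, h2, h3⟩ := mem_closure_iff.1 h.1 _ (P.cl_open k c.pt) (hc z hz _ h1)
    exact h3.2 (mem_iUnion₂.2 ⟨c, hF, subset_closure h2⟩)
  · obtain ⟨c, hF, h1⟩ := mem_iUnion₂.1 h'
    exact h c hF (hc z hz _ h1)

end Par

end Vale.Agent.P116.K
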