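import Vale.Agent.P116.K.ZP
import Vale.Agent.P116.K.ZQ

/-! P116 K/ZS (TASK, owner helper20, stream block). Helper names end with `_ZS`.
`lev_area` with `N t = liminf_j ofReal (ex (pl (ψ j)) (N₁ (ψ j) · t)) + 2 N₂ t` (`z_cnt`, `z_atom`). Hypothesis of `lev_area` (all `t`): the components of `p J` are distinct for distinct `J` (`cps_sep`), lie in `U` (`Cp.in_or`), `TF.cst`; `Lim.pt`, `z_sum`, `Plan.ex_mono`, `le_liminf_of_le`, `η → 0` (`ENNReal.le_of_forall_pos_le_add`).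
Integral: `lintegral_add_right`, `lintegral_liminf_le`, `ofReal_integral_eq_lintegral_ofReal`, `integral_finset_sum`; `ex hop ≤ 1 / ψ j` from `Pls.hop` (`hopn b n l = n * ∑`, `hop_nn`, `i₀ < n`), `z_cs`. -/

open MeasureTheory Set Metric Filter Topology Complex
open scoped ENNReal

set_option linter.unusedVariables false

noncomputable section

namespace Vale.Agent.P116.K

open Vale.Agent.P128

namespace Par

variable {P : Par} {n : ℕ} {θ : Set ℂ →₀ ℝ} {π : P.It →₀ ℝ} {i : P.It}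

variable {b : ℕ → TF P.E} {c : ℝ} {pl : ℕ → P.It →₀ ℝ} {τ : ℕ → ℂ → ℝ} {k ψ : ℕ → ℕ}
  {u ρ : ℂ → ℝ}

theorem z_hop (h : P.Pls b c pl τ k)
    (hb : ∀ i, ∃ M : ℝ, ∀ z ∈ Qc, -M ≤ (b i).lo z ∧ (b i).hi z ≤ M) (i₀ : ℕ) {η : ℝ} (hη : 0 < η) :
    ∀ᶠ j in atTop, P.ex (pl j) (fun i => (i.2.2.map (Stp.hop (b i₀))).sum) ≤ η := by
  obtain ⟨m, hm⟩ := exists_nat_one_div_lt hη
  filter_upwards [eventually_gt_atTop i₀, eventually_gt_atTop m] with j hj hj'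
  obtain ⟨θ, -, hp⟩ := h.plan j
  have h1 : (j : ℝ) * P.ex (pl j) (fun i => (i.2.2.map (Stp.hop (b i₀))).sum) ≤ 1 := by
    rw [← z_mul]
    refine (hp.ex_mono fun i hi => ?_).trans (h.hop j)
    refine mul_le_mul_of_nonneg_left (Finset.single_le_sum
      (f := fun i' => (i.2.2.map (Stp.hop (b i'))).sum) (fun i' _ => List.sum_nonneg fun x hx => ?_)
      (Finset.mem_range.2 hj)) (Nat.cast_nonneg j)
    obtain ⟨s, hs, rfl⟩ := List.mem_map.1 hx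
    exact hop_nn (ok_KerF hp hi s hs) (hb i')
  have h2 : (m : ℝ) + 1 ≤ j := by exact_mod_cast hj'
  have h3 : (0 : ℝ) < m + 1 := by positivity
  rw [div_lt_iff₀ h3] at hm
  by_contra h4
  push Not at h4
  nlinarith

theorem atom_ZS {a w : TF P.E} {U : Set ℂ} (hU : IsOpen U) (hf : Disjoint (frontier U) P.E) {t : ℝ}
    {m : ℝ≥0∞} (hN : ∀ F : Finset (Cp P.E), (∀ c ∈ F, c.1 ⊆ U ∧ a.lo c.pt ≤ t ∧ t ≤ a.hi c.pt) →
      ∑ c ∈ F, ENNReal.ofReal (w.osc c) ≤ m) {I : Finset (Set ℂ)} {p : Set ℂ → ℂ}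
    (hI : ∀ J ∈ I, J ∈ a.cps U t ∧ p J ∈ J ∩ P.E) :
    ∑ J ∈ I, ENNReal.ofReal (w.hi (p J) - w.lo (p J)) ≤ m := by
  classical
  have h1 : ∀ J, ∃ c : Cp P.E, J ∈ I → p J ∈ c.1 := fun J => by
    by_cases hJ : J ∈ I
    · exact ⟨Cp.mk _ (hI J hJ).2.2, fun _ => Cp.mem_mk _ _⟩
    · obtain ⟨z, hz⟩ := P.ne
      exact ⟨Cp.mk z hz, fun h => (hJ h).elim⟩
  choose κ hκ using h1
  have h2 : InjOn κ I := fun J hJ J' hJ' e => by
    by_contra hne
    refine (cps_sep hU hf (hI J hJ).1 (hI J' hJ').1 hne _ (hI J hJ).2.1 _ (hI J' hJ').2.1).2 ?_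
    have h3 := hκ J' hJ'
    rw [← e, Cp.ext_mem (hκ J hJ) (Cp.mem_mk _ (hI J hJ).2.2)] at h3
    exact h3
  refine le_trans (le_of_eq ?_) (hN (I.image κ) fun c hc => ?_)
  · rw [Finset.sum_image h2]
    refine Finset.sum_congr rfl fun J hJ => ?_
    rw [TF.osc, (w.at_pt (hκ J hJ)).1, (w.at_pt (hκ J hJ)).2]
  · obtain ⟨J, hJ, rfl⟩ := Finset.mem_image.1 hc
    obtain ⟨⟨z, -, hz⟩, h3, -⟩ := hI J hJ
    have h4 : p J ∈ a.lev (closure U) t := connectedComponentIn_subset _ z (hz ▸ h3)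
    rw [← (a.at_pt (hκ J hJ)).1, ← (a.at_pt (hκ J hJ)).2]
    exact ⟨((κ J).in_or hU hf).resolve_right fun hd => disjoint_left.1 hd (hκ J hJ) h4.1, h4.2⟩

theorem exnn_ZS (h : P.Plan n θ π) {F : P.It → ℝ} (hF : ∀ i, 0 ≤ F i) : 0 ≤ P.ex π F :=
  Finset.sum_nonneg fun i _ => mul_nonneg (h.nn i) (hF i)

theorem int_ZS (h : P.Plan n θ π) {N : P.It → ℝ → ℝ} (h0 : ∀ i t, 0 ≤ N i t)
    (hi : ∀ i, Integrable (N i)) : ∫⁻ t, ENNReal.ofReal (P.ex π fun i => N i t) =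
      ENNReal.ofReal (P.ex π fun i => ∫ t, N i t) := by
  rw [← ofReal_integral_eq_lintegral_ofReal _ (ae_of_all _ fun t => exnn_ZS h fun i => h0 i t)]
  · congr 1
    simp only [Par.ex, Finsupp.sum]
    rw [integral_finset_sum _ fun i _ => (hi i).const_mul _]
    exact Finset.sum_congr rfl fun i _ => integral_const_mul _ _
  · exact integrable_finset_sum _ fun i _ => (hi i).const_mul _

theorem Lim.area (h : P.Pls b c pl τ k) (hl : Lim pl ψ u ρ)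
    (hb : ∀ i, ∃ M : ℝ, ∀ z ∈ Qc, -M ≤ (b i).lo z ∧ (b i).hi z ≤ M) {w : TF P.E} (hF : w.Fn)
    (hw : ∀ p ∈ P.E, Cv P u w p) {i₀ : ℕ} (ha : Mem (b i₀)) {ρa wt : ℂ → ℝ}
    (hm : Maj P.E Q (b i₀).hi ρa) {U U' : Set ℂ} (hU : IsOpen U) (hU' : IsOpen U')
    (hc : closure U ⊆ U') (hQ : U' ⊆ Q) (hf : Disjoint (frontier U) P.E)
    (hwc : ContinuousOn wt P.Eᶜ) (h0 : ∀ z, 0 ≤ wt z) (hρ : ∀ z ∈ U' \ P.E, ρa z ≤ wt z)
    {lam : Cp P.E → ℝ} (l0 : ∀ c, 0 ≤ lam c) (l2 : Summable fun c => lam c ^ 2)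
    (hlam : ∀ c : Cp P.E, c.1 ⊆ U → (b i₀).osc c ≤ lam c) {η : ℝ} (hη : 0 ≤ η)
    (hs : ∀ j, P.ex (pl j) (fun i => (i.2.2.map (Stp.len wt)).sum) ≤ η) :
    volume ((b i₀).img w (P.E ∩ U)) ≤ ENNReal.ofReal (2 * η + |c| * √(∑' c, lam c ^ 2)) +
      2 * ∑' c, ENNReal.ofReal (lam c * w.osc c) := by
  obtain ⟨N₁, n0, nm, ni, nb, nc⟩ := z_cnt ha.mem hm hU hU' hc hQ hf hwc h0 hρ l0 hlam
  obtain ⟨N₂, mm, mb, mc⟩ := z_atom (a := b i₀) hF U hlam
  have hψ := hl.mono.tendsto_atTop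
  choose θ hθ hp using h.plan
  set F : ℕ → ℝ → ℝ≥0∞ := fun j t => ENNReal.ofReal (P.ex (pl (ψ j)) fun i => N₁ (ψ j) i t)
    with hFd
  have hFm : ∀ j, Measurable (F j) := fun j =>
    (Finset.measurable_sum _ fun i _ => (nm (ψ j) i).const_mul _).ennreal_ofReal
  refine (lev_area P.dom ha.fn ha.mono hU (hc.trans hQ) hf
    (N := fun t => liminf (fun j => F j t) atTop + 2 * N₂ t)
    (ae_of_all _ fun t I p q hI => ?_)).trans ?_
  · refine ENNReal.le_of_forall_pos_le_add fun ε hε _ => ?_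
    have hε' : (0 : ℝ) < ε / (I.card + 1) := by positivity
    have e1 := atom_ZS hU hf (mc t) (p := p) fun J hJ => ⟨(hI J hJ).1, (hI J hJ).2.1⟩
    have e2 := atom_ZS hU hf (mc t) (p := q) fun J hJ => ⟨(hI J hJ).1, (hI J hJ).2.2⟩
    have e3 : ∑ _J ∈ I, ENNReal.ofReal (ε / (I.card + 1)) ≤ ε := by
      rw [← ENNReal.ofReal_sum_of_nonneg fun _ _ => hε'.le, ← ENNReal.ofReal_coe_nnreal]
      refine ENNReal.ofReal_le_ofReal ?_
      rw [Finset.sum_const, nsmul_eq_mul, mul_div_assoc', div_le_iff₀ (by positivity)]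
      nlinarith [ε.coe_nonneg]
    rw [add_assoc, ← tsub_le_iff_right]
    refine le_liminf_of_le (h := ?_)
    filter_upwards [(I.eventually_all).2 fun J hJ => hl.pt h hw ha.mono hU (hc.trans hQ) hf
      (hI J hJ).1 (hI J hJ).2.1 (hI J hJ).2.2 hε', hψ.eventually (nc t I fun J hJ => (hI J hJ).1)]
      with j h1 h2
    have e4 : ∑ J ∈ I, ENNReal.ofReal (P.ex (pl (ψ j)) (mt J)) ≤ F j t := by
      rw [← ENNReal.ofReal_sum_of_nonneg fun J _ => exnn_ZS (hp _) fun i => (z_mt_nn J i).1,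
        ← z_sum]
      exact ENNReal.ofReal_le_ofReal ((hp _).ex_mono fun i hi => h2 i ((hp _).crs i hi))
    rw [tsub_le_iff_right]
    refine (Finset.sum_le_sum fun J hJ => (ENNReal.ofReal_le_ofReal (h1 J hJ)).trans
      (ENNReal.ofReal_add_le.trans (add_le_add (ENNReal.ofReal_add_le.trans
        (add_le_add ENNReal.ofReal_add_le le_rfl)) le_rfl))).trans ?_
    rw [Finset.sum_add_distrib, Finset.sum_add_distrib, Finset.sum_add_distrib]
    refine (add_le_add (add_le_add (add_le_add e1 e2) e3) e4).trans (le_of_eq ?_)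
    ring
  rw [lintegral_add_right _ (mm.const_mul 2), lintegral_const_mul _ mm]
  refine add_le_add ((lintegral_liminf_le hFm).trans ?_) (by gcongr)
  refine ENNReal.le_of_forall_pos_le_add fun ε hε _ => liminf_le_of_frequently_le' ?_
  refine Eventually.frequently ?_
  filter_upwards [hψ.eventually nb, hψ.eventually (z_hop h hb i₀ (η := ε) hε)] with j h1 h2
  rw [hFd, int_ZS (hp _) (n0 _) (ni _), ← ENNReal.ofReal_coe_nnreal,
    ← ENNReal.ofReal_add (by positivity) ε.coe_nonneg]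
  refine ENNReal.ofReal_le_ofReal (((hp _).ex_mono fun i hi => h1 i ((hp _).crs i hi)).trans ?_)
  rw [z_add, z_add, z_mul]
  have h3 := z_cs _ (hp (ψ j)) l0 l2
  have h4 : 0 ≤ P.n1 (pl (ψ j)) := integral_nonneg fun x => sq_nonneg _
  have h5 : √(P.n2 (pl (ψ j))) ≤ |c| :=
    (Real.sqrt_le_sqrt (by linarith [h.nrm (ψ j)])).trans_eq (Real.sqrt_sq_eq_abs c)
  have h6 := mul_le_mul_of_nonneg_right h5 (Real.sqrt_nonneg (∑' c, lam c ^ 2))
  linarith [hs (ψ j)]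

end Par

end Vale.Agent.P116.K
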