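import Vale.Agent.P116.K.ZS
import Vale.Agent.P116.K.ZR

/-! P116 K/ZT (TASK, owner helper20, stream block). Helper names end with `_ZT`.
Given `η`, choose a finite `F` of components with `osc a c ≠ 0` and `lam c = if c ∈ F then 0 else osc a c`, `∑' lam ^ 2 ≤ η ^ 2` (`tendsto_tsum_compl_atTop_zero`, filter). `∑' lam * osc w ≤ η √(∑' osc w ^ 2)` (Cauchy-Schwarz, or `2 x y ≤ x² / η + η y²`).
The non-atoms `z` of `a` have components outside `F`, so `z ∉ cl k c.pt` for all `c ∈ F` and large `k` (`iInter_cl`, `cl_anti`); the sets `S k = pr a w '' {z ∈ E | ∀ c ∈ F, z ∉ cl k c.pt}` increase (`Monotone.measure_iUnion`) and `S k ⊆ img (E ∩ U)` (`z_reg`, `z_small`, `Lim.area`, `U' = nb m`). -/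

open MeasureTheory Set Metric Filter Topology Complex
open scoped ENNReal

set_option linter.unusedVariables false

noncomputable section

namespace Vale.Agent.P116.K

open Vale.Agent.P128

namespace Par

variable {P : Par} {n : ℕ} {θ : Set ℂ →₀ ℝ} {π : P.It →₀ ℝ} {i : P.It}

variable {b : ℕ → TF P.E} {c : ℝ} {pl : ℕ → P.It →₀ ℝ} {τ : ℕ → ℂ → ℝ} {k ψ : ℕ → ℕ}
  {u ρ : ℂ → ℝ}

theorem Lim.cmp (h : P.Pls b c pl τ k) (hl : Lim pl ψ u ρ)
    (hb : ∀ i, ∃ M : ℝ, ∀ z ∈ Qc, -M ≤ (b i).lo z ∧ (b i).hi z ≤ M) {w : TF P.E} (hF : w.Fn)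
    (hw : ∀ p ∈ P.E, Cv P u w p) {i₀ : ℕ} (ha : Mem (b i₀)) : (b i₀).Cmp w := by
  classical
  obtain ⟨ρa, hG, hm⟩ := ha.maj
  have hW : 0 ≤ ∑' c, w.osc c ^ 2 := tsum_nonneg fun _ => sq_nonneg _
  refine nonpos_iff_eq_zero.1 (ENNReal.le_of_forall_pos_le_add fun ε hε _ => ?_)
  obtain ⟨η, hη, he⟩ : ∃ η : ℝ, 0 < η ∧ η * (3 + |c| + ∑' c, w.osc c ^ 2) = ε :=
    ⟨ε / (3 + |c| + ∑' c, w.osc c ^ 2), by positivity, div_mul_cancel₀ _ (by positivity)⟩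
  obtain ⟨F₀, hF₀⟩ := ((tendsto_tsum_compl_atTop_zero fun c => (b i₀).osc c ^ 2).eventually_lt_const
    (pow_pos hη 2)).exists
  obtain ⟨lam, hlam⟩ : ∃ lam : Cp P.E → ℝ, lam = {c | c ∉ F₀}.indicator (b i₀).osc := ⟨_, rfl⟩
  have e1 : (fun c => lam c ^ 2) = {c | c ∉ F₀}.indicator fun c => (b i₀).osc c ^ 2 := by
    funext c
    rw [hlam]
    by_cases hc : c ∈ {c | c ∉ F₀}
    · rw [indicator_of_mem hc, indicator_of_mem hc]
    · rw [indicator_of_notMem hc, indicator_of_notMem hc, zero_pow two_ne_zero]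
  have l0 : ∀ c, 0 ≤ lam c := fun c => by
    rw [hlam]
    exact indicator_nonneg (fun c _ => (b i₀).osc_nonneg c) c
  have l2 : Summable fun c => lam c ^ 2 := by
    rw [e1]
    exact ha.fn.2.indicator _
  have l3 : ∑' c, lam c ^ 2 ≤ η ^ 2 := by
    rw [e1, ← tsum_subtype]
    exact hF₀.le
  obtain ⟨F, l4, l5⟩ : ∃ F : Finset (Cp P.E), (∀ c, c ∉ F → (b i₀).osc c ≤ lam c) ∧
      ∀ c ∈ F, (b i₀).osc c ≠ 0 := by
    refine ⟨F₀.filter fun c => (b i₀).osc c ≠ 0, fun c hc => ?_,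
      fun c hc => (Finset.mem_filter.1 hc).2⟩
    by_cases h1 : c ∈ F₀
    · rw [not_not.1 fun h2 => hc (Finset.mem_filter.2 ⟨h1, h2⟩)]
      exact l0 c
    · rw [hlam, indicator_of_mem (show c ∈ {c | c ∉ F₀} from h1)]
  have l6 : 2 * ∑' c, ENNReal.ofReal (lam c * w.osc c) ≤
      ENNReal.ofReal (η * ∑' c, w.osc c ^ 2 + η) := by
    have s1 := (hF.2.mul_left η).add (l2.mul_left η⁻¹)
    rw [← ENNReal.tsum_mul_left]
    refine (ENNReal.tsum_le_tsum (g := fun c => ENNReal.ofReal (η * w.osc c ^ 2 + η⁻¹ * lam c ^ 2))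
      fun c => ?_).trans ?_
    · rw [← ENNReal.ofReal_ofNat 2, ← ENNReal.ofReal_mul zero_le_two, mul_comm (lam c)]
      exact ENNReal.ofReal_le_ofReal (amgm_Area hη _ _)
    · rw [← ENNReal.ofReal_tsum_of_nonneg (fun c => by positivity) s1,
        (hF.2.mul_left η).tsum_add (l2.mul_left η⁻¹), tsum_mul_left, tsum_mul_left]
      refine ENNReal.ofReal_le_ofReal (add_le_add le_rfl ?_)
      rw [inv_mul_le_iff₀ hη, ← sq]
      exact l3
  obtain ⟨m, wt, w1, w2, w3, w4⟩ := (z_small hG (c ^ 2) hη).exists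
  have hS : Monotone fun k' : ℕ =>
      TF.pr (b i₀) w '' {z | z ∈ P.E ∧ ∀ c ∈ F, z ∉ P.cl k' c.pt} := fun k₁ k₂ hk =>
    image_mono fun z hz => ⟨hz.1, fun c hc h1 => hz.2 c hc (P.cl_anti hk _ h1)⟩
  refine (measure_mono (t := ⋃ k' : ℕ,
    TF.pr (b i₀) w '' {z | z ∈ P.E ∧ ∀ c ∈ F, z ∉ P.cl k' c.pt}) ?_).trans ?_
  · rintro _ ⟨z, hz, rfl⟩
    have h1 : ∀ᶠ k' : ℕ in atTop, ∀ c ∈ F, z ∉ P.cl k' c.pt := by
      refine (eventually_all_finset F).2 fun c hc => ?_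
      have h2 : z ∉ ⋂ n, P.cl n c.pt := fun h3 => by
        rw [P.iInter_cl c.pt_mem, ← c.eq] at h3
        refine l5 c hc ?_
        rw [TF.osc, ← ((b i₀).at_pt h3).1, ← ((b i₀).at_pt h3).2, hz.2.1, sub_self]
      obtain ⟨n, hn⟩ := not_forall.1 (fun h3 => h2 (mem_iInter.2 h3))
      exact eventually_atTop.2 ⟨n, fun k' hk h3 => hn (P.cl_anti hk _ h3)⟩
    obtain ⟨k', hk⟩ := h1.exists
    exact mem_iUnion.2 ⟨k', z, ⟨hz.1, hk⟩, rfl⟩
  rw [hS.measure_iUnion]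
  refine iSup_le fun k' => ?_
  obtain ⟨U, u1, u2, u3, u4, u5⟩ := z_reg F k' m
  refine (measure_mono (t := (b i₀).img w (P.E ∩ U)) ?_).trans ((Lim.area h hl hb hF hw ha hm u1
    (P.nb_open m) u2 (subset_closure.trans (P.clos_nb_Q m)) u3 w1 w2 w3 l0 l2
    (fun c hc => l4 c (u4 c hc)) hη.le fun j => ?_).trans ?_)
  · rintro _ ⟨z, hz, rfl⟩
    exact mem_iUnion₂.2 ⟨z, ⟨hz.1, u5 z hz.1 hz.2⟩, ⟨(b i₀).le z, le_rfl⟩, w.le z, le_rfl⟩
  · obtain ⟨θ', -, hp⟩ := h.plan j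
    exact w4 j θ' _ hp ((le_add_of_nonneg_right (tsum_nonneg fun _ => sq_nonneg _)).trans (h.nrm j))
  · have h1 := mul_le_mul_of_nonneg_left (Real.sqrt_le_iff.2 ⟨hη.le, l3⟩) (abs_nonneg c)
    refine (add_le_add le_rfl l6).trans ?_
    rw [← ENNReal.ofReal_add (by positivity) (by positivity), zero_add,
      ← ENNReal.ofReal_coe_nnreal]
    exact ENNReal.ofReal_le_ofReal (by linarith)

end Par

end Vale.Agent.P116.K
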